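import Vale.Agent.P313.NL.Dsl

/-!
Large numbers as programs which return one bit, and some small loops.
`Pm a` bounds the number of bits of all large numbers; `lp` is a bound for the size of `Pm a`.
-/

namespace Vale.Agent.P313.NL

open Finset Vale.Agent.Lib.Space

variable {α G ρ : Type}

/-- A large number: the last component of the context is the position of the bit. -/
abbrev Big (α G ρ Γ : Type) : Type 1 := Nd α G ρ (Γ × ℕ)

/-- The program returns the bits of `v` and restores the global state. -/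
def EvB (body : ρ → Nd α G ρ Arg) (a : α) (ok : G → Prop) (Pm : α → ℕ) {Γ : Type}
    (x : Big α G ρ Γ) (γ : Γ) (g : G) (v k : ℕ) : Prop :=
  v < 2 ^ Pm a ∧ ∀ p < Pm a, Ev body a ok x (γ, p) g g (KH.bt v p) k

section defs

variable {Γ Δ : Type}

/-- Run `p`, forget its value, run `q`. -/
def Nd.then (p q : Nd α G ρ Γ) : Nd α G ρ Γ := .seq p (.map (fun _ z => z.1) q)

/-- Run `en`, then `x`, then `ex` (both see the value of `en`), and return the value of `x`. -/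
def Nd.via (en : Nd α G ρ Γ) (x ex : Nd α G ρ (Γ × ℕ)) : Nd α G ρ Γ :=
  .seq en (.seq x (.seq (.map (fun _ z => z.1) ex) (.val fun _ _ z => z.1.2)))

/-- The sum of the values of `p` for `i < n`. -/
def Nd.sum (n : α → Γ → ℕ) (p : Nd α G ρ (Γ × ℕ)) : Nd α G ρ Γ :=
  .fold n (.seq (.map (fun _ z => (z.1, z.2.1)) p) (.val fun _ _ z => z.1.2.2 + z.2))

/-- The first `i < n` where `p` is not zero, plus one; zero if there is none. -/
def Nd.first (n : α → Γ → ℕ) (p : Nd α G ρ (Γ × ℕ)) : Nd α G ρ Γ :=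
  .fold n (.ite (fun _ _ z => decide (z.2.2 = 0))
    (.seq (.map (fun _ z => (z.1, z.2.1)) p) (.val fun _ _ z => if z.2 = 0 then 0 else z.1.2.1 + 1))
    (.val fun _ _ z => z.2.2))

/-- The function which `Nd.first` computes. -/
def firstF (n : ℕ) (f : ℕ → ℕ) : ℕ :=
  Nat.rec 0 (fun i acc => if acc = 0 then (if f i = 0 then 0 else i + 1) else acc) n

/-- A large number which is computed in one step. -/
def Big.val (f : α → G → Γ → ℕ) : Big α G ρ Γ := Nd.val fun a g z => KH.bt (f a g z.1) z.2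

/-- Change of the context. -/
def Big.map (f : α → Γ → Δ) (x : Big α G ρ Δ) : Big α G ρ Γ := Nd.map (fun a z => (f a z.1, z.2)) x

/-- Case distinction. -/
def Big.ite (c : α → G → Γ → Bool) (x y : Big α G ρ Γ) : Big α G ρ Γ :=
  Nd.ite (fun a g z => c a g z.1) x y

/-- Bind a small value. -/
def Big.bind (p : Nd α G ρ Γ) (x : Big α G ρ (Γ × ℕ)) : Big α G ρ Γ :=
  Nd.seq (Nd.map (fun _ z => z.1) p) (Nd.map (fun _ z => ((z.1.1, z.2), z.1.2)) x)

/-- Evaluate `x` in the state after `en`; `ex` restores the state. -/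
def Big.via (en : Nd α G ρ Γ) (x : Big α G ρ (Γ × ℕ)) (ex : Nd α G ρ (Γ × ℕ)) : Big α G ρ Γ :=
  Nd.via (.map (fun _ z => z.1) en) (.map (fun _ z => ((z.1.1, z.2), z.1.2)) x)
    (.map (fun _ z => (z.1.1, z.2)) ex)

/-- Division by `2 ^ e`. -/
def Big.shr (Pm : α → ℕ) (e : α → Γ → ℕ) (x : Big α G ρ Γ) : Big α G ρ Γ :=
  Nd.ite (fun a _ z => decide (z.2 + e a z.1 < Pm a))
    (Nd.map (fun a z => (z.1, z.2 + e a z.1)) x) (Nd.val fun _ _ _ => 0)

/-- The number with the column sums `c`. -/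
def Big.col (c : Nd α G ρ (Γ × ℕ)) : Big α G ρ Γ :=
  .seq (.fold (fun _ z => z.2 + 1) (.seq (.map (fun _ z => (z.1.1, z.2.1)) c)
    (.val fun _ _ z => z.1.2.2 / 2 + z.2))) (.val fun _ _ z => z.2 % 2)

/-- A function of two values. -/
def Nd.two (f : ℕ → ℕ → ℕ) (p q : Nd α G ρ Γ) : Nd α G ρ Γ :=
  .seq p (.seq (.map (fun _ z => z.1) q) (.val fun _ _ z => f z.1.2 z.2))

/-- The sum for `i < n`. -/
def Big.sum (n : α → Γ → ℕ) (x : Big α G ρ (Γ × ℕ)) : Big α G ρ Γ :=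
  Big.col (Nd.sum (fun a z => n a z.1) (.map (fun _ z => ((z.1.1, z.2), z.1.2)) x))

/-- The sum of two numbers. -/
def Big.add (x y : Big α G ρ Γ) : Big α G ρ Γ := Big.col (Nd.two (· + ·) x y)

/-- The product. -/
def Big.mul (x y : Big α G ρ Γ) : Big α G ρ Γ :=
  Big.col (Nd.sum (fun _ z => z.2 + 1) (Nd.two (· * ·) (.map (fun _ z => (z.1.1, z.2)) x)
    (.map (fun _ z => (z.1.1, z.1.2 - z.2)) y)))

/-- Comparison of the last `n` bits. -/
def Big.ltN (n : α → Γ → ℕ) (x y : Big α G ρ Γ) : Nd α G ρ Γ :=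
  .fold n (.seq (.map (fun _ z => (z.1, z.2.1)) (Nd.two (fun s t => s + 2 * t) x y))
    (.val fun _ _ z => if z.2 = 2 then 1 else if z.2 = 1 then 0 else z.1.2.2))

/-- The test `x < y`, with the value `0` or `1`. -/
def Big.lt (Pm : α → ℕ) (x y : Big α G ρ Γ) : Nd α G ρ Γ := Big.ltN (fun a _ => Pm a) x y

/-- The truncated difference. -/
def Big.sub (Pm : α → ℕ) (x y : Big α G ρ Γ) : Big α G ρ Γ :=
  Big.bind (Big.lt Pm x y) (Big.ite (fun _ _ z => decide (z.2 = 1)) (Nd.val fun _ _ _ => 0)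
    (Big.map (fun _ z => z.1) (Nd.two (fun s t => (s + t) % 2)
      (Big.ltN (fun _ z => z.2) (Big.map (fun _ z => z.1) x) (Big.map (fun _ z => z.1) y))
      (Nd.two (· + ·) x y))))

/-- The minimum. -/
def Big.min (Pm : α → ℕ) (x y : Big α G ρ Γ) : Big α G ρ Γ :=
  Big.bind (Big.lt Pm x y) (Big.ite (fun _ _ z => decide (z.2 = 1)) (Big.map (fun _ z => z.1) x)
    (Big.map (fun _ z => z.1) y))

end defs

variable {body : ρ → Nd α G ρ Arg} {a : α} {ok : G → Prop} {Pm : α → ℕ} {Γ Δ : Type} {γ : Γ}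
  {g g1 g2 g3 : G} {k k' u lp v w : ℕ}

theorem firstF_succ (n : ℕ) (f : ℕ → ℕ) : firstF (n + 1) f =
    if firstF n f = 0 then (if f n = 0 then 0 else n + 1) else firstF n f := rfl

theorem firstF_eq_zero {n : ℕ} {f : ℕ → ℕ} : firstF n f = 0 ↔ ∀ i < n, f i = 0 := by
  induction n with
  | zero => simp [firstF]
  | succ n ih =>
    rw [firstF_succ, Nat.forall_lt_succ_right, ← ih]
    split_ifs with h1 h2
    · simp [h1, h2]
    · simp [h2]
    · simp only [h1, false_and]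

theorem firstF_eq_succ {n i : ℕ} {f : ℕ → ℕ} :
    firstF n f = i + 1 ↔ i < n ∧ f i ≠ 0 ∧ ∀ j < i, f j = 0 := by
  induction n with
  | zero => simp [firstF]
  | succ n ih =>
    rw [firstF_succ]
    split_ifs with h1 h2
    · rw [firstF_eq_zero] at h1
      refine ⟨False.elim, fun h => h.2.1 ?_⟩
      rcases Nat.lt_succ_iff_lt_or_eq.1 h.1 with h3 | h3
      · exact h1 i h3
      · exact h3 ▸ h2
    · rw [firstF_eq_zero] at h1
      refine ⟨fun h => ?_, fun h => ?_⟩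
      · obtain rfl : n = i := by omega
        exact ⟨by omega, h2, h1⟩
      · rcases Nat.lt_succ_iff_lt_or_eq.1 h.1 with h3 | h3
        · exact absurd (h1 i h3) h.2.1
        · rw [h3]
    · rw [ih]
      refine ⟨fun h => ⟨by omega, h.2⟩, fun h => ⟨?_, h.2⟩⟩
      rcases Nat.lt_succ_iff_lt_or_eq.1 h.1 with h3 | h3
      · exact h3
      · exact absurd (firstF_eq_zero.2 (h3 ▸ h.2.2)) h1

theorem firstF_le (n : ℕ) (f : ℕ → ℕ) : firstF n f ≤ n := by
  rcases h : firstF n f with _ | i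
  · exact Nat.zero_le _
  · exact (firstF_eq_succ.1 h).1

theorem lt_pow_mono {x u w : ℕ} (h1 : x < 2 ^ u) (h2 : u ≤ w) : x < 2 ^ w :=
  h1.trans_le (Nat.pow_le_pow_right two_pos h2)

theorem Ev.val' {f : α → G → Γ → ℕ} (e : f a g γ = v) (h : v < 2 ^ k) :
    Ev body a ok (.val f) γ g g v k := e ▸ .val (e ▸ h)

theorem Ev.congr {p : Nd α G ρ Γ} (h : Ev body a ok p γ g g1 v k) (e : v = w) :
    Ev body a ok p γ g g1 w k := e ▸ h

theorem Ev.then {p q : Nd α G ρ Γ} (u : ℕ) (hp : Ev body a ok p γ g g1 v k) (hv : v < 2 ^ u)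
    (hq : Ev body a ok q γ g1 g2 w k') (hk : u + k' ≤ k) : Ev body a ok (p.then q) γ g g2 w k :=
  .seq u hp hv (.map hq) hk

theorem Ev.via {en : Nd α G ρ Γ} {x ex : Nd α G ρ (Γ × ℕ)} {v' : ℕ} (u : ℕ)
    (h1 : Ev body a ok en γ g g1 v k') (h2 : Ev body a ok x (γ, v) g1 g2 w k')
    (h3 : Ev body a ok ex (γ, v) g2 g3 v' k') (hv : v < 2 ^ u) (hw : w < 2 ^ u) (hv' : v' < 2 ^ u)
    (hk : 4 * u + k' ≤ k) : Ev body a ok (en.via x ex) γ g g3 w k :=
  .seq (k' := 3 * u + k') u (h1.mono (by omega)) hv (.seq (k' := 2 * u + k') u (h2.mono (by omega))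
    hw (.seq (k' := u) u (.map (h3.mono (by omega))) hv' (.val hw) (by omega)) (by omega)) (by omega)

theorem Ev.two {f : ℕ → ℕ → ℕ} {p q : Nd α G ρ Γ} (u : ℕ) (hp : Ev body a ok p γ g g1 v k')
    (hq : Ev body a ok q γ g1 g2 w k') (hv : v < 2 ^ u) (hw : w < 2 ^ u) (hf : f v w < 2 ^ u)
    (hk : 3 * u + k' ≤ k) : Ev body a ok (Nd.two f p q) γ g g2 (f v w) k :=
  .seq (k' := 2 * u + k') u (hp.mono (by omega)) hv
    (.seq (k' := u) u (.map (hq.mono (by omega))) hw (.val hf) (by omega)) (by omega)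

theorem Ev.sum {n : α → Γ → ℕ} {p : Nd α G ρ (Γ × ℕ)} {f : ℕ → ℕ} (u : ℕ)
    (h : ∀ i < n a γ, Ev body a ok p (γ, i) g g (f i) k') (hn : n a γ < 2 ^ u)
    (hf : ∑ i ∈ range (n a γ), f i < 2 ^ u) (hk : 3 * u + k' ≤ k) :
    Ev body a ok (Nd.sum n p) γ g g (∑ i ∈ range (n a γ), f i) k := by
  have h1 : ∀ i ≤ n a γ, ∑ j ∈ range i, f j < 2 ^ u := fun i hi =>
    (sum_le_sum_of_subset (range_subset_range.2 hi)).trans_lt hf
  refine Ev.fold (k' := 2 * u + k') u (fun _ => g) (fun i => ∑ j ∈ range i, f j) rfl hn h1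
    (fun i hi => .seq (k' := u) u (.map ((h i hi).mono (by omega))) ?_
      (.val' (sum_range_succ _ _).symm (h1 _ hi)) (by omega)) (by omega)
  have := h1 _ hi
  rw [sum_range_succ] at this
  omega

theorem Ev.first {n : α → Γ → ℕ} {p : Nd α G ρ (Γ × ℕ)} {f : ℕ → ℕ} (u : ℕ)
    (h : ∀ i < n a γ, Ev body a ok p (γ, i) g g (f i) k') (hn : n a γ < 2 ^ u)
    (hf : ∀ i < n a γ, f i < 2 ^ u) (hk : 3 * u + k' ≤ k) :
    Ev body a ok (Nd.first n p) γ g g (firstF (n a γ) f) k := by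
  have h1 : ∀ i ≤ n a γ, firstF i f < 2 ^ u := fun i hi => ((firstF_le i f).trans hi).trans_lt hn
  refine Ev.fold (k' := 2 * u + k') u (fun _ => g) (fun i => firstF i f) rfl hn h1
    (fun i hi => ?_) (by omega)
  by_cases h0 : firstF i f = 0
  · exact .iteT (decide_eq_true h0) (.seq (k' := u) u (.map ((h i hi).mono (by omega))) (hf i hi)
      (.val' (by rw [firstF_succ, if_pos h0]) (h1 _ hi)) (by omega))
  · exact .iteF (decide_eq_false h0)
      (.val' (by rw [firstF_succ, if_neg h0]) (lt_pow_mono (h1 _ hi) (by omega)))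

theorem EvB.mono {x : Big α G ρ Γ} (h : EvB body a ok Pm x γ g v k) (hk : k ≤ k') :
    EvB body a ok Pm x γ g v k' := ⟨h.1, fun p hp => (h.2 p hp).mono hk⟩

theorem EvB.congr {x : Big α G ρ Γ} (h : EvB body a ok Pm x γ g v k) (e : v = w) :
    EvB body a ok Pm x γ g w k := e ▸ h

theorem bt_lt_pow (v p : ℕ) (hu : 1 ≤ u) : KH.bt v p < 2 ^ u :=
  lt_pow_mono (u := 1) (KH.bt_lt v p) hu

theorem EvB.val {f : α → G → Γ → ℕ} (h : f a g γ < 2 ^ Pm a) (hk : 1 ≤ k) :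
    EvB body a ok Pm (Big.val f) γ g (f a g γ) k := ⟨h, fun p _ => .val (bt_lt_pow _ p hk)⟩

theorem EvB.map {f : α → Γ → Δ} {x : Big α G ρ Δ} (h : EvB body a ok Pm x (f a γ) g v k) :
    EvB body a ok Pm (Big.map f x) γ g v k := ⟨h.1, fun p hp => .map (h.2 p hp)⟩

theorem EvB.iteT {c : α → G → Γ → Bool} {x y : Big α G ρ Γ} (hc : c a g γ = true)
    (h : EvB body a ok Pm x γ g v k) : EvB body a ok Pm (Big.ite c x y) γ g v k :=
  ⟨h.1, fun p hp => .iteT hc (h.2 p hp)⟩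

theorem EvB.iteF {c : α → G → Γ → Bool} {x y : Big α G ρ Γ} (hc : c a g γ = false)
    (h : EvB body a ok Pm y γ g v k) : EvB body a ok Pm (Big.ite c x y) γ g v k :=
  ⟨h.1, fun p hp => .iteF hc (h.2 p hp)⟩

theorem EvB.bind {p : Nd α G ρ Γ} {x : Big α G ρ (Γ × ℕ)} (u : ℕ)
    (hp : Ev body a ok p γ g g v k) (hv : v < 2 ^ u) (h : EvB body a ok Pm x (γ, v) g w k')
    (hk : u + k' ≤ k) : EvB body a ok Pm (Big.bind p x) γ g w k :=
  ⟨h.1, fun q hq => .seq u (.map hp) hv (.map (h.2 q hq)) hk⟩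

theorem EvB.via {en : Nd α G ρ Γ} {x : Big α G ρ (Γ × ℕ)} {ex : Nd α G ρ (Γ × ℕ)} {v' : ℕ} (u : ℕ)
    (h1 : Ev body a ok en γ g g1 v k') (h2 : EvB body a ok Pm x (γ, v) g1 w k')
    (h3 : Ev body a ok ex (γ, v) g1 g v' k') (hv : v < 2 ^ u) (hv' : v' < 2 ^ u)
    (hk : 4 * (u + 1) + k' ≤ k) : EvB body a ok Pm (Big.via en x ex) γ g w k :=
  ⟨h2.1, fun p hp => Ev.via (u + 1) (.map h1) (.map (h2.2 p hp)) (.map h3)
    (lt_pow_mono hv (by omega)) (bt_lt_pow _ _ (by omega)) (lt_pow_mono hv' (by omega)) hk⟩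

theorem EvB.shr {e : α → Γ → ℕ} {x : Big α G ρ Γ} (h : EvB body a ok Pm x γ g v k) :
    EvB body a ok Pm (Big.shr Pm e x) γ g (v / 2 ^ e a γ) k := by
  refine ⟨(Nat.div_le_self _ _).trans_lt h.1, fun p _ => ?_⟩
  have e1 : KH.bt (v / 2 ^ e a γ) p = KH.bt v (p + e a γ) := by
    rw [KH.bt, KH.bt, Nat.div_div_eq_div_mul, ← pow_add, add_comm]
  rw [e1]
  by_cases hp : p + e a γ < Pm a
  · exact .iteT (decide_eq_true hp) (.map (h.2 _ hp))
  · exact .iteF (decide_eq_false hp) (.val' (KH.bt_eq_zero h.1 (not_lt.1 hp)).symm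
      (by rw [KH.bt_eq_zero h.1 (not_lt.1 hp)]; positivity))

namespace BigP

/-- The accumulator of the column sums. -/
def cacc (c : ℕ → ℕ) : ℕ → ℕ
  | 0 => 0
  | q + 1 => cacc c q / 2 + c q

theorem cacc_eq (c : ℕ → ℕ) (q : ℕ) : cacc c (q + 1) = (∑ i ∈ range (q + 1), c i * 2 ^ i) / 2 ^ q := by
  induction q with
  | zero => simp [cacc]
  | succ q ih =>
    rw [cacc, ih, sum_range_succ _ (q + 1), Nat.add_mul_div_right _ _ (by positivity),
      Nat.div_div_eq_div_mul, ← pow_succ]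

theorem cacc_lt {c : ℕ → ℕ} {u P : ℕ} (h : ∀ q < P, c q < 2 ^ u) :
    ∀ q ≤ P, cacc c q < 2 ^ (u + 1) := by
  intro q
  induction q with
  | zero => exact fun _ => by rw [cacc]; positivity
  | succ q ih =>
    intro hq
    have h1 := ih (by omega)
    have h2 := h q hq
    rw [cacc]
    omega

theorem bt_congr {v w p : ℕ} (h : v ≡ w [MOD 2 ^ (p + 1)]) : KH.bt v p = KH.bt w p := by
  rw [KH.bt, KH.bt, ← Nat.mod_mul_right_div_self, ← Nat.mod_mul_right_div_self, ← pow_succ, h]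

theorem sum_modEq (f : ℕ → ℕ) (n P : ℕ) : ∑ i ∈ range n, f i ≡
    ∑ q ∈ range P, (∑ i ∈ range n, KH.bt (f i) q) * 2 ^ q [MOD 2 ^ P] := by
  simp only [sum_mul]
  rw [sum_comm]
  simp only [KH.sum_bt]
  exact Finset.sum_nat_mod _ _ _

theorem mul_modEq (v w P : ℕ) : v * w ≡ ∑ q ∈ range P,
    (∑ i ∈ range (q + 1), KH.bt v i * KH.bt w (q - i)) * 2 ^ q [MOD 2 ^ P] := by
  have h1 : v * w ≡ ∑ i ∈ range P, KH.bt v i * 2 ^ i * w [MOD 2 ^ P] := by
    rw [← sum_mul, KH.sum_bt]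
    exact ((Nat.mod_modEq _ _).mul_right w).symm
  refine (h1.trans (sum_modEq _ P P)).trans (congrArg (· % 2 ^ P) ?_)
  refine sum_congr rfl fun q hq => congrArg (· * 2 ^ q) ?_
  rw [← sum_subset (range_subset_range.2 (mem_range.1 hq)) fun i _ hi => ?_]
  · refine sum_congr rfl fun i hi => ?_
    obtain ⟨d, rfl⟩ := Nat.exists_eq_add_of_le (Nat.lt_succ_iff.1 (mem_range.1 hi))
    rw [Nat.add_sub_cancel_left]
    rcases Nat.le_one_iff_eq_zero_or_eq_one.1 (Nat.lt_succ_iff.1 (KH.bt_lt v i)) with h | h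
    · rw [h]
      simp [KH.bt]
    · rw [h, one_mul, one_mul, KH.bt, KH.bt, pow_add, Nat.mul_div_mul_left _ _ (by positivity)]
  · obtain ⟨d, rfl⟩ := Nat.exists_eq_add_of_lt (show q < i by simpa using hi)
    rw [KH.bt, show KH.bt v (q + d + 1) * 2 ^ (q + d + 1) * w =
      2 ^ q * (2 * (KH.bt v (q + d + 1) * 2 ^ d * w)) by ring,
      Nat.mul_div_cancel_left _ (by positivity), Nat.mul_mod_right]

theorem lt_step (v w p : ℕ) : (if v % 2 ^ (p + 1) < w % 2 ^ (p + 1) then 1 else 0) =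
    if KH.bt v p + 2 * KH.bt w p = 2 then 1 else if KH.bt v p + 2 * KH.bt w p = 1 then 0
    else if v % 2 ^ p < w % 2 ^ p then 1 else 0 := by
  have h1 := Nat.mod_lt v (show 0 < 2 ^ p by positivity)
  have h2 := Nat.mod_lt w (show 0 < 2 ^ p by positivity)
  rw [Nat.mod_pow_succ, Nat.mod_pow_succ]
  change (if _ + _ * KH.bt v p < _ + _ * KH.bt w p then 1 else 0) = _
  rcases Nat.le_one_iff_eq_zero_or_eq_one.1 (Nat.lt_succ_iff.1 (KH.bt_lt v p)) with h | h <;>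
    rcases Nat.le_one_iff_eq_zero_or_eq_one.1 (Nat.lt_succ_iff.1 (KH.bt_lt w p)) with h' | h' <;>
    rw [h, h'] <;> split_ifs <;> omega

theorem bt_sub {v w : ℕ} (h : w ≤ v) (p : ℕ) : KH.bt (v - w) p =
    ((if v % 2 ^ p < w % 2 ^ p then 1 else 0) + (KH.bt v p + KH.bt w p)) % 2 := by
  obtain ⟨d, rfl⟩ := Nat.exists_eq_add_of_le h
  have h0 : 0 < 2 ^ p := by positivity
  have h1 := Nat.mod_lt d h0
  have h2 := Nat.mod_lt w h0
  rw [Nat.add_sub_cancel_left, KH.bt, KH.bt, KH.bt, Nat.add_div h0, Nat.add_mod_eq_ite (k := 2 ^ p)]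
  split_ifs <;> omega

end BigP

open BigP

theorem EvB.col {c : Nd α G ρ (Γ × ℕ)} {cv : ℕ → ℕ} (u : ℕ)
    (h : ∀ q < Pm a, Ev body a ok c (γ, q) g g (cv q) k') (hc : ∀ q < Pm a, cv q < 2 ^ u)
    (hv : v < 2 ^ Pm a) (hm : ∀ P, v ≡ ∑ q ∈ range P, cv q * 2 ^ q [MOD 2 ^ P])
    (hlp : Pm a < 2 ^ lp) (hk : 4 * (u + lp + 1) + k' ≤ k) :
    EvB body a ok Pm (Big.col c) γ g v k := by
  refine ⟨hv, fun p hp => ?_⟩
  have h1 := cacc_lt hc
  refine .seq (k' := 1) (u + 1) (Ev.fold (k' := 2 * u + 1 + k') (u + lp + 1) (fun _ => g) (cacc cv)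
    rfl (lt_pow_mono (lt_of_le_of_lt hp hlp) (by omega))
    (fun i hi => lt_pow_mono (h1 i (le_trans hi hp)) (by omega))
    (fun i hi => .seq (k' := u + 1) u (.map ((h i (lt_of_lt_of_le hi hp)).mono (by omega)))
      (hc i (lt_of_lt_of_le hi hp)) (.val (h1 (i + 1) (le_trans hi hp))) (by omega)) (by omega))
    (h1 _ hp) (.val' ?_ (KH.bt_lt _ _)) (by omega)
  rw [bt_congr (hm _), cacc_eq, KH.bt]

theorem EvB.sum {n : α → Γ → ℕ} {x : Big α G ρ (Γ × ℕ)} {f : ℕ → ℕ} (u : ℕ)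
    (h : ∀ i < n a γ, EvB body a ok Pm x (γ, i) g (f i) k') (hn : n a γ < 2 ^ u)
    (hf : ∑ i ∈ range (n a γ), f i < 2 ^ Pm a) (hlp : Pm a < 2 ^ lp)
    (hk : 20 * (u + lp + 1) + k' ≤ k) :
    EvB body a ok Pm (Big.sum n x) γ g (∑ i ∈ range (n a γ), f i) k := by
  have h1 : ∀ q, ∑ i ∈ range (n a γ), KH.bt (f i) q < 2 ^ u := fun q => by
    refine lt_of_le_of_lt ?_ hn
    simpa using sum_le_card_nsmul (range (n a γ)) _ 1 fun i _ => Nat.lt_succ_iff.1 (KH.bt_lt (f i) q)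
  exact EvB.col (k' := 3 * u + k') u (fun q hq => Ev.sum (γ := (γ, q)) u
    (fun i hi => .map ((h i hi).2 q hq)) hn (h1 q) le_rfl) (fun q _ => h1 q) hf (sum_modEq _ _) hlp
    (by omega)

variable {x y : Big α G ρ Γ}

theorem EvB.add (hx : EvB body a ok Pm x γ g v k') (hy : EvB body a ok Pm y γ g w k')
    (hf : v + w < 2 ^ Pm a) (hlp : Pm a < 2 ^ lp) (hk : 60 * (lp + 1) + k' ≤ k) :
    EvB body a ok Pm (Big.add x y) γ g (v + w) k := by
  have h1 : ∀ q, KH.bt v q + KH.bt w q < 2 ^ 2 := fun q => by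
    have := KH.bt_lt v q
    have := KH.bt_lt w q
    omega
  refine EvB.col (k' := 3 * 2 + k') 2 (fun q hq => Ev.two 2 (hx.2 q hq) (hy.2 q hq)
    (bt_lt_pow _ _ (by omega)) (bt_lt_pow _ _ (by omega)) (h1 q) le_rfl) (fun q _ => h1 q) hf
    (fun P => ?_) hlp (by omega)
  simp only [add_mul, sum_add_distrib, KH.sum_bt]
  exact ((Nat.mod_modEq _ _).add (Nat.mod_modEq _ _)).symm

theorem EvB.mul (hx : EvB body a ok Pm x γ g v k') (hy : EvB body a ok Pm y γ g w k')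
    (hf : v * w < 2 ^ Pm a) (hlp : Pm a < 2 ^ lp) (hk : 60 * (lp + 1) + k' ≤ k) :
    EvB body a ok Pm (Big.mul x y) γ g (v * w) k := by
  have h0 : ∀ i j, KH.bt v i * KH.bt w j ≤ 1 := fun i j =>
    Nat.mul_le_mul (Nat.lt_succ_iff.1 (KH.bt_lt v i)) (Nat.lt_succ_iff.1 (KH.bt_lt w j))
  have h1 : ∀ q < Pm a, ∑ i ∈ range (q + 1), KH.bt v i * KH.bt w (q - i) < 2 ^ lp := fun q hq => by
    refine lt_of_le_of_lt (le_trans ?_ hq) hlp
    simpa using sum_le_card_nsmul (range (q + 1)) _ 1 fun i _ => h0 i (q - i)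
  exact EvB.col (k' := 3 * lp + (3 * 1 + k')) lp (fun q hq => Ev.sum (γ := (γ, q)) lp
    (fun i hi => Ev.two 1 (.map (hx.2 i (lt_of_lt_of_le hi hq))) (.map (hy.2 (q - i) (by omega)))
      (KH.bt_lt _ _) (KH.bt_lt _ _) (Nat.lt_succ_of_le (h0 _ _)) le_rfl) (lt_of_le_of_lt hq hlp)
    (h1 q hq) le_rfl) h1 hf (mul_modEq _ _) hlp (by omega)

theorem EvB.ltN {n : α → Γ → ℕ} (hx : EvB body a ok Pm x γ g v k')
    (hy : EvB body a ok Pm y γ g w k') (hn : n a γ ≤ Pm a) (hlp : Pm a < 2 ^ lp)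
    (hk : 10 * (lp + 1) + k' ≤ k) : Ev body a ok (Big.ltN n x y) γ g g
      (if v % 2 ^ n a γ < w % 2 ^ n a γ then 1 else 0) k := by
  have h1 : ∀ q, KH.bt v q + 2 * KH.bt w q < 2 ^ 2 := fun q => by
    have := KH.bt_lt v q
    have := KH.bt_lt w q
    omega
  have h2 : ∀ (P : Prop) [Decidable P] (u : ℕ), (if P then 1 else 0) < 2 ^ (u + 1) := fun P _ u =>
    lt_pow_mono (u := 1) (by split_ifs <;> omega) (by omega)
  exact Ev.fold (k' := 3 * 2 + 3 + k') (lp + 1) (fun _ => g)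
    (fun i => if v % 2 ^ i < w % 2 ^ i then 1 else 0) (by simp [Nat.mod_one])
    (lt_pow_mono (hn.trans_lt hlp) (by omega)) (fun i _ => h2 _ _)
    (fun i hi => .seq (k' := 1) 2 (.map (Ev.two 2 (hx.2 i (hi.trans_le hn)) (hy.2 i (hi.trans_le hn))
      (bt_lt_pow _ _ (by omega)) (bt_lt_pow _ _ (by omega)) (h1 i) (by omega))) (h1 i)
      (.val' (lt_step v w i).symm (h2 _ 0)) (by omega)) (by omega)

theorem EvB.lt (hx : EvB body a ok Pm x γ g v k') (hy : EvB body a ok Pm y γ g w k')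
    (hlp : Pm a < 2 ^ lp) (hk : 60 * (lp + 1) + k' ≤ k) :
    Ev body a ok (Big.lt Pm x y) γ g g (if v < w then 1 else 0) k := by
  have := EvB.ltN (n := fun a _ => Pm a) hx hy le_rfl hlp (k := k) (by omega)
  rwa [Nat.mod_eq_of_lt hx.1, Nat.mod_eq_of_lt hy.1] at this

theorem EvB.sub (hx : EvB body a ok Pm x γ g v k') (hy : EvB body a ok Pm y γ g w k')
    (hlp : Pm a < 2 ^ lp) (hk : 60 * (lp + 1) + k' ≤ k) :
    EvB body a ok Pm (Big.sub Pm x y) γ g (v - w) k := by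
  have h0 := EvB.ltN (n := fun a _ => Pm a) hx hy le_rfl hlp (k := k) (by omega)
  rw [Nat.mod_eq_of_lt hx.1, Nat.mod_eq_of_lt hy.1] at h0
  refine EvB.bind (k' := k - 1) 1 h0 (by split_ifs <;> omega) ?_ (by omega)
  by_cases h : v < w
  · refine EvB.iteT (by simp [h]) ?_
    rw [Nat.sub_eq_zero_of_le h.le]
    exact ⟨by positivity, fun p _ => .val' (by simp [KH.bt]) (bt_lt_pow _ _ (by omega))⟩
  · refine EvB.iteF (by simp [h]) (EvB.map ⟨(Nat.sub_le _ _).trans_lt hx.1, fun p hp => ?_⟩)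
    have h1 := KH.bt_lt v p
    have h2 := KH.bt_lt w p
    rw [bt_sub (not_lt.1 h)]
    exact Ev.two (k' := 10 * (lp + 1) + k') 2
      (EvB.ltN (γ := (γ, p)) (n := fun _ z => z.2) hx.map hy.map hp.le hlp le_rfl)
      (Ev.two 2 (hx.2 p hp) (hy.2 p hp) (by omega) (by omega) (by omega) (by omega))
      (by split_ifs <;> omega) (by omega) (by omega) (by omega)

theorem EvB.min (hx : EvB body a ok Pm x γ g v k') (hy : EvB body a ok Pm y γ g w k')
    (hlp : Pm a < 2 ^ lp) (hk : 60 * (lp + 1) + k' ≤ k) :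
    EvB body a ok Pm (Big.min Pm x y) γ g (Min.min v w) k := by
  have h0 := EvB.ltN (n := fun a _ => Pm a) hx hy le_rfl hlp (k := k) (by omega)
  rw [Nat.mod_eq_of_lt hx.1, Nat.mod_eq_of_lt hy.1] at h0
  refine EvB.bind (k' := k') 1 h0 (by split_ifs <;> omega) ?_ (by omega)
  by_cases h : v < w
  · rw [min_eq_left h.le]
    exact EvB.iteT (by simp [h]) hx.map
  · rw [min_eq_right (not_lt.1 h)]
    exact EvB.iteF (by simp [h]) hy.map

/-! `IsSP` for the combinators. The example at the end shows how to use them. -/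

section sp

variable {A : Type} {B : Bud A} [Enc A α] [Enc A G] [i : Enc A Γ]

@[fun_prop]
theorem sp_bt {β : Type} [Enc A β] {s j : β → ℕ} (hs : SP B s) (hj : SP B j) :
    SP B fun z => KH.bt (s z) (j z) := (SP.div_pow hs (SP.const 2) hj).mod (SP.const 2)

theorem isSP_val {f : α → G → Γ → ℕ} (h : SP B fun z : α × G × Γ => f z.1 z.2.1 z.2.2) :
    (Nd.val f : Nd α G ρ Γ).IsSP B i := h

theorem isSP_act {f : α → G → Γ → G} (h : SP B fun z : α × G × Γ => f z.1 z.2.1 z.2.2) :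
    (Nd.act f : Nd α G ρ Γ).IsSP B i := h

theorem isSP_seq {p : Nd α G ρ Γ} {q : Nd α G ρ (Γ × ℕ)} (hp : p.IsSP B i)
    (hq : q.IsSP B inferInstance) : (p.seq q).IsSP B i := ⟨hp, hq⟩

theorem isSP_ite {c : α → G → Γ → Bool} {p q : Nd α G ρ Γ}
    (h : SP B fun z : α × G × Γ => c z.1 z.2.1 z.2.2) (hp : p.IsSP B i) (hq : q.IsSP B i) :
    (Nd.ite c p q).IsSP B i := ⟨h, hp, hq⟩

theorem isSP_fold {n : α → Γ → ℕ} {p : Nd α G ρ (Γ × ℕ × ℕ)}
    (h : SP B fun z : α × Γ => n z.1 z.2) (hp : p.IsSP B inferInstance) :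
    (Nd.fold n p).IsSP B i := ⟨h, hp⟩

theorem isSP_map [i' : Enc A Δ] {f : α → Γ → Δ} {p : Nd α G ρ Δ}
    (h : SP B fun z : α × Γ => f z.1 z.2) (hp : p.IsSP B i') : (Nd.map f p).IsSP B i := ⟨i', h, hp⟩

theorem isSP_call {r : ρ} {arg : α → Γ → Arg} (h : SP B fun z : α × Γ => arg z.1 z.2) :
    (Nd.call r arg : Nd α G ρ Γ).IsSP B i := h

theorem isSP_then {p q : Nd α G ρ Γ} (hp : p.IsSP B i) (hq : q.IsSP B i) : (p.then q).IsSP B i :=
  isSP_seq hp (isSP_map (by fun_prop) hq)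

theorem isSP_via {en : Nd α G ρ Γ} {x ex : Nd α G ρ (Γ × ℕ)} (h1 : en.IsSP B i)
    (h2 : x.IsSP B inferInstance) (h3 : ex.IsSP B inferInstance) : (en.via x ex).IsSP B i :=
  isSP_seq h1 (isSP_seq h2 (isSP_seq (isSP_map (by fun_prop) h3) (isSP_val (by fun_prop))))

theorem isSP_sum {n : α → Γ → ℕ} {p : Nd α G ρ (Γ × ℕ)} (h : SP B fun z : α × Γ => n z.1 z.2)
    (hp : p.IsSP B inferInstance) : (Nd.sum n p).IsSP B i :=
  isSP_fold h (isSP_seq (isSP_map (by fun_prop) hp) (isSP_val (by fun_prop)))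

theorem isSP_first {n : α → Γ → ℕ} {p : Nd α G ρ (Γ × ℕ)} (h : SP B fun z : α × Γ => n z.1 z.2)
    (hp : p.IsSP B inferInstance) : (Nd.first n p).IsSP B i :=
  isSP_fold h (isSP_ite (by fun_prop) (isSP_seq (isSP_map (by fun_prop) hp)
    (isSP_val (SP.ite (by fun_prop) (by fun_prop) (by fun_prop)))) (isSP_val (by fun_prop)))

theorem isSP_two {f : ℕ → ℕ → ℕ} {p q : Nd α G ρ Γ} (h : SP B fun z : ℕ × ℕ => f z.1 z.2)
    (hp : p.IsSP B i) (hq : q.IsSP B i) : (Nd.two f p q).IsSP B i :=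
  isSP_seq hp (isSP_seq (isSP_map (by fun_prop) hq)
    (isSP_val (h.comp (g := fun z : α × G × ((Γ × ℕ) × ℕ) => (z.2.2.1.2, z.2.2.2)) (by fun_prop))))

theorem isSP_bval {f : α → G → Γ → ℕ} (h : SP B fun z : α × G × Γ => f z.1 z.2.1 z.2.2) :
    (Big.val f : Big α G ρ Γ).IsSP B inferInstance :=
  isSP_val (sp_bt (h.comp (g := fun z : α × G × Γ × ℕ => (z.1, z.2.1, z.2.2.1)) (by fun_prop))
    (by fun_prop))

theorem isSP_bmap [i' : Enc A Δ] {f : α → Γ → Δ} {x : Big α G ρ Δ}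
    (h : SP B fun z : α × Γ => f z.1 z.2) (hx : x.IsSP B inferInstance) :
    (Big.map f x).IsSP B inferInstance :=
  isSP_map ((h.comp (g := fun z : α × Γ × ℕ => (z.1, z.2.1)) (by fun_prop)).pair (by fun_prop)) hx

theorem isSP_bite {c : α → G → Γ → Bool} (h : SP B fun z : α × G × Γ => c z.1 z.2.1 z.2.2)
    (hx : x.IsSP B inferInstance) (hy : y.IsSP B inferInstance) :
    (Big.ite c x y).IsSP B inferInstance :=
  isSP_ite (h.comp (g := fun z : α × G × Γ × ℕ => (z.1, z.2.1, z.2.2.1)) (by fun_prop)) hx hy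

theorem isSP_bbind {p : Nd α G ρ Γ} {x : Big α G ρ (Γ × ℕ)} (hp : p.IsSP B i)
    (hx : x.IsSP B inferInstance) : (Big.bind p x).IsSP B inferInstance :=
  isSP_seq (isSP_map (by fun_prop) hp) (isSP_map (by fun_prop) hx)

theorem isSP_bvia {en : Nd α G ρ Γ} {x : Big α G ρ (Γ × ℕ)} {ex : Nd α G ρ (Γ × ℕ)}
    (h1 : en.IsSP B i) (h2 : x.IsSP B inferInstance) (h3 : ex.IsSP B inferInstance) :
    (Big.via en x ex).IsSP B inferInstance :=
  isSP_via (isSP_map (by fun_prop) h1) (isSP_map (by fun_prop) h2) (isSP_map (by fun_prop) h3)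

theorem isSP_bshr {e : α → Γ → ℕ} (hP : SP B Pm) (h : SP B fun z : α × Γ => e z.1 z.2)
    (hx : x.IsSP B inferInstance) : (Big.shr Pm e x).IsSP B inferInstance :=
  isSP_ite ((SP.add (by fun_prop) (h.comp (g := fun z : α × G × Γ × ℕ => (z.1, z.2.2.1))
    (by fun_prop))).decide_lt (hP.comp SP.fst'))
    (isSP_map (SP.pair (by fun_prop) (SP.add (by fun_prop)
      (h.comp (g := fun z : α × Γ × ℕ => (z.1, z.2.1)) (by fun_prop)))) hx) (isSP_val (SP.const 0))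

theorem isSP_bcol {c : Nd α G ρ (Γ × ℕ)} (hc : c.IsSP B inferInstance) :
    (Big.col c).IsSP B inferInstance :=
  isSP_seq (isSP_fold (by fun_prop) (isSP_seq (isSP_map (by fun_prop) hc) (isSP_val (by fun_prop))))
    (isSP_val (by fun_prop))

theorem isSP_bsum {n : α → Γ → ℕ} {x : Big α G ρ (Γ × ℕ)} (h : SP B fun z : α × Γ => n z.1 z.2)
    (hx : x.IsSP B inferInstance) : (Big.sum n x).IsSP B inferInstance :=
  isSP_bcol (isSP_sum (h.comp (g := fun z : α × Γ × ℕ => (z.1, z.2.1)) (by fun_prop))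
    (isSP_map (by fun_prop) hx))

theorem isSP_badd (hx : x.IsSP B inferInstance) (hy : y.IsSP B inferInstance) :
    (Big.add x y).IsSP B inferInstance := isSP_bcol (isSP_two (by fun_prop) hx hy)

theorem isSP_bmul (hx : x.IsSP B inferInstance) (hy : y.IsSP B inferInstance) :
    (Big.mul x y).IsSP B inferInstance :=
  isSP_bcol (isSP_sum (by fun_prop) (isSP_two (by fun_prop) (isSP_map (by fun_prop) hx)
    (isSP_map (by fun_prop) hy)))

theorem isSP_bltN {n : α → Γ → ℕ} (h : SP B fun z : α × Γ => n z.1 z.2)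
    (hx : x.IsSP B inferInstance) (hy : y.IsSP B inferInstance) : (Big.ltN n x y).IsSP B i :=
  isSP_fold h (isSP_seq (isSP_map (by fun_prop) (isSP_two (by fun_prop) hx hy))
    (isSP_val (SP.ite (by fun_prop) (by fun_prop) (SP.ite (by fun_prop) (by fun_prop) (by fun_prop)))))

theorem isSP_blt (hP : SP B Pm) (hx : x.IsSP B inferInstance) (hy : y.IsSP B inferInstance) :
    (Big.lt Pm x y).IsSP B i := isSP_bltN (hP.comp SP.fst') hx hy

theorem isSP_bsub (hP : SP B Pm) (hx : x.IsSP B inferInstance) (hy : y.IsSP B inferInstance) :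
    (Big.sub Pm x y).IsSP B inferInstance :=
  isSP_bbind (isSP_blt hP hx hy) (isSP_bite (by fun_prop) (isSP_val (SP.const 0))
    (isSP_bmap (by fun_prop) (isSP_two (by fun_prop) (isSP_bltN (by fun_prop)
      (isSP_bmap (by fun_prop) hx) (isSP_bmap (by fun_prop) hy)) (isSP_two (by fun_prop) hx hy))))

theorem isSP_bmin (hP : SP B Pm) (hx : x.IsSP B inferInstance) (hy : y.IsSP B inferInstance) :
    (Big.min Pm x y).IsSP B inferInstance :=
  isSP_bbind (isSP_blt hP hx hy) (isSP_bite (by fun_prop) (isSP_bmap (by fun_prop) hx)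
    (isSP_bmap (by fun_prop) hy))

end sp

example {A : Type} {B : Bud A} (hP : SP B fun a : ℕ => a + 1) :
    (Big.add (Big.mul (Big.val fun a g (z : Arg) => a + g + z.1)
      (Big.sum (fun _ z => z.2.1) (Nd.call () fun _ z => (z.1.2, z.2, 0, 0, 0, 0))))
      (Big.sub (fun a => a + 1) (Big.val fun _ _ _ => 3) (Big.val fun a _ _ => a)) :
        Big ℕ ℕ Unit Arg).IsSP B inferInstance := by
  repeat' with_reducible first
    | assumption | apply isSP_val | apply isSP_act | apply isSP_seq | apply isSP_ite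
    | apply isSP_fold | apply isSP_map | apply isSP_call | apply isSP_then | apply isSP_via
    | apply isSP_sum | apply isSP_first | apply isSP_two | apply isSP_bval | apply isSP_bmap
    | apply isSP_bite | apply isSP_bbind | apply isSP_bvia | apply isSP_bshr | apply isSP_bcol
    | apply isSP_bsum | apply isSP_badd | apply isSP_bmul | apply isSP_bltN | apply isSP_blt
    | apply isSP_bsub | apply isSP_bmin
  all_goals fun_prop

end Vale.Agent.P313.NL
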