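import Vale.Agent.P313.NL.CPJoint
import Vale.Agent.P313.Full.RecVec

/-!
The hash function `cF n m e σ v < 2 ^ m` for points `v < 2 ^ n` and seeds `σ < 2 ^ clen n m e`. For
all seeds outside a set of density `2 ^ (-e)` and all targets, the number of points of a fixed family
whose hash values agree with the target on an interval is bounded above and below.
-/

namespace Vale.Agent.P313.NL

open Finset KH Vale.Agent.Lib.Space

/-- The internal exponent of the failure probability. -/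
def cf (n m e : ℕ) : ℕ := e + n + 2 * m + 6

/-- The length of the seed. -/
def clen (n m e : ℕ) : ℕ := cS n m (cf n m e) * nlay m

/-- The hash function. -/
def cF (n m e σ v : ℕ) : ℕ := cG n m (cf n m e) σ v

/-- The constant of the linear bounds. -/
def kap (n m e : ℕ) : ℕ := kp m (cf n m e)

/-- The constant of the bilinear bound. -/
def kap2 (n m e : ℕ) : ℕ := 2 ^ nlay m * (8 * kap n m e ^ 2)

theorem cF_lt (n m e σ v : ℕ) : cF n m e σ v < 2 ^ m := cG_lt _ _ _ _ _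

theorem two_pow_clen (n m e : ℕ) : 2 ^ clen n m e = (2 ^ cS n m (cf n m e)) ^ nlay m := pow_mul _ _ _

theorem union_le {ι α : Type} (I : Finset ι) (s : Finset α) (p : ι → α → Prop)
    [∀ i x, Decidable (p i x)] {q : α → Prop} [DecidablePred q] {b : ℝ}
    (hq : ∀ x ∈ s, q x → ∃ i ∈ I, p i x) (h : ∀ i ∈ I, (#{x ∈ s | p i x} : ℝ) ≤ b) :
    (#{x ∈ s | q x} : ℝ) ≤ #I * b := by
  classical
  have h1 : #{x ∈ s | q x} ≤ ∑ i ∈ I, #{x ∈ s | p i x} := by
    refine le_trans (card_le_card fun x hx => ?_) card_biUnion_le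
    obtain ⟨i, hi, h2⟩ := hq x (mem_filter.1 hx).1 (mem_filter.1 hx).2
    exact mem_biUnion.2 ⟨i, hi, mem_filter.2 ⟨(mem_filter.1 hx).1, h2⟩⟩
  refine (Nat.cast_le.2 h1).trans ?_
  rw [Nat.cast_sum, ← nsmul_eq_mul]
  exact sum_le_card_nsmul _ _ _ h

theorem filter_mono' {α : Type} {s : Finset α} {p q : α → Prop} [DecidablePred p] [DecidablePred q]
    (h : ∀ x ∈ s, p x → q x) : (#{x ∈ s | p x} : ℝ) ≤ #{x ∈ s | q x} :=
  Nat.cast_le.2 (card_le_card fun x hx =>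
    mem_filter.2 ⟨(mem_filter.1 hx).1, h x (mem_filter.1 hx).1 (mem_filter.1 hx).2⟩)

theorem bt_mod {α m p : ℕ} (hp : p < m) : bt (α % 2 ^ m) p = bt α p := by
  rw [← sum_bt]
  exact bt_sum_digits (bt_lt α) hp

theorem ag_mod {Q : Finset ℕ} {m : ℕ} (hQ : Q ⊆ range m) (u α : ℕ) :
    Ag Q u (α % 2 ^ m) ↔ Ag Q u α :=
  forall₂_congr fun _ hp => by rw [bt_mod (mem_range.1 (hQ hp))]

theorem ag_xor (Q : Finset ℕ) (u v w : ℕ) : Ag Q (u ^^^ v) w ↔ Ag Q u (w ^^^ v) :=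
  forall₂_congr fun p _ => by
    rw [bt_xor, bt_xor]
    have := bt_lt u p
    have := bt_lt v p
    have := bt_lt w p
    omega

theorem ag_zero (Q : Finset ℕ) (u v : ℕ) : Ag Q u v ↔ ∀ p ∈ Q, bt (u ^^^ v) p = 0 :=
  forall₂_congr fun p _ => by
    rw [bt_xor]
    have := bt_lt u p
    have := bt_lt v p
    omega

theorem nlay_le (m : ℕ) : (nlay m : ℝ) ≤ 16 * 2 ^ m := by
  have h : Nat.size m ≤ 2 ^ m := (Nat.size_le.2 Nat.lt_two_pow_self).trans Nat.lt_two_pow_self.le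
  exact_mod_cast Nat.mul_le_mul_left 16 h

theorem fail_le (n m e : ℕ) {A S : ℝ} (hA : A ≤ 20 * 2 ^ (n + 3 * m)) (hS : 0 ≤ S) :
    A * (nlay m * (7 / 4 ^ cf n m e) * S) ≤ S / 2 ^ e := by
  have h1 : (2 : ℝ) ^ (n + 3 * m) * 2 ^ m * 2 ^ e * 2 ^ 12 ≤ 4 ^ cf n m e := by
    rw [show (4 : ℝ) = 2 ^ 2 by norm_num, ← pow_mul, ← pow_add, ← pow_add, ← pow_add]
    exact pow_le_pow_right₀ (by norm_num) (by unfold cf; omega)
  have h2 : (20 : ℝ) * 2 ^ (n + 3 * m) * (16 * 2 ^ m * (7 / 4 ^ cf n m e)) ≤ 1 / 2 ^ e := by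
    rw [← mul_div_assoc, ← mul_div_assoc, div_le_div_iff₀ (by positivity) (by positivity)]
    nlinarith [show (0 : ℝ) ≤ 2 ^ (n + 3 * m) * 2 ^ m * 2 ^ e by positivity]
  have h3 := nlay_le m
  calc _ ≤ 20 * 2 ^ (n + 3 * m) * (16 * 2 ^ m * (7 / 4 ^ cf n m e) * S) := by gcongr
    _ = 20 * 2 ^ (n + 3 * m) * (16 * 2 ^ m * (7 / 4 ^ cf n m e)) * S := by ring
    _ ≤ 1 / 2 ^ e * S := by gcongr
    _ = _ := by ring

variable {κ : Type} {n m : ℕ} {T : Finset κ} {y z : κ → ℕ} {Q Qz Qy Qj : Finset ℕ}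

theorem up_card (f : ℕ) (α : ℕ) {a r : ℕ} (hQ : Q ⊆ range m) (hL : Lay a Q) (ha : a / 4 ≤ 8 + r)
    (hy : ∀ t ∈ T, y t < 2 ^ n) {wm N : ℝ} (hw0 : 0 < wm)
    (hw : ∀ t₀ ∈ T, (#{t ∈ T | y t = y t₀} : ℝ) ≤ wm) (hT : (#T : ℝ) ≤ N * 2 ^ #Q) :
    (#{σ ∈ range ((2 ^ cS n m f) ^ nlay m) | kp m f * (N + wm * 2 ^ r) <
      #{t ∈ T | Ag Q (cG n m f σ (y t)) α}} : ℝ) ≤
      nlay m * (7 / 4 ^ f) * ((2 ^ cS n m f) ^ nlay m : ℕ) := by
  have hN : 0 ≤ N := nonneg_of_mul_nonneg_left ((Nat.cast_nonneg _).trans hT) (by positivity)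
  refine le_trans ?_ (up f (fun _ => α) (c := fun _ => 1) hQ hL hy (fun _ _ => zero_le_one) hw0
    (fun t₀ h0 => by simpa using hw t₀ h0) (tot := N * 2 ^ #Q) (by simpa using hT))
  refine card_filter_mono fun σ _ h => ?_
  rw [sum_const, nsmul_eq_mul, mul_one, mul_div_cancel_right₀ _ (by positivity)]
  refine lt_of_le_of_lt ?_ h
  rw [cast_kp, mul_assoc (2 ^ nlay m : ℝ)]
  refine mul_le_mul_of_nonneg_left ?_ (by positivity)
  have h1 : (2 : ℝ) ^ (a / 4) ≤ 2 ^ 8 * 2 ^ r := by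
    rw [← pow_add]
    exact pow_le_pow_right₀ (by norm_num) ha
  have h2 : 128 * ((f : ℝ) + 1) ^ 2 * wm * 2 ^ (a / 4) ≤
      128 * ((f : ℝ) + 1) ^ 2 * wm * (2 ^ 8 * 2 ^ r) := by gcongr
  nlinarith [show (0 : ℝ) ≤ (f + 1) ^ 2 * (wm * 2 ^ r) by positivity,
    show (0 : ℝ) ≤ (f + 1) ^ 2 * N by positivity, show (0 : ℝ) ≤ wm * 2 ^ r by positivity]

open Classical in
/-- The linear upper bound; `wm` bounds the number of elements with the same point. -/
theorem cp_up (e : ℕ) (hQ : Q ⊆ range m) (hL : Lay 32 Q) (hy : ∀ t ∈ T, y t < 2 ^ n) {wm N : ℝ}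
    (hw0 : 0 < wm) (hw : ∀ t₀ ∈ T, (#{t ∈ T | y t = y t₀} : ℝ) ≤ wm)
    (hT : (#T : ℝ) ≤ N * 2 ^ #Q) :
    (#{σ ∈ range (2 ^ clen n m e) | ∃ α, kap n m e * (N + wm) <
      #{t ∈ T | Ag Q (cF n m e σ (y t)) α}} : ℝ) ≤ 2 ^ clen n m e / 2 ^ e := by
  have h := fun α => up_card (cf n m e) α (r := 0) hQ hL (by norm_num) hy hw0 hw hT
  simp only [pow_zero, mul_one, ← two_pow_clen] at h
  refine (union_le (range (2 ^ m)) _ _ (fun σ _ h' => ?_) fun α _ => h α).trans ?_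
  · obtain ⟨α, h'⟩ := h'
    refine ⟨α % 2 ^ m, mem_range.2 (Nat.mod_lt _ (by positivity)), ?_⟩
    exact lt_of_lt_of_le h' (filter_mono' fun t _ ht => (ag_mod hQ _ _).2 ht)
  · rw [card_range]
    push_cast
    refine fail_le n m e ?_ (by positivity)
    have : (2 : ℝ) ^ m ≤ 2 ^ (n + 3 * m) := pow_le_pow_right₀ (by norm_num) (by omega)
    linarith [show (0 : ℝ) ≤ 2 ^ (n + 3 * m) by positivity]

open Classical in
/-- The lower bound: every target is met. -/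
theorem cp_low (e : ℕ) (hQ : Q ⊆ range m) (hL : Lay 16 Q) (hy : ∀ t ∈ T, y t < 2 ^ n) {wm : ℝ}
    (hw0 : 0 < wm) (hw : ∀ t₀ ∈ T, (#{t ∈ T | y t = y t₀} : ℝ) ≤ wm)
    (hT : kap n m e * wm * 2 ^ #Q ≤ #T) :
    (#{σ ∈ range (2 ^ clen n m e) | ¬∀ α, ∃ t ∈ T, Ag Q (cF n m e σ (y t)) α} : ℝ) ≤
      2 ^ clen n m e / 2 ^ e := by
  have h := fun α => low (cf n m e) (fun _ => α) (c := fun _ => 1) hQ hL hy
    (fun _ _ => zero_le_one) hw0 (fun t₀ h0 => by simpa using hw t₀ h0) (by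
      rw [sum_const, nsmul_eq_mul, mul_one]
      refine le_trans ?_ hT
      rw [kap, cast_kp, mul_assoc (2 ^ nlay m : ℝ) (1 + _)]
      gcongr 2 ^ nlay m * ?_ * _
      nlinarith [show (0 : ℝ) ≤ (cf n m e + 1) ^ 2 * wm by positivity])
  simp only [← two_pow_clen] at h
  refine (union_le (range (2 ^ m)) _ _ (fun σ _ h' => ?_) fun α _ => h α).trans ?_
  · obtain ⟨α, h'⟩ := not_forall.1 h'
    refine ⟨α % 2 ^ m, mem_range.2 (Nat.mod_lt _ (by positivity)), ?_⟩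
    simpa only [ag_mod hQ, kap, cF] using h'
  · rw [card_range]
    push_cast
    refine fail_le n m e ?_ (by positivity)
    have : (2 : ℝ) ^ m ≤ 2 ^ (n + 3 * m) := pow_le_pow_right₀ (by norm_num) (by omega)
    linarith [show (0 : ℝ) ≤ 2 ^ (n + 3 * m) by positivity]

theorem pair_le (S : ℕ) (p : ℕ → ℕ → Prop) (b1 b2 : ℕ → Prop) [∀ σ τ, Decidable (p σ τ)]
    [DecidablePred b1] [DecidablePred b2] {u v w : ℝ} (hw : 0 ≤ w)
    (h1 : (#{σ ∈ range S | b1 σ} : ℝ) ≤ u) (h2 : (#{σ ∈ range S | b2 σ} : ℝ) ≤ v)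
    (h3 : ∀ σ, ¬b1 σ → ¬b2 σ → (#{τ ∈ range S | p σ τ} : ℝ) ≤ w)
    [DecidablePred fun s : ℕ × ℕ => p s.1 s.2] :
    (#{s ∈ range S ×ˢ range S | p s.1 s.2} : ℝ) ≤ (u + v + w) * S := by
  rw [card_filter] at h1 h2 ⊢
  push_cast at h1 h2 ⊢
  rw [sum_product]
  have h4 : ∀ σ ∈ range S, ∑ τ ∈ range S, (if p (σ, τ).1 (σ, τ).2 then (1 : ℝ) else 0) ≤
      ((if b1 σ then (1 : ℝ) else 0) + if b2 σ then (1 : ℝ) else 0) * S + w := by
    intro σ _
    by_cases h : ¬b1 σ ∧ ¬b2 σ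
    · have h5 := h3 σ h.1 h.2
      rw [card_filter] at h5
      push_cast at h5
      refine le_trans (le_of_eq (sum_congr rfl fun τ _ => ?_))
        (h5.trans (le_add_of_nonneg_left (by positivity)))
      exact if_congr Iff.rfl rfl rfl
    · refine le_trans ?_ (le_add_of_nonneg_right hw)
      refine (sum_le_card_nsmul _ _ 1 fun _ _ => by split_ifs <;> norm_num).trans ?_
      rw [card_range, nsmul_eq_mul, mul_one]
      refine le_mul_of_one_le_left (by positivity) ?_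
      split_ifs with h6 h7 h7
      · norm_num
      · norm_num
      · norm_num
      · exact absurd ⟨h6, h7⟩ h
  refine (sum_le_sum h4).trans ?_
  rw [sum_add_distrib, ← sum_mul, sum_add_distrib, sum_const, card_range, nsmul_eq_mul]
  nlinarith [mul_le_mul_of_nonneg_right (add_le_add h1 h2) (show (0 : ℝ) ≤ S by positivity)]

theorem pair_arith (n m : ℕ) : (2 : ℝ) ^ m + 2 ^ n * ((nlay m + 1) * 2 ^ m) +
    2 ^ m * (2 ^ m * 2 ^ m) * 2 ≤ 20 * 2 ^ (n + 3 * m) := by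
  have h6 := nlay_le m
  have h7 : (1 : ℝ) ≤ 2 ^ m := one_le_pow₀ (by norm_num)
  have h8 : (1 : ℝ) ≤ 2 ^ n := one_le_pow₀ (by norm_num)
  rw [pow_add, mul_comm 3 m, pow_mul]
  generalize (2 : ℝ) ^ m = u at *
  generalize (2 : ℝ) ^ n = v at *
  have h9 : u ≤ u ^ 3 := le_self_pow₀ h7 (by norm_num)
  have h10 : u ^ 2 ≤ u ^ 3 := pow_le_pow_right₀ h7 (by norm_num)
  have h11 : u ^ 3 ≤ v * u ^ 3 := le_mul_of_one_le_left (by positivity) h8
  have h12 : v * ((nlay m + 1) * u) ≤ v * (17 * u ^ 3) :=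
    mul_le_mul_of_nonneg_left (by nlinarith) (by positivity)
  nlinarith

open Classical in
/-- The bilinear bound. -/
theorem cp_bil (e : ℕ) (hQz : Qz ⊆ range m) (hQy : Qy ⊆ range m) (hQj : Qj ⊆ range m)
    (hLz : Lay 16 Qz) (hLy : Lay 16 Qy) (hLj : Lay 16 Qj) (hdz' : Disjoint Qz Qj)
    (hdy' : Disjoint Qy Qj) (hy : ∀ t ∈ T, y t < 2 ^ n) (hz : ∀ t ∈ T, z t < 2 ^ n)
    (hinj : ∀ t ∈ T, ∀ t' ∈ T, y t = y t' → z t = z t' → t = t') {N : ℝ} (hN : 1 ≤ N)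
    (hT : (#T : ℝ) ≤ N * 2 ^ (#Qy + #Qz + #Qj))
    (hdy : ∀ t₀ ∈ T, (#{t ∈ T | y t = y t₀} : ℝ) ≤ N * 2 ^ (#Qz + #Qj))
    (hdz : ∀ t₀ ∈ T, (#{t ∈ T | z t = z t₀} : ℝ) ≤ N * 2 ^ (#Qy + #Qj)) :
    (#{s ∈ range (2 ^ clen n m e) ×ˢ range (2 ^ clen n m e) | ∃ α β β', kap2 n m e * N <
      #{t ∈ T | Ag Qz (cF n m e s.1 (z t)) α ∧ Ag Qy (cF n m e s.2 (y t)) β ∧
        Ag Qj (cF n m e s.2 (y t) ^^^ cF n m e s.1 (z t)) β'}} : ℝ) ≤
      2 ^ clen n m e * 2 ^ clen n m e / 2 ^ e := by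
  set f := cf n m e with hf
  set S := (2 ^ cS n m f) ^ nlay m with hS
  set δ : ℝ := nlay m * (7 / 4 ^ f) * (S : ℕ) with hδ
  have hδ0 : 0 ≤ δ := by positivity
  let b1 : ℕ → Prop := fun σ => ∃ α ∈ range (2 ^ m), kp m f * (N * 2 ^ (#Qy + #Qj) +
    N * 2 ^ (#Qy + #Qj) * 2 ^ 0) < (#{t ∈ T | Ag Qz (cG n m f σ (z t)) α} : ℝ)
  let b2 : ℕ → Prop := fun σ => ∃ q ∈ range (2 ^ n) ×ˢ range (nlay m + 1) ×ˢ range (2 ^ m),
    kp m f * (#{t ∈ T | y t = q.1} / 2 ^ (#Qz + rev Qj q.2.1) + 1 * 2 ^ (rem Qj q.2.1 / 4)) <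
      (#{t ∈ {t ∈ T | y t = q.1} |
        Ag (Qz ∪ {p ∈ Qj | lay p < q.2.1}) (cG n m f σ (z t)) q.2.2} : ℝ)
  have h1 : (#{σ ∈ range S | b1 σ} : ℝ) ≤ #(range (2 ^ m)) * δ :=
    union_le _ _ _ (fun _ _ h => h) fun α _ => up_card f α hQz hLz (by norm_num) hz
      (by positivity) hdz (by rwa [mul_assoc, ← pow_add, add_right_comm])
  have h2 : (#{σ ∈ range S | b2 σ} : ℝ) ≤
      #(range (2 ^ n) ×ˢ range (nlay m + 1) ×ˢ range (2 ^ m)) * δ := by
    refine union_le _ _ _ (fun _ _ h => h) fun q _ => ?_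
    have hd : Disjoint Qz {p ∈ Qj | lay p < q.2.1} := hdz'.mono_right (filter_subset _ _)
    refine up_card f q.2.2 (union_subset hQz ((filter_subset _ _).trans hQj))
      (hLz.union (hLj.trunc q.2.1) hd) (by unfold rem; omega)
      (fun t ht => hz t (mem_filter.1 ht).1) one_pos (fun t₀ h0 => ?_) ?_
    · rw [← Nat.cast_one, Nat.cast_le, card_le_one]
      intro t ht t' ht'
      obtain ⟨h3, h4⟩ := mem_filter.1 ht
      obtain ⟨h5, h6⟩ := mem_filter.1 ht'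
      exact hinj t (mem_filter.1 h3).1 t' (mem_filter.1 h5).1
        ((mem_filter.1 h3).2.trans (mem_filter.1 h5).2.symm) (h4.trans h6.symm)
    · rw [card_union_of_disjoint hd, rev, div_mul_cancel₀ _ (by positivity)]
  have h3 : ∀ σ, ¬b1 σ → ¬b2 σ → (#{τ ∈ range S | ∃ α β β', kap2 n m e * N <
      #{t ∈ T | Ag Qz (cF n m e σ (z t)) α ∧ Ag Qy (cF n m e τ (y t)) β ∧
        Ag Qj (cF n m e τ (y t) ^^^ cF n m e σ (z t)) β'}} : ℝ) ≤
      #(range (2 ^ m) ×ˢ range (2 ^ m) ×ˢ range (2 ^ m)) * (2 * δ) := by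
    intro σ hb1 hb2
    simp only [b1, b2, not_exists, not_and, not_lt] at hb1 hb2
    have hj := fun q : ℕ × ℕ × ℕ => fun hq : q.1 ∈ range (2 ^ m) =>
      joint f (fun t => cG n m f σ (z t)) q.1 q.2.1 q.2.2 hQy hQj hLy hLj hdy' hy
        (N := 2 * N) (by linarith) (hT.trans (by gcongr; linarith))
        (fun t₀ h0 => (hdy t₀ h0).trans (by gcongr; linarith))
        ((hb1 q.1 hq).trans (le_of_eq (by ring))) fun t₀ h0 i hi => by
          have h4 := hb2 (y t₀, i, cG n m f σ (z t₀)) (mem_product.2 ⟨mem_range.2 (hy t₀ h0),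
            mem_product.2 ⟨mem_range.2 (Nat.lt_succ_of_le hi), mem_range.2 (cG_lt _ _ _ _ _)⟩⟩)
          rwa [filter_filter, one_mul] at h4
    refine union_le _ _ _ (fun τ _ h => ?_) fun q hq => hj q (mem_product.1 hq).1
    obtain ⟨α, β, β', h⟩ := h
    have hm : ∀ u, u % 2 ^ m ∈ range (2 ^ m) := fun u => mem_range.2 (Nat.mod_lt _ (by positivity))
    refine ⟨(α % 2 ^ m, β % 2 ^ m, β' % 2 ^ m), mem_product.2 ⟨hm _, mem_product.2 ⟨hm _, hm _⟩⟩, ?_⟩
    refine lt_of_le_of_lt (le_of_eq ?_) (lt_of_lt_of_le h (filter_mono' fun t _ ht =>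
      ⟨(ag_mod hQz _ _).2 ht.1, (ag_mod hQy _ _).2 ht.2.1, (ag_mod hQj _ _).2 ht.2.2⟩))
    rw [kap2, kap]
    push_cast
    ring
  have e1 : (2 : ℝ) ^ clen n m e = S := by
    rw [hS, hf, ← two_pow_clen]
    push_cast
    rfl
  rw [two_pow_clen, ← hf, ← hS, e1, mul_div_right_comm]
  refine (pair_le S _ b1 b2 (by positivity) h1 h2 h3).trans
    (mul_le_mul_of_nonneg_right ?_ (by positivity))
  have h5 := fail_le n m e (S := S) (pair_arith n m) (by positivity)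
  rw [← hf, ← hδ] at h5
  simp only [card_product, card_range]
  push_cast
  linarith

/-! ### The size of the parameters -/

theorem two_pow_nlay_le (m : ℕ) : 2 ^ nlay m ≤ (2 * m + 1) ^ 16 := by
  rw [nlay, mul_comm, pow_mul]
  exact Nat.pow_le_pow_left (Full.two_pow_size_le m) 16

theorem kap_aux {u X : ℕ} (hu : u ≤ X ^ 16) (hX : 0 < X) (c : ℕ) (hc : 0 < c) :
    u * (1 + c * X ^ 2) ≤ 2 * c * X ^ 18 := by
  have h : 0 < c * X ^ 2 := by positivity
  calc _ ≤ X ^ 16 * (2 * (c * X ^ 2)) := Nat.mul_le_mul hu (by omega)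
    _ = _ := by ring

theorem kap2_aux {u k X : ℕ} (hu : u ≤ X ^ 16) (c : ℕ) (hk : k ≤ c * X ^ 18) :
    u * (8 * k ^ 2) ≤ 8 * c ^ 2 * X ^ 52 :=
  calc _ ≤ X ^ 16 * (8 * (c * X ^ 18) ^ 2) :=
        Nat.mul_le_mul hu (Nat.mul_le_mul_left 8 (Nat.pow_le_pow_left hk 2))
    _ = _ := by ring

theorem nlay_aux (n m e : ℕ) : 2 ^ nlay m ≤ (e + n + 2 * m + 7) ^ 16 :=
  (two_pow_nlay_le m).trans (Nat.pow_le_pow_left (by omega) 16)

theorem kap_le (n m e : ℕ) : kap n m e ≤ 2 ^ 23 * (e + n + 2 * m + 7) ^ 18 :=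
  kap_aux (nlay_aux n m e) (by omega) (2 ^ 22) (by norm_num)

theorem kap2_le (n m e : ℕ) : kap2 n m e ≤ 2 ^ 49 * (e + n + 2 * m + 7) ^ 52 :=
  (kap2_aux (nlay_aux n m e) _ (kap_le n m e)).trans (Nat.mul_le_mul_right _ (by norm_num))

theorem one_le_kap (n m e : ℕ) : 1 ≤ kap n m e := Nat.mul_pos (by positivity) (by positivity)

theorem kap_le_kap2 (n m e : ℕ) : kap n m e ≤ kap2 n m e := by
  have h := one_le_kap n m e
  have h1 : 0 < 2 ^ nlay m := by positivity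
  rw [kap2]
  nlinarith [Nat.le_mul_of_pos_left (8 * kap n m e ^ 2) h1]

theorem clen_le (n m e : ℕ) : clen n m e ≤ 2 ^ 39 * (e + n + m + 1) * Nat.size m := by
  have h1 : cLev m (cf n m e) ≤ 8 * (cf n m e + m + 1) := Nat.size_le.2 Nat.lt_two_pow_self
  have h2 : cS n m (cf n m e) ≤ 2 ^ 35 * (e + n + m + 1) := by
    rw [cS, slen, us, Mix.t0]
    unfold cf at h1 ⊢
    omega
  calc _ ≤ 2 ^ 35 * (e + n + m + 1) * (16 * Nat.size m) := Nat.mul_le_mul_right _ h2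
    _ = _ := by ring

theorem le_cS (n m f : ℕ) : cLev m f + 2 * (n + m) + cLev m f ≤ cS n m f := by
  rw [cS, slen]
  omega

theorem cS_le_clen (n e : ℕ) {m : ℕ} (hm : 1 ≤ m) : cS n m (cf n m e) ≤ clen n m e :=
  Nat.le_mul_of_pos_right _ (Nat.mul_pos (by norm_num) (Nat.size_pos.2 hm))

/-! ### Space bounds -/

section Space

variable {A α : Type} [Enc A α] {B : Bud A} {n m e f σ v p L t lev x : α → ℕ}

theorem sp_two_pow (hn : SP B n) (h : PBd B fun a => 2 ^ n a) : SP B fun a => 2 ^ n a := by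
  have key : ∀ k : ℕ, (fun s => s * 2)^[k] 1 = 2 ^ k := by
    intro k
    induction k with
    | zero => simp
    | succ k ih => rw [Function.iterate_succ_apply', ih, pow_succ]
  refine (SP.iterate (step := fun _ s => s * 2) hn (SP.const 1) (SP.snd'.mul (SP.const 2)) h
    fun x a _ k hk => ?_).congr fun a => key _
  rw [key, enc_nat]
  exact Nat.pow_le_pow_right (by norm_num) hk

theorem sp_mod_pow {b : α → ℕ} (hx : SP B x) (hb : SP B b) (hp : SP B p) :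
    SP B fun a => x a % b a ^ p a := by
  refine (hx.mod (SP.min_pow (hx.add (SP.const 1)) hb hp)).congr fun a => ?_
  rcases le_total (x a + 1) (b a ^ p a) with h | h
  · rw [min_eq_left h, Nat.mod_eq_of_lt (by omega), Nat.mod_eq_of_lt (by omega)]
  · rw [min_eq_right h]

theorem iz_eq (L s x l : ℕ) :
    iz L s x l = if ∑ i ∈ range l, hb 2 L s x i = 0 then 1 else 0 := by
  refine if_congr ?_ rfl rfl
  simp [hv]

theorem sp_iz (hL : SP B L) (hσ : SP B σ) (hx : SP B x) (hp : SP B p) :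
    SP B fun a => iz (L a) (σ a) (x a) (p a) :=
  (SP.ite ((SP.sum_range (f := fun a i => hb 2 (L a) (σ a) (x a) i) hp (sp_hb 2 (hL.comp SP.fst')
    (hσ.comp SP.fst') (hx.comp SP.fst') SP.snd')).decide_eq (SP.const 0)) (SP.const 1)
    (SP.const 0)).congr fun _ => (iz_eq _ _ _ _).symm

theorem sp_pz (hL : SP B L) (hlev : SP B lev) (hσ : SP B σ) (hx : SP B x) :
    SP B fun a => pz (L a) (lev a) (σ a) (x a) :=
  SP.sum_range (f := fun a l => bt (σ a / 4 ^ L a) l * iz (L a) (σ a % 4 ^ L a) (x a) l)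
    ((SP.const 2).mul hlev) ((sp_bt ((hσ.div_pow (SP.const 4) hL).comp SP.fst') SP.snd').mul
      (sp_iz (hL.comp SP.fst') ((sp_mod_pow hσ (SP.const 4) hL).comp SP.fst') (hx.comp SP.fst')
        SP.snd'))

theorem sp_sb (hL : SP B L) (ht : SP B t) (hlev : SP B lev) (hσ : SP B σ) (hx : SP B x)
    (hb : PBd B fun a => 2 ^ (L a + lev a)) :
    SP B fun a => sb (L a) (t a) (lev a) (σ a) (x a) := by
  have h1 := hL.add hlev
  have h2 := hσ.div_pow (SP.const 4) h1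
  have h3 := (SP.const us).mul ht
  simp only [sb]
  exact (SP.sum_range ht ((sp_bt ((h2.div_pow (SP.const 4) h3).comp SP.fst') SP.snd').mul
    (sp_pz (hL.comp SP.fst') (hlev.comp SP.fst') (Mix.sp_walk ((sp_two_pow h1 hb).comp SP.fst')
      ((SP.const us).mul SP.snd') ((sp_mod_pow h2 (SP.const 4) h3).comp SP.fst')
      ((sp_mod_pow hσ (SP.const 4) h1).comp SP.fst')) (hx.comp SP.fst')))).mod (SP.const 2)

theorem sp_cLev (hm : SP B m) (hf : SP B f) : SP B fun a => cLev (m a) (f a) :=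
  Full.sp_size ((SP.const 8).mul ((hf.add hm).add (SP.const 1)))

theorem sp_cS (hn : SP B n) (hm : SP B m) (hf : SP B f) : SP B fun a => cS (n a) (m a) (f a) := by
  have h := sp_cLev hm hf
  simp only [cS, slen]
  fun_prop

theorem lay_eq (p : ℕ) :
    lay p = 16 * Full.tz (p + 1) + (p + 1) / 2 ^ (Full.tz (p + 1) + 1) % 16 := by
  obtain ⟨s, u, hu, h⟩ := Nat.exists_eq_two_pow_mul_odd (Nat.succ_ne_zero p)
  obtain ⟨w, rfl⟩ := hu
  have h1 : Full.tz (p + 1) = s := by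
    rw [show p + 1 = (2 * w + 1) * 2 ^ s by rw [mul_comm]; exact h, Full.tz_odd]
  have h2 : padicValNat 2 (p + 1) = s := by
    rw [show p + 1 = 2 ^ s * (2 * w + 1) from h, padicValNat.mul (by positivity) (by omega),
      padicValNat.prime_pow, padicValNat.eq_zero_of_not_dvd (by omega), add_zero]
  rw [lay, h1, h2]

theorem sp_lay (hp : SP B p) : SP B fun a => lay (p a) := by
  have h1 := hp.add (SP.const 1)
  have h2 : SP B fun a => Full.tz (p a + 1) := SP.sum_range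
    (f := fun a i => if (p a + 1) % min (p a + 1 + 1) (2 ^ (i + 1)) = 0 then 1 else 0) h1
    (SP.ite (((h1.comp SP.fst').mod (SP.min_pow ((h1.comp SP.fst').add (SP.const 1)) (SP.const 2)
      (SP.snd'.add (SP.const 1)))).decide_eq (SP.const 0)) (SP.const 1) (SP.const 0))
  exact (((SP.const 16).mul h2).add ((h1.div_pow (SP.const 2) (h2.add (SP.const 1))).mod
    (SP.const 16))).congr fun _ => (lay_eq _).symm

theorem sp_cf (hn : SP B n) (hm : SP B m) (he : SP B e) : SP B fun a => cf (n a) (m a) (e a) := by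
  unfold cf
  fun_prop

theorem sp_clen (hn : SP B n) (hm : SP B m) (he : SP B e) :
    SP B fun a => clen (n a) (m a) (e a) :=
  (sp_cS hn hm (sp_cf hn hm he)).mul ((SP.const 16).mul (Full.sp_size hm))

theorem sp_kap (hn : SP B n) (hm : SP B m) (he : SP B e) : SP B fun a => kap (n a) (m a) (e a) := by
  have h1 := (Full.sp_two_pow_size hm).pow_const 16
  have h2 := sp_cf hn hm he
  simp only [kap, kp, nlay, mul_comm 16, pow_mul]
  fun_prop

theorem sp_kap2 (hn : SP B n) (hm : SP B m) (he : SP B e) :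
    SP B fun a => kap2 (n a) (m a) (e a) := by
  have h1 := (Full.sp_two_pow_size hm).pow_const 16
  have h2 := sp_kap hn hm he
  simp only [kap2, nlay, mul_comm 16, pow_mul]
  fun_prop

theorem sp_cF (hn : SP B n) (hm : SP B m) (he : SP B e) (hσ : SP B σ) (hv : SP B v)
    (hm1 : ∀ a, 1 ≤ m a) (hb : PBd B fun a => 2 ^ clen (n a) (m a) (e a)) :
    SP B fun a => cF (n a) (m a) (e a) (σ a) (v a) := by
  have hf := sp_cf hn hm he
  have hl := sp_cLev hm hf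
  have hb1 : PBd B fun a => 2 ^ cS (n a) (m a) (cf (n a) (m a) (e a)) :=
    hb.mono fun a => Nat.pow_le_pow_right (by norm_num) (cS_le_clen _ _ (hm1 a))
  have hS := sp_two_pow (sp_cS hn hm hf) hb1
  simp only [cF, cG, cb, dig]
  refine sp_digits hm hS (fun _ a _ => Nat.pow_le_pow_right (by norm_num)
    (le_trans (by omega) (le_cS _ _ _))) ?_
  exact sp_sb ((hl.add ((SP.const 2).mul (hn.add hm))).comp SP.fst')
    (((SP.const 70).mul ((SP.const 8).mul ((hf.add hm).add (SP.const 1)))).comp SP.fst')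
    (hl.comp SP.fst') (((hσ.comp SP.fst').div_pow (hS.comp SP.fst') (sp_lay SP.snd')).mod
      (hS.comp SP.fst')) (((hv.mul hm).comp SP.fst').add SP.snd')
    ((hb1.mono fun a => Nat.pow_le_pow_right (by norm_num) (le_cS _ _ _)).comp SP.fst')

end Space

attribute [irreducible] clen cF kap kap2

end Vale.Agent.P313.NL
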