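import Vale.Agent.P313.Mix
import Vale.Agent.P313.KHash

/-!
A family of bits with small bias on small sets of points. A pairwise independent hash function
isolates one point of the set with constant probability; the samples are taken along an expander
walk, and the output bit is a random parity of the indicators.
-/

namespace Vale.Agent.P313.NL

open Vale.Agent.Lib.Space Finset Mix KH

/-- The number of steps between two samples. -/
def us : ℕ := t0 * 5

/-- The indicator that the first `l` hash bits vanish. -/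
def iz (L s x l : ℕ) : ℕ := if hv 2 L l s x = 0 then 1 else 0

/-- A random sum of the indicators. -/
def pz (L lev s x : ℕ) : ℕ := ∑ l ∈ range (2 * lev), bt (s / 4 ^ L) l * iz L (s % 4 ^ L) x l

/-- The bit at the point `x` for the seed `σ`. -/
def sb (L t lev σ x : ℕ) : ℕ :=
  (∑ j ∈ range t, bt (σ / 4 ^ (L + lev) / 4 ^ (us * t)) j * pz L lev
    (walk (2 ^ (L + lev)) (us * j) (σ / 4 ^ (L + lev) % 4 ^ (us * t)) (σ % 4 ^ (L + lev))) x) % 2

/-- The length of the seed. -/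
def slen (L t lev : ℕ) : ℕ := 2 * (L + lev) + 2 * (us * t) + t

theorem sb_lt (L t lev σ x : ℕ) : sb L t lev σ x < 2 := Nat.mod_lt _ (by norm_num)

theorem walk_add (m u r w s : ℕ) :
    walk m (u + r) w s = walk m r (w / 4 ^ u) (walk m u w s) := by
  induction r with
  | zero => rfl
  | succ r ih => rw [← add_assoc, walk_succ, walk_succ, ih, Nat.div_div_eq_div_mul, pow_add]

/-- The probability that all samples lie in the set with the indicator `f`. -/
noncomputable def hit (M k : ℕ) (f : ℕ → ℝ) (t s : ℕ) : ℝ :=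
  (∑ w ∈ range (4 ^ (k * t)), ∏ j ∈ range t, f (walk M (k * j) w s)) / 4 ^ (k * t)

theorem hit_succ (M k : ℕ) (f : ℕ → ℝ) (t s : ℕ) :
    hit M k f (t + 1) s = f s * H M k (hit M k f t) s := by
  have h0 : 0 < 4 ^ k := by positivity
  rw [hit, H, mul_add, mul_one, add_comm (k * t), pow_add, sum_range_mul, pow_add, ← div_div,
    ← mul_div_assoc, mul_sum, div_right_comm, sum_div]
  congr 1
  refine sum_congr rfl fun u hu => ?_
  rw [hit, ← mul_div_assoc, mul_sum]
  congr 1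
  refine sum_congr rfl fun d _ => ?_
  rw [prod_range_succ', mul_zero, walk_zero, mul_comm]
  congr 1
  refine prod_congr rfl fun j _ => ?_
  rw [mul_add, mul_one, add_comm (k * j), walk_add, Nat.add_mul_div_left _ _ h0,
    Nat.div_eq_of_lt (mem_range.1 hu), zero_add, walk_congr k (w' := u) (by simp)]

theorem sq_J_le (M : ℕ) (g : ℕ → ℝ) :
    (M * M : ℕ) * J M g ^ 2 ≤ ∑ s ∈ range (M * M), g s ^ 2 := by
  have h1 : ∀ s, g s ^ 2 = (g s - J M g) ^ 2 + 2 * J M g * (g s - J M g) + J M g ^ 2 :=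
    fun s => by ring
  rw [sum_congr rfl fun s _ => h1 s, sum_add_distrib, sum_add_distrib, ← mul_sum, sum_sub_J,
    sum_const, card_range, nsmul_eq_mul]
  have : 0 ≤ ∑ s ∈ range (M * M), (g s - J M g) ^ 2 := sum_nonneg fun _ _ => sq_nonneg _
  linarith

theorem sum_hit_sq (M : ℕ) {f : ℕ → ℝ} (hf : ∀ s, f s = 0 ∨ f s = 1)
    (hd : ∑ s ∈ range (M * M), f s ≤ 29 / 32 * (M * M : ℕ)) (t : ℕ) :
    ∑ s ∈ range (M * M), hit M us f t s ^ 2 ≤ (1003 / 1024) ^ t * (M * M : ℕ) := by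
  induction t with
  | zero => simp [hit]
  | succ t ih =>
    set g := hit M us f t
    have h1 : ∀ s ∈ range (M * M), hit M us f (t + 1) s ^ 2 ≤
        17 / 16 * J M g ^ 2 * f s + 17 * (H M (t0 * 5) g s - J M g) ^ 2 := by
      intro s _
      rw [hit_succ, show H M us (hit M us f t) s = H M (t0 * 5) g s from rfl]
      rcases hf s with h | h
      · rw [h]
        nlinarith [sq_nonneg (H M (t0 * 5) g s - J M g)]
      · rw [h]
        nlinarith [sq_nonneg (16 * H M (t0 * 5) g s - 17 * J M g)]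
    refine (sum_le_sum h1).trans ?_
    rw [sum_add_distrib, ← mul_sum, ← mul_sum]
    have h2 := mix' (m := M) 5 g
    have h3 := sq_J_le M g
    have h4 := mul_le_mul_of_nonneg_left hd (show 0 ≤ 17 / 16 * J M g ^ 2 by positivity)
    rw [pow_succ (1003 / 1024 : ℝ)]
    nlinarith

theorem sum_hit (M : ℕ) {f : ℕ → ℝ} (hf : ∀ s, f s = 0 ∨ f s = 1)
    (hd : ∑ s ∈ range (M * M), f s ≤ 29 / 32 * (M * M : ℕ)) (e : ℕ) :
    ∑ s ∈ range (M * M), hit M us f (70 * e) s ≤ (M * M : ℕ) / 2 ^ e := by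
  have h1 := sum_hit_sq M hf hd (70 * e)
  have h2 := sq_sum_le_card_mul_sum_sq (s := range (M * M)) (f := hit M us f (70 * e))
  rw [card_range] at h2
  have h3 : ((1003 : ℝ) / 1024) ^ (70 * e) ≤ (1 / 2 ^ e) ^ 2 := by
    rw [pow_mul, ← one_div_pow, ← pow_mul (1 / 2 : ℝ), mul_comm e 2, pow_mul]
    exact pow_le_pow_left₀ (by positivity) (by norm_num) e
  refine le_of_sq_le_sq_nonneg ?_ (by positivity)
  have h4 : (0 : ℝ) ≤ (M * M : ℕ) := by positivity
  calc _ ≤ ((M * M : ℕ) : ℝ) * ((1003 / 1024) ^ (70 * e) * (M * M : ℕ)) :=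
        h2.trans (mul_le_mul_of_nonneg_left h1 h4)
    _ ≤ ((M * M : ℕ) : ℝ) * ((1 / 2 ^ e) ^ 2 * (M * M : ℕ)) := by gcongr
    _ = _ := by ring
where le_of_sq_le_sq_nonneg {a b : ℝ} (h : a ^ 2 ≤ b ^ 2) (hb : 0 ≤ b) : a ≤ b :=
  (abs_le_of_sq_le_sq' h hb).2

theorem isolate {ι : Type} [DecidableEq ι] {A : Finset ι} {x : ι → ℕ} (hx : Set.InjOn x A)
    {n L l : ℕ} (hn : ∀ a ∈ A, x a < 2 ^ n) (hL : l + 2 * n ≤ L) (h1 : 2 * A.card ≤ 2 ^ l)
    (h2 : 2 ^ l ≤ 4 * A.card) :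
    ∑ s ∈ range (2 ^ L * 2 ^ L), (if Even (∑ a ∈ A, iz L s (x a) l) then (1 : ℝ) else 0) ≤
      13 / 16 * (2 ^ L * 2 ^ L : ℕ) := by
  have e : 2 ^ L * 2 ^ L = 2 ^ (2 * L) := by rw [← pow_add, two_mul]
  rw [e]
  have hS : (0 : ℝ) < 2 ^ (2 * L) := by positivity
  have hq : (0 : ℝ) < 2 ^ l := by positivity
  have e1 : ∀ a ∈ A, ∑ s ∈ range (2 ^ (2 * L)), (iz L s (x a) l : ℝ) = 2 ^ (2 * L) / 2 ^ l := by
    intro a ha
    have h := indep_one (k := 2) (L := L) (m := l) (hn a ha) (by norm_num) hL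
      fun t => if t = 0 then 1 else 0
    rw [sum_ite_eq', if_pos (mem_range.2 (by positivity)), div_eq_iff hS.ne'] at h
    rw [div_eq_inv_mul, ← one_div, ← h]
    exact sum_congr rfl fun s _ => by simp [iz]
  have e2 : ∀ a ∈ A, ∀ b ∈ A, ∑ s ∈ range (2 ^ (2 * L)), (iz L s (x a) l : ℝ) * iz L s (x b) l ≤
      (if a = b then 2 ^ (2 * L) / 2 ^ l else 0) + 2 ^ (2 * L) / (2 ^ l) ^ 2 := by
    intro a ha b hb
    split_ifs with hab
    · subst hab
      rw [← e1 a ha]
      refine le_trans (le_of_eq (sum_congr rfl fun s _ => ?_)) (le_add_of_nonneg_right (by positivity))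
      unfold iz
      split_ifs <;> simp
    · have h := indep_two (k := 2) (L := L) (m := l) (fun h => hab (hx ha hb h)) (hn a ha) (hn b hb)
        le_rfl hL fun t u => (if t = 0 then 1 else 0) * if u = 0 then 1 else 0
      simp only [← mul_sum, ← sum_mul, sum_ite_eq', mem_range, Nat.two_pow_pos, if_true] at h
      rw [div_eq_iff hS.ne'] at h
      rw [zero_add, div_eq_inv_mul, ← one_div, ← mul_one (1 : ℝ), ← h]
      exact le_of_eq (sum_congr rfl fun s _ => by simp [iz])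
  have h3 : ∀ s, (if Even (∑ a ∈ A, iz L s (x a) l) then (1 : ℝ) else 0) ≤
      1 - 2 * ∑ a ∈ A, (iz L s (x a) l : ℝ) +
        ∑ a ∈ A, ∑ b ∈ A, (iz L s (x a) l : ℝ) * iz L s (x b) l := by
    intro s
    rw [← sum_mul_sum, ← Nat.cast_sum]
    generalize ∑ a ∈ A, iz L s (x a) l = c
    split_ifs with h
    · rcases Nat.eq_zero_or_pos c with rfl | h0
      · simp
      · have : 2 ≤ c := by
          obtain ⟨d, rfl⟩ := h
          omega
        have : (2 : ℝ) ≤ c := by exact_mod_cast this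
        nlinarith
    · nlinarith [sq_nonneg ((c : ℝ) - 1)]
  refine (sum_le_sum fun s _ => h3 s).trans ?_
  rw [sum_add_distrib, sum_sub_distrib, ← mul_sum, sum_comm, sum_congr rfl e1, sum_comm,
    sum_const, sum_const, card_range, nsmul_eq_mul, nsmul_eq_mul]
  have h4 : ∑ a ∈ A, ∑ s ∈ range (2 ^ (2 * L)), ∑ b ∈ A, (iz L s (x a) l : ℝ) * iz L s (x b) l ≤
      A.card * (2 ^ (2 * L) / 2 ^ l + A.card * (2 ^ (2 * L) / (2 ^ l) ^ 2)) := by
    rw [← nsmul_eq_mul]
    refine sum_le_card_nsmul _ _ _ fun a ha => ?_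
    rw [sum_comm]
    refine (sum_le_sum (e2 a ha)).trans (le_of_eq ?_)
    rw [sum_add_distrib, sum_ite_eq, if_pos ha, sum_const, nsmul_eq_mul]
  have h5 : (2 : ℝ) * A.card ≤ 2 ^ l := by exact_mod_cast h1
  have h6 : (2 : ℝ) ^ l ≤ 4 * A.card := by exact_mod_cast h2
  have h7 : (1 : ℝ) / 4 ≤ A.card / 2 ^ l := by rw [le_div_iff₀ hq]; linarith
  have h8 : (A.card : ℝ) / 2 ^ l ≤ 1 / 2 := by rw [div_le_iff₀ hq]; linarith
  have h9 : (A.card : ℝ) * (2 ^ (2 * L) / 2 ^ l) = A.card / 2 ^ l * 2 ^ (2 * L) := by ring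
  have h10 : (A.card : ℝ) * (2 ^ (2 * L) / 2 ^ l + A.card * (2 ^ (2 * L) / (2 ^ l) ^ 2)) =
      (A.card / 2 ^ l + (A.card / 2 ^ l) ^ 2) * 2 ^ (2 * L) := by ring
  rw [h10] at h4
  rw [h9]
  push_cast
  generalize (A.card : ℝ) / 2 ^ l = μ at *
  nlinarith [mul_nonneg (mul_nonneg (sub_nonneg.2 h7) (show 0 ≤ 3 / 4 - μ by linarith)) hS.le]

theorem sum_char (N : ℕ) (c : ℕ → ℕ) :
    ∑ β ∈ range (2 ^ N), ∏ i ∈ range N, (-1 : ℝ) ^ (bt β i * c i) =
      ∏ i ∈ range N, (1 + (-1) ^ c i) := by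
  induction N with
  | zero => simp
  | succ N ih =>
    have h0 : 0 < 2 ^ N := by positivity
    rw [pow_succ, sum_range_mul, prod_range_succ, ← ih, sum_mul]
    refine sum_congr rfl fun u hu => ?_
    have e : ∀ d, ∏ i ∈ range N, (-1 : ℝ) ^ (bt (u + 2 ^ N * d) i * c i) =
        ∏ i ∈ range N, (-1 : ℝ) ^ (bt u i * c i) := by
      intro d
      refine prod_congr rfl fun i hi => ?_
      obtain ⟨k, hk⟩ := Nat.exists_eq_add_of_lt (mem_range.1 hi)
      rw [bt, bt, hk, add_assoc, pow_add, mul_assoc, Nat.add_mul_div_left _ _ (by positivity),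
        pow_succ, mul_comm (2 ^ k), mul_assoc, Nat.add_mul_mod_self_left]
    have e' : ∀ d, bt (u + 2 ^ N * d) N = d % 2 := by
      intro d
      rw [bt, Nat.add_mul_div_left _ _ h0, Nat.div_eq_of_lt (mem_range.1 hu), zero_add]
    simp only [prod_range_succ, e, e', sum_range_succ, range_zero, sum_empty]
    simp [mul_add]

theorem one_add_neg_one_pow (c : ℕ) : (1 : ℝ) + (-1) ^ c = 2 * if Even c then 1 else 0 := by
  split_ifs with h
  · rw [h.neg_one_pow]
    norm_num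
  · rw [(Nat.not_even_iff_odd.1 h).neg_one_pow]
    norm_num

theorem density {ι : Type} [DecidableEq ι] {A : Finset ι} {x : ι → ℕ} (hx : Set.InjOn x A)
    {n L lev : ℕ} (hn : ∀ a ∈ A, x a < 2 ^ n) (hL : lev + 2 * n ≤ L) (hA : A.Nonempty)
    (hc : 4 * A.card < 2 ^ lev) :
    ∑ s ∈ range (4 ^ (L + lev)), (if Even (∑ a ∈ A, pz L lev s (x a)) then (1 : ℝ) else 0) ≤
      29 / 32 * (4 ^ (L + lev) : ℕ) := by
  have hc0 := hA.card_pos
  obtain ⟨l, hl, h1, h2⟩ : ∃ l < lev, 2 * A.card ≤ 2 ^ l ∧ 2 ^ l ≤ 4 * A.card := by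
    refine ⟨Nat.log 2 (4 * A.card), Nat.log_lt_of_lt_pow (by omega) hc, ?_,
      Nat.pow_log_le_self 2 (by omega)⟩
    have := Nat.lt_pow_succ_log_self (b := 2) (by norm_num) (4 * A.card)
    rw [pow_succ] at this
    omega
  have h3 := isolate hx hn (L := L) (by omega) h1 h2
  have e4 : 2 ^ L * 2 ^ L = 4 ^ L := (mul_pow 2 2 L).symm
  have e5 : 4 ^ lev = 2 ^ (2 * lev) := (pow_mul 2 2 lev).symm
  have h4L : 0 < 4 ^ L := by positivity
  rw [e4] at h3
  rw [pow_add, sum_range_mul, e5]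
  have h5 : ∀ s ∈ range (4 ^ L), ∑ β ∈ range (2 ^ (2 * lev)),
      (if Even (∑ a ∈ A, pz L lev (s + 4 ^ L * β) (x a)) then (1 : ℝ) else 0) ≤
        2 ^ (2 * lev) / 2 * (1 + if Even (∑ a ∈ A, iz L s (x a) l) then (1 : ℝ) else 0) := by
    intro s hs
    have e6 : ∀ β, (if Even (∑ a ∈ A, pz L lev (s + 4 ^ L * β) (x a)) then (1 : ℝ) else 0) =
        (1 + ∏ i ∈ range (2 * lev), (-1 : ℝ) ^ (bt β i * ∑ a ∈ A, iz L s (x a) i)) / 2 := by
      intro β
      rw [prod_pow_eq_pow_sum, one_add_neg_one_pow, mul_div_cancel_left₀ _ two_ne_zero]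
      simp only [pz, Nat.add_mul_div_left _ _ h4L, Nat.div_eq_of_lt (mem_range.1 hs), zero_add,
        Nat.add_mul_mod_self_left, Nat.mod_eq_of_lt (mem_range.1 hs), mul_sum]
      rw [sum_comm]
    rw [sum_congr rfl fun β _ => e6 β, ← sum_div, sum_add_distrib, sum_char, sum_const, card_range,
      nsmul_eq_mul, mul_one, div_mul_eq_mul_div, mul_add, mul_one]
    push_cast
    gcongr
    simp only [one_add_neg_one_pow]
    rw [prod_mul_distrib, prod_const, card_range, ← mul_prod_erase _ _ (mem_range.2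
      (show l < 2 * lev by omega))]
    refine mul_le_mul_of_nonneg_left (mul_le_of_le_one_right (by positivity)
      (prod_le_one (fun _ _ => by positivity) fun _ _ => ?_)) (by positivity)
    split_ifs <;> norm_num
  refine (sum_le_sum h5).trans ?_
  rw [← mul_sum, sum_add_distrib, sum_const, card_range, nsmul_eq_mul, mul_one]
  push_cast at h3 ⊢
  nlinarith [mul_le_mul_of_nonneg_left h3 (show (0 : ℝ) ≤ 2 ^ (2 * lev) by positivity)]

theorem two_pow_slen (L t lev : ℕ) :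
    2 ^ slen L t lev = 4 ^ (L + lev) * (4 ^ (us * t) * 2 ^ t) := by
  rw [slen, pow_add, pow_add, pow_mul, pow_mul 2 2, mul_assoc]
  rfl

/-- The bias of the parity over a small nonempty set. -/
theorem bias {ι : Type} [DecidableEq ι] {A : Finset ι} {x : ι → ℕ} (hx : Set.InjOn x A)
    {n L lev : ℕ} (e : ℕ) (hn : ∀ a ∈ A, x a < 2 ^ n) (hL : lev + 2 * n ≤ L) (hA : A.Nonempty)
    (hc : 4 * A.card < 2 ^ lev) :
    |∑ σ ∈ range (2 ^ slen L (70 * e) lev), ∏ a ∈ A, (-1 : ℝ) ^ sb L (70 * e) lev σ (x a)| ≤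
      2 ^ slen L (70 * e) lev / 2 ^ e := by
  set t := 70 * e with ht
  let f : ℕ → ℝ := fun s => if Even (∑ a ∈ A, pz L lev s (x a)) then 1 else 0
  have hf : ∀ s, f s = 0 ∨ f s = 1 := fun s => by
    simp only [f]
    split_ifs <;> simp
  have e4 : 2 ^ (L + lev) * 2 ^ (L + lev) = 4 ^ (L + lev) := (mul_pow 2 2 _).symm
  have h3 := sum_hit (2 ^ (L + lev)) hf (by
    rw [e4]
    exact density hx hn hL hA hc) e
  rw [e4, ← ht] at h3
  have h4L : 0 < 4 ^ (L + lev) := by positivity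
  have h4t : 0 < 4 ^ (us * t) := by positivity
  have h5 : ∀ s ∈ range (4 ^ (L + lev)), ∀ w ∈ range (4 ^ (us * t)),
      ∑ β ∈ range (2 ^ t),
        ∏ a ∈ A, (-1 : ℝ) ^ sb L t lev (s + 4 ^ (L + lev) * (w + 4 ^ (us * t) * β)) (x a) =
        2 ^ t * ∏ j ∈ range t, f (walk (2 ^ (L + lev)) (us * j) w s) := by
    intro s hs w hw
    let c : ℕ → ℕ := fun j => ∑ a ∈ A, pz L lev (walk (2 ^ (L + lev)) (us * j) w s) (x a)
    have e5 : ∀ β, ∏ a ∈ A, (-1 : ℝ) ^ sb L t lev (s + 4 ^ (L + lev) * (w + 4 ^ (us * t) * β)) (x a) =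
        ∏ i ∈ range t, (-1 : ℝ) ^ (bt β i * c i) := by
      intro β
      simp only [sb, ← neg_one_pow_eq_pow_mod_two, Nat.add_mul_div_left _ _ h4L,
        Nat.div_eq_of_lt (mem_range.1 hs), zero_add, Nat.add_mul_div_left _ _ h4t,
        Nat.div_eq_of_lt (mem_range.1 hw), Nat.add_mul_mod_self_left,
        Nat.mod_eq_of_lt (mem_range.1 hs), Nat.mod_eq_of_lt (mem_range.1 hw)]
      rw [prod_pow_eq_pow_sum, prod_pow_eq_pow_sum, sum_comm]
      simp only [c, mul_sum]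
    rw [sum_congr rfl fun β _ => e5 β, sum_char]
    simp only [one_add_neg_one_pow]
    rw [prod_mul_distrib, prod_const, card_range]
  have e6 : (2 : ℝ) ^ slen L t lev = 4 ^ (L + lev) * (4 ^ (us * t) * 2 ^ t) := by
    exact_mod_cast two_pow_slen L t lev
  rw [e6, two_pow_slen, sum_range_mul]
  have h8 : ∀ s ∈ range (4 ^ (L + lev)), ∑ d ∈ range (4 ^ (us * t) * 2 ^ t),
      ∏ a ∈ A, (-1 : ℝ) ^ sb L t lev (s + 4 ^ (L + lev) * d) (x a) =
        4 ^ (us * t) * 2 ^ t * hit (2 ^ (L + lev)) us f t s := by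
    intro s hs
    rw [sum_range_mul, sum_congr rfl (h5 s hs), ← mul_sum, hit]
    field_simp
  rw [sum_congr rfl h8, ← mul_sum, abs_of_nonneg (mul_nonneg (by positivity) (sum_nonneg fun s _ =>
    div_nonneg (sum_nonneg fun w _ => prod_nonneg fun j _ => by
      rcases hf (walk (2 ^ (L + lev)) (us * j) w s) with h | h <;> simp [h]) (by positivity)))]
  refine (mul_le_mul_of_nonneg_left h3 (by positivity)).trans (le_of_eq ?_)
  push_cast
  ring

/-- The bits at few points are almost independent and uniform. -/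
theorem pattern {ι : Type} [DecidableEq ι] {A : Finset ι} {x : ι → ℕ} (hx : Set.InjOn x A)
    {n L lev : ℕ} (e : ℕ) (hn : ∀ a ∈ A, x a < 2 ^ n) (hL : lev + 2 * n ≤ L)
    (hc : 4 * A.card < 2 ^ lev) {γ : ι → ℕ} (hγ : ∀ a ∈ A, γ a < 2) :
    |(∑ σ ∈ range (2 ^ slen L (70 * e) lev),
        if ∀ a ∈ A, sb L (70 * e) lev σ (x a) = γ a then (1 : ℝ) else 0) /
          2 ^ slen L (70 * e) lev - 1 / 2 ^ A.card| ≤ 1 / 2 ^ e := by
  set t := 70 * e with ht
  have hS : (0 : ℝ) < 2 ^ slen L t lev := by positivity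
  have hA : (0 : ℝ) < 2 ^ A.card := by positivity
  have h1 : ∀ σ, (if ∀ a ∈ A, sb L t lev σ (x a) = γ a then (1 : ℝ) else 0) =
      (∑ B ∈ A.powerset, (∏ a ∈ B, (-1 : ℝ) ^ γ a) * ∏ a ∈ B, (-1 : ℝ) ^ sb L t lev σ (x a)) /
        2 ^ A.card := by
    intro σ
    simp only [← prod_mul_distrib]
    rw [← prod_one_add, ← prod_const, ← prod_div_distrib, ← prod_boole]
    refine prod_congr rfl fun a ha => ?_
    have h2 := sb_lt L t lev σ (x a)
    have h3 := hγ a ha
    generalize sb L t lev σ (x a) = u at *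
    generalize γ a = v at *
    interval_cases u <;> interval_cases v <;> norm_num
  rw [sum_congr rfl fun σ _ => h1 σ, ← sum_div, sum_comm, div_right_comm, ← sub_div, abs_div,
    abs_of_pos hA, div_le_iff₀ hA, ← add_sum_erase _ _ (empty_mem_powerset A)]
  simp only [prod_empty, mul_one, sum_const, card_range, nsmul_eq_mul]
  push_cast
  rw [add_div, div_self hS.ne', add_sub_cancel_left, abs_div, abs_of_pos hS, div_le_iff₀ hS]
  refine (abs_sum_le_sum_abs _ _).trans ((sum_le_card_nsmul _ _ (2 ^ slen L t lev / 2 ^ e)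
    fun B hB => ?_).trans ?_)
  · obtain ⟨hB0, hB⟩ := mem_erase.1 hB
    have hB := mem_powerset.1 hB
    rw [← mul_sum, abs_mul, abs_prod, prod_eq_one fun a _ => abs_neg_one_pow _, one_mul]
    exact bias (hx.mono hB) e (fun a ha => hn a (hB ha)) hL (nonempty_iff_ne_empty.2 hB0)
      (lt_of_le_of_lt (Nat.mul_le_mul_left _ (card_le_card hB)) hc)
  · rw [nsmul_eq_mul]
    have h4 : ((A.powerset.erase ∅).card : ℝ) ≤ 2 ^ A.card := by
      exact_mod_cast (card_le_card (erase_subset _ _)).trans (card_powerset A).le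
    refine (mul_le_mul_of_nonneg_right h4 (by positivity)).trans (le_of_eq ?_)
    ring

attribute [irreducible] us sb slen

end Vale.Agent.P313.NL
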