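import Vale.Agent.P313.NL.CPLin

/-!
The bilinear bound: the second stage, where the values `g t` of the first hash function are fixed.
-/

namespace Vale.Agent.P313.NL

open Finset KH

theorem bt_xor (u v p : ℕ) : bt (u ^^^ v) p = (bt u p + bt v p) % 2 :=
  cast_inj (bt_lt _ _) (Nat.mod_lt _ (by norm_num)) (by
    rw [cast_bt_xor, ZMod.natCast_mod, Nat.cast_add])

theorem fib_le {κ : Type} {A B : Finset κ} (y : κ → ℕ) {a b : κ → ℝ} (hb : ∀ t ∈ B, 0 ≤ b t)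
    (h : ∀ t₀ ∈ A, ∑ t ∈ A with y t = y t₀, a t ≤ ∑ t ∈ B with y t = y t₀, b t) :
    ∑ t ∈ A, a t ≤ ∑ t ∈ B, b t := by
  rw [← sum_fiberwise_of_maps_to (s := A) (t := A.image y) (g := y)
    fun t ht => mem_image_of_mem y ht]
  refine le_trans (sum_le_sum fun v hv => ?_) (sum_fiberwise_le_sum_of_sum_fiber_nonneg
    (s := B) (t := A.image y) (g := y) fun v _ => sum_nonneg fun t ht => hb t (mem_filter.1 ht).1)
  obtain ⟨t₀, h0, rfl⟩ := mem_image.1 hv
  exact h t₀ h0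

theorem rem_union {Q Q' : Finset ℕ} (h : Disjoint Q Q') (i : ℕ) :
    rem (Q ∪ Q') i = rem Q i + rem Q' i := by
  rw [rem, filter_union, card_union_of_disjoint (disjoint_filter_filter h)]
  rfl

/-- The constant of the linear bounds. -/
def kp (m f : ℕ) : ℕ := 2 ^ nlay m * (1 + 2 ^ 22 * (f + 1) ^ 2)

theorem cast_kp (m f : ℕ) : (kp m f : ℝ) = 2 ^ nlay m * (1 + 2 ^ 22 * (f + 1) ^ 2) := by
  rw [kp]
  push_cast
  norm_num

theorem le_kp (m f : ℕ) : 1 + 2 ^ 22 * ((f : ℝ) + 1) ^ 2 ≤ kp m f := by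
  rw [cast_kp]
  exact le_mul_of_one_le_left (by positivity) (one_le_pow₀ (by norm_num))

variable {κ : Type} {n m : ℕ} (f : ℕ) {T : Finset κ} {y : κ → ℕ} {Qz Qy Qj : Finset ℕ}

theorem joint (g : κ → ℕ) (α β β' : ℕ) (hQy : Qy ⊆ range m) (hQj : Qj ⊆ range m)
    (hLy : Lay 16 Qy) (hLj : Lay 16 Qj) (hd : Disjoint Qy Qj) (hy : ∀ t ∈ T, y t < 2 ^ n) {N : ℝ}
    (hN : 1 ≤ N) (hT : (#T : ℝ) ≤ N * 2 ^ (#Qy + #Qz + #Qj))
    (hdy : ∀ t₀ ∈ T, (#{t ∈ T | y t = y t₀} : ℝ) ≤ N * 2 ^ (#Qz + #Qj))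
    (h1 : (#{t ∈ T | Ag Qz (g t) α} : ℝ) ≤ kp m f * N * 2 ^ (#Qy + #Qj))
    (h2 : ∀ t₀ ∈ T, ∀ i ≤ nlay m,
      (#{t ∈ T | y t = y t₀ ∧ Ag (Qz ∪ {p ∈ Qj | lay p < i}) (g t) (g t₀)} : ℝ) ≤
        kp m f * (#{t ∈ T | y t = y t₀} / 2 ^ (#Qz + rev Qj i) + 2 ^ (rem Qj i / 4))) :
    (#{σ ∈ range ((2 ^ cS n m f) ^ nlay m) | 2 ^ nlay m * (4 * kp m f ^ 2) * N <
      #{t ∈ T | Ag Qz (g t) α ∧ Ag Qy (cG n m f σ (y t)) β ∧
        Ag Qj (cG n m f σ (y t) ^^^ g t) β'}} : ℝ) ≤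
      2 * (nlay m * (7 / 4 ^ f) * ((2 ^ cS n m f) ^ nlay m : ℕ)) := by
  classical
  have hk := le_kp m f
  have hk1 : (1 : ℝ) ≤ kp m f := le_trans (le_add_of_nonneg_right (by positivity)) hk
  set K : ℝ := (kp m f : ℝ) with hK
  let γ : κ → ℕ := fun t => ∑ p ∈ range m, (if p ∈ Qj then bt (β' ^^^ g t) p else bt β p) * 2 ^ p
  have hγ : ∀ t, ∀ p < m, bt (γ t) p = if p ∈ Qj then bt (β' ^^^ g t) p else bt β p :=
    fun t p hp => bt_sum_digits (b := fun p => if p ∈ Qj then bt (β' ^^^ g t) p else bt β p)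
      (fun p => by split_ifs <;> exact bt_lt _ _) hp
  have hγy : ∀ t, ∀ p ∈ Qy, bt (γ t) p = bt β p := fun t p hp => by
    rw [hγ t p (mem_range.1 (hQy hp)), if_neg (disjoint_left.1 hd hp)]
  have hγj : ∀ t, ∀ p ∈ Qj, bt (γ t) p = (bt β' p + bt (g t) p) % 2 := fun t p hp => by
    rw [hγ t p (mem_range.1 (hQj hp)), if_pos hp, bt_xor]
  have hQ : Qy ∪ Qj ⊆ range m := union_subset hQy hQj
  set T₀ := {t ∈ T | Ag Qz (g t) α} with hT₀
  let W : ℕ → (ℕ → ℕ) → ℝ := fun i d => cnt n m f T y (fun _ => β) (fun _ => 1 / 2 ^ #Qz) Qy i d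
  have hW := up_all (n := n) (T := T) (y := y) f (fun _ => β) (c := fun _ => 1 / 2 ^ #Qz) hQy hLy hy
    (fun _ _ => by positivity) (wm := N * 2 ^ #Qj) (tot := N * 2 ^ (#Qy + #Qj)) (by positivity)
    (fun t₀ h0 => by
      rw [sum_const, nsmul_eq_mul, mul_one_div, div_le_iff₀ (by positivity), mul_assoc, ← pow_add,
        add_comm]
      exact hdy t₀ h0)
    (by
      rw [sum_const, nsmul_eq_mul, mul_one_div, div_le_iff₀ (by positivity), mul_assoc, ← pow_add,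
        add_right_comm]
      exact hT)
  have hloc : ∀ A : Finset κ, A ⊆ T₀ → ∀ t₀ ∈ A, ∀ i ≤ nlay m,
      ∑ t ∈ A with y t = y t₀ ∧ Ag {p ∈ Qy ∪ Qj | lay p < i} (γ t) (γ t₀), (1 : ℝ) ≤
        K * (#{t ∈ T | y t = y t₀} / 2 ^ (#Qz + rev Qj i) + 2 ^ (rem Qj i / 4)) := by
    intro A hA t₀ h0 i hi
    obtain ⟨h3, h4⟩ := mem_filter.1 (hA h0)
    refine le_trans ?_ (h2 t₀ h3 i hi)
    rw [sum_const, nsmul_eq_mul, mul_one, Nat.cast_le]
    refine card_le_card fun t ht => ?_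
    obtain ⟨h5, h6, h7⟩ := mem_filter.1 ht
    obtain ⟨h8, h9⟩ := mem_filter.1 (hA h5)
    refine mem_filter.2 ⟨h8, h6, fun p hp => ?_⟩
    rcases mem_union.1 hp with hp | hp
    · rw [h9 p hp, h4 p hp]
    · obtain ⟨hp, hp'⟩ := mem_filter.1 hp
      have h10 := h7 p (mem_filter.2 ⟨mem_union_right _ hp, hp'⟩)
      rw [hγj t p hp, hγj t₀ p hp] at h10
      have := bt_lt (g t) p
      have := bt_lt (g t₀) p
      omega
  have hC : (#{σ ∈ range ((2 ^ cS n m f) ^ nlay m) | ¬∀ i ≤ nlay m,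
      (∀ j ≤ i, W j (dig (2 ^ cS n m f) σ) ≤ K * N * 2 ^ (#Qj + rem Qy j)) →
        cnt n m f T₀ y γ (fun _ => 1) (Qy ∪ Qj) i (dig (2 ^ cS n m f) σ) ≤
          2 ^ i * (4 * K ^ 2) * N * 2 ^ rem (Qy ∪ Qj) i} : ℝ) ≤
      nlay m * (7 / 4 ^ f) * ((2 ^ cS n m f) ^ nlay m : ℕ) := by
    refine chain (fun i d => (∀ j ≤ i, W j d ≤ K * N * 2 ^ (#Qj + rem Qy j)) →
      cnt n m f T₀ y γ (fun _ => 1) (Qy ∪ Qj) i d ≤ 2 ^ i * (4 * K ^ 2) * N * 2 ^ rem (Qy ∪ Qj) i)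
      (fun i d d' h h' h'' => ?_) (fun d _ => ?_) _ (by positivity) fun i hi d hd' => ?_
    · rw [← cnt_loc f γ h]
      refine h' fun j hj => le_trans (le_of_eq ?_) (h'' j hj)
      exact cnt_loc f _ fun k hk => h k (by omega)
    · rw [cnt_zero, rem_zero, card_union_of_disjoint hd, sum_const, nsmul_eq_mul, mul_one]
      refine h1.trans ?_
      gcongr
      nlinarith
    by_cases hWd : ∀ j ≤ i, W j d ≤ K * N * 2 ^ (#Qj + rem Qy j)
    swap
    · refine le_trans (le_of_eq ?_) (show (0 : ℝ) ≤ _ by positivity)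
      rw [Nat.cast_eq_zero, card_eq_zero, filter_eq_empty_iff]
      refine fun s _ => not_not.2 fun h => absurd (fun j hj => ?_) hWd
      refine le_trans (le_of_eq ?_) (h j (by omega))
      exact cnt_loc f _ fun k hk => (Function.update_of_ne (by omega) _ _).symm
    have hd'' := hd' hWd
    set B := 2 ^ i * (4 * K ^ 2) * N * 2 ^ rem (Qy ∪ Qj) i with hB
    let lt : κ → Prop := fun t₀ =>
      (#{t ∈ T | y t = y t₀} : ℝ) / 2 ^ (#Qz + rev Qj (i + 1)) ≤ 2 ^ (rem Qj (i + 1) / 4)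
    have hsplit : ∀ j d, cnt n m f T₀ y γ (fun _ => 1) (Qy ∪ Qj) j d =
        cnt n m f {t ∈ T₀ | lt t} y γ (fun _ => 1) (Qy ∪ Qj) j d +
          cnt n m f {t ∈ T₀ | ¬lt t} y γ (fun _ => 1) (Qy ∪ Qj) j d := by
      intro j d
      rw [cnt, cnt, cnt, filter_comm lt, filter_comm (fun t => ¬lt t), sum_filter_add_sum_filter_not]
    have hl : cnt n m f {t ∈ T₀ | lt t} y γ (fun _ => 1) (Qy ∪ Qj) i d ≤ B := by
      refine le_trans ?_ hd''
      rw [hsplit]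
      exact le_add_of_nonneg_right (cnt_nonneg f γ (fun _ _ => zero_le_one) _ _)
    have hR := rem_union hd (i + 1)
    have hR' := rem_succ (Qy ∪ Qj) i
    refine le_trans (card_filter_mono fun s _ hs => ?_) (stepD f γ (T := {t ∈ T₀ | lt t}) hQ
      (fun t ht => hy t (mem_filter.1 (mem_filter.1 ht).1).1) (fun _ _ => zero_le_one) i d
      (wm := 2 * K * 2 ^ (rem Qj (i + 1) / 4)) (by positivity) (fun t₀ h0 => ?_) hl ?_)
    · refine lt_of_not_ge fun h3 => hs fun h4 => ?_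
      have h5 := (abs_le.1 h3).2
      have h6 := div_le_div_of_nonneg_right hl (show (0 : ℝ) ≤ 2 ^ lyr (Qy ∪ Qj) i by positivity)
      have h7 : B / (2 * 2 ^ lyr (Qy ∪ Qj) i) = B / 2 ^ lyr (Qy ∪ Qj) i / 2 := by
        rw [div_div, mul_comm]
      have h8 : B / 2 ^ lyr (Qy ∪ Qj) i = 2 ^ i * (4 * K ^ 2) * N * 2 ^ rem (Qy ∪ Qj) (i + 1) := by
        rw [hB, hR', pow_add]
        field_simp
      have h9 : cnt n m f {t ∈ T₀ | ¬lt t} y γ (fun _ => 1) (Qy ∪ Qj) (i + 1)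
          (Function.update d i s) ≤ 2 * K / 2 ^ rev Qj (i + 1) * W (i + 1) (Function.update d i s) := by
        simp only [W, cnt]
        rw [mul_sum]
        refine fib_le y (fun _ _ => by positivity) fun t₀ h0 => ?_
        obtain ⟨h10, h11⟩ := mem_filter.1 h0
        obtain ⟨h12, h13⟩ := mem_filter.1 h10
        refine le_trans (sum_le_sum_of_subset_of_nonneg (fun t ht => ?_) fun _ _ _ => zero_le_one)
          ((hloc T₀ subset_rfl t₀ h12 (i + 1) hi).trans ?_)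
        · obtain ⟨h14, h15⟩ := mem_filter.1 ht
          obtain ⟨h16, h17⟩ := mem_filter.1 h14
          refine mem_filter.2 ⟨(mem_filter.1 h16).1, h15, fun p hp => ?_⟩
          obtain ⟨hp, hp'⟩ := mem_filter.1 hp
          rw [← h17 p hp hp', ← h11 p hp hp', h15]
        · have e : {t ∈ {t ∈ T | ∀ p ∈ Qy, lay p < i + 1 →
              cb n m f (Function.update d i s (lay p)) (y t) p = bt β p} | y t = y t₀} =
              {t ∈ T | y t = y t₀} := by
            rw [filter_filter]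
            refine filter_congr fun t _ => ⟨fun h => h.2, fun h => ⟨fun p hp hp' => ?_, h⟩⟩
            rw [h, h11 p (mem_union_left _ hp) hp', hγy t₀ p hp]
          rw [e, sum_const, nsmul_eq_mul]
          have h14 := (not_le.1 h13).le
          refine (mul_le_mul_of_nonneg_left (add_le_add le_rfl h14) (by positivity)).trans
            (le_of_eq ?_)
          rw [pow_add]
          field_simp
          ring
      have h10 : 2 * K / 2 ^ rev Qj (i + 1) * (K * N * 2 ^ (#Qj + rem Qy (i + 1))) =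
          2 * K ^ 2 * N * 2 ^ rem (Qy ∪ Qj) (i + 1) := by
        rw [hR, ← rev_add_rem Qj (i + 1), pow_add, pow_add, pow_add]
        field_simp
      have h11 := h9.trans ((mul_le_mul_of_nonneg_left (h4 (i + 1) le_rfl) (by positivity)).trans
        h10.le)
      have h12 : 2 * K ^ 2 * N * 2 ^ rem (Qy ∪ Qj) (i + 1) ≤
          2 ^ i * (2 * K ^ 2 * N * 2 ^ rem (Qy ∪ Qj) (i + 1)) :=
        le_mul_of_one_le_left (by positivity) (one_le_pow₀ (by norm_num))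
      rw [hsplit, pow_succ (2 : ℝ) i]
      rw [h7, h8] at h5
      rw [h8] at h6
      linarith
    · refine (hloc _ (filter_subset _ _) t₀ h0 (i + 1) hi).trans ?_
      have h3 : lt t₀ := (mem_filter.1 h0).2
      refine (mul_le_mul_of_nonneg_left (add_le_add h3 le_rfl) (by positivity)).trans (le_of_eq ?_)
      ring
    · have h3 : (16 : ℝ) ^ lyr (Qy ∪ Qj) i * 2 ^ (rem Qj (i + 1) / 4) ≤
          2 ^ 8 * 2 ^ rem (Qy ∪ Qj) i := by
        rw [show (16 : ℝ) = 2 ^ 4 by norm_num, ← pow_mul, ← pow_add, ← pow_add]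
        have := (hLy.union hLj hd).le i
        exact pow_le_pow_right₀ (by norm_num) (by omega)
      have h4 : (1 : ℝ) ≤ 2 ^ i := one_le_pow₀ (by norm_num)
      calc _ = 128 * (f + 1) ^ 2 * K * (16 ^ lyr (Qy ∪ Qj) i * 2 ^ (rem Qj (i + 1) / 4)) := by ring
        _ ≤ 128 * (f + 1) ^ 2 * K * (2 ^ 8 * 2 ^ rem (Qy ∪ Qj) i) := by gcongr
        _ = 1 * (2 ^ 15 * (f + 1) ^ 2 * K) * 1 * 2 ^ rem (Qy ∪ Qj) i := by ring
        _ ≤ B := by
          rw [hB]
          have h5 : 2 ^ 15 * ((f : ℝ) + 1) ^ 2 * K ≤ 4 * K ^ 2 := by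
            nlinarith [sq_nonneg ((f : ℝ) + 1)]
          gcongr ?_ * ?_ * ?_ * _
  rw [two_mul]
  refine le_trans ?_ (add_le_add hW hC)
  rw [← Nat.cast_add, Nat.cast_le]
  refine le_trans (card_le_card fun σ hσ => ?_) (card_union_le _ _)
  obtain ⟨h3, h4⟩ := mem_filter.1 hσ
  rw [mem_union, mem_filter, mem_filter]
  by_contra h5
  rw [not_or, not_and, not_and, not_not, not_not] at h5
  have h6 := h5.2 h3 _ le_rfl fun j hj => (h5.1 h3 j hj).trans (by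
    have h7 : (2 : ℝ) ^ j ≤ 2 ^ nlay m := pow_le_pow_right₀ (by norm_num) hj
    have h8 : N * 2 ^ (#Qy + #Qj) / 2 ^ rev Qy j = N * 2 ^ (#Qj + rem Qy j) := by
      rw [← rev_add_rem Qy j, pow_add, pow_add, pow_add]
      field_simp
    rw [h8, hK, cast_kp, pow_add]
    calc _ ≤ 2 ^ nlay m * (N * (2 ^ #Qj * 2 ^ rem Qy j) +
          2 ^ 22 * (f + 1) ^ 2 * (N * 2 ^ #Qj) * 2 ^ rem Qy j) := by
          gcongr 1
          gcongr ?_ + ?_ * _
          norm_num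
          nlinarith [show (0 : ℝ) ≤ (f + 1) ^ 2 * (N * 2 ^ #Qj) by positivity]
      _ = _ := by ring)
  rw [cnt_nlay f γ hQ, rem_nlay hQ, pow_zero, mul_one, sum_const, nsmul_eq_mul, mul_one] at h6
  refine h4.not_ge (le_trans (Nat.cast_le.2 (card_le_card fun t ht => ?_)) h6)
  obtain ⟨h7, h8, h9, h10⟩ := mem_filter.1 ht
  refine mem_filter.2 ⟨mem_filter.2 ⟨h7, h8⟩, fun p hp => ?_⟩
  rcases mem_union.1 hp with hp | hp
  · rw [hγy t p hp, h9 p hp]
  · have h11 := h10 p hp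
    rw [bt_xor] at h11
    rw [hγj t p hp]
    have := bt_lt (cG n m f σ (y t)) p
    have := bt_lt (g t) p
    omega

end Vale.Agent.P313.NL
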