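import Vale.Agent.Lib.MathlibUsed
import Mathlib.Analysis.Complex.ExponentialBounds

/-!
Moments and tails of sums of bounded centred functions of almost independent patterns.
-/

namespace Vale.Agent.P313.NL

open Finset

variable {ι R : Type} [Fintype ι] [DecidableEq ι] [Fintype R] [DecidableEq R]

/-- The patterns `φ σ a` at any `k` points are almost independent and uniform. -/
def Close (S : ℕ) (φ : ℕ → ι → R) (k : ℕ) (ε : ℝ) : Prop :=
  ∀ A : Finset ι, A.card ≤ k → ∀ τ : A → R,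
    |(∑ σ ∈ range S, if ∀ a : A, φ σ a = τ a then (1 : ℝ) else 0) / S -
      1 / (Fintype.card R : ℝ) ^ A.card| ≤ ε

omit [Fintype ι] in
theorem transfer {S k : ℕ} {φ : ℕ → ι → R} {ε : ℝ} (h : Close S φ k ε) {A : Finset ι}
    (hA : A.card ≤ k) (g : ι → R → ℝ) :
    |(∑ σ ∈ range S, ∏ a ∈ A, g a (φ σ a)) / S - ∏ a ∈ A, (∑ r, g a r) / Fintype.card R| ≤
      ε * ∏ a ∈ A, ∑ r, |g a r| := by
  have h1 : ∀ σ, ∏ a ∈ A, g a (φ σ a) =
      ∑ τ : A → R, (if ∀ a : A, φ σ a = τ a then (1 : ℝ) else 0) * ∏ a : A, g a (τ a) := by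
    intro σ
    rw [sum_eq_single fun a : A => φ σ a, if_pos fun _ => rfl, one_mul, prod_coe_sort A
      fun a => g a (φ σ a)]
    · intro τ _ hτ
      rw [if_neg fun h => hτ (funext fun a => (h a).symm), zero_mul]
    · intro h
      exact absurd (mem_univ _) h
  have h2 : ∀ g : ι → R → ℝ, ∏ a ∈ A, ∑ r, g a r = ∑ τ : A → R, ∏ a : A, g a (τ a) := by
    intro g
    rw [← prod_coe_sort A, prod_univ_sum, Fintype.piFinset_univ]
  rw [sum_congr rfl fun σ _ => h1 σ, sum_comm, prod_div_distrib, prod_const, h2, h2, sum_div,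
    sum_div, ← sum_sub_distrib, mul_sum]
  refine (abs_sum_le_sum_abs _ _).trans (sum_le_sum fun τ _ => ?_)
  rw [← sum_mul, mul_div_right_comm, div_eq_mul_one_div (∏ a : A, g a (τ a)),
    mul_comm (∏ a : A, g a (τ a)), ← sub_mul, abs_mul, abs_prod]
  exact mul_le_mul_of_nonneg_right (h A hA τ) (prod_nonneg fun _ _ => abs_nonneg _)

omit [DecidableEq R] in
theorem uniform_prod [Nonempty R] (A : Finset ι) (g : ι → R → ℝ) :
    ∑ τ : ι → R, ∏ a ∈ A, g a (τ a) =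
      (Fintype.card R : ℝ) ^ Fintype.card ι * ∏ a ∈ A, (∑ r, g a r) / Fintype.card R := by
  have h0 : (Fintype.card R : ℝ) ≠ 0 := by exact_mod_cast Fintype.card_ne_zero
  have h1 : ∀ F : ι → ℝ, ∏ a ∈ A, F a = ∏ a, if a ∈ A then F a else 1 := fun F => by
    rw [prod_ite_mem, univ_inter]
  simp only [h1]
  rw [← Fintype.piFinset_univ, ← prod_univ_sum (fun _ => univ)
    fun a r => if a ∈ A then g a r else 1, ← card_univ (α := ι), ← prod_const, ← prod_mul_distrib]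
  refine prod_congr rfl fun a _ => ?_
  split_ifs
  · rw [mul_div_cancel₀ _ h0]
  · simp

omit [DecidableEq R] in
theorem uniform_exp {Z : ι → R → ℝ} {w : ι → ℝ} (hZ : ∀ y, ∑ r, Z y r = 0)
    (hw : ∀ y r, |Z y r| ≤ w y) (hV : ∑ y, w y ^ 2 ≤ 1) :
    ∑ τ : ι → R, Real.exp (∑ y, Z y (τ y)) ≤ (Fintype.card R : ℝ) ^ Fintype.card ι * 3 := by
  simp only [Real.exp_sum]
  rw [← Fintype.piFinset_univ, ← prod_univ_sum (fun _ => univ) fun y r => Real.exp (Z y r)]
  have h1 : ∀ y, ∑ r, Real.exp (Z y r) ≤ Fintype.card R * Real.exp (w y ^ 2) := by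
    intro y
    have h2 : w y ^ 2 ≤ 1 := (single_le_sum (f := fun y => w y ^ 2) (fun _ _ => sq_nonneg _)
      (mem_univ y)).trans hV
    have h3 : ∀ r, Real.exp (Z y r) ≤ Z y r + Real.exp (w y ^ 2) := by
      intro r
      have h4 : Z y r ^ 2 ≤ w y ^ 2 := by
        rw [← sq_abs]
        exact pow_le_pow_left₀ (abs_nonneg _) (hw y r) 2
      have h5 := (abs_le.1 (Real.abs_exp_sub_one_sub_id_le (x := Z y r)
        (sq_le_one_iff_abs_le_one _ |>.1 (h4.trans h2)))).2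
      linarith [Real.add_one_le_exp (w y ^ 2)]
    refine (sum_le_sum fun r _ => h3 r).trans (le_of_eq ?_)
    rw [sum_add_distrib, hZ, zero_add, sum_const, card_univ, nsmul_eq_mul]
  refine (prod_le_prod (fun y _ => sum_nonneg fun r _ => (Real.exp_pos _).le)
    fun y _ => h1 y).trans ?_
  rw [prod_mul_distrib, prod_const, card_univ, ← Real.exp_sum]
  refine mul_le_mul_of_nonneg_left ((Real.exp_le_exp.2 hV).trans ?_) (by positivity)
  exact Real.exp_one_lt_d9.le.trans (by norm_num)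

omit [DecidableEq R] in
theorem uniform_moment {Z : ι → R → ℝ} {w : ι → ℝ} {V : ℝ} (h : ℕ) (hZ : ∀ y, ∑ r, Z y r = 0)
    (hw : ∀ y r, |Z y r| ≤ w y) (hV0 : 0 < V) (hV : ∑ y, w y ^ 2 ≤ V) :
    ∑ τ : ι → R, (∑ y, Z y (τ y)) ^ (2 * h) ≤
      (Fintype.card R : ℝ) ^ Fintype.card ι * (6 * ((2 * h) ^ 2 * V) ^ h) := by
  have hs : 0 < √V := Real.sqrt_pos.2 hV0
  have hV' : ∑ y, (w y / √V) ^ 2 ≤ 1 := by
    simp only [div_pow, Real.sq_sqrt hV0.le]
    rw [← sum_div, div_le_one hV0]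
    exact hV
  have h1 := uniform_exp (Z := fun y r => Z y r / √V) (w := fun y => w y / √V)
    (fun y => by rw [← sum_div, hZ, zero_div]) (fun y r => by
      rw [abs_div, abs_of_pos hs]
      exact div_le_div_of_nonneg_right (hw y r) hs.le) hV'
  have h2 := uniform_exp (Z := fun y r => -(Z y r / √V)) (w := fun y => w y / √V)
    (fun y => by rw [sum_neg_distrib, ← sum_div, hZ, zero_div, neg_zero]) (fun y r => by
      rw [abs_neg, abs_div, abs_of_pos hs]
      exact div_le_div_of_nonneg_right (hw y r) hs.le) hV'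
  have h3 : ∀ x : ℝ, x ^ (2 * h) ≤
      ((2 * h) ^ 2 * V) ^ h * (Real.exp (x / √V) + Real.exp (-(x / √V))) := by
    intro x
    have h4 := Real.pow_div_factorial_le_exp |x / √V| (abs_nonneg _) (2 * h)
    have h5 : Real.exp |x / √V| ≤ Real.exp (x / √V) + Real.exp (-(x / √V)) := by
      rcases abs_choice (x / √V) with h | h <;> rw [h]
      · exact le_add_of_nonneg_right (Real.exp_pos _).le
      · exact le_add_of_nonneg_left (Real.exp_pos _).le
    have h6 : (((2 * h).factorial : ℕ) : ℝ) ≤ (2 * h) ^ (2 * h) := by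
      exact_mod_cast Nat.factorial_le_pow (2 * h)
    rw [pow_mul, sq_abs, div_pow, Real.sq_sqrt hV0.le, div_pow, div_div,
      div_le_iff₀ (by positivity), ← pow_mul] at h4
    refine h4.trans ?_
    rw [mul_comm, mul_pow, ← pow_mul, mul_comm _ (V ^ h)]
    gcongr
  refine (sum_le_sum fun τ _ => h3 _).trans ?_
  rw [← mul_sum, sum_add_distrib]
  simp only [sum_div, ← sum_neg_distrib]
  nlinarith [mul_le_mul_of_nonneg_left (add_le_add h1 h2)
    (show 0 ≤ ((2 * h : ℝ) ^ 2 * V) ^ h by positivity)]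

theorem moment [Nonempty R] {S h : ℕ} {φ : ℕ → ι → R} {ε : ℝ} (hφ : Close S φ (2 * h) ε)
    (hε : 0 ≤ ε) {Z : ι → R → ℝ} {w : ι → ℝ} {V U : ℝ} (hZ : ∀ y, ∑ r, Z y r = 0)
    (hw : ∀ y r, |Z y r| ≤ w y) (hV0 : 0 < V) (hV : ∑ y, w y ^ 2 ≤ V) (hU : ∑ y, w y ≤ U) :
    (∑ σ ∈ range S, (∑ y, Z y (φ σ y)) ^ (2 * h)) / S ≤
      6 * ((2 * h) ^ 2 * V) ^ h + ε * (Fintype.card R * U) ^ (2 * h) := by
  have h0 : (1 : ℝ) ≤ Fintype.card R := by exact_mod_cast Fintype.card_pos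
  have hw0 : ∀ y, 0 ≤ w y := fun y => (abs_nonneg _).trans (hw y (Classical.arbitrary R))
  let c : (Fin (2 * h) → ι) → ι → ℕ := fun f a => #{j | f j = a}
  have e1 : ∀ (F : ι → ℝ) (f : Fin (2 * h) → ι), ∏ j, F (f j) = ∏ a ∈ univ.image f, F a ^ c f a :=
    fun F f => prod_comp F f
  have e2 : ∀ F : ι → ℝ, (∑ y, F y) ^ (2 * h) =
      ∑ f : Fin (2 * h) → ι, ∏ a ∈ univ.image f, F a ^ c f a := by
    intro F
    rw [sum_pow', Fintype.piFinset_univ]
    exact sum_congr rfl fun f _ => e1 F f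
  have h1 := uniform_moment h hZ hw hV0 hV
  rw [sum_congr rfl fun τ _ => e2 _, sum_comm,
    sum_congr rfl fun f _ => uniform_prod _ fun a r => Z a r ^ c f a, ← mul_sum] at h1
  have h2 := le_of_mul_le_mul_left h1 (by positivity)
  rw [sum_congr rfl fun σ _ => e2 _, sum_comm, sum_div]
  have h3 : ∀ f : Fin (2 * h) → ι,
      (∑ σ ∈ range S, ∏ a ∈ univ.image f, Z a (φ σ a) ^ c f a) / S ≤
        ∏ a ∈ univ.image f, (∑ r, Z a r ^ c f a) / Fintype.card R +
          ε * ∏ a ∈ univ.image f, (Fintype.card R * w a) ^ c f a := by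
    intro f
    have h4 := (abs_le.1 (transfer hφ (A := univ.image f)
      (card_image_le.trans (by simp)) fun a r => Z a r ^ c f a)).2
    rw [sub_le_iff_le_add'] at h4
    refine h4.trans (add_le_add le_rfl (mul_le_mul_of_nonneg_left (prod_le_prod
      (fun _ _ => sum_nonneg fun _ _ => abs_nonneg _) fun a ha => ?_) hε))
    have h5 : c f a ≠ 0 := by
      obtain ⟨j, _, hj⟩ := mem_image.1 ha
      exact card_ne_zero.2 ⟨j, mem_filter.2 ⟨mem_univ _, hj⟩⟩
    refine (sum_le_card_nsmul _ _ (w a ^ c f a) fun r _ => ?_).trans ?_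
    · rw [abs_pow]
      exact pow_le_pow_left₀ (abs_nonneg _) (hw a r) _
    · rw [card_univ, nsmul_eq_mul, mul_pow]
      exact mul_le_mul_of_nonneg_right (le_self_pow₀ h0 h5) (pow_nonneg (hw0 a) _)
  refine (sum_le_sum fun f _ => h3 f).trans ?_
  rw [sum_add_distrib, ← mul_sum, ← e2, ← mul_sum]
  refine add_le_add h2 (mul_le_mul_of_nonneg_left (pow_le_pow_left₀
    (mul_nonneg (by positivity) (sum_nonneg fun y _ => hw0 y)) ?_ _) hε)
  exact mul_le_mul_of_nonneg_left hU (by positivity)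

/-- The tail bound. -/
theorem tail [Nonempty R] {S h : ℕ} {φ : ℕ → ι → R} {ε : ℝ} (hφ : Close S φ (2 * h) ε)
    (hε : 0 ≤ ε) {Z : ι → R → ℝ} {w : ι → ℝ} {V U Δ : ℝ} (hZ : ∀ y, ∑ r, Z y r = 0)
    (hw : ∀ y r, |Z y r| ≤ w y) (hV0 : 0 < V) (hV : ∑ y, w y ^ 2 ≤ V) (hU : ∑ y, w y ≤ U)
    (hΔ : 0 < Δ) :
    (#{σ ∈ range S | Δ < |∑ y, Z y (φ σ y)|} : ℝ) ≤
      (6 * ((2 * h) ^ 2 * V / Δ ^ 2) ^ h + ε * (Fintype.card R * U / Δ) ^ (2 * h)) * S := by
  rcases Nat.eq_zero_or_pos S with rfl | hS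
  · simp
  have h1 := moment hφ hε hZ hw hV0 hV hU
  rw [div_le_iff₀ (by exact_mod_cast hS)] at h1
  have h2 : (#{σ ∈ range S | Δ < |∑ y, Z y (φ σ y)|} : ℝ) * Δ ^ (2 * h) ≤
      ∑ σ ∈ range S, (∑ y, Z y (φ σ y)) ^ (2 * h) := by
    rw [← nsmul_eq_mul, ← sum_const]
    refine (sum_le_sum fun σ hσ => ?_).trans (sum_le_sum_of_subset_of_nonneg (filter_subset _ _)
      fun σ _ _ => (even_two_mul h).pow_nonneg _)
    rw [← (even_two_mul h).pow_abs (∑ y, Z y (φ σ y))]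
    exact pow_le_pow_left₀ hΔ.le (mem_filter.1 hσ).2.le _
  rw [← le_div_iff₀ (by positivity)] at h2
  refine h2.trans ((div_le_div_of_nonneg_right h1 (by positivity)).trans (le_of_eq ?_))
  rw [div_pow, div_pow, ← pow_mul]
  field_simp

end Vale.Agent.P313.NL
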