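import Vale.Agent.P313.NL.CPBias
import Vale.Agent.P313.NL.CPMom

/-!
The hash function with gradually increasing independence. The positions are divided into layers,
every layer has its own seed. In every interval a layer is small compared with the later layers.
-/

namespace Vale.Agent.P313.NL

open Finset KH

/-- The layer of a position. -/
def lay (p : ℕ) : ℕ := 16 * padicValNat 2 (p + 1) + (p + 1) / 2 ^ (padicValNat 2 (p + 1) + 1) % 16

/-- The number of layers. -/
def nlay (m : ℕ) : ℕ := 16 * Nat.size m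

theorem lay_lt {p m : ℕ} (h : p < m) : lay p < nlay m := by
  have h1 : 2 ^ padicValNat 2 (p + 1) ≤ m :=
    (Nat.le_of_dvd (Nat.succ_pos p) pow_padicValNat_dvd).trans h
  have h2 := Nat.lt_size.2 h1
  have h3 := Nat.mod_lt ((p + 1) / 2 ^ (padicValNat 2 (p + 1) + 1)) (show 0 < 16 by norm_num)
  unfold lay nlay
  omega

/-- Every layer of `Q` is small compared with the later layers. -/
def Lay (c : ℕ) (Q : Finset ℕ) : Prop :=
  ∀ i, 16 * #{p ∈ Q | lay p = i} ≤ #{p ∈ Q | i < lay p} + c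

theorem Lay.mono {c c' : ℕ} {Q : Finset ℕ} (h : Lay c Q) (hc : c ≤ c') : Lay c' Q :=
  fun i => (h i).trans (by omega)

theorem Lay.union {c c' : ℕ} {Q Q' : Finset ℕ} (h : Lay c Q) (h' : Lay c' Q')
    (hd : Disjoint Q Q') : Lay (c + c') (Q ∪ Q') := by
  intro i
  rw [filter_union, filter_union, card_union_of_disjoint (disjoint_filter_filter hd),
    card_union_of_disjoint (disjoint_filter_filter hd)]
  have := h i
  have := h' i
  omega

theorem Lay.trunc {c : ℕ} {Q : Finset ℕ} (h : Lay c Q) (k : ℕ) :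
    Lay (c + #{p ∈ Q | k ≤ lay p}) {p ∈ Q | lay p < k} := by
  intro i
  have h1 : #{p ∈ {p ∈ Q | lay p < k} | lay p = i} ≤ #{p ∈ Q | lay p = i} :=
    card_le_card (filter_subset_filter _ (filter_subset _ _))
  have h2 : #{p ∈ Q | i < lay p} ≤
      #{p ∈ {p ∈ Q | lay p < k} | i < lay p} + #{p ∈ Q | k ≤ lay p} := by
    refine le_trans (card_le_card fun p hp => ?_) (card_union_le _ _)
    simp only [mem_filter, mem_union] at hp ⊢
    by_cases h : lay p < k
    · exact Or.inl ⟨⟨hp.1, h⟩, hp.2⟩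
    · exact Or.inr ⟨hp.1, not_lt.1 h⟩
  have := h i
  omega

theorem mod_of_lay {p i : ℕ} (h : lay p = i) :
    (p + 1) % (2 ^ (i / 16 + 1) * 16) = 2 ^ (i / 16) + 2 ^ (i / 16 + 1) * (i % 16) := by
  have h3 := Nat.mod_lt ((p + 1) / 2 ^ (padicValNat 2 (p + 1) + 1)) (show 0 < 16 by norm_num)
  have h1 : padicValNat 2 (p + 1) = i / 16 := by
    unfold lay at h
    omega
  have h2 : (p + 1) / 2 ^ (i / 16 + 1) % 16 = i % 16 := by
    unfold lay at h
    rw [h1] at h h3
    omega
  rw [Nat.mod_mul, h2]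
  congr 1
  obtain ⟨u, hu⟩ : 2 ^ (i / 16) ∣ p + 1 := h1 ▸ pow_padicValNat_dvd
  have h4 : ¬2 ^ (i / 16 + 1) ∣ p + 1 := h1 ▸ pow_succ_padicValNat_not_dvd (Nat.succ_ne_zero p)
  rw [hu, pow_succ] at h4 ⊢
  rw [Nat.mul_mod_mul_left]
  have h5 : u % 2 = 1 := by
    by_contra h5
    exact h4 (Nat.mul_dvd_mul_left _ (by omega))
  rw [h5, mul_one]

theorem lay_Ico (a b : ℕ) : Lay 16 (Ico a b) := by
  intro i
  have hM : 0 < 2 ^ (i / 16 + 1) := by positivity
  set M := 2 ^ (i / 16 + 1) with hMdef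
  have h1 : #{p ∈ Ico a b | lay p = i} ≤ #(range ((b - a) / (M * 16) + 1)) := by
    refine card_le_card_of_injOn (fun p => (p - a) / (M * 16)) (fun p hp => ?_) fun p hp q hq e => ?_
    · have hp := mem_Ico.1 (mem_filter.1 hp).1
      exact mem_coe.2 (mem_range.2 (Nat.lt_succ_of_le (Nat.div_le_div_right (by omega))))
    · obtain ⟨hp, hp'⟩ := mem_filter.1 hp
      obtain ⟨hq, hq'⟩ := mem_filter.1 hq
      have hp := mem_Ico.1 hp
      have hq := mem_Ico.1 hq
      have h2 : p - a + (a + 1) ≡ q - a + (a + 1) [MOD M * 16] := by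
        rw [show p - a + (a + 1) = p + 1 by omega, show q - a + (a + 1) = q + 1 by omega]
        exact (mod_of_lay hp').trans (mod_of_lay hq').symm
      have h3 : (p - a) % (M * 16) = (q - a) % (M * 16) := Nat.ModEq.add_right_cancel' _ h2
      have h4 := Nat.div_add_mod (p - a) (M * 16)
      have h5 := Nat.div_add_mod (q - a) (M * 16)
      simp only at e
      rw [e, h3] at h4
      omega
  have h2 : #(range ((b - a) / M)) ≤ #{p ∈ Ico a b | i < lay p} := by
    refine card_le_card_of_injOn (fun j => M * (a / M + j + 1) - 1) (fun j hj => ?_)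
      fun j _ k _ e => ?_
    · have hj := mem_range.1 hj
      have h3 := Nat.div_add_mod a M
      have h4 := Nat.mod_lt a hM
      have h5 : M * (j + 1) ≤ b - a := (Nat.mul_le_mul_left _ hj).trans (Nat.mul_div_le _ _)
      have h6 : M * (a / M + j + 1) = M * (a / M) + M * j + M := by ring
      have h7 : M * (j + 1) = M * j + M := by ring
      refine mem_coe.2 (mem_filter.2 ⟨mem_Ico.2 (by simp only; omega), ?_⟩)
      have h8 : M * (a / M + j + 1) - 1 + 1 = M * (a / M + j + 1) := by omega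
      have h9 : i / 16 + 1 ≤ padicValNat 2 (M * (a / M + j + 1)) :=
        (padicValNat_dvd_iff_le (by omega)).1 (Dvd.intro _ rfl)
      simp only [lay, h8]
      omega
    · have h3 : 0 < M * (a / M + j + 1) := by positivity
      have h4 : 0 < M * (a / M + k + 1) := by positivity
      have h5 : M * (a / M + j + 1) = M * (a / M + k + 1) := by
        simp only at e
        omega
      have := Nat.eq_of_mul_eq_mul_left hM h5
      omega
  rw [card_range] at h1 h2
  rw [← Nat.div_div_eq_div_mul] at h1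
  omega

/-! ### The hash function -/

/-- The number of levels of the small bias family. -/
def cLev (m f : ℕ) : ℕ := Nat.size (8 * (f + m + 1))

/-- The length of the seed of one layer. -/
def cS (n m f : ℕ) : ℕ := slen (cLev m f + 2 * (n + m)) (70 * (8 * (f + m + 1))) (cLev m f)

/-- The bit of the point `v` at the position `p` for the seed `s` of its layer. -/
def cb (n m f s v p : ℕ) : ℕ :=
  sb (cLev m f + 2 * (n + m)) (70 * (8 * (f + m + 1))) (cLev m f) s (v * m + p)

/-- The digits in base `S`. -/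
def dig (S σ i : ℕ) : ℕ := σ / S ^ i % S

/-- The hash value of the point `v < 2 ^ n`, with `m` bits. -/
def cG (n m f σ v : ℕ) : ℕ :=
  ∑ p ∈ range m, cb n m f (dig (2 ^ cS n m f) σ (lay p)) v p * 2 ^ p

theorem cb_lt (n m f s v p : ℕ) : cb n m f s v p < 2 := sb_lt _ _ _ _ _

theorem cG_lt (n m f σ v : ℕ) : cG n m f σ v < 2 ^ m := sum_digits_lt (fun _ => cb_lt _ _ _ _ _ _) m

theorem bt_cG {n m f σ v p : ℕ} (hp : p < m) :
    bt (cG n m f σ v) p = cb n m f (dig (2 ^ cS n m f) σ (lay p)) v p :=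
  bt_sum_digits (b := fun p => cb n m f (dig (2 ^ cS n m f) σ (lay p)) v p)
    (fun _ => cb_lt _ _ _ _ _ _) hp

/-- Agreement of the binary digits at the positions in `Q`. -/
def Ag (Q : Finset ℕ) (u v : ℕ) : Prop := ∀ p ∈ Q, bt u p = bt v p

instance (Q : Finset ℕ) (u v : ℕ) : Decidable (Ag Q u v) := by
  unfold Ag
  infer_instance

theorem close_cb {n m f k : ℕ} {Λ Y : Finset ℕ} (hΛ : Λ ⊆ range m) (hY : ∀ y ∈ Y, y < 2 ^ n)
    (hk : k * Λ.card ≤ 2 * (f + m + 1)) :
    Close (2 ^ cS n m f) (fun s (a : Y) (p : Λ) => (⟨cb n m f s a p, cb_lt _ _ _ _ _ _⟩ : Fin 2)) k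
      (1 / 2 ^ (8 * (f + m + 1))) := by
  intro A hA τ
  have hp : ∀ p : Λ, (p : ℕ) < m := fun p => mem_range.1 (hΛ p.2)
  have h := pattern (A := (univ : Finset (A × Λ))) (x := fun q => (q.1 : Y) * m + q.2)
    (n := n + m) (L := cLev m f + 2 * (n + m)) (lev := cLev m f) ?_ (8 * (f + m + 1)) ?_ le_rfl ?_
    (γ := fun q => τ q.1 q.2) fun q _ => (τ q.1 q.2).2
  · rw [card_univ, Fintype.card_prod, Fintype.card_coe, Fintype.card_coe, mul_comm #A,
      pow_mul] at h
    rw [Fintype.card_fun, Fintype.card_fin, Fintype.card_coe]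
    push_cast
    refine le_trans (le_of_eq ?_) h
    refine congrArg abs (congrArg₂ (· - ·) (congrArg₂ (· / ·) (sum_congr rfl fun s _ => ?_) rfl) rfl)
    refine @if_congr _ _ _ _ (_) _ _ _ _ ?_ rfl rfl
    have e : ∀ v p, sb (cLev m f + 2 * (n + m)) (70 * (8 * (f + m + 1))) (cLev m f) s (v * m + p) =
        cb n m f s v p := fun v p => by rw [cb]
    simp only [e]
    simp only [funext_iff, Fin.ext_iff]
    exact ⟨fun h q _ => h q.1 q.2, fun h a p => h (a, p) (mem_univ _)⟩
  · rintro ⟨a, p⟩ _ ⟨b, q⟩ _ e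
    have e1 := congrArg (· % m) e
    have e2 := congrArg (· / m) e
    have hm : 0 < m := by
      have := hp p
      omega
    simp only [Nat.mul_add_mod', Nat.mod_eq_of_lt (hp p), Nat.mod_eq_of_lt (hp q)] at e1
    simp only [e1, add_left_inj] at e
    exact Prod.ext (Subtype.ext (Subtype.ext (Nat.eq_of_mul_eq_mul_right hm e))) (Subtype.ext e1)
  · rintro ⟨a, p⟩ _
    have h1 := hY _ a.1.2
    have h2 := hp p
    have h3 : m < 2 ^ m := Nat.lt_two_pow_self
    rw [pow_add]
    simp only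
    nlinarith
  · rw [card_univ, Fintype.card_prod, Fintype.card_coe, Fintype.card_coe]
    have h1 := Nat.lt_size_self (8 * (f + m + 1))
    have h2 : #A * #Λ ≤ k * #Λ := Nat.mul_le_mul_right _ hA
    unfold cLev
    omega

/-- One layer. -/
theorem step {κ : Type} {n m : ℕ} (f : ℕ) {T : Finset κ} {y : κ → ℕ} (γ : κ → ℕ) {c : κ → ℝ}
    {Λ : Finset ℕ} (hΛ : Λ ⊆ range m) (hy : ∀ t ∈ T, y t < 2 ^ n) (hc : ∀ t ∈ T, 0 ≤ c t)
    {wm tot : ℝ} (hw0 : 0 < wm)
    (hw : ∀ t₀ ∈ T, ∑ t ∈ T with y t = y t₀ ∧ Ag Λ (γ t) (γ t₀), c t ≤ wm)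
    (htot : ∑ t ∈ T, c t ≤ tot) (hcond : 64 * (f + 1) ^ 2 * 16 ^ #Λ * wm ≤ tot) :
    (#{s ∈ range (2 ^ cS n m f) | tot / (2 * 2 ^ #Λ) <
      |∑ t ∈ T with ∀ p ∈ Λ, cb n m f s (y t) p = bt (γ t) p, c t - (∑ t ∈ T, c t) / 2 ^ #Λ|} : ℝ) ≤
      7 / 4 ^ f * (2 ^ cS n m f : ℕ) := by
  have hl : #Λ ≤ m := (card_le_card hΛ).trans (card_range m).le
  set l := #Λ with hldef
  set h := f / (l + 1) + 1 with hh
  have hh1 : f ≤ (l + 1) * h := by
    have := Nat.div_add_mod f (l + 1)
    have := Nat.mod_lt f (show 0 < l + 1 by omega)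
    rw [hh, mul_add]
    omega
  have hh2 : (l + 1) * h ≤ f + m + 1 := by
    have := Nat.mul_div_le f (l + 1)
    rw [hh, mul_add]
    omega
  have hh3 : h ≤ f + 1 := Nat.succ_le_succ (Nat.div_le_self _ _)
  have htot0 : 0 < tot := lt_of_lt_of_le (by positivity) hcond
  let pat : κ → Λ → Fin 2 := fun t p => ⟨bt (γ t) p, bt_lt _ _⟩
  let X : T.image y → (Λ → Fin 2) → ℝ := fun a r => ∑ t ∈ T with y t = a ∧ pat t = r, c t
  let D : T.image y → ℝ := fun a => ∑ t ∈ T with y t = a, c t
  have hR : (Fintype.card (Λ → Fin 2) : ℝ) = 2 ^ l := by simp [hldef]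
  have hXD : ∀ a, ∑ r, X a r = D a := by
    intro a
    simp only [X, D, ← filter_filter]
    exact sum_fiberwise _ pat c
  have hX0 : ∀ a r, 0 ≤ X a r := fun a r => sum_nonneg fun t ht => hc t (mem_filter.1 ht).1
  have hXw : ∀ a r, X a r ≤ min wm (D a) := by
    intro a r
    refine le_min ?_ (hXD a ▸ single_le_sum (fun r _ => hX0 a r) (mem_univ r))
    rcases (filter (fun t => y t = a ∧ pat t = r) T).eq_empty_or_nonempty with h0 | ⟨t₀, h0⟩
    · simp only [X, h0, sum_empty]
      exact hw0.le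
    · obtain ⟨h1, h2, h3⟩ := mem_filter.1 h0
      refine le_trans (sum_le_sum_of_subset_of_nonneg (fun t ht => ?_)
        fun t ht _ => hc t (mem_filter.1 ht).1) (hw t₀ h1)
      obtain ⟨h4, h5, h6⟩ := mem_filter.1 ht
      exact mem_filter.2 ⟨h4, h5.trans h2.symm, fun p hp =>
        congrArg Fin.val (congrFun (h6.trans h3.symm) ⟨p, hp⟩)⟩
  have hD0 : ∀ a, 0 ≤ D a := fun a => hXD a ▸ sum_nonneg fun r _ => hX0 a r
  have hfib : ∀ (P : κ → ℕ → Prop) [∀ t a, Decidable (P t a)],
      ∑ a : T.image y, ∑ t ∈ T with y t = a ∧ P t a, c t = ∑ t ∈ T with P t (y t), c t := by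
    intro P _
    rw [sum_coe_sort (T.image y) fun a => ∑ t ∈ T with y t = a ∧ P t a, c t,
      ← sum_fiberwise_of_maps_to (s := T.filter fun t => P t (y t)) (t := T.image y) (g := y)
        fun t ht => mem_image_of_mem y (mem_filter.1 ht).1]
    refine sum_congr rfl fun a _ => sum_congr ?_ fun _ _ => rfl
    rw [filter_filter]
    exact filter_congr fun t _ => ⟨fun h => ⟨h.1 ▸ h.2, h.1⟩, fun h => ⟨h.2, h.2 ▸ h.1⟩⟩
  have hD : ∑ a, D a = ∑ t ∈ T, c t := by simpa using hfib fun _ _ => True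
  have ht := tail (close_cb (f := f) (k := 2 * h) hΛ (Y := T.image y)
    (fun a ha => by
      obtain ⟨t, ht, rfl⟩ := mem_image.1 ha
      exact hy t ht) (by nlinarith)) (by positivity)
    (Z := fun a r => X a r - D a / 2 ^ l) (w := fun a => min wm (D a)) (V := wm * tot) (U := tot)
    (Δ := tot / (2 * 2 ^ l))
    (fun a => by
      rw [sum_sub_distrib, hXD, sum_const, card_univ, nsmul_eq_mul, hR]
      field_simp
      ring)
    (fun a r => by
      have h1 : D a / 2 ^ l ≤ min wm (D a) := by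
        rw [div_le_iff₀ (by positivity), ← hXD a, mul_comm, ← hR, ← card_univ, ← nsmul_eq_mul]
        exact sum_le_card_nsmul _ _ _ fun r _ => hXD a ▸ hXw a r
      have h2 : 0 ≤ D a / 2 ^ l := div_nonneg (hD0 a) (by positivity)
      have h3 := hX0 a r
      have h4 := hXw a r
      rw [abs_le]
      constructor <;> linarith)
    (by positivity)
    (by
      refine le_trans (sum_le_sum fun a _ => ?_) ((mul_sum univ D wm).symm.le.trans
        (mul_le_mul_of_nonneg_left (hD ▸ htot) hw0.le))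
      rw [pow_two]
      exact mul_le_mul (min_le_left _ _) (min_le_right _ _) (le_min hw0.le (hD0 a)) hw0.le)
    ((sum_le_sum fun a _ => min_le_right _ _).trans (hD ▸ htot)) (by positivity)
  refine le_trans (le_of_eq ?_) (ht.trans (mul_le_mul_of_nonneg_right ?_ (by positivity)))
  · refine congrArg Nat.cast (congrArg card (filter_congr fun s _ => ?_))
    rw [sum_sub_distrib, ← sum_div, hD, ← hfib fun t a => ∀ p ∈ Λ, cb n m f s a p = bt (γ t) p]
    congr! 6 with a _ t
    exact and_congr_right fun _ => ⟨fun h => funext fun p => Fin.ext (h p p.2).symm,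
      fun h p hp => (congrArg Fin.val (congrFun h ⟨p, hp⟩)).symm⟩
  · have h1 : (2 * (h : ℝ)) ^ 2 * (wm * tot) / (tot / (2 * 2 ^ l)) ^ 2 ≤ 1 / 4 ^ (l + 1) := by
      have h2 : (h : ℝ) ≤ f + 1 := by exact_mod_cast hh3
      have h3 : (16 : ℝ) ^ l = 2 ^ l * 2 ^ l * 4 ^ l := by
        rw [← mul_pow, ← mul_pow]
        norm_num
      have h4 : (h : ℝ) ^ 2 ≤ (f + 1) ^ 2 := by gcongr
      rw [div_le_div_iff₀ (by positivity) (by positivity), div_pow, one_mul,
        le_div_iff₀ (by positivity), pow_succ (4 : ℝ)]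
      rw [h3] at hcond
      have h5 : 64 * (h : ℝ) ^ 2 * (2 ^ l * 2 ^ l * 4 ^ l) * wm ≤ tot :=
        le_trans (by gcongr) hcond
      nlinarith
    have h2 : ((2 * (h : ℝ)) ^ 2 * (wm * tot) / (tot / (2 * 2 ^ l)) ^ 2) ^ h ≤ 1 / 4 ^ f := by
      refine (pow_le_pow_left₀ (by positivity) h1 h).trans ?_
      rw [one_div_pow, ← pow_mul]
      exact one_div_le_one_div_of_le (by positivity) (pow_le_pow_right₀ (by norm_num) hh1)
    have h3 : (Fintype.card (Λ → Fin 2) : ℝ) * tot / (tot / (2 * 2 ^ l)) = 2 ^ (2 * l + 1) := by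
      rw [hR, pow_succ, two_mul l, pow_add]
      field_simp
    have h4 : 1 / (2 : ℝ) ^ (8 * (f + m + 1)) * (2 ^ (2 * l + 1)) ^ (2 * h) ≤ 1 / 4 ^ f := by
      rw [← pow_mul, one_div_mul_eq_div, div_le_div_iff₀ (by positivity) (by positivity), one_mul,
        show (4 : ℝ) = 2 ^ 2 by norm_num, ← pow_mul, ← pow_add]
      exact pow_le_pow_right₀ (by norm_num) (by nlinarith)
    rw [h3]
    have h5 : (7 : ℝ) / 4 ^ f = 6 * (1 / 4 ^ f) + 1 / 4 ^ f := by ring
    rw [h5]
    exact add_le_add (mul_le_mul_of_nonneg_left h2 (by norm_num)) h4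

attribute [irreducible] cS cb cG

/-- A chain of events, one for each digit of the seed. -/
theorem chain {S : ℕ} {δ : ℝ} (P : ℕ → (ℕ → ℕ) → Prop) [∀ i d, Decidable (P i d)]
    (hloc : ∀ i d d', (∀ j < i, d j = d' j) → P i d → P i d') (h0 : ∀ d, P 0 d) (N : ℕ)
    (hδ : 0 ≤ δ) (hs : ∀ i < N, ∀ d, P i d →
      (#{s ∈ range S | ¬P (i + 1) (Function.update d i s)} : ℝ) ≤ δ * S) :
    (#{σ ∈ range (S ^ N) | ¬∀ i ≤ N, P i (dig S σ)} : ℝ) ≤ N * δ * (S ^ N : ℕ) := by
  induction N with
  | zero => simp [h0]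
  | succ N ih =>
    have ih := ih fun i hi => hs i (by omega)
    rw [card_filter] at ih ⊢
    push_cast at ih ⊢
    rw [pow_succ, Mix.sum_range_mul]
    have h1 : ∀ u ∈ range (S ^ N), ∑ s ∈ range S,
        (if ¬∀ i ≤ N + 1, P i (dig S (u + S ^ N * s)) then (1 : ℝ) else 0) ≤
          (if ¬∀ i ≤ N, P i (dig S u) then (1 : ℝ) else 0) * S + δ * S := by
      intro u hu
      by_cases h : ∀ i ≤ N, P i (dig S u)
      · rw [if_neg (not_not.2 h), zero_mul, zero_add]
        refine le_trans ?_ (hs N (by omega) _ (h N le_rfl))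
        rw [card_filter]
        push_cast
        refine sum_le_sum fun s hs' => ?_
        have hS : 0 < S := by
          have := mem_range.1 hs'
          omega
        have e : ∀ j < N + 1, Function.update (dig S u) N s j = dig S (u + S ^ N * s) j := by
          intro j hj
          rcases Nat.lt_succ_iff_lt_or_eq.1 hj with hj | rfl
          · obtain ⟨k, hk⟩ := Nat.exists_eq_add_of_lt hj
            rw [Function.update_of_ne hj.ne, dig, dig, hk, add_assoc, pow_add, mul_assoc,
              Nat.add_mul_div_left _ _ (by positivity), pow_succ, mul_comm (S ^ k), mul_assoc,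
              Nat.add_mul_mod_self_left]
          · rw [Function.update_self, dig, Nat.add_mul_div_left _ _ (by positivity),
              Nat.div_eq_of_lt (mem_range.1 hu), zero_add, Nat.mod_eq_of_lt (mem_range.1 hs')]
        by_cases h2 : P (N + 1) (Function.update (dig S u) N s)
        · rw [if_neg (not_not.2 h2), if_neg (not_not.2 fun i hi => ?_)]
          rcases Nat.lt_succ_iff_lt_or_eq.1 (Nat.lt_succ_of_le hi) with hi | rfl
          · refine hloc i _ _ (fun j hj => ?_) (h i (by omega))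
            rw [← e j (by omega), Function.update_of_ne (by omega)]
          · exact hloc _ _ _ e h2
        · rw [if_pos h2]
          split_ifs <;> norm_num
      · rw [if_pos h, one_mul]
        refine le_trans ?_ (le_add_of_nonneg_right (by positivity))
        refine (sum_le_card_nsmul _ _ 1 fun s _ => ?_).trans (by simp)
        split_ifs <;> norm_num
    refine (sum_le_sum h1).trans ?_
    rw [sum_add_distrib, ← sum_mul, sum_const, card_range, nsmul_eq_mul]
    push_cast
    rw [pow_succ (S : ℝ)]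
    nlinarith [mul_le_mul_of_nonneg_right ih (show (0 : ℝ) ≤ S by positivity)]

end Vale.Agent.P313.NL
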