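import Vale.Agent.P313.NL.CPLay

/-!
Upper and lower bounds for the weight of the points whose hash values agree with their targets.
-/

namespace Vale.Agent.P313.NL

open Finset KH

/-- The number of positions in the layers below `i`. -/
def rev (Q : Finset ℕ) (i : ℕ) : ℕ := #{p ∈ Q | lay p < i}

/-- The number of positions in the layers from `i` on. -/
def rem (Q : Finset ℕ) (i : ℕ) : ℕ := #{p ∈ Q | i ≤ lay p}

/-- The number of positions in the layer `i`. -/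
def lyr (Q : Finset ℕ) (i : ℕ) : ℕ := #{p ∈ Q | lay p = i}

theorem rev_succ (Q : Finset ℕ) (i : ℕ) : rev Q (i + 1) = rev Q i + lyr Q i := by
  simp only [rev, lyr, card_filter, ← sum_add_distrib]
  refine sum_congr rfl fun p _ => ?_
  split_ifs <;> omega

theorem rem_succ (Q : Finset ℕ) (i : ℕ) : rem Q i = rem Q (i + 1) + lyr Q i := by
  simp only [rem, lyr, card_filter, ← sum_add_distrib]
  refine sum_congr rfl fun p _ => ?_
  split_ifs <;> omega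

theorem rev_add_rem (Q : Finset ℕ) (i : ℕ) : rev Q i + rem Q i = #Q := by
  simp only [rem, rev, card_filter, ← sum_add_distrib]
  rw [card_eq_sum_ones]
  refine sum_congr rfl fun p _ => ?_
  split_ifs <;> omega

theorem rev_zero (Q : Finset ℕ) : rev Q 0 = 0 := by simp [rev]

theorem rem_zero (Q : Finset ℕ) : rem Q 0 = #Q := by simp [rem]

theorem rem_nlay {Q : Finset ℕ} {m : ℕ} (hQ : Q ⊆ range m) : rem Q (nlay m) = 0 :=
  card_eq_zero.2 (filter_eq_empty_iff.2 fun _ hp => not_le.2 (lay_lt (mem_range.1 (hQ hp))))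

theorem rev_nlay {Q : Finset ℕ} {m : ℕ} (hQ : Q ⊆ range m) : rev Q (nlay m) = #Q := by
  rw [← rev_add_rem Q (nlay m), rem_nlay hQ, add_zero]

theorem Lay.le {c : ℕ} {Q : Finset ℕ} (h : Lay c Q) (i : ℕ) : 16 * lyr Q i ≤ rem Q (i + 1) + c := h i

variable {κ : Type} {n m : ℕ} (f : ℕ) {T : Finset κ} {y : κ → ℕ} (γ : κ → ℕ) {c : κ → ℝ}
  {Q : Finset ℕ}

/-- The weight of the elements which agree with their targets in the layers below `i`. -/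
noncomputable def cnt (n m f : ℕ) (T : Finset κ) (y γ : κ → ℕ) (c : κ → ℝ) (Q : Finset ℕ) (i : ℕ)
    (d : ℕ → ℕ) : ℝ :=
  ∑ t ∈ T with ∀ p ∈ Q, lay p < i → cb n m f (d (lay p)) (y t) p = bt (γ t) p, c t

theorem cnt_zero (d : ℕ → ℕ) : cnt n m f T y γ c Q 0 d = ∑ t ∈ T, c t := by simp [cnt]

theorem cnt_loc {i : ℕ} {d d' : ℕ → ℕ} (h : ∀ j < i, d j = d' j) :
    cnt n m f T y γ c Q i d = cnt n m f T y γ c Q i d' :=
  sum_congr (filter_congr fun t _ => forall₂_congr fun p _ => imp_congr_right fun hp => by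
    rw [h _ hp]) fun _ _ => rfl

theorem cnt_update (i s : ℕ) (d : ℕ → ℕ) :
    cnt n m f T y γ c Q i (Function.update d i s) = cnt n m f T y γ c Q i d :=
  cnt_loc f γ fun _ hj => Function.update_of_ne hj.ne _ _

theorem cnt_nonneg (hc : ∀ t ∈ T, 0 ≤ c t) (i : ℕ) (d : ℕ → ℕ) : 0 ≤ cnt n m f T y γ c Q i d :=
  sum_nonneg fun t ht => hc t (mem_filter.1 ht).1

theorem cnt_succ_le (hc : ∀ t ∈ T, 0 ≤ c t) (i : ℕ) (d : ℕ → ℕ) :
    cnt n m f T y γ c Q (i + 1) d ≤ cnt n m f T y γ c Q i d :=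
  sum_le_sum_of_subset_of_nonneg (fun _ ht => mem_filter.2 ⟨(mem_filter.1 ht).1,
    fun p hp h => (mem_filter.1 ht).2 p hp (by omega)⟩) fun t ht _ => hc t (mem_filter.1 ht).1

theorem cnt_nlay (hQ : Q ⊆ range m) (σ : ℕ) :
    cnt n m f T y γ c Q (nlay m) (dig (2 ^ cS n m f) σ) =
      ∑ t ∈ T with Ag Q (cG n m f σ (y t)) (γ t), c t :=
  sum_congr (filter_congr fun t _ => forall₂_congr fun p hp => by
    have h := mem_range.1 (hQ hp)
    rw [bt_cG h]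
    exact ⟨fun h' => h' (lay_lt h), fun h' _ => h'⟩) fun _ _ => rfl

theorem stepD (hQ : Q ⊆ range m) (hy : ∀ t ∈ T, y t < 2 ^ n) (hc : ∀ t ∈ T, 0 ≤ c t) (i : ℕ)
    (d : ℕ → ℕ) {wm tot : ℝ} (hw0 : 0 < wm)
    (hw : ∀ t₀ ∈ T, ∑ t ∈ T with y t = y t₀ ∧ Ag {p ∈ Q | lay p < i + 1} (γ t) (γ t₀), c t ≤ wm)
    (htot : cnt n m f T y γ c Q i d ≤ tot) (hcond : 64 * (f + 1) ^ 2 * 16 ^ lyr Q i * wm ≤ tot) :
    (#{s ∈ range (2 ^ cS n m f) | tot / (2 * 2 ^ lyr Q i) <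
      |cnt n m f T y γ c Q (i + 1) (Function.update d i s) -
        cnt n m f T y γ c Q i d / 2 ^ lyr Q i|} : ℝ) ≤ 7 / 4 ^ f * (2 ^ cS n m f : ℕ) := by
  have h := step f (T := {t ∈ T | ∀ p ∈ Q, lay p < i → cb n m f (d (lay p)) (y t) p = bt (γ t) p})
    γ (Λ := {p ∈ Q | lay p = i}) ((filter_subset _ _).trans hQ)
    (fun t ht => hy t (mem_filter.1 ht).1) (fun t ht => hc t (mem_filter.1 ht).1) hw0
    (fun t₀ h0 => by
      obtain ⟨h1, h2⟩ := mem_filter.1 h0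
      refine le_trans (sum_le_sum_of_subset_of_nonneg (fun t ht => ?_)
        fun t ht _ => hc t (mem_filter.1 ht).1) (hw t₀ h1)
      obtain ⟨h3, h4, h5⟩ := mem_filter.1 ht
      obtain ⟨h6, h7⟩ := mem_filter.1 h3
      refine mem_filter.2 ⟨h6, h4, fun p hp => ?_⟩
      obtain ⟨h8, h9⟩ := mem_filter.1 hp
      rcases Nat.lt_succ_iff_lt_or_eq.1 h9 with h | h
      · rw [← h7 p h8 h, ← h2 p h8 h, h4]
      · exact h5 p (mem_filter.2 ⟨h8, h⟩)) htot hcond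
  refine le_trans (le_of_eq ?_) h
  refine congrArg Nat.cast (congrArg card (filter_congr fun s _ => ?_))
  rw [filter_filter, cnt, cnt, lyr]
  refine iff_of_eq ?_
  congr 4
  refine filter_congr fun t _ => ?_
  refine ⟨fun h => ⟨fun p hp hi => ?_, fun p hp => ?_⟩, fun h p hp hi => ?_⟩
  · rw [← h p hp (by omega), Function.update_of_ne hi.ne]
  · obtain ⟨h1, h2⟩ := mem_filter.1 hp
    rw [← h p h1 (by omega), h2, Function.update_self]
  · rcases Nat.lt_succ_iff_lt_or_eq.1 hi with h' | h'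
    · rw [Function.update_of_ne h'.ne, h.1 p hp h']
    · rw [h', Function.update_self, h.2 p (mem_filter.2 ⟨hp, h'⟩)]

theorem card_filter_mono {s : Finset ℕ} {p q : ℕ → Prop} [DecidablePred p] [DecidablePred q]
    (h : ∀ x ∈ s, p x → q x) : (#{x ∈ s | p x} : ℝ) ≤ #{x ∈ s | q x} :=
  Nat.cast_le.2 (card_le_card fun x hx =>
    mem_filter.2 ⟨(mem_filter.1 hx).1, h x (mem_filter.1 hx).1 (mem_filter.1 hx).2⟩)

/-- The upper bound in all layers. -/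
theorem up_all {a : ℕ} (hQ : Q ⊆ range m) (hL : Lay a Q) (hy : ∀ t ∈ T, y t < 2 ^ n)
    (hc : ∀ t ∈ T, 0 ≤ c t) {wm tot : ℝ} (hw0 : 0 < wm)
    (hw : ∀ t₀ ∈ T, ∑ t ∈ T with y t = y t₀, c t ≤ wm) (htot : ∑ t ∈ T, c t ≤ tot) :
    (#{σ ∈ range ((2 ^ cS n m f) ^ nlay m) | ¬∀ i ≤ nlay m,
      cnt n m f T y γ c Q i (dig (2 ^ cS n m f) σ) ≤
        2 ^ i * (tot / 2 ^ rev Q i + 128 * (f + 1) ^ 2 * wm * 2 ^ (a / 4) * 2 ^ rem Q i)} : ℝ) ≤
      nlay m * (7 / 4 ^ f) * ((2 ^ cS n m f) ^ nlay m : ℕ) := by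
  have htot0 : 0 ≤ tot := (sum_nonneg hc).trans htot
  refine chain (fun i d => cnt n m f T y γ c Q i d ≤
    2 ^ i * (tot / 2 ^ rev Q i + 128 * (f + 1) ^ 2 * wm * 2 ^ (a / 4) * 2 ^ rem Q i))
    (fun i d d' h h' => cnt_loc f γ h ▸ h') (fun d => ?_) _ (by positivity) fun i _ d hd => ?_
  · rw [cnt_zero, rev_zero, pow_zero, one_mul, div_one]
    exact htot.trans (le_add_of_nonneg_right (by positivity))
  set B := 2 ^ i * (tot / 2 ^ rev Q i + 128 * (f + 1) ^ 2 * wm * 2 ^ (a / 4) * 2 ^ rem Q i) with hB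
  by_cases h : 64 * (f + 1) ^ 2 * 16 ^ lyr Q i * wm ≤ B
  · refine le_trans (card_filter_mono fun s _ hs => ?_) (stepD f γ hQ hy hc i d hw0 (fun t₀ h0 =>
      le_trans (sum_le_sum_of_subset_of_nonneg (fun t ht => mem_filter.2 ⟨(mem_filter.1 ht).1,
        (mem_filter.1 ht).2.1⟩) fun t ht _ => hc t (mem_filter.1 ht).1) (hw t₀ h0)) hd h)
    refine lt_of_not_ge fun h1 => hs ?_
    have h2 := (abs_le.1 h1).2
    have h3 := div_le_div_of_nonneg_right hd (show (0 : ℝ) ≤ 2 ^ lyr Q i by positivity)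
    have h4 : 2 ^ (i + 1) * (tot / 2 ^ rev Q (i + 1) +
        128 * (f + 1) ^ 2 * wm * 2 ^ (a / 4) * 2 ^ rem Q (i + 1)) = 2 * (B / 2 ^ lyr Q i) := by
      rw [hB, rev_succ, rem_succ Q i, pow_add, pow_add, pow_add]
      field_simp
    have h5 : B / (2 * 2 ^ lyr Q i) = B / 2 ^ lyr Q i / 2 := by rw [div_div, mul_comm]
    have h6 : 0 ≤ B / 2 ^ lyr Q i := by positivity
    rw [h4]
    linarith
  · refine le_trans (le_of_eq ?_) (show (0 : ℝ) ≤ _ by positivity)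
    rw [Nat.cast_eq_zero, card_eq_zero, filter_eq_empty_iff]
    refine fun s _ => not_not.2 ((cnt_succ_le f γ hc _ _).trans ?_)
    rw [cnt_update]
    refine hd.trans ((not_le.1 h).le.trans ?_)
    have h1 : (16 : ℝ) ^ lyr Q i ≤ 2 * (2 ^ (a / 4) * 2 ^ rem Q (i + 1)) := by
      rw [show (16 : ℝ) = 2 ^ 4 by norm_num, ← pow_mul, ← pow_add, ← pow_succ']
      have := hL.le i
      exact pow_le_pow_right₀ (by norm_num) (by omega)
    refine le_trans ?_ (le_mul_of_one_le_left (by positivity) (one_le_pow₀ (by norm_num)))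
    refine le_trans ?_ (le_add_of_nonneg_left (by positivity))
    calc _ ≤ 64 * (f + 1) ^ 2 * (2 * (2 ^ (a / 4) * 2 ^ rem Q (i + 1))) * wm := by gcongr
      _ = _ := by ring

/-- The upper bound. -/
theorem up {a : ℕ} (hQ : Q ⊆ range m) (hL : Lay a Q) (hy : ∀ t ∈ T, y t < 2 ^ n)
    (hc : ∀ t ∈ T, 0 ≤ c t) {wm tot : ℝ} (hw0 : 0 < wm)
    (hw : ∀ t₀ ∈ T, ∑ t ∈ T with y t = y t₀, c t ≤ wm) (htot : ∑ t ∈ T, c t ≤ tot) :
    (#{σ ∈ range ((2 ^ cS n m f) ^ nlay m) |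
      2 ^ nlay m * (tot / 2 ^ #Q + 128 * (f + 1) ^ 2 * wm * 2 ^ (a / 4)) <
        ∑ t ∈ T with Ag Q (cG n m f σ (y t)) (γ t), c t} : ℝ) ≤
      nlay m * (7 / 4 ^ f) * ((2 ^ cS n m f) ^ nlay m : ℕ) := by
  refine le_trans (card_filter_mono fun σ _ h h' => ?_) (up_all f γ hQ hL hy hc hw0 hw htot)
  have h1 := h' _ le_rfl
  rw [cnt_nlay f γ hQ, rev_nlay hQ, rem_nlay hQ, pow_zero, mul_one] at h1
  exact h.not_ge h1

theorem low_all {a : ℕ} (hQ : Q ⊆ range m) (hL : Lay a Q) (hy : ∀ t ∈ T, y t < 2 ^ n)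
    (hc : ∀ t ∈ T, 0 ≤ c t) {wm : ℝ} (hw0 : 0 < wm)
    (hw : ∀ t₀ ∈ T, ∑ t ∈ T with y t = y t₀, c t ≤ wm)
    (htot : 2 ^ nlay m * (64 * (f + 1) ^ 2 * wm * 2 ^ a) * 2 ^ #Q ≤ ∑ t ∈ T, c t) :
    (#{σ ∈ range ((2 ^ cS n m f) ^ nlay m) | ¬∀ i ≤ nlay m,
      2 ^ (nlay m - i) * (64 * (f + 1) ^ 2 * wm * 2 ^ a) * 2 ^ rem Q i ≤
        cnt n m f T y γ c Q i (dig (2 ^ cS n m f) σ)} : ℝ) ≤
      nlay m * (7 / 4 ^ f) * ((2 ^ cS n m f) ^ nlay m : ℕ) := by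
  refine chain (fun i d =>
    2 ^ (nlay m - i) * (64 * (f + 1) ^ 2 * wm * 2 ^ a) * 2 ^ rem Q i ≤ cnt n m f T y γ c Q i d)
    (fun i d d' h h' => cnt_loc f γ h ▸ h') (fun d => ?_) _ (by positivity) fun i hi d hd => ?_
  · rw [cnt_zero, rem_zero, Nat.sub_zero]
    exact htot
  have h : 64 * (f + 1) ^ 2 * 16 ^ lyr Q i * wm ≤ cnt n m f T y γ c Q i d := by
    refine le_trans ?_ hd
    have h1 : (16 : ℝ) ^ lyr Q i ≤ 2 ^ a * 2 ^ rem Q i := by
      rw [show (16 : ℝ) = 2 ^ 4 by norm_num, ← pow_mul, ← pow_add]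
      have := hL.le i
      have := rem_succ Q i
      exact pow_le_pow_right₀ (by norm_num) (by omega)
    rw [mul_assoc (2 ^ (nlay m - i) : ℝ)]
    refine le_trans ?_ (le_mul_of_one_le_left (by positivity) (one_le_pow₀ (by norm_num)))
    calc _ ≤ 64 * (f + 1) ^ 2 * (2 ^ a * 2 ^ rem Q i) * wm := by gcongr
      _ = _ := by ring
  refine le_trans (card_filter_mono fun s _ hs => ?_) (stepD f γ hQ hy hc i d hw0 (fun t₀ h0 =>
    le_trans (sum_le_sum_of_subset_of_nonneg (fun t ht => mem_filter.2 ⟨(mem_filter.1 ht).1,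
      (mem_filter.1 ht).2.1⟩) fun t ht _ => hc t (mem_filter.1 ht).1) (hw t₀ h0)) le_rfl h)
  refine lt_of_not_ge fun h1 => hs ?_
  have h2 := (abs_le.1 h1).1
  have h3 := div_le_div_of_nonneg_right hd (show (0 : ℝ) ≤ 2 * 2 ^ lyr Q i by positivity)
  have h4 : 2 ^ (nlay m - (i + 1)) * (64 * (f + 1) ^ 2 * wm * 2 ^ a) * 2 ^ rem Q (i + 1) =
      2 ^ (nlay m - i) * (64 * (f + 1) ^ 2 * wm * 2 ^ a) * 2 ^ rem Q i / (2 * 2 ^ lyr Q i) := by
    rw [rem_succ Q i, show nlay m - i = nlay m - (i + 1) + 1 by omega, pow_add, pow_add]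
    field_simp
  have h5 : cnt n m f T y γ c Q i d / 2 ^ lyr Q i =
      2 * (cnt n m f T y γ c Q i d / (2 * 2 ^ lyr Q i)) := by field_simp
  rw [h4]
  linarith

/-- The lower bound. -/
theorem low {a : ℕ} (hQ : Q ⊆ range m) (hL : Lay a Q) (hy : ∀ t ∈ T, y t < 2 ^ n)
    (hc : ∀ t ∈ T, 0 ≤ c t) {wm : ℝ} (hw0 : 0 < wm)
    (hw : ∀ t₀ ∈ T, ∑ t ∈ T with y t = y t₀, c t ≤ wm)
    (htot : 2 ^ nlay m * (64 * (f + 1) ^ 2 * wm * 2 ^ a) * 2 ^ #Q ≤ ∑ t ∈ T, c t) :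
    (#{σ ∈ range ((2 ^ cS n m f) ^ nlay m) | ¬∃ t ∈ T, Ag Q (cG n m f σ (y t)) (γ t)} : ℝ) ≤
      nlay m * (7 / 4 ^ f) * ((2 ^ cS n m f) ^ nlay m : ℕ) := by
  refine le_trans ?_ (low_all f γ hQ hL hy hc hw0 hw htot)
  refine card_filter_mono fun σ _ h h' => h ?_
  have h1 := h' _ le_rfl
  rw [cnt_nlay f γ hQ] at h1
  by_contra h2
  rw [filter_eq_empty_iff.2 fun t ht h3 => h2 ⟨t, ht, h3⟩, sum_empty] at h1
  exact absurd h1 (not_le.2 (by positivity))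

end Vale.Agent.P313.NL
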