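import Vale.Agent.P313.Full.RecWP
import Vale.Agent.P313.KHash

/-!
A small expression language for recursive programs with one global state and small local values.
The cost of a run is the sum of the sizes of the values which are held during calls.
-/

namespace Vale.Agent.P313.NL

open Finset Vale.Agent.Lib.Space

/-- The arguments of a procedure. -/
abbrev Arg : Type := ℕ × ℕ × ℕ × ℕ × ℕ × ℕ

/-- All arguments have at most `u` bits. -/
def Arg.Lt (x : Arg) (u : ℕ) : Prop :=
  x.1 < 2 ^ u ∧ x.2.1 < 2 ^ u ∧ x.2.2.1 < 2 ^ u ∧ x.2.2.2.1 < 2 ^ u ∧ x.2.2.2.2.1 < 2 ^ u ∧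
    x.2.2.2.2.2 < 2 ^ u

/-- Programs: `α` read-only context, `G` global state, `ρ` procedure names; the index is the type of
the local context. Every program returns a number. -/
inductive Nd (α G ρ : Type) : Type → Type 1
  | val {Γ : Type} (f : α → G → Γ → ℕ) : Nd α G ρ Γ
  | act {Γ : Type} (f : α → G → Γ → G) : Nd α G ρ Γ
  | seq {Γ : Type} (p : Nd α G ρ Γ) (q : Nd α G ρ (Γ × ℕ)) : Nd α G ρ Γ
  | ite {Γ : Type} (c : α → G → Γ → Bool) (p q : Nd α G ρ Γ) : Nd α G ρ Γ
  | fold {Γ : Type} (n : α → Γ → ℕ) (p : Nd α G ρ (Γ × ℕ × ℕ)) : Nd α G ρ Γ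
  | map {Γ Δ : Type} (f : α → Γ → Δ) (p : Nd α G ρ Δ) : Nd α G ρ Γ
  | call {Γ : Type} (r : ρ) (arg : α → Γ → Arg) : Nd α G ρ Γ

variable {α G ρ : Type}

/-- Big-step semantics: context, state before, state after, result, cost. In `fold n p` the body
sees the counter and the accumulator (which starts at `0`) and returns the new accumulator. -/
inductive Ev (body : ρ → Nd α G ρ Arg) (a : α) (ok : G → Prop) :
    ∀ {Γ : Type}, Nd α G ρ Γ → Γ → G → G → ℕ → ℕ → Prop
  | val {Γ : Type} {f : α → G → Γ → ℕ} {γ : Γ} {g : G} {k : ℕ} : f a g γ < 2 ^ k →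
      Ev body a ok (.val f) γ g g (f a g γ) k
  | act {Γ : Type} {f : α → G → Γ → G} {γ : Γ} {g : G} {k : ℕ} : ok (f a g γ) →
      Ev body a ok (.act f) γ g (f a g γ) 0 k
  | seq {Γ : Type} {p : Nd α G ρ Γ} {q : Nd α G ρ (Γ × ℕ)} {γ : Γ} {g g1 g2 : G} {v v2 k k' : ℕ}
      (u : ℕ) : Ev body a ok p γ g g1 v k → v < 2 ^ u → Ev body a ok q (γ, v) g1 g2 v2 k' →
      u + k' ≤ k → Ev body a ok (.seq p q) γ g g2 v2 k
  | iteT {Γ : Type} {c : α → G → Γ → Bool} {p q : Nd α G ρ Γ} {γ : Γ} {g g' : G} {v k : ℕ} :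
      c a g γ = true → Ev body a ok p γ g g' v k → Ev body a ok (.ite c p q) γ g g' v k
  | iteF {Γ : Type} {c : α → G → Γ → Bool} {p q : Nd α G ρ Γ} {γ : Γ} {g g' : G} {v k : ℕ} :
      c a g γ = false → Ev body a ok q γ g g' v k → Ev body a ok (.ite c p q) γ g g' v k
  | foldV {Γ : Type} {n : α → Γ → ℕ} {p : Nd α G ρ (Γ × ℕ × ℕ)} {γ : Γ} {k : ℕ}
      (u k' : ℕ → ℕ) (gs : ℕ → G) (acc : ℕ → ℕ) : acc 0 = 0 → n a γ < 2 ^ k →
      acc (n a γ) < 2 ^ k → (∀ i < n a γ, i < 2 ^ u i ∧ acc i < 2 ^ u i ∧ u i + k' i ≤ k) →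
      (∀ i < n a γ, Ev body a ok p (γ, i, acc i) (gs i) (gs (i + 1)) (acc (i + 1)) (k' i)) →
      Ev body a ok (.fold n p) γ (gs 0) (gs (n a γ)) (acc (n a γ)) k
  | map {Γ Δ : Type} {f : α → Γ → Δ} {p : Nd α G ρ Δ} {γ : Γ} {g g' : G} {v k : ℕ} :
      Ev body a ok p (f a γ) g g' v k → Ev body a ok (.map f p) γ g g' v k
  | call {Γ : Type} {r : ρ} {arg : α → Γ → Arg} {γ : Γ} {g g' : G} {v k k' : ℕ} (u : ℕ) :
      (arg a γ).Lt u → Ev body a ok (body r) (arg a γ) g g' v k' → u + k' + 1 ≤ k →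
      Ev body a ok (.call r arg) γ g g' v k

/-- All atomic functions are `SP`. -/
def Nd.IsSP {A : Type} [Enc A α] [Enc A G] (B : Bud A) :
    ∀ {Γ : Type}, Nd α G ρ Γ → Enc A Γ → Prop
  | _, .val f, i => letI := i; SP B fun z : α × G × _ => f z.1 z.2.1 z.2.2
  | _, .act f, i => letI := i; SP B fun z : α × G × _ => f z.1 z.2.1 z.2.2
  | _, .seq p q, i => letI := i; p.IsSP B i ∧ q.IsSP B inferInstance
  | _, .ite c p q, i => letI := i;
      (SP B fun z : α × G × _ => c z.1 z.2.1 z.2.2) ∧ p.IsSP B i ∧ q.IsSP B i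
  | _, .fold n p, i => letI := i; (SP B fun z : α × _ => n z.1 z.2) ∧ p.IsSP B inferInstance
  | _, .map (Δ := Δ) f p, i => letI := i;
      ∃ i' : Enc A Δ, (letI := i'; SP B fun z : α × _ => f z.1 z.2) ∧ p.IsSP B i'
  | _, .call _ arg, i => letI := i; SP B fun z : α × _ => arg z.1 z.2

variable {body : ρ → Nd α G ρ Arg} {a : α} {ok : G → Prop}

theorem Ev.mono {Γ : Type} {p : Nd α G ρ Γ} {γ : Γ} {g g' : G} {v k k' : ℕ}
    (h : Ev body a ok p γ g g' v k) (hk : k ≤ k') : Ev body a ok p γ g g' v k' := by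
  induction h generalizing k' with
  | val h => exact .val (h.trans_le (Nat.pow_le_pow_right two_pos hk))
  | act h => exact .act h
  | seq u _ hv h2 hu ih _ => exact .seq u (ih hk) hv h2 (hu.trans hk)
  | iteT hc _ ih => exact .iteT hc (ih hk)
  | iteF hc _ ih => exact .iteF hc (ih hk)
  | foldV u kk gs acc h0 hn ha hu h _ =>
    exact .foldV u kk gs acc h0 (hn.trans_le (Nat.pow_le_pow_right two_pos hk))
      (ha.trans_le (Nat.pow_le_pow_right two_pos hk))
      (fun i hi => ⟨(hu i hi).1, (hu i hi).2.1, (hu i hi).2.2.trans hk⟩) h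
  | map _ ih => exact .map (ih hk)
  | call u hx h hu _ => exact .call u hx h (hu.trans hk)

theorem Ev.lt {Γ : Type} {p : Nd α G ρ Γ} {γ : Γ} {g g' : G} {v k : ℕ}
    (h : Ev body a ok p γ g g' v k) : v < 2 ^ k := by
  induction h with
  | val h => exact h
  | act _ => positivity
  | seq u _ _ _ hu _ ih => exact ih.trans_le (Nat.pow_le_pow_right two_pos (by omega))
  | iteT _ _ ih => exact ih
  | iteF _ _ ih => exact ih
  | foldV u k' gs acc _ _ ha _ _ _ => exact ha
  | map _ ih => exact ih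
  | call u _ _ hu ih => exact ih.trans_le (Nat.pow_le_pow_right two_pos (by omega))

/-- The rule for loops with bounds which do not depend on the round. -/
theorem Ev.fold {Γ : Type} {n : α → Γ → ℕ} {p : Nd α G ρ (Γ × ℕ × ℕ)} {γ : Γ} {k k' : ℕ}
    (u : ℕ) (gs : ℕ → G) (acc : ℕ → ℕ) (h0 : acc 0 = 0) (hn : n a γ < 2 ^ u)
    (ha : ∀ i ≤ n a γ, acc i < 2 ^ u)
    (h : ∀ i < n a γ, Ev body a ok p (γ, i, acc i) (gs i) (gs (i + 1)) (acc (i + 1)) k')
    (hu : u + k' ≤ k) : Ev body a ok (.fold n p) γ (gs 0) (gs (n a γ)) (acc (n a γ)) k :=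
  .foldV (fun _ => u) (fun _ => k') gs acc h0 (hn.trans_le (Nat.pow_le_pow_right two_pos (by omega)))
    ((ha _ le_rfl).trans_le (Nat.pow_le_pow_right two_pos (by omega)))
    (fun i hi => ⟨hi.trans hn, ha i hi.le, hu⟩) h

namespace DslP

open Full Full.Prog Function

variable {n : ℕ}

/-- The content of a slot. -/
def sl (l : Fin n → ℕ) (d : ℕ) : ℕ := if h : d < n then l ⟨d, h⟩ else 0

/-- Writing into a slot. -/
def up (l : Fin n → ℕ) (d v : ℕ) : Fin n → ℕ := fun i => if (i : ℕ) = d then v else l i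

/-- Assignment to a slot. -/
def setS (d : ℕ) (e : (Bool → ℕ) → (Fin n → ℕ) → ℕ) : Prog α Bool (Fin n) ρ :=
  .op fun _ s => (s.1, up s.2 d (e s.1 s.2))

/-- The slots of the arguments. -/
def ini (x : Arg) : Fin n → ℕ :=
  up (up (up (up (up (up (fun _ => 0) 0 x.1) 1 x.2.1) 2 x.2.2.1) 3 x.2.2.2.1) 4 x.2.2.2.2.1) 5
    x.2.2.2.2.2

/-- The arguments in their slots. -/
def args (l : Fin n → ℕ) : Arg := (sl l 0, sl l 1, sl l 2, sl l 3, sl l 4, sl l 5)

/-- The number of slots which a program needs. -/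
def dep : ∀ {Γ : Type}, Nd α G ρ Γ → ℕ
  | _, .val _ => 0
  | _, .act _ => 0
  | _, .seq p q => max (dep p) (dep q + 1)
  | _, .ite _ p q => max (dep p) (dep q)
  | _, .fold _ p => dep p + 2
  | _, .map _ p => dep p
  | _, .call _ _ => 0

/-- The compiled program; the slots from `d` on are free, `get` reads the context. -/
def cmp (enc : G → ℕ) (dec : ℕ → G) : ∀ {Γ : Type}, Nd α G ρ Γ → ℕ →
    (α → (Fin n → ℕ) → Γ) → Prog α Bool (Fin n) ρ
  | _, .val f, _, get => setG true fun a g l => f a (dec (g false)) (get a l)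
  | _, .act f, _, get => .seq (setG false fun a g l => enc (f a (dec (g false)) (get a l)))
      (setG true fun _ _ _ => 0)
  | _, .seq p q, d, get => .seq (cmp enc dec p d get) (.seq (setS d fun g _ => g true)
      (.seq (cmp enc dec q (d + 1) fun a l => (get a l, sl l d)) (setS d fun _ _ => 0)))
  | _, .ite c p q, d, get => ifP (fun a g l => c a (dec (g false)) (get a l) = true)
      (cmp enc dec p d get) (cmp enc dec q d get)
  | _, .fold m p, d, get => .seq (whP (fun a _ l => sl l d < m a (get a l))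
      (.seq (cmp enc dec p (d + 2) fun a l => (get a l, sl l d, sl l (d + 1)))
        (.seq (setS (d + 1) fun g _ => g true) (setS d fun _ l => sl l d + 1))))
      (.seq (setG true fun _ _ l => sl l (d + 1))
        (.seq (setS d fun _ _ => 0) (setS (d + 1) fun _ _ => 0)))
  | _, .map f p, d, get => cmp enc dec p d fun a l => f a (get a l)
  | _, .call r arg, _, get => cal r fun a _ l => ini (arg a (get a l))

theorem sl_up {l : Fin n → ℕ} {d v : ℕ} (h : d < n) : sl (up l d v) d = v := by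
  simp [sl, up, h]

theorem sl_up_ne {l : Fin n → ℕ} {d e v : ℕ} (h : e ≠ d) : sl (up l d v) e = sl l e := by
  unfold sl up
  split_ifs <;> rfl

theorem args_ini (h : 6 ≤ n) (x : Arg) : args (ini x : Fin n → ℕ) = x := by
  simp (disch := omega) only [args, ini, sl_up, sl_up_ne]

theorem ini_lt {x : Arg} {u : ℕ} (h : x.Lt u) (i : Fin n) : ini x i < 2 ^ u := by
  obtain ⟨h0, h1, h2, h3, h4, h5⟩ := h
  simp only [ini, up]
  split_ifs <;> first | assumption | positivity

theorem ini_zero (x : Arg) (i : Fin n) (h : 6 ≤ (i : ℕ)) : ini x i = 0 := by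
  simp (disch := omega) only [ini, up, if_neg]

theorem wp_setS {bd : ρ → Prog α Bool (Fin n) ρ} {V k d : ℕ} {e : (Bool → ℕ) → (Fin n → ℕ) → ℕ}
    {Q : (Bool → ℕ) → (Fin n → ℕ) → Prop} {g : Bool → ℕ} {l : Fin n → ℕ} (he : e g l ≤ V)
    (h : Q g (up l d (e g l))) : WP bd a V (setS d e) k Q g l :=
  ⟨_, _, .op fun hs => ⟨hs.1, fun i => by
    simp only [up]
    split_ifs
    · exact he
    · exact hs.2 i⟩, h⟩

theorem wp_cmp {enc : G → ℕ} {dec : ℕ → G} (hdec : ∀ g, dec (enc g) = g) {V : ℕ}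
    (hok : ∀ g, ok g → enc g ≤ V) (hn : ∀ r, 6 + dep (body r) ≤ n) {Γ : Type} {p : Nd α G ρ Γ}
    {γ : Γ} {g g' : G} {v k : ℕ} (h : Ev body a ok p γ g g' v k) :
    ∀ (d w : ℕ) (get : α → (Fin n → ℕ) → Γ) (gl : Bool → ℕ) (l : Fin n → ℕ), d + dep p ≤ n →
      (∀ l' : Fin n → ℕ, (∀ i : Fin n, (i : ℕ) < d → l' i = l i) → get a l' = γ) →
      gl false = enc g → (∀ i : Fin n, d ≤ (i : ℕ) → l i = 0) → (∀ i, l i < 2 ^ w) →
      2 ^ (w + k) ≤ V →
      WP (fun r => cmp enc dec (body r) 6 fun _ l => args l) a V (cmp enc dec p d get) (w + k)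
        (fun g2 l2 => g2 false = enc g' ∧ g2 true = v ∧ l2 = l) gl l := by
  have pw : ∀ {x u w : ℕ}, x < 2 ^ u → u ≤ w → x < 2 ^ w := fun h1 h2 =>
    h1.trans_le (Nat.pow_le_pow_right two_pos h2)
  induction h with
  | val h =>
    intro d w get gl l _ hget hg _ _ hV
    have e := hget l fun _ _ => rfl
    refine WP.setG ?_ ?_ <;> simp only [hg, hdec, e]
    · exact (pw h (by omega)).le.trans hV
    · simp [hg]
  | act h =>
    intro d w get gl l _ hget hg _ _ hV
    have e := hget l fun _ _ => rfl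
    refine WP.seq (WP.setG ?_ (WP.setG (Nat.zero_le _) ?_)) <;> simp only [hg, hdec, e]
    · exact hok _ h
    · simp
  | @seq Γ p q γ g g1 g2 v v2 k k' u _ hv _ hu ih1 ih2 =>
    intro d w get gl l hd hget hg h0 hl hV
    simp only [dep] at hd
    refine (ih1 d w get gl l (by omega) hget hg h0 hl hV).seq' ?_
    rintro g2 _ ⟨e1, e2, rfl⟩
    refine WP.seq (wp_setS (e2 ▸ (pw hv (by omega)).le.trans hV) ?_)
    rw [e2]
    refine ((ih2 (d + 1) (w + u) _ g2 _ (by omega) (fun l' hl' => ?_) e1 (fun i hi => ?_)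
      (fun i => ?_) ((Nat.pow_le_pow_right two_pos (by omega)).trans hV)).cost (by omega)).seq' ?_
    · rw [hget l' fun i hi => by rw [hl' i (by omega), up, if_neg (by omega)]]
      have hd' : d < n := by omega
      rw [sl, dif_pos hd', hl' _ (by simp), up, if_pos rfl]
    · rw [up, if_neg (by omega), h0 i (by omega)]
    · rw [up]
      split_ifs
      · exact pw hv (by omega)
      · exact pw (hl i) (by omega)
    · rintro g3 _ ⟨e3, e4, rfl⟩
      refine wp_setS (Nat.zero_le _) ⟨e3, e4, funext fun i => ?_⟩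
      simp only [up]
      split_ifs with hi
      · exact (h0 i hi.ge).symm
      · rfl
  | iteT hc _ ih =>
    intro d w get gl l hd hget hg h0 hl hV
    simp only [dep] at hd
    exact WP.ifT (by rw [hg, hdec, hget l fun _ _ => rfl, hc]) (ih d w get gl l (by omega) hget hg h0
      hl hV)
  | iteF hc _ ih =>
    intro d w get gl l hd hget hg h0 hl hV
    simp only [dep] at hd
    exact WP.ifF (by rw [hg, hdec, hget l fun _ _ => rfl, hc]; exact Bool.false_ne_true)
      (ih d w get gl l (by omega) hget hg h0 hl hV)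
  | @foldV Γ m p γ k u k' gs acc ha0 hm ha hu hE ih =>
    intro d w get gl l hd hget hg h0 hl hV
    simp only [dep] at hd
    have hd0 : d < n := by omega
    have hd1 : d + 1 < n := by omega
    have hV' : ∀ {x : ℕ}, x < 2 ^ k → x ≤ V := fun h => (pw h (by omega)).le.trans hV
    have hget' : ∀ x y (l' : Fin n → ℕ), (∀ i : Fin n, (i : ℕ) < d → l' i = up (up l d x) (d + 1) y i) →
        get a l' = γ := fun x y l' hl' => hget l' fun i hi => by
      rw [hl' i hi, up, if_neg (by omega), up, if_neg (by omega)]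
    have s0 : ∀ x y, sl (up (up l d x) (d + 1) y) d = x := fun x y => by
      rw [sl_up_ne (by omega), sl_up hd0]
    refine WP.seq (WP.whN (fun i g2 l2 => g2 false = enc (gs i) ∧ l2 = up (up l d i) (d + 1) (acc i))
      (m a γ) ⟨hg, funext fun i => ?_⟩ ?_ ?_)
    · simp only [up, ha0]
      split_ifs with h1 h2
      · exact h0 i (by omega)
      · exact h0 i (by omega)
      · rfl
    · rintro i hi g2 _ ⟨e1, rfl⟩
      refine ⟨by rwa [s0, hget' _ _ _ fun _ _ => rfl], ?_⟩
      obtain ⟨u1, u2, u3⟩ := hu i hi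
      refine ((ih i hi (d + 2) (w + u i) _ g2 _ (by omega) (fun l' hl' => ?_) e1 (fun i hi => ?_)
        (fun j => ?_) ((Nat.pow_le_pow_right two_pos (by omega)).trans hV)).cost (by omega)).seq' ?_
      · rw [hget' i (acc i) l' fun i hi => hl' i (by omega), sl, dif_pos hd0, hl' _ (by simp), sl,
          dif_pos hd1, hl' _ (by simp)]
        simp [up]
      · rw [up, if_neg (by omega), up, if_neg (by omega), h0 i (by omega)]
      · simp only [up]
        split_ifs
        · exact pw u2 (by omega)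
        · exact pw u1 (by omega)
        · exact pw (hl j) (by omega)
      · rintro g3 _ ⟨e3, e4, rfl⟩
        refine WP.seq (wp_setS (e4 ▸ hV' (pw (hE i hi).lt (by omega))) (wp_setS ?_ ⟨e3, funext fun j => ?_⟩)) <;>
          rw [sl_up_ne (by omega), s0]
        · exact hV' (lt_of_le_of_lt hi hm)
        · simp only [up, e4]
          split_ifs <;> first | rfl | omega
    · rintro g2 _ ⟨e1, rfl⟩
      refine ⟨by rw [s0, hget' _ _ _ fun _ _ => rfl]; exact lt_irrefl _, ?_⟩
      refine WP.seq (WP.setG ?_ (WP.seq (wp_setS (Nat.zero_le _) (wp_setS (Nat.zero_le _)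
        ⟨by simp [e1], ?_, funext fun j => ?_⟩)))) 
      · rw [sl_up hd1]
        exact hV' ha
      · simp [sl_up hd1]
      · simp only [up]
        split_ifs with h1 h2
        · exact (h0 j (by omega)).symm
        · exact (h0 j (by omega)).symm
        · rfl
  | map _ ih =>
    intro d w get gl l hd hget hg h0 hl hV
    exact ih d w _ gl l hd (fun l' hl' => by rw [hget l' hl']) hg h0 hl hV
  | @call Γ r arg γ g g' v k k' u hx _ hu ih =>
    intro d w get gl l _ hget hg _ hl hV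
    have e := hget l fun _ _ => rfl
    have h6 : 6 ≤ n := le_of_add_le_left (hn r)
    refine WP.cal w (u + k') (fun _ _ y => ?_) hl (by omega) ?_ <;> rw [e]
    · exact (pw (ini_lt hx y) (by omega)).le.trans hV
    · refine (ih 6 u _ gl _ (hn r) (fun l' hl' => ?_) hg (ini_zero _) (ini_lt hx)
        ((Nat.pow_le_pow_right two_pos (by omega)).trans hV)).mono fun _ _ h => ⟨h.1, h.2.1, rfl⟩
      rw [← args_ini h6 (arg a γ)]
      simp (disch := omega) only [args, sl, dif_pos]
      rw [hl' _ (by simp), hl' _ (by simp), hl' _ (by simp), hl' _ (by simp), hl' _ (by simp),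
        hl' _ (by simp)]

section sp

variable {A : Type} {B : Bud A} {β : Type} [Enc A β]

theorem sp_sl {l : β → Fin n → ℕ} (hl : SP B l) (d : ℕ) : SP B fun z => sl (l z) d := by
  unfold sl
  split_ifs with h
  · exact sp_app hl _
  · exact SP.const 0

theorem sp_up {l : β → Fin n → ℕ} {v : β → ℕ} (hl : SP B l) (d : ℕ) (hv : SP B v) :
    SP B fun z => up (l z) d (v z) := by
  refine sp_vec fun i => ?_
  unfold up
  split_ifs with h
  · exact hv
  · exact sp_app hl _

theorem sp_ini {x : β → Arg} (hx : SP B x) : SP B fun z => (ini (x z) : Fin n → ℕ) :=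
  sp_up (sp_up (sp_up (sp_up (sp_up (sp_up (sp_vec fun _ => SP.const 0) 0 hx.fst) 1 hx.snd.fst) 2
    hx.snd.snd.fst) 3 hx.snd.snd.snd.fst) 4 hx.snd.snd.snd.snd.fst) 5 hx.snd.snd.snd.snd.snd

theorem sp_args {l : β → Fin n → ℕ} (hl : SP B l) : SP B fun z => args (l z) :=
  (sp_sl hl 0).pair ((sp_sl hl 1).pair ((sp_sl hl 2).pair ((sp_sl hl 3).pair ((sp_sl hl 4).pair
    (sp_sl hl 5)))))

variable [Enc A α] [Enc A G]

theorem isSP_setS {d : ℕ} {e : (Bool → ℕ) → (Fin n → ℕ) → ℕ}
    (he : SP B fun z : α × PSt Bool (Fin n) => e z.2.1 z.2.2) :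
    (setS d e : Prog α Bool (Fin n) ρ).IsSP B :=
  SP.snd'.fst.pair (sp_up SP.snd'.snd d he)

theorem isSP_cmp {dec : ℕ → G} (hsd : SP B dec) {Γ : Type} (p : Nd α G ρ Γ) :
    ∀ (i : Enc A Γ) (d : ℕ) (get : α → (Fin n → ℕ) → Γ), p.IsSP B i →
      (SP B fun z : α × PSt Bool (Fin n) => get z.1 z.2.2) →
      (cmp (Enc.enc A) dec p d get).IsSP B := by
  have h0 : SP B fun z : α × PSt Bool (Fin n) => z.1 := SP.fst'
  have h1 : SP B fun z : α × PSt Bool (Fin n) => dec (z.2.1 false) :=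
    hsd.comp (sp_app SP.snd'.fst false)
  have h2 : SP B fun z : α × PSt Bool (Fin n) => z.2.1 true := sp_app SP.snd'.fst true
  have h3 : ∀ d, SP B fun z : α × PSt Bool (Fin n) => sl z.2.2 d := sp_sl SP.snd'.snd
  induction p with
  | val f => exact fun i d get hp hg => isSP_setG (SP.comp hp (h0.pair (h1.pair hg)))
  | act f =>
    exact fun i d get hp hg => ⟨isSP_setG (sp_enc.comp (SP.comp hp (h0.pair (h1.pair hg)))),
      isSP_setG (SP.const 0)⟩
  | seq p q ihp ihq =>
    exact fun i d get hp hg => ⟨ihp i d get hp.1 hg, isSP_setS h2,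
      ihq _ _ _ hp.2 (hg.pair (h3 d)), isSP_setS (SP.const 0)⟩
  | ite c p q ihp ihq =>
    exact fun i d get hp hg => isSP_ifP (SP.comp hp.1 (h0.pair (h1.pair hg))).decide_true
      (ihp i d get hp.2.1 hg) (ihq i d get hp.2.2 hg)
  | fold m p ih =>
    exact fun i d get hp hg => ⟨isSP_whP ((h3 d).decide_lt (SP.comp hp.1 (h0.pair hg)))
      ⟨ih _ _ _ hp.2 (hg.pair ((h3 d).pair (h3 _))), isSP_setS h2,
        isSP_setS ((h3 d).add (SP.const 1))⟩,
      isSP_setG (h3 _), isSP_setS (SP.const 0), isSP_setS (SP.const 0)⟩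
  | map f p ih =>
    intro i d get hp hg
    obtain ⟨i', hf, hp⟩ := hp
    exact ih i' d _ hp (SP.comp hf (h0.pair hg))
  | call r arg => exact fun i d get hp hg => isSP_cal (sp_ini (SP.comp hp (h0.pair hg)))

end sp

end DslP

open DslP Full in
/-- **The machine theorem** for the expression language. -/
theorem sp_ev {A : Type} {B : Bud A} [Enc A α] [Enc A G] [Pure A G] [Finite ρ]
    {dec : ℕ → G} (hdec : ∀ g : G, dec (Enc.enc A g) = g) (hsd : SP B dec)
    (hb : ∀ r, (body r).IsSP B inferInstance) (r0 : ρ) {ok : α → G → Prop}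
    {g0 : α → G} {x0 : α → Arg} {V K res : α → ℕ} (hg : SP B g0) (hx : SP B x0)
    (hV : PBd B V) (hK : PBd B fun a => 2 ^ K a) (hok : ∀ a g, ok a g → Enc.enc A g ≤ V a)
    (h : ∀ (x : List A) (a : α), Enc.ok x a → ok a (g0 a) ∧ (x0 a).Lt (K a) ∧
      ∃ g', Ev body a (ok a) (body r0) (x0 a) (g0 a) g' (res a) (K a)) : SP B res := by
  obtain ⟨n, hn⟩ := (Set.finite_range fun r => 6 + dep (body r)).bddAbove
  have hn : ∀ r, 6 + dep (body r) ≤ n := fun r => hn ⟨r, rfl⟩
  have h2 : PBd B fun a => 2 ^ (K a + K a) := (hK.mul hK).mono fun a => (pow_add _ _ _).le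
  refine sp_of_wp (ι := Bool) (κ := Fin n)
    (body := fun r => cmp (Enc.enc A) dec (body r) 6 fun _ l => args l)
    (fun r => isSP_cmp hsd _ _ _ _ (hb r) (sp_args SP.snd'.snd)) r0 true
    (g0 := fun a b => bif b then 0 else Enc.enc A (g0 a)) (l0 := fun a => ini (x0 a))
    (V := fun a => V a + 2 ^ (K a + K a)) (K := fun a => K a + K a)
    (sp_vec fun b => ?_) (sp_ini hx) (hV.add h2) h2 fun x a ha => ?_
  · cases b
    · exact sp_enc.comp hg
    · exact SP.const 0
  obtain ⟨h1, h3, g', h4⟩ := h x a ha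
  refine ⟨fun b => ?_, fun y => ?_, ?_⟩
  · cases b
    · exact (hok a _ h1).trans (Nat.le_add_right _ _)
    · exact Nat.zero_le _
  · exact ((ini_lt h3 y).le.trans (Nat.pow_le_pow_right two_pos (Nat.le_add_right _ _))).trans
      (Nat.le_add_left _ _)
  · have h6 : 6 ≤ n := le_of_add_le_left (hn r0)
    refine (wp_cmp hdec (fun g hg => (hok a g hg).trans (Nat.le_add_right _ _)) hn h4 6 (K a) _ _ _
      (hn r0) (fun l' hl' => ?_) rfl (ini_zero _) (ini_lt h3) (Nat.le_add_left _ _)).mono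
      fun _ _ h => h.2.1
    rw [← args_ini h6 (x0 a)]
    simp (disch := omega) only [args, sl, dif_pos]
    rw [hl' _ (by simp), hl' _ (by simp), hl' _ (by simp), hl' _ (by simp), hl' _ (by simp),
      hl' _ (by simp)]

end Vale.Agent.P313.NL
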