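import Vale.Agent.P313.NL.EDef

/-! The telescoping estimate, for an abstract register. -/

namespace Vale.Agent.P313.NL

open Finset
open scoped Classical

open Mix

variable {n : ℕ}

/-- `Hn` on one register. -/
def HnR (n l : ℕ) (g : ℕ → ℕ) (s : ℕ) : ℕ :=
  (∑ w ∈ range (4 ^ (t0 * l)), g (walk n (t0 * l) w s)) / 4 ^ (t0 * l)

/-- `tel` on one register. -/
noncomputable def telR (n : ℕ) (gd : ℕ → Prop) (f : ℕ → ℕ → ℕ) (j s : ℕ) : ℕ :=
  (f j s + ∑ l ∈ range j with gd l, HnR n (l + 1) (f (j - l - 1)) s) -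
    ∑ l ∈ range j with gd l, HnR n l (f (j - l - 1)) s

/-- `tel` for a walk which acts on a register through `φ`. -/
theorem tel_eq_telR {wk : ℕ → ℕ → Env → Env} {φ : ℕ → Env} (gd : ℕ → Prop) (f : ℕ → Env → ℕ)
    (j : ℕ) {s : ℕ} (h : ∀ t w, wk t w (φ s) = φ (walk n t w s)) :
    tel wk gd f j (φ s) = telR n gd (fun j s => f j (φ s)) j s := by
  simp only [tel, telR, Hn, HnR, h]

theorem e1_H_sub (t : ℕ) (a b : ℕ → ℝ) (s : ℕ) :
    H n t (fun u => a u - b u) s = H n t a s - H n t b s := by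
  simp only [H, sum_sub_distrib, sub_div]

theorem e1_round (l : ℕ) (h : ℕ → ℕ) {Z : ℝ} (hZ : 0 < Z) (s : ℕ) :
    (HnR n l h s : ℝ) / Z ≤ H n (t0 * l) (fun u => h u / Z) s ∧
      H n (t0 * l) (fun u => h u / Z) s ≤ (HnR n l h s : ℝ) / Z + 1 / Z := by
  have h0 : 0 < 4 ^ (t0 * l) := by positivity
  rw [H, ← sum_div, div_right_comm, ← add_div, div_le_div_iff_of_pos_right hZ,
    div_le_div_iff_of_pos_right hZ, le_div_iff₀ (by positivity), div_le_iff₀ (by positivity), HnR]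
  exact ⟨by exact_mod_cast Nat.div_mul_le_self _ _,
    by exact_mod_cast (Nat.lt_div_mul_add h0).le.trans (Nat.succ_mul _ _).ge⟩

theorem e1_J (hn : 0 < n) {g : ℕ → ℝ} {G : ℝ} (h0 : ∀ s < n * n, 0 ≤ g s)
    (hG : ∀ s < n * n, g s ≤ G) : 0 ≤ J n g ∧ J n g ≤ G := by
  have h : (0 : ℝ) < (n * n : ℕ) := by positivity
  refine ⟨div_nonneg (sum_nonneg fun s hs => h0 s (mem_range.1 hs)) h.le, ?_⟩
  rw [J, div_le_iff₀ h, mul_comm G]
  simpa using sum_le_card_nsmul _ _ G fun s hs => hG s (mem_range.1 hs)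

theorem e1_pt (f : ℕ → ℕ → ℕ) (g : ℕ → ℝ) {Z c : ℝ} (hZ : 0 < Z) (hc : 0 ≤ c) {gd : ℕ → Prop}
    {j k : ℕ} (hk : k ≤ j) (hg : ∀ l < j, gd l ↔ l < k) (s : ℕ) :
    ((telR n gd f j s : ℝ) / Z - c) ^ 2 ≤
      12 * ((H n (t0 * k) g s - c) ^ 2 + ((f j s : ℝ) / Z - g s) ^ 2 + ((j + 1) / Z) ^ 2) +
        4 / 3 * j * ∑ l ∈ range j, (H n (t0 * (l + 1)) (fun u => f (j - l - 1) u / Z - g u) s -
          H n (t0 * l) (fun u => f (j - l - 1) u / Z - g u) s) ^ 2 := by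
  have h1 : (range j).filter gd = range k := by
    ext l
    simp only [mem_filter, mem_range]
    exact ⟨fun h => (hg l h.1).1 h.2, fun h => ⟨by omega, (hg l (by omega)).2 h⟩⟩
  set d : ℕ → ℝ := fun l => H n (t0 * (l + 1)) (fun u => f (j - l - 1) u / Z - g u) s -
    H n (t0 * l) (fun u => f (j - l - 1) u / Z - g u) s with hd
  set r : ℕ → ℝ := fun l => (HnR n (l + 1) (f (j - l - 1)) s : ℝ) / Z -
    (HnR n l (f (j - l - 1)) s : ℝ) / Z - (H n (t0 * (l + 1)) g s - H n (t0 * l) g s) - d l with hr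
  have h2 : |∑ l ∈ range k, r l| ≤ (j + 1) / Z := by
    refine (abs_sum_le_sum_abs _ _).trans ((sum_le_card_nsmul _ _ (1 / Z) fun l _ => ?_).trans ?_)
    · have a := e1_round (n := n) (l + 1) (f (j - l - 1)) hZ s
      have b := e1_round (n := n) l (f (j - l - 1)) hZ s
      simp only [hr, hd, e1_H_sub]
      exact abs_le.2 ⟨by linarith [a.1, a.2, b.1, b.2], by linarith [a.1, a.2, b.1, b.2]⟩
    · rw [card_range, nsmul_eq_mul, mul_one_div]
      exact div_le_div_of_nonneg_right (by exact_mod_cast hk.trans j.le_succ) hZ.le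
  have h3 : (∑ l ∈ range k, d l) ^ 2 ≤ j * ∑ l ∈ range j, d l ^ 2 := by
    refine sq_sum_le_card_mul_sum_sq.trans ?_
    rw [card_range]
    exact mul_le_mul (by exact_mod_cast hk) (sum_le_sum_of_subset_of_nonneg
      (range_subset_range.2 hk) fun _ _ _ => sq_nonneg _) (sum_nonneg fun _ _ => sq_nonneg _)
      j.cast_nonneg
  have h4 : ((f j s + ∑ l ∈ range k, HnR n (l + 1) (f (j - l - 1)) s : ℕ) : ℝ) / Z -
      ((∑ l ∈ range k, HnR n l (f (j - l - 1)) s : ℕ) : ℝ) / Z - c =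
      (H n (t0 * k) g s - c) + ((f j s : ℝ) / Z - g s) + ∑ l ∈ range k, r l +
        ∑ l ∈ range k, d l := by
    simp only [hr, sum_sub_distrib, ← sum_div]
    have := sum_range_sub (fun l => H n (t0 * l) g s) k
    rw [sum_sub_distrib, mul_zero, H_zero] at this
    rw [this]
    push_cast
    ring
  have h5 : ∀ a b : ℕ, (((a - b : ℕ) : ℝ) / Z - c) ^ 2 ≤ ((a : ℝ) / Z - (b : ℝ) / Z - c) ^ 2 := by
    intro a b
    rcases le_total b a with h | h
    · rw [Nat.cast_sub h, sub_div]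
    · have : (a : ℝ) / Z ≤ (b : ℝ) / Z := div_le_div_of_nonneg_right (by exact_mod_cast h) hZ.le
      rw [Nat.sub_eq_zero_of_le h, Nat.cast_zero, zero_div]
      nlinarith [sq_nonneg ((a : ℝ) / Z - (b : ℝ) / Z)]
  have h6 := sq_le_sq' (abs_le.1 h2).1 (abs_le.1 h2).2
  rw [telR, h1]
  refine (h5 _ _).trans ?_
  rw [h4, mul_assoc]
  generalize H n (t0 * k) g s - c = a at *
  generalize (f j s : ℝ) / Z - g s = b at *
  generalize ∑ l ∈ range k, r l = x at *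
  generalize ∑ l ∈ range k, d l = y at *
  nlinarith [sq_nonneg (a - b), sq_nonneg (a - x), sq_nonneg (b - x), sq_nonneg (3 * (a + b + x) - y)]

theorem e1_diff (l : ℕ) (e : ℕ → ℝ) :
    ∑ s ∈ range (n * n), (H n (t0 * (l + 1)) e s - H n (t0 * l) e s) ^ 2 ≤
      10 * ((1 / 4) ^ (l + 1) * ∑ s ∈ range (n * n), e s ^ 2) := by
  have h1 := mix' (m := n) (l + 1) e
  have h2 := mix' (m := n) l e
  have h3 : ∑ s ∈ range (n * n), (H n (t0 * (l + 1)) e s - H n (t0 * l) e s) ^ 2 ≤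
      ∑ s ∈ range (n * n), (2 * (H n (t0 * (l + 1)) e s - J n e) ^ 2 +
        2 * (H n (t0 * l) e s - J n e) ^ 2) := sum_le_sum fun s _ => by
    nlinarith [sq_nonneg (H n (t0 * (l + 1)) e s + H n (t0 * l) e s - 2 * J n e)]
  rw [sum_add_distrib, ← mul_sum, ← mul_sum] at h3
  rw [pow_succ] at h1 ⊢
  linarith

theorem e1_main (f : ℕ → ℕ → ℕ) (g : ℕ → ℝ) {Z c : ℝ} (hZ : 0 < Z) (hc : 0 ≤ c)
    {gd : ℕ → ℕ → Prop} {j : ℕ} {k : ℕ → ℕ} (hk : ∀ s, k s ≤ j)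
    (hg : ∀ s, ∀ l < j, gd s l ↔ l < k s) :
    ∑ s ∈ range (n * n), ((telR n (gd s) f j s : ℝ) / Z - c) ^ 2 ≤
      16 * (j + 3) * ((∑ l ∈ range (j + 1),
        (1 / 4) ^ l * ∑ s ∈ range (n * n), ((f (j - l) s : ℝ) / Z - g s) ^ 2) +
        ∑ s ∈ range (n * n), (H n (t0 * k s) g s - c) ^ 2 + (n * n : ℕ) * ((j + 1) / Z) ^ 2) := by
  refine (sum_le_sum fun s _ => e1_pt f g hZ hc (hk s) (hg s) s).trans ?_
  rw [sum_add_distrib, ← mul_sum, ← mul_sum, sum_add_distrib, sum_add_distrib, sum_comm, sum_const,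
    card_range, nsmul_eq_mul, sum_range_succ', pow_zero, one_mul, Nat.sub_zero]
  have h1 := sum_le_sum (s := range j) fun l _ =>
    e1_diff (n := n) l fun u => f (j - l - 1) u / Z - g u
  rw [← mul_sum] at h1
  simp only [Nat.sub_sub] at h1 ⊢
  have h2 : 0 ≤ ∑ l ∈ range j, (1 / 4 : ℝ) ^ (l + 1) *
      ∑ s ∈ range (n * n), ((f (j - (l + 1)) s : ℝ) / Z - g s) ^ 2 := by positivity
  have h3 : 0 ≤ ∑ s ∈ range (n * n), (H n (t0 * k s) g s - c) ^ 2 := by positivity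
  have h4 : 0 ≤ ∑ s ∈ range (n * n), ((f j s : ℝ) / Z - g s) ^ 2 := by positivity
  have h5 : 0 ≤ ((n * n : ℕ) : ℝ) * ((j + 1) / Z) ^ 2 := by positivity
  have h6 : (0 : ℝ) ≤ j := j.cast_nonneg
  nlinarith [mul_le_mul_of_nonneg_left h1 h6, mul_nonneg h6 h2, mul_nonneg h6 h3, mul_nonneg h6 h4,
    mul_nonneg h6 h5]

theorem e1_mix {g : ℕ → ℝ} {G : ℝ} (h0 : ∀ s < n * n, 0 ≤ g s) (hG : ∀ s < n * n, g s ≤ G)
    (l : ℕ) : ∑ s ∈ range (n * n), (H n (t0 * l) g s - J n g) ^ 2 ≤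
      (n * n : ℕ) * ((1 / 4) ^ l * G ^ 2) := by
  refine (mix' l g).trans ?_
  rw [mul_left_comm]
  refine mul_le_mul_of_nonneg_left ?_ (by positivity)
  simpa using sum_le_card_nsmul _ _ (G ^ 2) fun s hs =>
    pow_le_pow_left₀ (h0 s (mem_range.1 hs)) (hG s (mem_range.1 hs)) 2

theorem e1_stop (hn : 0 < n) {g : ℕ → ℝ} {G : ℝ} (h0 : ∀ s < n * n, 0 ≤ g s)
    (hG : ∀ s < n * n, g s ≤ G) (ok : ℕ → Prop) (l : ℕ) :
    ∑ s ∈ range (n * n) with ∀ w < 4 ^ (t0 * l), ¬ ok (walk n (t0 * l) w s),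
      (H n (t0 * l) g s - J n g) ^ 2 ≤
      4 * (G ^ 2 * ((1 / 4) ^ l * (((range (n * n)).filter fun s => ¬ ok s).card : ℕ))) := by
  have hN : (0 : ℝ) < (n * n : ℕ) := by positivity
  set N : ℝ := ((((range (n * n)).filter fun s => ¬ ok s).card : ℕ) : ℝ) with hN'
  have hq : (0 : ℝ) ≤ G ^ 2 * (1 / 4) ^ l := by positivity
  have hN0 : 0 ≤ N := Nat.cast_nonneg _
  rcases le_total ((n * n : ℕ) : ℝ) (2 * N) with h | h
  · refine ((sum_le_sum_of_subset_of_nonneg (filter_subset _ _) fun _ _ _ => sq_nonneg _).trans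
      (e1_mix h0 hG l)).trans ?_
    nlinarith [mul_le_mul_of_nonneg_left h hq, mul_nonneg hq hN0]
  · let b : ℕ → ℝ := fun s => if ¬ ok s then 1 else 0
    have h1 : ∑ s ∈ range (n * n), b s = N := by rw [hN', ← sum_boole]
    have h2 : ∑ s ∈ range (n * n), b s ^ 2 = N :=
      (sum_congr rfl fun s _ => by simp only [b]; split_ifs <;> simp).trans h1
    have h3 := mix' (m := n) l b
    have h4 : J n b ≤ 1 / 2 := by
      rw [J, h1, div_le_iff₀ hN]
      linarith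
    obtain ⟨h5, h6⟩ := e1_J hn h0 hG
    rw [h2] at h3
    refine le_trans (sum_le_sum (g := fun s => 4 * (G ^ 2 * (H n (t0 * l) b s - J n b) ^ 2))
      fun s hs => ?_) ?_
    · obtain ⟨k1, k2⟩ := mem_filter.1 hs
      have k3 : H n (t0 * l) b s = 1 := by
        rw [H, sum_congr rfl fun w hw => if_pos (k2 w (mem_range.1 hw)), sum_const, card_range,
          nsmul_eq_mul, mul_one, div_eq_one_iff_eq (by positivity)]
        push_cast
        rfl
      have k4 := abs_H_le (t0 * l) (f := fun u => g u - J n g) (c := G)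
        (fun u hu => abs_le.2 ⟨by linarith [h0 u hu], by linarith [hG u hu]⟩) (mem_range.1 k1)
      rw [H_sub_const] at k4
      have k5 := sq_le_sq' (abs_le.1 k4).1 (abs_le.1 k4).2
      have k6 : 1 / 4 ≤ (1 - J n b) ^ 2 := by nlinarith
      rw [k3]
      nlinarith [mul_le_mul_of_nonneg_left k6 (sq_nonneg G)]
    · refine (sum_le_sum_of_subset_of_nonneg (filter_subset _ _) fun _ _ _ => by positivity).trans ?_
      rw [← mul_sum, ← mul_sum]
      exact mul_le_mul_of_nonneg_left (mul_le_mul_of_nonneg_left h3 (sq_nonneg _)) (by norm_num)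

/-- The error of the full estimate. `Z` is the scale of the fixed point numbers. -/
theorem telR_err (hn : 0 < n) (f : ℕ → ℕ → ℕ) (g : ℕ → ℝ) {Z G : ℝ} (hZ : 0 < Z)
    (h0 : ∀ s < n * n, 0 ≤ g s) (hG : ∀ s < n * n, g s ≤ G) (j : ℕ) :
    ∑ s ∈ range (n * n), ((telR n (fun _ => True) f j s : ℝ) / Z - J n g) ^ 2 ≤
      16 * (j + 3) * ((∑ l ∈ range (j + 1),
        (1 / 4) ^ l * ∑ s ∈ range (n * n), ((f (j - l) s : ℝ) / Z - g s) ^ 2) +
        (n * n : ℕ) * ((1 / 4) ^ j * G ^ 2 + ((j + 1) / Z) ^ 2)) := by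
  refine (e1_main (gd := fun _ _ => True) (k := fun _ => j) f g hZ (e1_J hn h0 hG).1
    (fun _ => le_rfl) fun _ _ h => iff_of_true trivial h).trans
    (mul_le_mul_of_nonneg_left ?_ (by positivity))
  linarith [e1_mix h0 hG j]

/-- The error of the estimate which stops when no handle is found; `ok l s` says that there is a
handle in the point `s` for the length `l`. -/
theorem telR_err_stop (hn : 0 < n) (f : ℕ → ℕ → ℕ) (g : ℕ → ℝ) {Z G : ℝ} (hZ : 0 < Z)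
    (h0 : ∀ s < n * n, 0 ≤ g s) (hG : ∀ s < n * n, g s ≤ G) (ok : ℕ → ℕ → Prop) (j : ℕ) :
    ∑ s ∈ range (n * n), ((telR n (fun l => ∀ l' ≤ l, 1 ≤ l' →
        ∃ w < 4 ^ (t0 * l'), ok l' (walk n (t0 * l') w s)) f j s : ℝ) / Z - J n g) ^ 2 ≤
      64 * (j + 3) * ((∑ l ∈ range (j + 1),
        (1 / 4) ^ l * ∑ s ∈ range (n * n), ((f (j - l) s : ℝ) / Z - g s) ^ 2) +
        (n * n : ℕ) * ((1 / 4) ^ j * G ^ 2 + ((j + 1) / Z) ^ 2) +
        G ^ 2 * ∑ l ∈ range j with 1 ≤ l,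
          (1 / 4 : ℝ) ^ l * (((range (n * n)).filter fun s => ¬ ok l s).card : ℕ)) := by
  have ex : ∀ s, ∃ k, k = j ∨ (1 ≤ k ∧ ∀ w < 4 ^ (t0 * k), ¬ ok k (walk n (t0 * k) w s)) :=
    fun _ => ⟨j, Or.inl rfl⟩
  have hk : ∀ s, Nat.find (ex s) ≤ j := fun s => Nat.find_min' _ (Or.inl rfl)
  refine (e1_main (k := fun s => Nat.find (ex s)) (gd := fun s l => ∀ l' ≤ l, 1 ≤ l' →
    ∃ w < 4 ^ (t0 * l'), ok l' (walk n (t0 * l') w s)) f g hZ (e1_J hn h0 hG).1 hk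
    fun s l hl => ?_).trans ?_
  · rw [Nat.lt_find_iff]
    refine forall₂_congr fun l' hl' => ?_
    push Not
    exact (and_iff_right (by omega)).symm
  have h1 : ∑ s ∈ range (n * n), (H n (t0 * Nat.find (ex s)) g s - J n g) ^ 2 ≤
      ∑ s ∈ range (n * n), ((H n (t0 * j) g s - J n g) ^ 2 + ∑ l ∈ range j with 1 ≤ l,
        if ∀ w < 4 ^ (t0 * l), ¬ ok l (walk n (t0 * l) w s) then
          (H n (t0 * l) g s - J n g) ^ 2 else 0) := sum_le_sum fun s _ => by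
    have h2 : ∀ l ∈ (range j).filter (1 ≤ ·), 0 ≤
        if ∀ w < 4 ^ (t0 * l), ¬ ok l (walk n (t0 * l) w s) then
          (H n (t0 * l) g s - J n g) ^ 2 else 0 := fun l _ => by positivity
    rcases (hk s).eq_or_lt with h | h
    · rw [h]
      exact le_add_of_nonneg_right (sum_nonneg h2)
    · obtain ⟨h3, h4⟩ := (Nat.find_spec (ex s)).resolve_left h.ne
      have := single_le_sum h2 (mem_filter.2 ⟨mem_range.2 h, h3⟩)
      rw [if_pos h4] at this
      exact le_add_of_nonneg_of_le (sq_nonneg _) this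
  rw [sum_add_distrib, sum_comm] at h1
  have h2 := sum_le_sum (s := (range j).filter (1 ≤ ·)) fun l _ => e1_stop hn h0 hG (ok l) l
  simp only [sum_filter (s := range (n * n))] at h2
  rw [← mul_sum, ← mul_sum] at h2
  have h3 := e1_mix h0 hG j
  have h4 : 0 ≤ ∑ l ∈ range (j + 1),
      (1 / 4 : ℝ) ^ l * ∑ s ∈ range (n * n), ((f (j - l) s : ℝ) / Z - g s) ^ 2 := by positivity
  have h5 : 0 ≤ ((n * n : ℕ) : ℝ) * ((j + 1) / Z) ^ 2 := by positivity
  have h6 : 0 ≤ ((n * n : ℕ) : ℝ) * ((1 / 4) ^ j * G ^ 2) := by positivity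
  rw [show (64 : ℝ) * (j + 3) = 16 * (j + 3) * 4 by ring, mul_assoc _ 4]
  exact mul_le_mul_of_nonneg_left (by linarith) (by positivity)

end Vale.Agent.P313.NL
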