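import Vale.Agent.P313.NL.IDef

/-! The factors of the operation `D`, sums over the children, potentials. -/

namespace Vale.Agent.P313.NL

open Finset
open scoped Classical

variable {p : Par} {S : Sys} {k eb : ℕ}

theorem id1_clamp_nonneg (x : ℝ) : 0 ≤ clamp x := le_min zero_le_one (le_max_left _ _)
theorem id1_clamp_le (x : ℝ) : clamp x ≤ 1 := min_le_left _ _
theorem id1_clamp_zero {x : ℝ} (h : x ≤ 0) : clamp x = 0 := by
  rw [clamp, max_eq_left h, min_eq_right zero_le_one]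
theorem id1_clamp_one {x : ℝ} (h : 1 ≤ x) : clamp x = 1 := by
  rw [clamp, min_eq_left (h.trans (le_max_right _ _))]
theorem id1_clamp_mid {x : ℝ} (h0 : 0 ≤ x) (h1 : x ≤ 1) : clamp x = x := by
  rw [clamp, max_eq_right h0, min_eq_right h1]

theorem id1_M_pos : (0 : ℝ) < p.M := by
  rw [Par.M]; positivity
theorem id1_one_le_M : (1 : ℝ) ≤ p.M := by
  rw [Par.M]; exact_mod_cast Nat.one_le_two_pow

/-- The hat is a difference of two cuts. -/
theorem id1_hat (y : ℝ) : max 0 (1 - |y|) = clamp (y + 1) - clamp y := by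
  rcases le_total y 0 with h | h
  · rw [abs_of_nonpos h, id1_clamp_zero h]
    rcases le_total (y + 1) 0 with h' | h'
    · rw [id1_clamp_zero h', max_eq_left (by linarith)]; ring
    · rw [id1_clamp_mid h' (by linarith), max_eq_right (by linarith)]; ring
  · rw [abs_of_nonneg h, id1_clamp_one (x := y + 1) (by linarith)]
    rcases le_total y 1 with h' | h'
    · rw [id1_clamp_mid h h', max_eq_right (by linarith)]
    · rw [id1_clamp_one h', max_eq_left (by linarith)]; ring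

theorem id1_hat_mul (y : ℝ) : y * max 0 (1 - |y|) =
    clamp y * (1 - clamp y) - clamp (y + 1) * (1 - clamp (y + 1)) := by
  rcases le_total y 0 with h | h
  · rw [abs_of_nonpos h, id1_clamp_zero h]
    rcases le_total (y + 1) 0 with h' | h'
    · rw [id1_clamp_zero h', max_eq_left (by linarith)]; ring
    · rw [id1_clamp_mid h' (by linarith), max_eq_right (by linarith)]; ring
  · rw [abs_of_nonneg h, id1_clamp_one (x := y + 1) (by linarith)]
    rcases le_total y 1 with h' | h'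
    · rw [id1_clamp_mid h h', max_eq_right (by linarith)]; ring
    · rw [id1_clamp_one h', max_eq_left (by linarith)]; ring

theorem id1_plateau (y : ℝ) : clamp (2 - |y|) = clamp (y + 2) - clamp (y - 1) := by
  rcases le_total y 0 with h | h
  · rw [abs_of_nonpos h, id1_clamp_zero (x := y - 1) (by linarith), sub_zero]
    congr 1; ring
  · rw [abs_of_nonneg h, id1_clamp_one (x := y + 2) (by linarith)]
    rcases le_total y 1 with h' | h'
    · rw [id1_clamp_one (by linarith), id1_clamp_zero (by linarith), sub_zero]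
    · rcases le_total y 2 with h2 | h2
      · rw [id1_clamp_mid (by linarith) (by linarith), id1_clamp_mid (by linarith) (by linarith)]
        ring
      · rw [id1_clamp_zero (by linarith), id1_clamp_one (by linarith), sub_self]

theorem id1_clamp_min (n j : ℝ) : clamp (n - j) = min n (j + 1) - min n j := by
  rcases le_total n j with h | h
  · rw [id1_clamp_zero (by linarith), min_eq_left h, min_eq_left (by linarith), sub_self]
  · rw [min_eq_right h]
    rcases le_total n (j + 1) with h' | h'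
    · rw [id1_clamp_mid (by linarith) (by linarith), min_eq_left h']
    · rw [id1_clamp_one (by linarith), min_eq_right h']; ring

theorem id1_sum_clamp {n : ℝ} (hn : 0 ≤ n) (J : ℕ) :
    ∑ j ∈ range J, clamp (n - j) = min n J := by
  induction J with
  | zero => simp [min_eq_right hn]
  | succ J ih => rw [sum_range_succ, ih, id1_clamp_min]; push_cast; ring

theorem id1_sum_hat {x : ℝ} (hx : 0 ≤ x) (n : ℕ) :
    ∑ u ∈ range n, max 0 (1 - |(u : ℝ) - x|) = clamp (n - x) := by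
  induction n with
  | zero => simp [id1_clamp_zero (x := -x) (by linarith)]
  | succ n ih =>
    rw [sum_range_succ, ih, id1_hat]
    have : ((n + 1 : ℕ) : ℝ) - x = n - x + 1 := by push_cast; ring
    rw [this]; ring

theorem id1_sum_hat_mul {x : ℝ} (hx : 0 ≤ x) (n : ℕ) :
    ∑ u ∈ range n, (u : ℝ) * max 0 (1 - |(u : ℝ) - x|) ≤ x := by
  have key : ∑ u ∈ range n, (u : ℝ) * max 0 (1 - |(u : ℝ) - x|) =
      x * clamp (n - x) - clamp (n - x) * (1 - clamp (n - x)) := by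
    induction n with
    | zero => simp [id1_clamp_zero (x := -x) (by linarith)]
    | succ n ih =>
      rw [sum_range_succ, ih]
      have h1 : ((n + 1 : ℕ) : ℝ) - x = n - x + 1 := by push_cast; ring
      have h2 := id1_hat_mul ((n : ℝ) - x)
      have h3 := id1_hat ((n : ℝ) - x)
      rw [h1]
      linear_combination h2 + x * h3
  rw [key]
  have h0 := id1_clamp_nonneg ((n : ℝ) - x)
  have h1 := id1_clamp_le ((n : ℝ) - x)
  nlinarith [mul_nonneg h0 (sub_nonneg.2 h1), mul_nonneg hx (sub_nonneg.2 h1)]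

theorem id1_sum_plateau (x : ℝ) (n : ℕ) :
    ∑ u ∈ range n, clamp (2 - |(u : ℝ) - x|) ≤ 3 := by
  have key : ∑ u ∈ range n, clamp (2 - |(u : ℝ) - x|) =
      clamp (n - x + 1) + clamp (n - x) + clamp (n - x - 1) -
        (clamp (-x + 1) + clamp (-x) + clamp (-x - 1)) := by
    induction n with
    | zero => simp
    | succ n ih =>
      rw [sum_range_succ, ih, id1_plateau]
      have h1 : ((n + 1 : ℕ) : ℝ) - x + 1 = n - x + 2 := by push_cast; ring
      have h2 : ((n + 1 : ℕ) : ℝ) - x - 1 = n - x := by push_cast; ring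
      have h3 : ((n + 1 : ℕ) : ℝ) - x = n - x + 1 := by push_cast; ring
      rw [h1, h2, h3]; ring
  rw [key]
  linarith [id1_clamp_le ((n : ℝ) - x + 1), id1_clamp_le ((n : ℝ) - x),
    id1_clamp_le ((n : ℝ) - x - 1), id1_clamp_nonneg (-x + 1), id1_clamp_nonneg (-x),
    id1_clamp_nonneg (-x - 1)]

theorem id1_sum_mul (a b : ℕ) (f : ℕ → ℝ) :
    ∑ v ∈ range (a * b), f v = ∑ i ∈ range a, ∑ j ∈ range b, f (i + a * j) := by
  induction b with
  | zero => simp
  | succ b ih =>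
    rw [Nat.mul_succ, sum_range_add, ih, ← sum_add_distrib]
    refine sum_congr rfl fun i _ => ?_
    rw [sum_range_succ, add_comm (a * b) i]

/-- A sum over the chunks is a double sum over the halves. -/
theorem id1_sum_chunk (g : ℕ → ℕ → ℝ) : ∑ χ ∈ range p.A, g (p.cu χ) (p.cj χ) =
    ∑ u ∈ range (2 ^ p.W1), ∑ j ∈ range (2 ^ p.W1), g u j := by
  have hA : p.A = 2 ^ p.W1 * 2 ^ p.W1 := by rw [Par.A, Par.W, two_mul, pow_add]
  rw [hA, id1_sum_mul, sum_comm]
  refine sum_congr rfl fun u _ => sum_congr rfl fun j hj => ?_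
  have hj' := mem_range.1 hj
  have hp : 0 < 2 ^ p.W1 := by positivity
  rw [Par.cu, Par.cj, Nat.add_mul_div_left _ _ hp, Nat.div_eq_of_lt hj', zero_add,
    Nat.add_mul_mod_self_left, Nat.mod_eq_of_lt hj']

theorem id1_nst_nonneg (χ : ℕ) (x : ℝ) : 0 ≤ p.nst χ x :=
  mul_nonneg (by positivity) (le_max_left _ _)

theorem fa_nonneg (χ : ℕ) (x : ℝ) : 0 ≤ p.fa χ x :=
  div_nonneg (id1_clamp_nonneg _) (by positivity)
theorem fb_nonneg (χ : ℕ) (x : ℝ) : 0 ≤ p.fb χ x :=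
  mul_nonneg (id1_clamp_nonneg _) (id1_clamp_nonneg _)
theorem fb_le_one (χ : ℕ) (x : ℝ) : p.fb χ x ≤ 1 :=
  mul_le_one₀ (id1_clamp_le _) (id1_clamp_nonneg _) (id1_clamp_le _)
theorem fa_le (χ : ℕ) (x : ℝ) : p.fa χ x ≤ 1 / (p.cu χ * p.M) :=
  div_le_div_of_nonneg_right (id1_clamp_le _) (by positivity)

theorem id1_fa_ne {χ : ℕ} {x : ℝ} (h : p.fa χ x ≠ 0) :
    1 ≤ p.cu χ ∧ (p.cj χ : ℝ) < p.nst χ x ∧ |(p.cu χ : ℝ) - x| < 1 := by
  have h1 : 1 ≤ p.cu χ := by
    refine Nat.one_le_iff_ne_zero.2 fun h0 => h ?_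
    rw [Par.fa, h0]; simp
  have h2 : (p.cj χ : ℝ) < p.nst χ x := by
    by_contra hc
    refine h ?_
    rw [Par.fa, id1_clamp_zero (by linarith [not_lt.1 hc]), zero_div]
  refine ⟨h1, h2, ?_⟩
  by_contra hc
  have h3 : p.nst χ x = 0 := by
    rw [Par.nst, max_eq_left (by linarith [not_lt.1 hc]), mul_zero]
  have : (0 : ℝ) ≤ p.cj χ := Nat.cast_nonneg _
  linarith

theorem fa_pos {χ : ℕ} {x : ℝ} (h : p.fa χ x ≠ 0) : 1 ≤ p.cu χ ∧ x - 1 < p.cu χ := by
  obtain ⟨h1, -, h3⟩ := id1_fa_ne h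
  exact ⟨h1, by linarith [(abs_lt.1 h3).1]⟩

theorem rs_fa_le (sf : Bool) (χ : ℕ) (x : ℝ) : 2 ^ p.rs sf χ * p.fa χ x ≤ 1 / p.M := by
  have hM : (0 : ℝ) < p.M := id1_M_pos
  by_cases h : p.fa χ x = 0
  · rw [h, mul_zero]; positivity
  have h1 : (1 : ℝ) ≤ p.cu χ := by exact_mod_cast (fa_pos h).1
  have h2 : (2 : ℝ) ^ p.rs sf χ ≤ p.cu χ := by
    rw [Par.rs]
    split_ifs with hf
    · rw [Par.flg, Bool.and_eq_true, decide_eq_true_eq] at hf
      exact_mod_cast hf.2.le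
    · rwa [pow_zero]
  calc 2 ^ p.rs sf χ * p.fa χ x ≤ p.cu χ * (1 / (p.cu χ * p.M)) :=
        mul_le_mul h2 (fa_le χ x) (fa_nonneg χ x) (by positivity)
    _ = 1 / p.M := by field_simp

theorem id1_fa_le_one (χ : ℕ) (x : ℝ) : p.fa χ x ≤ 1 := by
  have h := rs_fa_le (p := p) false χ x
  have h0 : p.rs false χ = 0 := by simp [Par.rs, Par.flg]
  rw [h0, pow_zero, one_mul] at h
  exact h.trans ((div_le_one id1_M_pos).2 id1_one_le_M)

theorem id1_fa_fb (χ : ℕ) (x : ℝ) : p.fa χ x * p.fb χ x = p.fa χ x := by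
  by_cases h : p.fa χ x = 0
  · rw [h, zero_mul]
  obtain ⟨-, h2, h3⟩ := id1_fa_ne h
  rw [Par.fb, id1_clamp_one (by linarith), id1_clamp_one (by linarith), mul_one, mul_one]

theorem id1_sum_fa_eq (x : ℝ) : ∑ χ ∈ range p.A, p.fa χ x = ∑ u ∈ range (2 ^ p.W1),
    min (p.M * u * max 0 (1 - |(u : ℝ) - x|)) ((2 ^ p.W1 : ℕ) : ℝ) / (u * p.M) := by
  have := id1_sum_chunk (p := p) fun u j =>
    clamp (p.M * u * max 0 (1 - |(u : ℝ) - x|) - j) / (u * p.M)
  refine Eq.trans this (sum_congr rfl fun u _ => ?_)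
  simp only [div_eq_mul_inv]
  rw [← sum_mul, id1_sum_clamp (mul_nonneg (by positivity) (le_max_left _ _))]

theorem sum_fa {x : ℝ} (h1 : 1 ≤ x) (h2 : p.M * (x + 2) ≤ 2 ^ p.W1) :
    ∑ χ ∈ range p.A, p.fa χ x = 1 := by
  have hM : (0 : ℝ) < p.M := id1_M_pos
  have hM1 : (1 : ℝ) ≤ p.M := id1_one_le_M
  rw [id1_sum_fa_eq]
  have : ∀ u ∈ range (2 ^ p.W1),
      min (p.M * u * max 0 (1 - |(u : ℝ) - x|)) ((2 ^ p.W1 : ℕ) : ℝ) / (u * p.M) =
        max 0 (1 - |(u : ℝ) - x|) := by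
    intro u _
    rcases le_total (1 - |(u : ℝ) - x|) 0 with h | h
    · rw [max_eq_left h, mul_zero, min_eq_left (by positivity), zero_div]
    · rw [max_eq_right h]
      have ha := abs_le.1 (show |(u : ℝ) - x| ≤ 1 by linarith)
      have hu : (0 : ℝ) ≤ u := Nat.cast_nonneg _
      have hle : p.M * u * (1 - |(u : ℝ) - x|) ≤ ((2 ^ p.W1 : ℕ) : ℝ) := by
        push_cast
        have h3 : (u : ℝ) * (1 - |(u : ℝ) - x|) ≤ x + 2 := by
          nlinarith [abs_nonneg ((u : ℝ) - x)]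
        calc p.M * u * (1 - |(u : ℝ) - x|) = p.M * (u * (1 - |(u : ℝ) - x|)) := by ring
          _ ≤ p.M * (x + 2) := mul_le_mul_of_nonneg_left h3 hM.le
          _ ≤ _ := h2
      rw [min_eq_left hle]
      rcases hu.eq_or_lt with h0 | h0
      · rw [← h0] at ha ⊢
        have hx : x = 1 := by linarith [ha.1]
        simp [hx]
      · field_simp
  rw [sum_congr rfl this, id1_sum_hat (by linarith), id1_clamp_one]
  push_cast
  nlinarith

theorem sum_fa_fb {x : ℝ} (h1 : 1 ≤ x) (h2 : p.M * (x + 2) ≤ 2 ^ p.W1) :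
    ∑ χ ∈ range p.A, p.fa χ x * p.fb χ x = 1 := by
  rw [sum_congr rfl fun χ _ => id1_fa_fb χ x, sum_fa h1 h2]

theorem sum_fa_le {x : ℝ} (h1 : 1 ≤ x) : ∑ χ ∈ range p.A, p.fa χ x ≤ 1 := by
  have hM : (0 : ℝ) < p.M := id1_M_pos
  rw [id1_sum_fa_eq]
  refine le_trans (sum_le_sum fun u _ => ?_)
    ((id1_sum_hat (x := x) (by linarith) (2 ^ p.W1)).le.trans (id1_clamp_le _))
  have hu : (0 : ℝ) ≤ u := Nat.cast_nonneg _
  rcases hu.eq_or_lt with h0 | h0
  · rw [← h0, zero_mul, div_zero]; exact le_max_left _ _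
  · rw [div_le_iff₀ (by positivity)]
    refine (min_le_left _ _).trans (le_of_eq ?_)
    ring

theorem id1_sum_fb_le (x : ℝ) (P : ℕ → Prop) : ∑ χ ∈ range p.A with P (p.cu χ), p.fb χ x ≤
    p.M * ∑ u ∈ range (2 ^ p.W1), (if P u then (u : ℝ) * max 0 (1 - |(u : ℝ) - x|) else 0) + 3 := by
  have h := id1_sum_chunk (p := p) fun u j => if P u then
    clamp (p.M * u * max 0 (1 - |(u : ℝ) - x|) - j + 1) * clamp (2 - |(u : ℝ) - x|) else 0
  rw [sum_filter]
  refine le_trans (le_of_eq h) ?_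
  refine le_trans ?_ (add_le_add_right (id1_sum_plateau x (2 ^ p.W1)) _)
  rw [mul_sum, ← sum_add_distrib]
  refine sum_le_sum fun u _ => ?_
  split_ifs with hP
  · have hn : (0 : ℝ) ≤ p.M * u * max 0 (1 - |(u : ℝ) - x|) :=
      mul_nonneg (by positivity) (le_max_left _ _)
    have h1 : ∑ j ∈ range (2 ^ p.W1), clamp (p.M * u * max 0 (1 - |(u : ℝ) - x|) - j + 1) ≤
        p.M * u * max 0 (1 - |(u : ℝ) - x|) + 1 := by
      refine le_trans (le_of_eq ?_) ((id1_sum_clamp (by linarith) (2 ^ p.W1)).le.trans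
        (min_le_left _ _))
      refine sum_congr rfl fun j _ => ?_
      congr 1; ring
    rw [← sum_mul]
    have h2 := id1_clamp_nonneg (2 - |(u : ℝ) - x|)
    have h3 := id1_clamp_le (2 - |(u : ℝ) - x|)
    calc _ ≤ (p.M * u * max 0 (1 - |(u : ℝ) - x|) + 1) * clamp (2 - |(u : ℝ) - x|) :=
          mul_le_mul_of_nonneg_right h1 h2
      _ ≤ _ := by nlinarith [mul_nonneg hn (sub_nonneg.2 h3)]
  · simp [id1_clamp_nonneg]

theorem sum_fb {x : ℝ} (h1 : 1 ≤ x) : ∑ χ ∈ range p.A, p.fb χ x ≤ p.M * x + 3 := by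
  have h := id1_sum_fb_le (p := p) x fun _ => True
  simp only [filter_true, if_true] at h
  have := id1_sum_hat_mul (x := x) (by linarith) (2 ^ p.W1)
  exact h.trans (add_le_add_left (mul_le_mul_of_nonneg_left this id1_M_pos.le) _)

theorem sum_fb_calm {x : ℝ} (h1 : 1 ≤ x) :
    ∑ χ ∈ range p.A with p.cu χ ≤ 2 ^ p.r1, p.fb χ x ≤ p.M * 2 ^ p.r1 + 3 := by
  have h := id1_sum_fb_le (p := p) x fun u => u ≤ 2 ^ p.r1
  have h2 : ∑ u ∈ range (2 ^ p.W1),
      (if u ≤ 2 ^ p.r1 then (u : ℝ) * max 0 (1 - |(u : ℝ) - x|) else 0) ≤ 2 ^ p.r1 := by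
    calc _ ≤ ∑ u ∈ range (2 ^ p.W1), (2 : ℝ) ^ p.r1 * max 0 (1 - |(u : ℝ) - x|) := by
          refine sum_le_sum fun u _ => ?_
          split_ifs with hu
          · exact mul_le_mul_of_nonneg_right (by exact_mod_cast hu) (le_max_left _ _)
          · exact mul_nonneg (by positivity) (le_max_left _ _)
      _ ≤ 2 ^ p.r1 := by
          rw [← mul_sum, id1_sum_hat (by linarith)]
          exact mul_le_of_le_one_right (by positivity) (id1_clamp_le _)
  refine le_trans (le_of_eq ?_) (le_trans h ?_)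
  · refine sum_congr ?_ fun _ _ => rfl
    ext χ; simp
  · refine add_le_add_left (mul_le_mul_of_nonneg_left (le_trans (le_of_eq ?_) h2) id1_M_pos.le) _
    refine sum_congr rfl fun u _ => ?_
    by_cases hu : u ≤ 2 ^ p.r1 <;> simp [hu]

theorem Shp.up_dn (H : Shp) {v : ℕ} (hv : v < 2 ^ H.q) (χ : ℕ) : H.up (H.dn v χ) = v := by
  rw [Shp.up, Shp.dn, Nat.add_mul_mod_self_left, Nat.mod_eq_of_lt hv]
theorem Shp.ck_dn (H : Shp) {v : ℕ} (hv : v < 2 ^ H.q) (χ : ℕ) : H.ck (H.dn v χ) = χ := by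
  rw [Shp.ck, Shp.dn, Nat.add_mul_div_left _ _ (by positivity), Nat.div_eq_of_lt hv, zero_add]
theorem Shp.dn_up_ck (H : Shp) (v : ℕ) : H.dn (H.up v) (H.ck v) = v := Nat.mod_add_div _ _
theorem Shp.dn_lt (H : Shp) {v χ : ℕ} (hv : v < 2 ^ H.q) (hχ : χ < p.A) :
    H.dn v χ < 2 ^ (H.q + p.W) := by
  rw [Shp.dn, pow_add]
  rw [Par.A] at hχ
  calc v + 2 ^ H.q * χ < 2 ^ H.q + 2 ^ H.q * χ := by omega
    _ = 2 ^ H.q * (χ + 1) := by ring
    _ ≤ 2 ^ H.q * 2 ^ p.W := Nat.mul_le_mul_left _ hχ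
theorem ht_dn (H : Shp) (h : p.n0 ≤ H.q) (v χ : ℕ) : p.ht (H.dn v χ) = p.ht v := by
  obtain ⟨a, ha⟩ := Nat.exists_eq_add_of_le h
  rw [Par.ht, Par.ht, Shp.dn, ha, pow_add, mul_assoc, Nat.add_mul_mod_self_left]
theorem ht_up (H : Shp) (h : p.n0 ≤ H.q) (v : ℕ) : p.ht (H.up v) = p.ht v :=
  Nat.mod_mod_of_dvd _ (pow_dvd_pow 2 h)
theorem sum_names (H : Shp) (f : ℕ → ℝ) : ∑ v ∈ range (2 ^ (H.q + p.W)), f v =
    ∑ v ∈ range (2 ^ H.q), ∑ χ ∈ range p.A, f (H.dn v χ) := by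
  rw [pow_add, id1_sum_mul]; rfl

theorem id1_up_lt (H : Shp) (v : ℕ) : H.up v < 2 ^ H.q := Nat.mod_lt _ (by positivity)
theorem id1_ck_lt (H : Shp) {v : ℕ} (hv : v < 2 ^ (H.q + p.W)) : H.ck v < p.A := by
  rw [Shp.ck, Par.A, Nat.div_lt_iff_lt_mul (by positivity), mul_comm, ← pow_add]
  exact hv
theorem id1_tp_dn (H : Shp) (h : p.n0 ≤ H.q) (e : Bool) (v χ : ℕ) :
    p.tp e (H.dn v χ) = p.tp e v := by
  rw [Par.tp, Par.tp, ht_dn H h]
theorem id1_tp_up (H : Shp) (h : p.n0 ≤ H.q) (e : Bool) (v : ℕ) :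
    p.tp e (H.up v) = p.tp e v := by
  rw [Par.tp, Par.tp, ht_up H h]
theorem id1_ep_chD (H : Shp) (d sf : Bool) (t : Tm) (χx χz : ℕ) (e : Bool) :
    (H.chD p d sf t χx χz).ep e = H.dn (t.ep e) (if e then χz else χx) := by
  cases e <;> rfl
theorem id1_ep_lt {q : ℕ} {t : Tm} (h : TmOk p q eb t) (e : Bool) : t.ep e < 2 ^ q := by
  cases e
  · exact h.x_lt
  · exact h.z_lt

theorem paD_chD (H : Shp) (d sf : Bool) {t : Tm} (hx : t.x < 2 ^ H.q) (hz : t.z < 2 ^ H.q)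
    (χx χz : ℕ) : H.paD p d sf (H.chD p d sf t χx χz) = t := by
  have he : t.ep d < 2 ^ H.q := by
    cases d
    · exact hx
    · exact hz
  rw [Shp.paD, id1_ep_chD, H.ck_dn he]
  simp only [Shp.chD, H.up_dn hx, H.up_dn hz, Nat.add_sub_cancel]

theorem TmOk.chD {H : Shp} {t : Tm} (h : TmOk p H.q eb t) (hq : p.n0 ≤ H.q) (hr : p.r1 ≤ p.c)
    (d sf : Bool) {χx χz : ℕ} (hx : χx < p.A) (hz : χz < p.A) :
    TmOk p (H.q + p.W) (eb + p.c) (H.chD p d sf t χx χz) where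
  x_lt := H.dn_lt h.x_lt hx
  z_lt := H.dn_lt h.z_lt hz
  ht_lt := by
    have := h.ht_lt
    rwa [← ht_dn H hq t.x χx, ← ht_dn H hq t.z χz] at this
  ht_z := by
    have := h.ht_z
    rwa [← ht_dn H hq t.z χz] at this
  sing hd := by
    obtain ⟨h1, h2⟩ := h.sing hd
    refine ⟨h1, ?_⟩
    simp only [Shp.chD]
    rw [h2]
    rfl
  mid hd := ⟨(h.mid hd).1, (h.mid hd).2.trans_le (Nat.le_add_right _ _)⟩
  D_le := h.D_le
  E_le := by
    have h1 := h.E_le
    have h2 : p.rs sf (if d then χz else χx) ≤ p.r1 := by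
      rw [Par.rs]; split_ifs <;> omega
    change t.k.E + p.rs sf (if d then χz else χx) ≤ eb + p.c
    omega
  h_le := h.h_le.trans (Nat.le_add_right _ _)
  V_le := h.V_le.trans (Nat.le_add_right _ _)

theorem sum_D (h : S.WF p k eb) (d sf : Bool) (f : Tm → ℝ) : ∑ t ∈ (S.D p d sf).T, f t =
    ∑ t ∈ S.T, ∑ χx ∈ range p.A, ∑ χz ∈ range p.A, f (S.chD p d sf t χx χz) := by
  change ∑ t ∈ (S.T ×ˢ range p.A ×ˢ range p.A).image
    (fun a => S.toShp.chD p d sf a.1 a.2.1 a.2.2), f t = _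
  rw [sum_image, sum_product]
  · refine sum_congr rfl fun t _ => ?_
    rw [sum_product]
  · rintro ⟨t, χx, χz⟩ ha ⟨t', χx', χz'⟩ hb hab
    have h1 := h.tm t (mem_product.1 (mem_coe.1 ha)).1
    have h2 := h.tm t' (mem_product.1 (mem_coe.1 hb)).1
    have e1 := congrArg (S.toShp.paD p d sf) hab
    have e2 := congrArg (fun t : Tm => S.ck t.x) hab
    have e3 := congrArg (fun t : Tm => S.ck t.z) hab
    simp only [paD_chD _ d sf h1.x_lt h1.z_lt, paD_chD _ d sf h2.x_lt h2.z_lt] at e1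
    simp only [Shp.chD, S.ck_dn h1.x_lt, S.ck_dn h2.x_lt] at e2
    simp only [Shp.chD, S.ck_dn h1.z_lt, S.ck_dn h2.z_lt] at e3
    rw [e1, e2, e3]

theorem id1_om_chD (h : S.WF p k eb) (d sf : Bool) {t : Tm} (ht : t ∈ S.T) (χx χz : ℕ) :
    (S.D p d sf).om (S.chD p d sf t χx χz) = S.om t * 2 ^ p.rs sf (if d then χz else χx) *
      p.fa (if d then χz else χx) (S.ctr d (t.ep d)) *
      p.fb (if d then χx else χz) (S.ctr d (t.ep !d)) := by
  have h1 := h.tm t ht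
  simp only [Sys.D, id1_ep_chD, paD_chD _ d sf h1.x_lt h1.z_lt, S.ck_dn (id1_ep_lt h1 _),
    S.up_dn (id1_ep_lt h1 _)]
  cases d <;> rfl

theorem ms_chD (h : S.WF p k eb) (d sf : Bool) {t : Tm} (ht : t ∈ S.T) (χx χz : ℕ) :
    (S.D p d sf).ms (S.chD p d sf t χx χz) = S.ms t *
      p.fa (if d then χz else χx) (S.ctr d (t.ep d)) *
      p.fb (if d then χx else χz) (S.ctr d (t.ep !d)) := by
  have hI : (S.chD p d sf t χx χz).I = t.I + p.rs sf (if d then χz else χx) := by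
    simp only [Tm.I, Shp.chD]; omega
  rw [Sys.ms, Sys.ms, id1_om_chD h d sf ht, hI, pow_add]
  field_simp

theorem id1_ms_nonneg (h : S.WF p k eb) {t : Tm} (ht : t ∈ S.T) : 0 ≤ S.ms t :=
  div_nonneg (h.om_nonneg t ht) (by positivity)

theorem id1_ldC_nonneg (h : S.WF p k eb) (d : Bool) (v : ℕ) : 0 ≤ S.ldC d v :=
  sum_nonneg fun _ ht => id1_ms_nonneg h (mem_filter.1 ht).1

theorem one_le_ctr (h : S.WF p k eb) (d : Bool) (v : ℕ) : 1 ≤ S.ctr d v := by
  rw [Sys.ctr]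
  split_ifs
  · exact le_rfl
  · linarith [id1_ldC_nonneg h d v]

theorem id1_mem_D {d sf : Bool} {t' : Tm} : t' ∈ (S.D p d sf).T ↔
    ∃ t ∈ S.T, ∃ χx < p.A, ∃ χz < p.A, S.chD p d sf t χx χz = t' := by
  change t' ∈ (S.T ×ˢ range p.A ×ˢ range p.A).image
    (fun a => S.toShp.chD p d sf a.1 a.2.1 a.2.2) ↔ _
  simp only [mem_image, mem_product, mem_range, Prod.exists]
  constructor
  · rintro ⟨t, χx, χz, ⟨h1, h2, h3⟩, h4⟩
    exact ⟨t, h1, χx, h2, χz, h3, h4⟩
  · rintro ⟨t, h1, χx, h2, χz, h3, h4⟩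
    exact ⟨t, χx, χz, ⟨h1, h2, h3⟩, h4⟩

theorem id1_om_pos (h : S.WF p k eb) (d sf : Bool) {t : Tm} (ht : t ∈ S.T) (χx χz : ℕ)
    (hp : 0 < (S.D p d sf).om (S.chD p d sf t χx χz)) : 0 < S.om t := by
  rw [id1_om_chD h d sf ht] at hp
  refine (h.om_nonneg t ht).lt_of_ne fun h0 => ?_
  rw [← h0] at hp
  simp at hp

theorem D_wf (h : S.WF p k eb) (hr : p.r1 ≤ p.c) (d sf : Bool) :
    (S.D p d sf).WF p k (eb + p.c) where
  n0_le := h.n0_le.trans (Nat.le_add_right _ _)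
  tm t' ht' := by
    obtain ⟨t, ht, χx, hx, χz, hz, rfl⟩ := id1_mem_D.1 ht'
    exact (h.tm t ht).chD h.n0_le hr d sf hx hz
  om_nonneg t' ht' := by
    obtain ⟨t, ht, χx, hx, χz, hz, rfl⟩ := id1_mem_D.1 ht'
    rw [id1_om_chD h d sf ht]
    exact mul_nonneg (mul_nonneg (mul_nonneg (h.om_nonneg t ht) (by positivity)) (fa_nonneg _ _))
      (fb_nonneg _ _)
  al_nonneg e v := by
    simp only [Sys.D]
    split_ifs
    · exact mul_nonneg (h.al_nonneg _ _) (fa_nonneg _ _)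
    · exact mul_nonneg (h.al_nonneg _ _) (fb_nonneg _ _)
    · exact le_rfl
  al_le e v := by
    simp only [Sys.D]
    split_ifs
    · exact mul_le_one₀ (h.al_le _ _) (fa_nonneg _ _) (id1_fa_le_one _ _)
    · exact mul_le_one₀ (h.al_le _ _) (fb_nonneg _ _) (fb_le_one _ _)
    · exact zero_le_one
  al_tp e v hv := by
    simp only [Sys.D] at hv
    by_cases hl : v < 2 ^ (S.q + p.W)
    · rw [if_pos hl] at hv
      have h1 := (h.al_tp e _ (left_ne_zero_of_mul hv)).1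
      rw [id1_tp_up _ h.n0_le] at h1
      exact ⟨h1, hl⟩
    · rw [if_neg hl] at hv
      exact absurd rfl hv
  lv_eq t' ht' hp := by
    obtain ⟨t, ht, χx, hx, χz, hz, rfl⟩ := id1_mem_D.1 ht'
    have h1 := h.tm t ht
    have h2 := h.lv_eq t ht (id1_om_pos h d sf ht χx χz hp)
    change S.lv true (S.up (S.dn t.z χz)) = S.lv false (S.up (S.dn t.x χx))
    rwa [S.up_dn h1.x_lt, S.up_dn h1.z_lt]
  lam_le t' ht' hp := by
    obtain ⟨t, ht, χx, hx, χz, hz, rfl⟩ := id1_mem_D.1 ht'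
    have h1 := h.tm t ht
    have h2 := h.lam_le t ht (id1_om_pos h d sf ht χx χz hp)
    change S.lv false (S.up (S.dn t.x χx)) ≤ k
    rwa [S.up_dn h1.x_lt]

/-- The factor of a name on the side `e`. -/
noncomputable def id1F (p : Par) (S : Sys) (d e : Bool) (v χ : ℕ) : ℝ :=
  if e = d then p.fa χ (S.ctr d v) else p.fb χ (S.ctr d v)

/-- The potentials after `D`. -/
noncomputable def id1Mu (p : Par) (S : Sys) (d : Bool) (μ : Bool → ℕ → ℝ) (e : Bool) (v : ℕ) : ℝ :=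
  if v < 2 ^ (S.q + p.W) then μ e (S.up v) * id1F p S d e (S.up v) (S.ck v) else 0

theorem id1F_nonneg (d e : Bool) (v χ : ℕ) : 0 ≤ id1F p S d e v χ := by
  rw [id1F]
  split_ifs
  · exact fa_nonneg _ _
  · exact fb_nonneg _ _

theorem id1F_sum (h : S.WF p k eb) {d : Bool} (hF : S.Fit p d) (e : Bool) (v : ℕ) :
    ∑ χ ∈ range p.A, id1F p S d e v χ * id1F p S d (!e) v χ = 1 := by
  refine Eq.trans (sum_congr rfl fun χ _ => ?_) (sum_fa_fb (one_le_ctr h d v) (hF v))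
  cases d <;> cases e <;> simp [id1F, mul_comm]

theorem id1Mu_dn (d : Bool) (μ : Bool → ℕ → ℝ) (e : Bool) {v χ : ℕ} (hv : v < 2 ^ S.q)
    (hχ : χ < p.A) : id1Mu p S d μ e (S.dn v χ) = μ e v * id1F p S d e v χ := by
  rw [id1Mu, if_pos (S.dn_lt hv hχ), S.up_dn hv, S.ck_dn hv]

theorem id1_al_dn (d sf e : Bool) {v χ : ℕ} (hv : v < 2 ^ S.q) (hχ : χ < p.A) :
    (S.D p d sf).al e (S.dn v χ) = S.al e v * id1F p S d e v χ := by
  simp only [Sys.D, id1F]
  rw [if_pos (S.dn_lt hv hχ), S.up_dn hv, S.ck_dn hv]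

theorem id1_ms_chD (h : S.WF p k eb) (d sf e : Bool) {t : Tm} (ht : t ∈ S.T) (χx χz : ℕ) :
    (S.D p d sf).ms (S.chD p d sf t χx χz) = S.ms t *
      id1F p S d e (t.ep e) (if e then χz else χx) *
      id1F p S d (!e) (t.ep !e) (if e then χx else χz) := by
  rw [ms_chD h d sf ht]
  cases d <;> cases e <;> simp [id1F, mul_right_comm]

theorem id1_swap (e : Bool) (s : Finset ℕ) (g : ℕ → ℕ → ℝ) :
    ∑ χx ∈ s, ∑ χz ∈ s, g (if e then χz else χx) (if e then χx else χz) =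
      ∑ a ∈ s, ∑ b ∈ s, g a b := by
  cases e
  · rfl
  · exact sum_comm

theorem id1_pot (h : S.WF p k eb) (d sf : Bool) (hF : S.Fit p d) {μ : Bool → ℕ → ℝ}
    (hμ : S.Pot μ) : (S.D p d sf).Pot (id1Mu p S d μ) := by
  intro e v
  by_cases hl : v < 2 ^ (S.q + p.W)
  · obtain ⟨w, χ, hw, hχ, rfl⟩ : ∃ w χ, w < 2 ^ S.q ∧ χ < p.A ∧ v = S.dn w χ :=
      ⟨S.up v, S.ck v, id1_up_lt _ _, id1_ck_lt _ hl, (S.dn_up_ck v).symm⟩
    rw [id1Mu_dn d μ e hw hχ, id1_al_dn d sf e hw hχ]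
    refine ⟨mul_nonneg (hμ e w).1 (id1F_nonneg _ _ _ _), ?_⟩
    rw [(hμ e w).2, add_mul, sum_filter, sum_filter, sum_D h, sum_mul]
    congr 1
    refine sum_congr rfl fun t ht => ?_
    have h1 := h.tm t ht
    have key : ∀ χx ∈ range p.A, ∀ χz ∈ range p.A,
        (if (S.chD p d sf t χx χz).ep e = S.dn w χ then (S.D p d sf).ms (S.chD p d sf t χx χz) *
          id1Mu p S d μ e ((S.chD p d sf t χx χz).ep !e) else 0) =
        (fun a b => if a = χ then (if t.ep e = w then S.ms t * μ e (t.ep !e) else 0) *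
          id1F p S d e w χ * (id1F p S d e (t.ep !e) b * id1F p S d (!e) (t.ep !e) b) else 0)
          (if e then χz else χx) (if e then χx else χz) := by
      intro χx hx χz hz
      have hb : (if (!e) = true then χz else χx) = if e then χx else χz := by cases e <;> rfl
      have hb' : (if e then χx else χz) < p.A := by
        split_ifs
        · exact mem_range.1 hx
        · exact mem_range.1 hz
      rw [id1_ep_chD, id1_ep_chD, id1_ms_chD h d sf e ht, hb,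
        id1Mu_dn d μ e (id1_ep_lt h1 _) hb']
      by_cases hc : S.dn (t.ep e) (if e then χz else χx) = S.dn w χ
      · have c1 := congrArg S.up hc
        have c2 := congrArg S.ck hc
        rw [S.up_dn (id1_ep_lt h1 _), S.up_dn hw] at c1
        rw [S.ck_dn (id1_ep_lt h1 _), S.ck_dn hw] at c2
        rw [if_pos hc]
        simp only [c1, c2, if_true]
        ring
      · rw [if_neg hc]
        by_cases c1 : t.ep e = w
        · by_cases c2 : (if e then χz else χx) = χ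
          · exact absurd (by rw [c1, c2]) hc
          · simp only [if_neg c2]
        · simp only [if_neg c1, zero_mul, ite_self]
    refine Eq.symm (((sum_congr rfl fun χx hx => sum_congr rfl (key χx hx)).trans
      (id1_swap e (range p.A) fun a b => if a = χ then
        (if t.ep e = w then S.ms t * μ e (t.ep !e) else 0) * id1F p S d e w χ *
          (id1F p S d e (t.ep !e) b * id1F p S d (!e) (t.ep !e) b) else 0)).trans ?_)
    rw [sum_comm]
    simp only [sum_ite_eq', mem_range, hχ, if_true]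
    rw [← mul_sum, id1F_sum h hF, mul_one]
  · have h0 : id1Mu p S d μ e v = 0 := if_neg hl
    have h1 : (S.D p d sf).al e v = 0 := if_neg hl
    rw [h0, h1, zero_add]
    refine ⟨le_rfl, (sum_eq_zero fun t' ht' => ?_).symm⟩
    obtain ⟨ht', he⟩ := mem_filter.1 ht'
    obtain ⟨t, ht, χx, hx, χz, hz, rfl⟩ := id1_mem_D.1 ht'
    refine absurd ?_ hl
    rw [← he, id1_ep_chD]
    refine S.dn_lt (id1_ep_lt (h.tm t ht) e) ?_
    split_ifs
    · exact hz
    · exact hx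

/-- The load against the potential of the other side. -/
theorem id1_ld_pot (h : S.WF p k eb) (d : Bool) {μ : Bool → ℕ → ℝ} (hμ : S.Pot μ) :
    ∑ v ∈ range (2 ^ S.q), μ (!d) v * S.ldC d v ≤ S.tot μ (!d) := by
  have h1 : ∑ v ∈ range (2 ^ S.q), μ (!d) v * S.ldC d v ≤
      ∑ v ∈ range (2 ^ S.q), ∑ t ∈ S.T with t.ep d = v, S.ms t * μ (!d) (t.ep d) := by
    refine sum_le_sum fun v _ => ?_
    rw [Sys.ldC, mul_sum]
    refine le_trans (sum_le_sum_of_subset_of_nonneg (t := S.T.filter fun t => t.ep d = v)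
      (fun t ht => ?_) fun t ht _ => ?_) (le_of_eq (sum_congr rfl fun t ht => ?_))
    · exact mem_filter.2 ⟨(mem_filter.1 ht).1, (mem_filter.1 ht).2.1⟩
    · exact mul_nonneg (hμ _ _).1 (id1_ms_nonneg h (mem_filter.1 ht).1)
    · rw [(mem_filter.1 ht).2, mul_comm]
  refine h1.trans ?_
  rw [sum_fiberwise_of_maps_to fun t ht => mem_range.2 (id1_ep_lt (h.tm t ht) d),
    ← sum_fiberwise_of_maps_to (g := fun t : Tm => t.ep !d)
      fun t ht => mem_range.2 (id1_ep_lt (h.tm t ht) !d)]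
  refine sum_le_sum fun v _ => ?_
  have h2 := (hμ (!d) v).2
  rw [Bool.not_not] at h2
  rw [h2]
  exact le_add_of_nonneg_left (h.al_nonneg _ _)

theorem D_pot (h : S.WF p k eb) (hM : 3 ≤ p.M) (d sf : Bool) (hF : S.Fit p d) {μ : Bool → ℕ → ℝ}
    (hμ : S.Pot μ) : ∃ μ', (S.D p d sf).Pot μ' ∧ (S.D p d sf).vlu μ' = S.vlu μ ∧
      (S.D p d sf).Phi p μ' = S.Phi p μ ∧ (S.D p d sf).tot μ' d = S.tot μ d ∧
      (S.D p d sf).tot μ' (!d) ≤ 4 * p.M * S.tot μ (!d) := by
  have hq : (S.D p d sf).q = S.q + p.W := rfl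
  refine ⟨id1Mu p S d μ, id1_pot h d sf hF hμ, ?_, ?_, ?_, ?_⟩
  · rw [Sys.vlu, Sys.vlu, hq, sum_names]
    refine sum_congr rfl fun v hv => ?_
    have hv' := mem_range.1 hv
    rw [← mul_one (S.al true v * μ false v), ← id1F_sum h hF true v, mul_sum]
    refine sum_congr rfl fun χ hχ => ?_
    rw [id1Mu_dn d μ _ hv' (mem_range.1 hχ), id1_al_dn d sf _ hv' (mem_range.1 hχ), Bool.not_true]
    ring
  · rw [Sys.Phi, Sys.Phi, hq, sum_filter, sum_filter, sum_names]
    refine sum_congr rfl fun v hv => ?_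
    have hv' := mem_range.1 hv
    simp only [id1_tp_dn _ h.n0_le]
    split_ifs
    · rw [← mul_one (μ true v * μ false v / _), ← id1F_sum h hF true v, mul_sum]
      refine sum_congr rfl fun χ hχ => ?_
      have hlv : ∀ e, (S.D p d sf).lv e (S.dn v χ) = S.lv e v := fun e => by
        change S.lv e (S.up (S.dn v χ)) = _
        rw [S.up_dn hv']
      rw [id1Mu_dn d μ _ hv' (mem_range.1 hχ), id1Mu_dn d μ _ hv' (mem_range.1 hχ), hlv, hlv,
        Bool.not_true]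
      ring
    · exact sum_const_zero
  · rw [Sys.tot, Sys.tot, hq, sum_names]
    refine sum_congr rfl fun v hv => ?_
    have hv' := mem_range.1 hv
    rw [← mul_one (μ d v), ← sum_fa (one_le_ctr h d v) (hF v), mul_sum]
    refine sum_congr rfl fun χ hχ => ?_
    rw [id1Mu_dn d μ _ hv' (mem_range.1 hχ), id1F, if_pos rfl]
  · have hM' : (3 : ℝ) ≤ p.M := by exact_mod_cast hM
    have h0 : 0 ≤ S.tot μ (!d) := sum_nonneg fun v _ => (hμ _ _).1
    have h1 := id1_ld_pot h d hμ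
    have h2 : (S.D p d sf).tot (id1Mu p S d μ) (!d) ≤ ∑ v ∈ range (2 ^ S.q),
        (p.M * (μ (!d) v * S.ldC d v) + (2 * p.M + 3) * μ (!d) v) := by
      rw [Sys.tot, hq, sum_names]
      refine sum_le_sum fun v hv => ?_
      have hv' := mem_range.1 hv
      have e1 : ∑ χ ∈ range p.A, id1Mu p S d μ (!d) (S.dn v χ) =
          μ (!d) v * ∑ χ ∈ range p.A, p.fb χ (S.ctr d v) := by
        rw [mul_sum]
        refine sum_congr rfl fun χ hχ => ?_
        rw [id1Mu_dn d μ _ hv' (mem_range.1 hχ), id1F, if_neg (by cases d <;> simp)]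
      have e2 : S.ctr d v ≤ S.ldC d v + 2 := by
        rw [Sys.ctr]
        split_ifs
        · linarith [id1_ldC_nonneg h d v]
        · exact le_rfl
      have e3 : ∑ χ ∈ range p.A, p.fb χ (S.ctr d v) ≤ p.M * (S.ldC d v + 2) + 3 :=
        (sum_fb (one_le_ctr h d v)).trans
          (add_le_add_left (mul_le_mul_of_nonneg_left e2 id1_M_pos.le) _)
      rw [e1]
      refine (mul_le_mul_of_nonneg_left e3 (hμ _ _).1).trans (le_of_eq ?_)
      ring
    rw [sum_add_distrib, ← mul_sum, ← mul_sum] at h2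
    have h3 : ∑ v ∈ range (2 ^ S.q), μ (!d) v = S.tot μ (!d) := rfl
    rw [h3] at h2
    nlinarith [mul_le_mul_of_nonneg_left h1 (id1_M_pos (p := p)).le]

end Vale.Agent.P313.NL
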