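import Vale.Agent.P313.NL.EDef
import Vale.Agent.P313.NL.ID1

/-! Averages over the shifts, ranks, and the structure of the estimates. -/

namespace Vale.Agent.P313.NL

open Finset
open scoped Classical

variable {p : Par} {F : ℕ → ℕ → ℕ} {m q eb wm : ℕ} {e : Env} {L : Lv} {H : Shp} {t : Tm}

theorem Key.dec_code (k : Key) : Key.dec k.code = k := by
  obtain ⟨a, b, c, d, e, f, g⟩ := k
  cases f <;> cases g <;> simp [Key.dec, Key.code]
theorem Key.code_inj : Function.Injective Key.code :=   Function.LeftInverse.injective Key.dec_code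
theorem e2_pair {a b n : ℕ} (ha : a < n) (hb : b < n) : Nat.pair a b < n ^ 2 :=
  (Nat.pair_lt_max_add_one_sq a b).trans_le (Nat.pow_le_pow_left (max_lt ha hb) 2)
theorem TmOk.code_lt (h : TmOk p q eb t) {lg : ℕ} (hq : q ≤ 2 ^ lg) (he : eb ≤ 2 ^ lg)
    (hl : 4 ≤ lg) : t.k.code + 1 < 2 ^ (16 * lg) := by
  have hX : 16 ≤ 2 ^ lg := Nat.pow_le_pow_right two_pos hl
  have h0 : t.k.s0 ≤ 2 ^ lg := by
    cases hd : t.k.dbl
    · rw [(h.sing hd).2]; exact Nat.zero_le _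
    · exact (h.mid hd).2.le.trans hq
  have h1 := h.D_le
  have h2 := h.E_le
  have h3 := h.h_le
  have h4 := h.V_le
  have h5 := t.k.hv.toNat_le
  have h6 := t.k.dbl.toNat_le
  have h7 : t.k.code < (((2 ^ lg + 1) ^ 2) ^ 2) ^ 2 :=
    e2_pair ((e2_pair (n := 2 ^ lg + 1) (by omega) (by omega)).trans_le (Nat.le_self_pow two_ne_zero _))
      (e2_pair (e2_pair (by omega) (by omega)) (e2_pair (by omega) (by omega)))
  have h8 : (2 ^ lg + 1) ^ 8 < (2 ^ lg * 2 ^ lg) ^ 8 :=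
    Nat.pow_lt_pow_left (by nlinarith) (by norm_num)
  rw [← pow_mul, ← pow_mul] at h7
  rw [← pow_add, ← pow_mul, show (lg + lg) * 8 = 16 * lg by ring] at h8
  exact lt_of_le_of_lt h7 h8

theorem Env.Ok.sh (h : e.Ok m) {a b c : ℕ} (ha : a < 2 ^ m) (hb : b < 2 ^ m) (hc : c < 2 ^ m) :
    (e.sh a b c).Ok m :=   ⟨h.i1, h.i2, h.i3, h.n12, h.n13, h.n23, ha, hb, hc, h.u1, h.u2, h.u3⟩
theorem Env.Ok.r1 (h : e.Ok m) : e.r1.Ok m :=   ⟨h.i1, h.i3, h.i2, h.n13, h.n12, h.n23.symm, h.a, h.c, h.b, h.u1, h.u3, h.u2⟩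
theorem Env.Ok.r2 (h : e.Ok m) : e.r2.Ok m :=   ⟨h.i3, h.i2, h.i1, h.n23.symm, h.n13.symm, h.n12.symm, h.c, h.b, h.a, h.u3, h.u2, h.u1⟩
theorem Env.Ok.v0 (h : e.Ok m) : e.v0.Ok m := h.sh h.a h.b (Nat.xor_lt_two_pow h.c h.a)
theorem e2_setc_lt {U χ : ℕ} (hq : q + p.W ≤ m) (hU : U < 2 ^ m) (hχ : χ < p.A) :
    p.setc q U χ < 2 ^ m := by
  obtain ⟨k, rfl⟩ := Nat.exists_eq_add_of_le hq
  have h1 : U / 2 ^ (q + p.W) + 1 ≤ 2 ^ k := Nat.div_lt_of_lt_mul (by rwa [← pow_add])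
  have h2 : U % 2 ^ q < 2 ^ q := Nat.mod_lt _ (by positivity)
  have h3 := Nat.mul_le_mul_left (2 ^ q) (show χ + 1 ≤ 2 ^ p.W from hχ)
  have h4 := Nat.mul_le_mul_left (2 ^ (q + p.W)) h1
  rw [← pow_add, mul_add] at h3 h4
  rw [Par.setc]
  omega
theorem Env.Ok.sub (h : e.Ok p.m) (hq : q + p.W ≤ p.m) {χx χz : ℕ} (hx : χx < p.A)
    (hz : χz < p.A) : (p.sub q e χx χz).Ok p.m :=   ⟨h.i1, h.i2, h.i3, h.n12, h.n13, h.n23, h.a, h.b, h.c, e2_setc_lt hq h.u1 hx,
    e2_setc_lt hq h.u2 hz, h.u3⟩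
theorem Env.Ok.xc (h : e.Ok p.m) (D τ : ℕ) : (p.xc e D τ).Ok p.m :=   h.sh h.a h.b (Nat.xor_lt_two_pow h.c (Nat.mod_lt _ (by positivity)))
theorem Env.Ok.wk2 (h : e.Ok p.m) (t w : ℕ) : (p.wk2 t w e).Ok p.m := by
  refine h.sh (Nat.div_lt_of_lt_mul (Mix.walk_lt _ _ ?_)) h.b (Nat.mod_lt _ (by positivity))
  nlinarith [h.a, h.c]
theorem e2_mh : 2 ^ p.mh * 2 ^ p.mh = 2 ^ p.m := by rw [← pow_add, Par.m, two_mul]
theorem Env.Ok.wkAB (h : e.Ok p.m) (t w : ℕ) : (p.wkAB t w e).Ok p.m :=   have h1 := (Mix.walk_lt t w (h.a.trans_eq e2_mh.symm)).trans_eq e2_mh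
  h.sh h1 (Nat.xor_lt_two_pow (Nat.xor_lt_two_pow h.b h.a) h1) h.c
theorem Env.Ok.wkG (h : e.Ok p.m) (t w : ℕ) : (p.wkG t w e).Ok p.m :=   have h1 := (Mix.walk_lt t w (h.a.trans_eq e2_mh.symm)).trans_eq e2_mh
  h.sh h1 (Nat.xor_lt_two_pow (Nat.xor_lt_two_pow h.b h.a) h1)
    (Nat.xor_lt_two_pow (Nat.xor_lt_two_pow h.c h.a) h1)

theorem avg_mono {f g : Env → ℝ} (he : e.Ok m) (h : ∀ e' : Env, e'.Ok m → f e' ≤ g e') :
    avg m e f ≤ avg m e g :=   div_le_div_of_nonneg_right (sum_le_sum fun _ ha => sum_le_sum fun _ hb => sum_le_sum fun _ hc =>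
    h _ (he.sh (mem_range.1 ha) (mem_range.1 hb) (mem_range.1 hc))) (by positivity)
theorem avg_add (f g : Env → ℝ) : avg m e (fun e' => f e' + g e') = avg m e f + avg m e g := by
  simp only [avg, sum_add_distrib, add_div]
theorem avg_mul (c : ℝ) (f : Env → ℝ) : avg m e (fun e' => c * f e') = c * avg m e f := by
  simp only [avg, ← mul_sum, mul_div_assoc]
theorem avg_const (c : ℝ) : avg m e (fun _ => c) = c := by
  simp only [avg, sum_const, card_range, nsmul_eq_mul]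
  push_cast
  field_simp
  ring
theorem avg_sum {ι : Type} (s : Finset ι) (f : ι → Env → ℝ) :
    avg m e (fun e' => ∑ i ∈ s, f i e') = ∑ i ∈ s, avg m e (f i) := by
  induction s using Finset.induction_on with
  | empty => simp [avg]
  | insert i s hi ih => simp only [sum_insert hi, avg_add, ih]
theorem avg_sub (f : Env → ℝ) (χx χz : ℕ) :
    avg m e (fun e' => f (p.sub q e' χx χz)) = avg m (p.sub q e χx χz) f := rfl
theorem avg_r1 (f : Env → ℝ) : avg m e (fun e' => f e'.r1) = avg m e.r1 f :=   congrArg (· / _) (sum_congr rfl fun _ _ => sum_comm)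
theorem avg_r2 (f : Env → ℝ) : avg m e (fun e' => f e'.r2) = avg m e.r2 f :=   congrArg (· / _) (sum_comm.trans ((sum_congr rfl fun _ _ => sum_comm).trans sum_comm))
theorem e2_sum_xor {s : ℕ} (hs : s < 2 ^ m) (f : ℕ → ℝ) :
    ∑ c ∈ range (2 ^ m), f (c ^^^ s) = ∑ c ∈ range (2 ^ m), f c :=
  sum_nbij' (· ^^^ s) (· ^^^ s) (fun _ h => mem_range.2 (Nat.xor_lt_two_pow (mem_range.1 h) hs))
    (fun _ h => mem_range.2 (Nat.xor_lt_two_pow (mem_range.1 h) hs))
    (fun _ _ => Nat.xor_xor_cancel_right _ _) (fun _ _ => Nat.xor_xor_cancel_right _ _) fun _ _ => rfl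
theorem avg_xc (f : Env → ℝ) (D τ : ℕ) : avg p.m e (fun e' => f (p.xc e' D τ)) = avg p.m e f :=   congrArg (· / _) (sum_congr rfl fun a _ => sum_congr rfl fun b _ =>
    e2_sum_xor (Nat.mod_lt _ (by positivity)) fun c => f (e.sh a b c))

/-- Coordinates for the walk on the pair. -/
def φ2 (p : Par) (e : Env) (b s : ℕ) : Env := e.sh (s / 2 ^ p.m) b (s % 2 ^ p.m)
/-- Coordinates for the values of a group: differences `δb` and third shift `δc`. -/
def φV (e : Env) (δb δc a : ℕ) : Env := e.sh a (a ^^^ δb) δc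
/-- Coordinates for the handles: both differences are fixed. -/
def φG (e : Env) (δb δc a : ℕ) : Env := e.sh a (a ^^^ δb) (a ^^^ δc)

theorem e2_sum_pair (n : ℕ) (f : ℕ → ℕ → ℝ) :
    ∑ s ∈ range (n * n), f (s / n) (s % n) = ∑ a ∈ range n, ∑ c ∈ range n, f a c := by
  rw [← sum_product']
  refine sum_nbij' (fun s => (s / n, s % n)) (fun a => a.1 * n + a.2) (fun s h => ?_) (fun a h => ?_)
    (fun s _ => Nat.div_add_mod' s n) (fun a h => ?_) fun _ _ => rfl
  · have h1 := mem_range.1 h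
    exact mem_product.2 ⟨mem_range.2 (Nat.div_lt_of_lt_mul h1),
      mem_range.2 (Nat.mod_lt _ (Nat.pos_of_ne_zero (by rintro rfl; simp at h1)))⟩
  · simp only [mem_product, mem_range] at h ⊢
    nlinarith [h.1, h.2]
  · simp only [mem_product, mem_range] at h
    rw [mul_comm, Nat.mul_add_div (by omega), Nat.mul_add_mod, Nat.div_eq_of_lt h.2,
      Nat.mod_eq_of_lt h.2, add_zero]
theorem e2_sum_xor' {s : ℕ} (hs : s ∈ range (2 ^ m)) (f : ℕ → ℝ) :
    ∑ c ∈ range (2 ^ m), f c = ∑ c ∈ range (2 ^ m), f (s ^^^ c) := by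
  simp only [Nat.xor_comm s, e2_sum_xor (mem_range.1 hs)]
theorem avg_φ2 (f : Env → ℝ) : avg p.m e f = (∑ b ∈ range (2 ^ p.m),
    ∑ s ∈ range (2 ^ p.m * 2 ^ p.m), f (φ2 p e b s)) / 2 ^ (3 * p.m) :=   congrArg (· / _) (sum_comm.trans (sum_congr rfl fun b _ =>
    (e2_sum_pair _ fun a c => f (e.sh a b c)).symm))
theorem avg_φV (f : Env → ℝ) : avg p.m e f = (∑ δb ∈ range (2 ^ p.m), ∑ δc ∈ range (2 ^ p.m),
    ∑ a ∈ range (2 ^ p.mh * 2 ^ p.mh), f (φV e δb δc a)) / 2 ^ (3 * p.m) := by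
  rw [e2_mh]
  exact congrArg (· / _) ((sum_congr rfl fun a ha => e2_sum_xor' ha _).trans
    (sum_comm.trans (sum_congr rfl fun _ _ => sum_comm)))
theorem avg_φG (f : Env → ℝ) : avg p.m e f = (∑ δb ∈ range (2 ^ p.m), ∑ δc ∈ range (2 ^ p.m),
    ∑ a ∈ range (2 ^ p.mh * 2 ^ p.mh), f (φG e δb δc a)) / 2 ^ (3 * p.m) := by
  rw [e2_mh]
  exact congrArg (· / _) ((sum_congr rfl fun a ha => (e2_sum_xor' ha _).trans
    (sum_congr rfl fun _ _ => e2_sum_xor' ha _)).trans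
    (sum_comm.trans (sum_congr rfl fun _ _ => sum_comm)))
set_option linter.unusedVariables false in
theorem wk2_φ2 (b t w : ℕ) {s : ℕ} (hs : s < 2 ^ p.m * 2 ^ p.m) :
    p.wk2 t w (φ2 p e b s) = φ2 p e b (Mix.walk (2 ^ p.m) t w s) := by
  simp only [Par.wk2, φ2, Env.sh, Nat.div_add_mod']
theorem e2_xor (a b c : ℕ) : a ^^^ b ^^^ a ^^^ c = c ^^^ b := by
  rw [Nat.xor_comm a b, Nat.xor_xor_cancel_right, Nat.xor_comm]
theorem wkAB_φV (δb δc t w a : ℕ) :
    p.wkAB t w (φV e δb δc a) = φV e δb δc (Mix.walk (2 ^ p.mh) t w a) := by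
  simp only [Par.wkAB, φV, Env.sh, e2_xor]
theorem wkG_φG (δb δc t w a : ℕ) :
    p.wkG t w (φG e δb δc a) = φG e δb δc (Mix.walk (2 ^ p.mh) t w a) := by
  simp only [Par.wkG, φG, Env.sh, e2_xor]
theorem v0_φG (δb δc a : ℕ) : (φG e δb δc a).v0 = φV e δb δc a := by
  simp only [Env.v0, φG, φV, Env.sh, Nat.xor_comm a δc, Nat.xor_xor_cancel_right]
/-- Activity depends on the differences only. -/
theorem act_φG (δb δc a a' : ℕ) : act F q (φG e δb δc a) t ↔ act F q (φG e δb δc a') t := by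
  have : ∀ x y z w : Bool, ((x ^^ z) = (y ^^ (z ^^ w))) = (x = (y ^^ w)) := by decide
  have : ∀ x y z w : Bool, ((x ^^ (z ^^ w)) = (y ^^ z)) = ((x ^^ w) = y) := by decide
  have : ∀ x y z w v : Bool, ((x ^^ (z ^^ w)) = (y ^^ (z ^^ v))) = ((x ^^ w) = (y ^^ v)) := by decide
  cases h : t.k.hv <;> simp only [act, agree, vl, φG, Env.sh, Env.tr, Nat.testBit_xor, if_true,
    Bool.false_eq_true, if_false, *]
theorem e2_sum_agree (u v : ℕ) {lo hi : ℕ} (h : lo ≤ hi) (hm : hi ≤ m) :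
    ∑ a ∈ range (2 ^ m), (if agree (u ^^^ a) v lo hi then (1 : ℝ) else 0) = 2 ^ m / 2 ^ (hi - lo) := by
  induction hi, h using Nat.le_induction with
  | base =>
    have : ∀ a, agree (u ^^^ a) v lo lo := fun a i h1 h2 => absurd h1 (by omega)
    simp [this]
  | succ n hn ih =>
    have h1 := e2_sum_xor (Nat.pow_lt_pow_right one_lt_two hm : 2 ^ n < 2 ^ m)
      fun a => if agree (u ^^^ a) v lo (n + 1) then (1 : ℝ) else 0
    have h2 : ∀ a, (if agree (u ^^^ a) v lo n then (1 : ℝ) else 0) =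
        (if agree (u ^^^ a) v lo (n + 1) then 1 else 0) +
          if agree (u ^^^ (a ^^^ 2 ^ n)) v lo (n + 1) then 1 else 0 := fun a => by
      have h3 : agree (u ^^^ (a ^^^ 2 ^ n)) v lo n ↔ agree (u ^^^ a) v lo n :=
        forall₂_congr fun i hi => by simp [Nat.testBit_two_pow_of_ne hi.ne']
      have h4 : ∀ x, agree x v lo (n + 1) ↔ agree x v lo n ∧ x.testBit n = v.testBit n := fun x =>
        Nat.forall_lt_succ_right.trans (by simp only [agree, hn, forall_true_left])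
      simp only [h4, h3, Nat.testBit_xor, Nat.testBit_two_pow_self]
      by_cases h5 : agree (u ^^^ a) v lo n <;> cases u.testBit n <;> cases a.testBit n <;>
        cases v.testBit n <;> simp [h5]
    have h6 := ih (by omega)
    simp only [h2, sum_add_distrib, h1] at h6
    rw [Nat.succ_sub hn, pow_succ, ← div_div, ← h6]
    ring
theorem card_act_φ2 (h : TmOk p q eb t) (he : eb ≤ p.m) (b : ℕ) :
    ((((range (2 ^ p.m * 2 ^ p.m)).filter fun s => act F q (φ2 p e b s) t).card : ℕ) : ℝ) =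
      (2 ^ p.m * 2 ^ p.m : ℕ) / 2 ^ t.I := by
  rw [card_filter, Nat.cast_sum]
  simp only [Nat.cast_ite, Nat.cast_one, Nat.cast_zero]
  refine (e2_sum_pair _ fun a c => if act F q (e.sh a b c) t then (1 : ℝ) else 0).trans ?_
  have h1 : ∀ a, ∑ c ∈ range (2 ^ p.m), (if act F q (e.sh a b c) t then (1 : ℝ) else 0) =
      (if agree (F e.1.1 (ext q t.x e.1.2.2) ^^^ a) (vl F q (e.sh 0 b 0).2.1 t.z) 0 t.k.E then 1
        else 0) * (2 ^ p.m / 2 ^ (t.k.h - t.k.D)) := fun a => by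
    rw [← e2_sum_agree (F e.2.2.1 (ext t.k.s0 t.y e.2.2.2.2))
      (vl F q ((e.sh a b 0).tr t.k.hv) (t.ep t.k.hv)) h.D_le (h.h_le.trans he), mul_sum]
    exact sum_congr rfl fun c _ => by rw [ite_zero_mul_ite_zero, one_mul]; exact if_congr Iff.rfl rfl rfl
  simp only [h1, ← sum_mul, e2_sum_agree _ _ (Nat.zero_le _) (h.E_le.trans he), Tm.I]
  push_cast
  rw [pow_add, Nat.sub_zero, div_mul_div_comm]
theorem card_act_φV (h : TmOk p q eb t) (he : eb ≤ p.m) (δb δc a0 : ℕ)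
    (ha : agree (vl F q (φV e δb δc a0).1 t.x) (vl F q (φV e δb δc a0).2.1 t.z) 0 t.k.E) :
    ((((range (2 ^ p.mh * 2 ^ p.mh)).filter fun a => act F q (φV e δb δc a) t).card : ℕ) : ℝ) =
      (2 ^ p.mh * 2 ^ p.mh : ℕ) / 2 ^ (t.k.h - t.k.D) := by
  rw [card_filter, Nat.cast_sum, e2_mh]
  simp only [Nat.cast_ite, Nat.cast_one, Nat.cast_zero]
  have h0 : ∀ x y z w : Bool, ((x ^^ z) = (y ^^ (z ^^ w))) = (x = (y ^^ w)) := by decide
  have h1 : ∀ a, agree (vl F q (φV e δb δc a).1 t.x) (vl F q (φV e δb δc a).2.1 t.z) 0 t.k.E := by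
    simpa only [agree, vl, φV, Env.sh, Nat.testBit_xor, h0, forall_const] using ha
  have h2 : ∀ u v lo hi, agree u v lo hi ↔ agree v u lo hi := fun _ _ _ _ =>
    forall₃_congr fun _ _ _ => eq_comm
  have h3 := fun u v => e2_sum_agree u v h.D_le (h.h_le.trans he)
  simp only [act, h1, true_and, h2 (vl F t.k.s0 _ _)]
  cases t.k.hv
  · simp only [vl, φV, Env.sh, Env.tr, Bool.false_eq_true, if_false, h3, Nat.cast_pow, Nat.cast_ofNat]
  · simp only [vl, φV, Env.sh, Env.tr, if_true, Nat.xor_comm _ δb, ← Nat.xor_assoc, h3, Nat.cast_pow,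
      Nat.cast_ofNat]
theorem avg_act (h : TmOk p q eb t) (he : eb ≤ p.m) :
    avg p.m e (fun e' => if act F q e' t then 1 else 0) = 1 / 2 ^ t.I := by
  simp only [avg_φ2, sum_boole, card_act_φ2 h he, sum_const, card_range, nsmul_eq_mul]
  push_cast
  field_simp
  ring

set_option linter.unusedVariables false in
theorem ext_setc {v χ : ℕ} (hv : v < 2 ^ H.q) (hχ : χ < p.A) (U : ℕ) :
    ext H.q v (p.setc H.q U χ) = ext (H.q + p.W) (H.dn v χ) U := by
  rw [ext, ext, Par.setc, Shp.dn, pow_add, mul_assoc, add_assoc, ← mul_add,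
    Nat.add_mul_div_left _ _ (by positivity), Nat.div_eq_of_lt (Nat.mod_lt _ (by positivity))]
  ring
theorem act_chU (h : TmOk p H.q eb t) {χx χz : ℕ} (hx : χx < p.A) (hz : χz < p.A) :
    act F (H.q + p.W) e (H.chU t χx χz) ↔ act F H.q (p.sub H.q e χx χz) t := by
  cases hh : t.k.hv <;> simp only [act, vl, Shp.chU, Par.sub, Env.tr, Tm.ep, hh, if_true,
    Bool.false_eq_true, if_false, ext_setc h.x_lt hx, ext_setc h.z_lt hz]
theorem act_of_chD (h : TmOk p H.q eb t) {d sf : Bool} {χx χz : ℕ} (hx : χx < p.A) (hz : χz < p.A)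
    (ha : act F (H.q + p.W) e (H.chD p d sf t χx χz)) : act F H.q (p.sub H.q e χx χz) t :=   (act_chU h hx hz).1 ⟨fun i hi => ha.1 i (hi.trans_le (Nat.le_add_right _ _)), ha.2⟩
theorem act_chM {t1 t2 : Tm} (h1 : TmOk p H.q eb t1) (h2 : TmOk p H.q eb t2)
    (d1 : t1.k.dbl = false) (d2 : t2.k.dbl = false) (he : t1.z = t2.x) {χx χz : ℕ} (hx : χx < p.A)
    (hz : χz < p.A) : act F (H.q + p.W) e (H.chM t1 t2 χx χz) ↔
      act F H.q (p.sub H.q e χx χz).r1 t1 ∧ act F H.q (p.sub H.q e χx χz).r2 t2 := by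
  have e1 := (h1.sing d1).2
  have e2 := (h2.sing d2).2
  have a1 : t1.k.h = 0 := by rw [e1]; rfl
  have a2 : t2.k.h = 0 := by rw [e2]; rfl
  simp only [act, agree, vl, Shp.chM, Par.sub, Env.r1, Env.r2, ext_setc h1.x_lt hx,
    ext_setc h2.z_lt hz, a1, a2, Nat.not_lt_zero, false_imp_iff, forall_const, and_true, ← he,
    Nat.zero_le, Env.tr, Tm.ep, decide_eq_true_eq]
  split_ifs with h
  · rw [min_eq_left h.le, max_eq_right h.le]
    exact and_congr_left fun a => forall₂_congr fun i hi => by rw [a i (hi.trans h)]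
  · rw [min_eq_right (not_lt.1 h), max_eq_left (not_lt.1 h), and_comm]
    refine ⟨fun a => ⟨fun i hi => (a.1 i hi).symm, fun i hi => ?_⟩,
      fun a => ⟨fun i hi => (a.1 i hi).symm, fun i hi => ?_⟩⟩
    · exact (a.1 i (by omega)).trans (a.2 i hi)
    · exact (a.1 i (by omega)).trans (a.2 i hi)
set_option linter.unusedVariables false in
/-- An active child has exactly one change of the third shift for which the parent is active. -/
theorem act_chP (h : TmOk p q eb t) (he : eb ≤ p.m) {s : ℕ} (hs : s ≤ p.c)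
    (ha : act F q e (p.chP t s)) : ∃! τ, τ < 2 ^ (min (p.chP t s).k.D t.k.h - t.k.D) ∧
      act F q (p.xc e t.k.D τ) t := by
  obtain ⟨h1, h2⟩ := ha
  have h3 : t.k.h ≤ (p.chP t s).k.h := Nat.le_add_right _ _
  have h4 := h.h_le.trans he
  obtain ⟨Y, hY⟩ : ∃ Y, Y = vl F t.k.s0 e.2.2 t.y := ⟨_, rfl⟩
  obtain ⟨T, hT⟩ : ∃ T, T = vl F q (e.tr t.k.hv) (t.ep t.k.hv) := ⟨_, rfl⟩
  have h5 : agree Y T (p.chP t s).k.D (p.chP t s).k.h := hY ▸ hT ▸ h2
  have h6 : ∀ τ, act F q (p.xc e t.k.D τ) t ↔ ∀ i < t.k.h, t.k.D ≤ i →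
      τ.testBit (i - t.k.D) = (Y.testBit i ^^ T.testBit i) := fun τ => by
    refine (and_iff_right fun i hi => h1 i (hi.trans_le (Nat.le_add_right _ _))).trans
      (forall₃_congr fun i hi hi' => ?_)
    have : vl F t.k.s0 (p.xc e t.k.D τ).2.2 t.y = Y ^^^ τ * 2 ^ t.k.D % 2 ^ p.m := by
      rw [hY, vl, vl, Nat.xor_assoc]; rfl
    rw [this, show vl F q ((p.xc e t.k.D τ).tr t.k.hv) (t.ep t.k.hv) = T from hT.symm,
      Nat.testBit_xor, Nat.testBit_mod_two_pow, Nat.testBit_mul_two_pow, decide_eq_true hi',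
      decide_eq_true (hi.trans_le h4)]
    cases Y.testBit i <;> cases T.testBit i <;> simp
  generalize (p.chP t s).k.D = D' at *
  simp only [h6]
  refine ⟨(Y ^^^ T) / 2 ^ t.k.D % 2 ^ (min D' t.k.h - t.k.D),
    ⟨Nat.mod_lt _ (by positivity), fun i hi hi' => ?_⟩, fun τ ⟨a1, a2⟩ => ?_⟩
  · rw [Nat.testBit_mod_two_pow, Nat.testBit_div_two_pow, Nat.sub_add_cancel hi', Nat.testBit_xor]
    by_cases a : i < D'
    · rw [decide_eq_true (by omega), Bool.true_and]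
    · rw [decide_eq_false (by omega), h5 i (by omega) (by omega), Bool.xor_self, Bool.false_and]
  · refine Nat.eq_of_testBit_eq fun i => ?_
    rw [Nat.testBit_mod_two_pow, Nat.testBit_div_two_pow, Nat.testBit_xor]
    by_cases a : i < min D' t.k.h - t.k.D
    · rw [decide_eq_true a, Bool.true_and, ← a2 _ (by omega) (by omega), Nat.add_sub_cancel]
    · rw [decide_eq_false a, Bool.false_and]
      exact Nat.testBit_lt_two_pow (a1.trans_le (Nat.pow_le_pow_right two_pos (not_lt.1 a)))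

theorem Lv.N_subset (j : ℕ) (e : Env) : L.N p j e ⊆ L.V j e := filter_subset _ _
theorem rank_inj {V : Finset Tm} {d : Bool} {t t' : Tm} (ht : t ∈ V) (ht' : t' ∈ V)
    (h1 : t.ep d = t'.ep d) (h2 : rank V d t = rank V d t') : t = t' := by
  by_contra hn
  have key : ∀ {t t' : Tm}, t ∈ V → t.ep d = t'.ep d → tlt d t t' → rank V d t < rank V d t' := by
    intro t t' ht h1 h2
    refine card_lt_card ⟨fun u hu => ?_, fun hs => ?_⟩
    · obtain ⟨a1, a2, a3⟩ := mem_filter.1 hu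
      refine mem_filter.2 ⟨a1, a2.trans h1, ?_⟩
      unfold tlt at *
      omega
    · have := (mem_filter.1 (hs (mem_filter.2 ⟨ht, h1, h2⟩))).2.2
      unfold tlt at this
      omega
  have a1 : ¬tlt d t t' := fun a => (key ht h1 a).ne h2
  have a2 : ¬tlt d t' t := fun a => (key ht' h1.symm a).ne' h2
  unfold tlt at a1 a2
  have a3 : t.ep (!d) = t'.ep (!d) := by omega
  refine hn (Tm.ext ?_ ?_ (by omega) (Key.code_inj (by omega))) <;> cases d
  exacts [h1, a3, a3, h1]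
theorem Lv.nb_eq_some {j : ℕ} {d : Bool} {v r : ℕ} : L.nb p j e d v r = some t ↔
    t ∈ L.N p j e ∧ t.ep d = v ∧ rank (L.V j e) d t = r := by
  rw [Lv.nb]
  split_ifs with h
  · obtain ⟨a1, a2, a3⟩ := h.choose_spec
    refine Option.some_inj.trans ⟨fun a => a ▸ ⟨a1, a2, a3⟩, fun a => ?_⟩
    exact rank_inj (Lv.N_subset j e a1) (Lv.N_subset j e a.1) (a2.trans a.2.1.symm)
      (a3.trans a.2.2.symm)
  · exact iff_of_false (by simp) fun a => h ⟨t, a⟩
theorem Lv.card_N_le (j : ℕ) (e : Env) (d : Bool) (v : ℕ) :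
    ((L.N p j e).filter fun t => t.ep d = v).card ≤ p.Kp := by
  refine (card_le_card_of_injOn (rank (L.V j e) d) (fun t ht => ?_) fun t ht t' ht' a => ?_).trans
    (card_range _).le
  · exact mem_range.2 ((mem_filter.1 (mem_filter.1 ht).1).2 d)
  · obtain ⟨a1, a2⟩ := mem_filter.1 ht
    obtain ⟨a3, a4⟩ := mem_filter.1 ht'
    exact rank_inj (Lv.N_subset j e a1) (Lv.N_subset j e a3) (a2.trans a4.symm) a
theorem Lv.sum_nb {M : Type} [AddCommMonoid M] (j : ℕ) (e : Env) (d : Bool) (v : ℕ) (f : Tm → M) :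
    ∑ t ∈ L.N p j e with t.ep d = v, f t =
      ∑ r ∈ range p.Kp, ((L.nb p j e d v r).map f).getD 0 := by
  rw [← sum_fiberwise_of_maps_to (s := {t ∈ L.N p j e | t.ep d = v}) (g := rank (L.V j e) d)
    (t := range p.Kp) fun t ht => mem_range.2 ((mem_filter.1 (mem_filter.1 ht).1).2 d)]
  refine sum_congr rfl fun r _ => ?_
  have : ∀ t, t ∈ {t ∈ {t ∈ L.N p j e | t.ep d = v} | rank (L.V j e) d t = r} ↔
      L.nb p j e d v r = some t := fun t => by simp only [mem_filter, Lv.nb_eq_some, and_assoc]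
  cases h : L.nb p j e d v r with
  | none => exact sum_eq_zero fun t ht => by simp [this, h] at ht
  | some t =>
    rw [show {t ∈ {t ∈ L.N p j e | t.ep d = v} | rank (L.V j e) d t = r} = {t} from
      Finset.ext fun u => by rw [this, h, mem_singleton, Option.some_inj, eq_comm], sum_singleton]
    rfl

theorem Lv.WF.mono (h : L.WF p F q eb wm) {wm' : ℕ} (hw : wm ≤ wm') : L.WF p F q eb wm' :=   ⟨h.tm, h.act, fun j e t ht => (h.w_le j e t ht).trans hw, h.al_le⟩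
theorem e2_fmul_le (x : ℕ) {y : ℕ} (h : y ≤ 2 ^ p.P) : p.fmul x y ≤ x :=
  Nat.div_le_of_le_mul (mul_comm x _ ▸ Nat.mul_le_mul_left x h)
theorem e2_cst (sf : Bool) (χ : ℕ) : p.M * p.cst (p.rs sf χ) χ ≤ 2 ^ p.P := by
  rcases Nat.eq_zero_or_pos (p.cu χ) with h | h
  · simp [Par.cst, h]
  · have h1 : 2 ^ p.rs sf χ ≤ p.cu χ := by
      rw [Par.rs]
      split_ifs with a
      · simp only [Par.flg, Bool.and_eq_true, decide_eq_true_eq] at a
        exact a.2.le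
      · exact h
    refine Nat.le_of_mul_le_mul_left ?_ h
    rw [← mul_assoc, mul_comm _ (2 ^ p.P)]
    exact (Nat.mul_div_le _ _).trans ((pow_add ..).le.trans (Nat.mul_le_mul_left _ h1))
theorem Lv.WF.D (h : L.WF p F H.q eb (p.Om * 2 ^ p.P)) (hq : p.n0 ≤ H.q) (hr : p.r1 ≤ p.c)
    (hM : p.Om ≤ p.M) (d sf : Bool) :
    (L.D p F H d sf).WF p F (H.q + p.W) (eb + p.c) (2 ^ p.P) := by
  have key : ∀ j e, ∀ t ∈ (L.D p F H d sf).V j e, NL.act F (H.q + p.W) e t ∧ ∃ χx < p.A, ∃ χz < p.A,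
      ∃ u ∈ L.V j (p.sub H.q e χx χz), H.chD p d sf u χx χz = t := fun j e t ht => by
    simp only [Lv.D, mem_biUnion, mem_filter, mem_image, mem_product, mem_range] at ht
    obtain ⟨a, a1, ⟨u, a2, a3⟩, a4⟩ := ht
    exact ⟨a4, _, a1.1, _, a1.2, u, Lv.N_subset _ _ a2, a3⟩
  have fb : ∀ χ x, p.fbN χ x ≤ 2 ^ p.P := fun χ x =>
    (e2_fmul_le _ (min_le_left _ _)).trans (min_le_left _ _)
  refine ⟨fun j e t ht => ?_, fun j e t ht => (key j e t ht).1, fun j e t ht => ?_,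
    fun j e d' v => (e2_fmul_le _ ?_).trans (h.al_le _ _ _ _)⟩
  · obtain ⟨-, χx, hx, χz, hz, u, hu, rfl⟩ := key j e t ht
    exact (h.tm _ _ _ hu).chD hq hr d sf hx hz
  · obtain ⟨-, χx, hx, χz, hz, u, hu, rfl⟩ := key j e t ht
    have a := h.tm _ _ _ hu
    refine (e2_fmul_le _ (fb _ _)).trans ((e2_fmul_le _ (min_le_left _ _)).trans ?_)
    rw [paD_chD H d sf a.x_lt a.z_lt, show H.ck (H.chD p d sf u χx χz).x = χx from H.ck_dn a.x_lt _,
      show H.ck (H.chD p d sf u χx χz).z = χz from H.ck_dn a.z_lt _]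
    refine Nat.div_le_of_le_mul ((Nat.mul_le_mul_right _ ((h.w_le _ _ _ hu).trans
      (Nat.mul_le_mul_right _ hM))).trans ?_)
    rw [mul_comm p.M, mul_assoc]
    exact Nat.mul_le_mul_left _ (e2_cst sf _)
  · split_ifs
    · exact (e2_fmul_le _ (min_le_left _ _)).trans (Nat.div_le_self _ _)
    · exact fb _ _

end Vale.Agent.P313.NL
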