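import Vale.Agent.P313.NL.E1
import Vale.Agent.P313.NL.E2

/-! The error after `D`. -/

namespace Vale.Agent.P313.NL

open Finset
open scoped Classical

variable {p : Par} {F : ℕ → ℕ → ℕ} {k eb lg : ℕ} {S : Sys} {L : Lv} {X : ℝ}

/-! ### Sums -/

theorem e3_sum_biUnion_le {α β : Type} [DecidableEq β] (s : Finset α) (t : α → Finset β)
    (f : β → ℝ) (hf : ∀ x, 0 ≤ f x) : ∑ x ∈ s.biUnion t, f x ≤ ∑ a ∈ s, ∑ x ∈ t a, f x := by
  induction s using Finset.induction_on with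
  | empty => simp
  | insert a s ha ih =>
    rw [biUnion_insert, sum_insert ha]
    have h1 := sum_union_inter (s₁ := t a) (s₂ := s.biUnion t) (f := f)
    have h2 : 0 ≤ ∑ x ∈ t a ∩ s.biUnion t, f x := sum_nonneg fun x _ => hf x
    linarith

theorem e3_fib {ι : Type} (U : Finset ι) (g : ι → ℕ) (c : ι → Prop) (n : ℕ) (h : ι → ℝ)
    (h0 : ∀ t, 0 ≤ h t) [∀ v, DecidablePred fun t => g t = v ∧ c t] :
    ∑ v ∈ range n, ∑ t ∈ U with g t = v ∧ c t, h t ≤ ∑ t ∈ U, h t := by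
  refine le_trans (sum_le_sum fun v _ => ?_)
    (sum_fiberwise_le_sum_of_sum_fiber_nonneg (s := U) (t := range n) (g := g) (f := h)
      fun y _ => sum_nonneg fun x _ => h0 x)
  refine sum_le_sum_of_subset_of_nonneg (fun t ht => ?_) fun t _ _ => h0 t
  rw [mem_filter] at ht ⊢
  exact ⟨ht.1, ht.2.1⟩

theorem e3_fib_le {ι : Type} (U : Finset ι) (g : ι → ℕ) {n K : ℕ} (h : ℕ → ℝ) (h0 : ∀ v, 0 ≤ h v)
    (hg : ∀ t ∈ U, g t < n) (hK : ∀ v, (U.filter fun t => g t = v).card ≤ K) :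
    ∑ t ∈ U, h (g t) ≤ K * ∑ v ∈ range n, h v := by
  rw [← sum_fiberwise_of_maps_to (s := U) (t := range n) (g := g)
    (fun t ht => mem_range.2 (hg t ht)), mul_sum]
  refine sum_le_sum fun v _ => ?_
  rw [sum_congr rfl (g := fun _ => h v) fun t ht => by rw [(mem_filter.1 ht).2], sum_const,
    nsmul_eq_mul]
  exact mul_le_mul_of_nonneg_right (by exact_mod_cast hK v) (h0 v)

theorem e3_loc {ι : Type} [DecidableEq ι] (N T : Finset ι) (w om : ι → ℝ) (ac : ι → Prop)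
    [DecidablePred ac] {K : ℕ} {Ω : ℝ} (hΩ : 1 ≤ Ω) (hN : N.card ≤ K)
    (hT : (T.filter ac).card ≤ K) (hac : ∀ t ∈ N, ac t) (hw : ∀ t ∈ N, 0 ≤ w t ∧ w t ≤ Ω)
    (hom : ∀ t ∈ T, 0 ≤ om t ∧ om t ≤ Ω) :
    (∑ t ∈ N, w t - ∑ t ∈ T, if ac t then om t else 0) ^ 2 ≤
      2 * K * Ω ^ 2 * ((∑ t ∈ N, if t ∈ T then (w t - om t) ^ 2 else 1) +
        ∑ t ∈ T, if 0 < om t ∧ ac t ∧ t ∉ N then 1 else 0) := by
  set B := T.filter fun t => 0 < om t ∧ ac t ∧ t ∉ N with hB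
  have hΩ2 : 1 ≤ Ω ^ 2 := one_le_pow₀ hΩ
  have e1 : (∑ t ∈ T, if ac t then om t else 0) =
      (∑ t ∈ N, if t ∈ T then om t else 0) + ∑ t ∈ B, om t := by
    rw [sum_ite_mem, inter_comm, ← sum_ite_mem, hB, sum_filter, ← sum_add_distrib]
    refine sum_congr rfl fun t ht => ?_
    by_cases h1 : t ∈ N
    · simp [h1, hac t h1]
    · by_cases h2 : ac t
      · rcases (hom t ht).1.eq_or_lt with h3 | h3
        · simp [← h3]
        · simp [h1, h2, h3]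
      · simp [h1, h2]
  have e2 : (∑ t ∈ T, if 0 < om t ∧ ac t ∧ t ∉ N then (1 : ℝ) else 0) = ∑ t ∈ B, 1 := by
    rw [hB, sum_filter]
  have hBK : (B.card : ℝ) ≤ K := by
    exact_mod_cast (card_le_card fun t ht => by
      rw [hB, mem_filter] at ht
      exact mem_filter.2 ⟨ht.1, ht.2.2.1⟩).trans hT
  have hNK : (N.card : ℝ) ≤ K := by exact_mod_cast hN
  have h1 : (∑ t ∈ N, (w t - if t ∈ T then om t else 0)) ^ 2 ≤
      K * (Ω ^ 2 * ∑ t ∈ N, if t ∈ T then (w t - om t) ^ 2 else 1) := by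
    refine sq_sum_le_card_mul_sum_sq.trans (mul_le_mul hNK ?_
      (sum_nonneg fun _ _ => sq_nonneg _) (Nat.cast_nonneg _))
    rw [mul_sum]
    refine sum_le_sum fun t ht => ?_
    split_ifs
    · exact le_mul_of_one_le_left (sq_nonneg _) hΩ2
    · rw [sub_zero, mul_one]
      exact pow_le_pow_left₀ (hw t ht).1 (hw t ht).2 2
  have h2 : (∑ t ∈ B, om t) ^ 2 ≤ K * (Ω ^ 2 * ∑ t ∈ B, (1 : ℝ)) := by
    refine sq_sum_le_card_mul_sum_sq.trans (mul_le_mul hBK ?_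
      (sum_nonneg fun _ _ => sq_nonneg _) (Nat.cast_nonneg _))
    rw [mul_sum]
    refine sum_le_sum fun t ht => ?_
    have ht' := (mem_filter.1 ht).1
    rw [mul_one]
    exact pow_le_pow_left₀ (hom t ht').1 (hom t ht').2 2
  rw [sum_sub_distrib] at h1
  rw [e1, e2]
  nlinarith [sq_nonneg (∑ t ∈ N, w t - (∑ t ∈ N, if t ∈ T then om t else 0) + ∑ t ∈ B, om t)]

/-! ### Sizes -/

theorem e3_lg (hp : p.Small lg) : 4 ≤ lg := by
  have := hp.c_le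
  have := hp.c_pos
  omega

theorem e3_y (hp : p.Small lg) : (16 : ℝ) ≤ 2 ^ lg := by
  have : (2 : ℝ) ^ 4 ≤ 2 ^ lg := pow_le_pow_right₀ one_le_two (e3_lg hp)
  linarith

theorem e3_Om_le (hp : p.Small lg) : (p.Om : ℝ) ≤ 2 ^ lg := by
  have h1 := hp.Om_le
  have h2 : p.M ≤ 2 ^ lg := Nat.pow_le_pow_right two_pos (by have := hp.mu_le; omega)
  exact_mod_cast (show p.Om ≤ 2 ^ lg by omega)

theorem e3_one_le_Om (p : Par) : (1 : ℝ) ≤ p.Om := by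
  exact_mod_cast (show 1 ≤ p.Om by unfold Par.Om; omega)

theorem e3_badT_nonneg (j : ℕ) (e : Env) (Y : Finset Tm) : 0 ≤ badT p F S L j e Y :=
  add_nonneg (sum_nonneg fun _ _ => by split_ifs <;> positivity) (Nat.cast_nonneg _)

theorem e3_badA_nonneg (j : ℕ) (e : Env) : 0 ≤ badA p S L j e :=
  sum_nonneg fun _ _ => sum_nonneg fun _ _ => sq_nonneg _

theorem e3_errT (h : Err p F S L X) {j : ℕ} (hj : j ≤ p.P) {e : Env} (hok : e.Ok p.m) :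
    avg p.m e (fun e' => badT p F S L j e' (L.N p j e')) ≤ X / 2 ^ j :=
  (avg_mono hok fun e' _ => le_add_of_nonneg_right (e3_badA_nonneg j e')).trans (h j hj e hok)

theorem e3_errA (h : Err p F S L X) {j : ℕ} (hj : j ≤ p.P) {e : Env} (hok : e.Ok p.m) :
    avg p.m e (fun e' => badA p S L j e') ≤ X / 2 ^ j :=
  (avg_mono hok fun e' _ => le_add_of_nonneg_left (e3_badT_nonneg j e' _)).trans (h j hj e hok)

theorem e3_ep_lt {q : ℕ} {t : Tm} (h : TmOk p q eb t) (d : Bool) : t.ep d < 2 ^ q := by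
  cases d
  · exact h.x_lt
  · exact h.z_lt

theorem e3_w_le (hL : L.WF p F S.q eb (p.Om * 2 ^ p.P)) {j : ℕ} {e : Env} {t : Tm}
    (ht : t ∈ L.V j e) : (L.w j e t : ℝ) / 2 ^ p.P ≤ p.Om := by
  rw [div_le_iff₀ (by positivity)]
  exact_mod_cast hL.w_le j e t ht

/-! ### The centres -/

/-- The ideal load in one environment. -/
noncomputable def e3_gL (F : ℕ → ℕ → ℕ) (S : Sys) (d : Bool) (v : ℕ) (e : Env) : ℝ :=
  ∑ t ∈ S.T with t.ep d = v ∧ S.fl d (t.ep !d) = false, if act F S.q e t then S.om t else 0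

theorem e3_gL_nonneg (hS : S.WF p k eb) (d : Bool) (v : ℕ) (e : Env) : 0 ≤ e3_gL F S d v e :=
  sum_nonneg fun t ht => by
    split_ifs
    · exact hS.om_nonneg t (mem_filter.1 ht).1
    · exact le_rfl

theorem e3_few (hF : Few p F S) {e : Env} (hok : e.Ok p.m) (d : Bool) (v : ℕ) :
    ((S.T.filter fun t => t.ep d = v ∧ S.fl d (t.ep !d) = false).filter
      fun t => act F S.q e t).card ≤ p.Kp := by
  refine (card_le_card fun t ht => ?_).trans (hF e hok d v)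
  simp only [mem_filter] at ht ⊢
  exact ⟨ht.1.1, ht.1.2.1, ht.2⟩

theorem e3_gL_le (hW : S.Wt p.Om) (hF : Few p F S) {e : Env} (hok : e.Ok p.m) (d : Bool) (v : ℕ) :
    e3_gL F S d v e ≤ p.Kp * p.Om := by
  unfold e3_gL
  rw [← sum_filter]
  refine (sum_le_card_nsmul _ _ (p.Om : ℝ) fun t ht =>
    hW.1 t (mem_filter.1 (mem_filter.1 ht).1).1).trans ?_
  rw [nsmul_eq_mul]
  exact mul_le_mul_of_nonneg_right (by exact_mod_cast e3_few hF hok d v) (Nat.cast_nonneg _)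

theorem e3_J_gL (hS : S.WF p k eb) (he : eb ≤ p.m) (d : Bool) (v b : ℕ) (e : Env) :
    Mix.J (2 ^ p.m) (fun s => e3_gL F S d v (φ2 p e b s)) = S.ldC d v := by
  unfold Mix.J e3_gL Sys.ldC
  rw [sum_comm, sum_div]
  refine sum_congr rfl fun t ht => ?_
  rw [← sum_filter, sum_const, nsmul_eq_mul, card_act_φ2 (hS.tm t (mem_filter.1 ht).1) he, Sys.ms]
  have : ((2 ^ p.m * 2 ^ p.m : ℕ) : ℝ) ≠ 0 := by positivity
  field_simp

theorem e3_load (hS : S.WF p k eb) (hW : S.Wt p.Om) (hL : L.WF p F S.q eb (p.Om * 2 ^ p.P))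
    (hF : Few p F S) (d : Bool) (j : ℕ) {e : Env} (hok : e.Ok p.m) :
    ∑ v ∈ range (2 ^ S.q), ((L.fL p S.toShp d v j e : ℝ) / 2 ^ p.P - e3_gL F S d v e) ^ 2 ≤
      2 * p.Kp * (p.Om : ℝ) ^ 2 * badT p F S L j e (L.N p j e) := by
  have h1 : ∀ v, ((L.fL p S.toShp d v j e : ℝ) / 2 ^ p.P - e3_gL F S d v e) ^ 2 ≤
      2 * p.Kp * (p.Om : ℝ) ^ 2 *
        ((∑ t ∈ L.N p j e with t.ep d = v ∧ S.fl d (t.ep !d) = false,
          if t ∈ S.T then ((L.w j e t : ℝ) / 2 ^ p.P - S.om t) ^ 2 else 1) +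
        ∑ t ∈ S.T with t.ep d = v ∧ S.fl d (t.ep !d) = false,
          if 0 < S.om t ∧ act F S.q e t ∧ t ∉ L.N p j e then 1 else 0) := by
    intro v
    have h := e3_loc ((L.N p j e).filter fun t => t.ep d = v ∧ S.fl d (t.ep !d) = false)
      (S.T.filter fun t => t.ep d = v ∧ S.fl d (t.ep !d) = false)
      (fun t => (L.w j e t : ℝ) / 2 ^ p.P) S.om (fun t => act F S.q e t) (K := p.Kp)
      (e3_one_le_Om p)
      ((card_le_card fun t ht => by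
        rw [mem_filter] at ht ⊢
        exact ⟨ht.1, ht.2.1⟩).trans (Lv.card_N_le j e d v)) (e3_few hF hok d v)
      (fun t ht => hL.act j e t (Lv.N_subset j e (mem_filter.1 ht).1))
      (fun t ht => ⟨by positivity, e3_w_le hL (Lv.N_subset j e (mem_filter.1 ht).1)⟩)
      (fun t ht => ⟨hS.om_nonneg t (mem_filter.1 ht).1, hW.1 t (mem_filter.1 ht).1⟩)
    rw [Lv.fL, Nat.cast_sum, sum_div]
    refine h.trans (le_of_eq ?_)
    congr 2
    · refine sum_congr rfl fun t ht => if_congr ?_ rfl rfl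
      rw [mem_filter] at ht ⊢
      exact ⟨fun h => h.1, fun h => ⟨h, ht.2⟩⟩
    · refine sum_congr rfl fun t ht => if_congr ?_ rfl rfl
      rw [mem_filter] at ht ⊢
      exact and_congr_right fun _ => and_congr_right fun _ =>
        not_congr ⟨fun h => h.1, fun h => ⟨h, ht.2⟩⟩
  refine (sum_le_sum fun v _ => h1 v).trans ?_
  rw [← mul_sum, sum_add_distrib]
  refine mul_le_mul_of_nonneg_left (add_le_add ?_ ?_) (by positivity)
  · exact e3_fib _ _ _ _ _ fun t => by split_ifs <;> positivity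
  · refine (e3_fib _ _ _ _ _ fun t => by split_ifs <;> positivity).trans (le_of_eq ?_)
    rw [← sum_filter, sum_const, nsmul_eq_mul, mul_one]

theorem e3_φ2_ok {e : Env} (hok : e.Ok p.m) {b s : ℕ} (hb : b < 2 ^ p.m)
    (hs : s < 2 ^ p.m * 2 ^ p.m) : (φ2 p e b s).Ok p.m :=
  hok.sh (Nat.div_lt_of_lt_mul hs) hb (Nat.mod_lt _ (Nat.two_pow_pos _))

theorem e3_geo (j : ℕ) : ∑ l ∈ range (j + 1), (1 / 4 : ℝ) ^ l * (1 / 2 ^ (j - l)) ≤ 2 / 2 ^ j := by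
  have h : ∀ l ∈ range (j + 1), (1 / 4 : ℝ) ^ l * (1 / 2 ^ (j - l)) = (1 / 2) ^ l / 2 ^ j := by
    intro l hl
    obtain ⟨i, rfl⟩ := Nat.exists_eq_add_of_le (Nat.lt_succ_iff.1 (mem_range.1 hl))
    rw [Nat.add_sub_cancel_left, pow_add, show (1 / 4 : ℝ) = 1 / 2 * (1 / 2) by norm_num, mul_pow,
      one_div_pow]
    field_simp
  rw [sum_congr rfl h, ← sum_div]
  exact div_le_div_of_nonneg_right (sum_geometric_two_le _) (by positivity)

/-- The error of the estimate for the centres. -/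
theorem ctr_err (hp : p.Small lg) (hS : S.WF p k eb) (hW : S.Wt p.Om)
    (hL : L.WF p F S.q eb (p.Om * 2 ^ p.P)) (hq : S.q ≤ p.m) (he : eb ≤ p.m) (hF : Few p F S)
    (hX : 2 ^ p.m ≤ X) (h : Err p F S L X) (d : Bool) {j : ℕ} (hj : j ≤ p.P) {e : Env}
    (hok : e.Ok p.m) : avg p.m e (fun e' => ∑ v ∈ range (2 ^ S.q),
      ((L.ctrE p S.toShp d j e' v : ℝ) / 2 ^ p.P - S.ctr d v) ^ 2) ≤ 2 ^ (20 * lg) * X / 2 ^ j := by
  have hZ : (0 : ℝ) < 2 ^ p.P := by positivity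
  set r : ℝ := (1 / 4) ^ j * ((p.Kp : ℝ) * p.Om) ^ 2 + ((j + 1) / 2 ^ p.P) ^ 2 with hr
  set D : ℕ → ℕ → Env → ℝ := fun j v e =>
    ((L.fL p S.toShp d v j e : ℝ) / 2 ^ p.P - e3_gL F S d v e) ^ 2 with hD
  have h1 : ∀ v, ∀ b ∈ range (2 ^ p.m), ∑ s ∈ range (2 ^ p.m * 2 ^ p.m),
      ((L.ctrE p S.toShp d j (φ2 p e b s) v : ℝ) / 2 ^ p.P - S.ctr d v) ^ 2 ≤
      ∑ s ∈ range (2 ^ p.m * 2 ^ p.m), 16 * (j + 3) *
        (∑ l ∈ range (j + 1), (1 / 4) ^ l * D (j - l) v (φ2 p e b s) + r) := by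
    intro v b hb
    have h2 := telR_err (n := 2 ^ p.m) (Nat.two_pow_pos _)
      (fun j s => L.fL p S.toShp d v j (φ2 p e b s)) (fun s => e3_gL F S d v (φ2 p e b s)) hZ
      (fun s _ => e3_gL_nonneg hS d v _)
      (fun s hs => e3_gL_le hW hF (e3_φ2_ok hok (mem_range.1 hb) hs) d v) j
    rw [e3_J_gL hS he] at h2
    rw [← mul_sum, sum_add_distrib, sum_comm, sum_const, card_range, nsmul_eq_mul]
    simp only [← mul_sum]
    refine le_trans (sum_le_sum fun s hs => ?_) h2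
    rw [← tel_eq_telR (wk := p.wk2) (φ := φ2 p e b) _ _ _
      fun t w => wk2_φ2 b t w (mem_range.1 hs)]
    unfold Lv.ctrE Sys.ctr
    split_ifs
    · rw [Nat.cast_pow, Nat.cast_ofNat, div_self hZ.ne', sub_self, zero_pow two_ne_zero]
      exact sq_nonneg _
    · refine le_of_eq ?_
      congr 1
      push_cast
      field_simp
      ring
  have h2 : avg p.m e (fun e' => ∑ v ∈ range (2 ^ S.q),
      ((L.ctrE p S.toShp d j e' v : ℝ) / 2 ^ p.P - S.ctr d v) ^ 2) ≤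
      avg p.m e (fun e' => ∑ v ∈ range (2 ^ S.q), 16 * (j + 3) *
        (∑ l ∈ range (j + 1), (1 / 4) ^ l * D (j - l) v e' + r)) := by
    rw [avg_sum, avg_sum]
    refine sum_le_sum fun v _ => ?_
    rw [avg_φ2, avg_φ2]
    exact div_le_div_of_nonneg_right (sum_le_sum (h1 v)) (by positivity)
  have h3 : avg p.m e (fun e' => ∑ v ∈ range (2 ^ S.q), 16 * (j + 3) *
        (∑ l ∈ range (j + 1), (1 / 4) ^ l * D (j - l) v e' + r)) ≤
      avg p.m e (fun e' => 16 * (j + 3) * (∑ l ∈ range (j + 1), (1 / 4) ^ l *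
        (2 * p.Kp * (p.Om : ℝ) ^ 2 * badT p F S L (j - l) e' (L.N p (j - l) e')) +
          2 ^ S.q * r)) := by
    refine avg_mono hok fun e' he' => ?_
    rw [← mul_sum, sum_add_distrib, sum_comm, sum_const, card_range, nsmul_eq_mul, Nat.cast_pow,
      Nat.cast_ofNat]
    refine mul_le_mul_of_nonneg_left (add_le_add_left (sum_le_sum fun l _ => ?_) _) (by positivity)
    rw [← mul_sum]
    exact mul_le_mul_of_nonneg_left (e3_load hS hW hL hF d _ he') (by positivity)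
  rw [avg_mul, avg_add, avg_const, avg_sum (range (j + 1))] at h3
  have hX0 : 0 ≤ X := le_trans (by positivity) hX
  have h4 : ∑ l ∈ range (j + 1), avg p.m e (fun e' => (1 / 4) ^ l *
      (2 * p.Kp * (p.Om : ℝ) ^ 2 * badT p F S L (j - l) e' (L.N p (j - l) e'))) ≤
      2 * p.Kp * (p.Om : ℝ) ^ 2 * X * (2 / 2 ^ j) := by
    refine le_trans ?_ (mul_le_mul_of_nonneg_left (e3_geo j) (by positivity))
    rw [mul_sum]
    refine sum_le_sum fun l _ => ?_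
    rw [avg_mul, avg_mul]
    have := e3_errT h (j := j - l) (by omega) hok
    calc _ ≤ (1 / 4 : ℝ) ^ l * (2 * p.Kp * (p.Om : ℝ) ^ 2 * (X / 2 ^ (j - l))) := by gcongr
      _ = _ := by ring
  set y : ℝ := 2 ^ lg with hy
  have hy16 : 16 ≤ y := e3_y hp
  have hK : (p.Kp : ℝ) ≤ y := by rw [hy]; exact_mod_cast hp.Kp_le
  have hO : (p.Om : ℝ) ≤ y := e3_Om_le hp
  have hj1 : (j : ℝ) + 1 ≤ y := by
    rw [hy]
    exact_mod_cast (show j + 1 ≤ 2 ^ lg by have := hp.P_le; omega)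
  have hqX : (2 : ℝ) ^ S.q ≤ X := (pow_le_pow_right₀ one_le_two hq).trans hX
  have hj2 : (1 : ℝ) ≤ 2 ^ j := one_le_pow₀ one_le_two
  have hr1 : r ≤ (y ^ 4 + y ^ 2) / 2 ^ j := by
    have a1 : (1 / 4 : ℝ) ^ j ≤ 1 / 2 ^ j := by
      rw [← one_div_pow]
      exact pow_le_pow_left₀ (by norm_num) (by norm_num) j
    have a2 : ((p.Kp : ℝ) * p.Om) ^ 2 ≤ y ^ 4 := by
      calc _ ≤ (y * y) ^ 2 := by gcongr
        _ = _ := by ring
    have a3 : (((j : ℝ) + 1) / 2 ^ p.P) ^ 2 ≤ y ^ 2 / 2 ^ j := by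
      rw [div_pow]
      have b1 : (2 : ℝ) ^ j ≤ 2 ^ p.P := pow_le_pow_right₀ one_le_two hj
      have b2 : (2 : ℝ) ^ j ≤ (2 ^ p.P) ^ 2 := by nlinarith
      gcongr
    calc r ≤ 1 / 2 ^ j * y ^ 4 + y ^ 2 / 2 ^ j := by
          rw [hr]
          gcongr
      _ = _ := by ring
  have hr0 : 0 ≤ r := by positivity
  have h5 : (16 : ℝ) * (j + 3) * (2 * p.Kp * (p.Om : ℝ) ^ 2 * X * (2 / 2 ^ j) + 2 ^ S.q * r) ≤
      y * (y * y) * (2 * y * y ^ 2 * X * (2 / 2 ^ j) + X * ((y ^ 4 + y ^ 2) / 2 ^ j)) := by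
    have : (j : ℝ) + 3 ≤ y * y := by nlinarith
    gcongr
  have h6 : y * (y * y) * (4 * y ^ 3 + y ^ 4 + y ^ 2) ≤ y ^ 20 := by
    have a1 : (1 : ℝ) ≤ y := by linarith
    have a2 : y ^ 3 ≤ y ^ 4 := pow_le_pow_right₀ a1 (by norm_num)
    have a3 : y ^ 2 ≤ y ^ 4 := pow_le_pow_right₀ a1 (by norm_num)
    have a4 : 4 * y ^ 3 + y ^ 4 + y ^ 2 ≤ y * y ^ 4 := by nlinarith [pow_pos (show 0 < y by linarith) 4]
    calc _ ≤ y * (y * y) * (y * y ^ 4) := by gcongr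
      _ = y ^ 8 := by ring
      _ ≤ _ := pow_le_pow_right₀ a1 (by norm_num)
  calc _ ≤ _ := h2.trans h3
    _ ≤ 16 * (j + 3) * (2 * p.Kp * (p.Om : ℝ) ^ 2 * X * (2 / 2 ^ j) + 2 ^ S.q * r) := by gcongr
    _ ≤ _ := h5
    _ = y * (y * y) * (4 * y ^ 3 + y ^ 4 + y ^ 2) * (X / 2 ^ j) := by ring
    _ ≤ y ^ 20 * (X / 2 ^ j) := by gcongr
    _ = _ := by rw [hy, ← pow_mul, mul_comm lg 20, mul_div_assoc]

/-! ### Fixed point numbers -/

theorem e3_fmul_le (a b : ℕ) : (p.fmul a b : ℝ) / 2 ^ p.P ≤ a / 2 ^ p.P * (b / 2 ^ p.P) := by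
  have h : (p.fmul a b : ℝ) ≤ (a * b : ℕ) / (2 ^ p.P : ℕ) := Nat.cast_div_le
  push_cast at h
  rw [div_mul_div_comm, ← div_div]
  exact div_le_div_of_nonneg_right h (by positivity)

theorem e3_div_ge (a b : ℕ) : (a : ℝ) / b - 1 ≤ (a / b : ℕ) := by
  rcases Nat.eq_zero_or_pos b with rfl | hb
  · simp
  · have h : a < b * (a / b + 1) := Nat.lt_mul_div_succ a hb
    have h' : (a : ℝ) ≤ b * ((a / b : ℕ) + 1) := by exact_mod_cast h.le
    rw [sub_le_iff_le_add, div_le_iff₀ (by exact_mod_cast hb)]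
    linarith

theorem e3_fmul_ge (a b : ℕ) :
    a / 2 ^ p.P * (b / 2 ^ p.P) - 1 / 2 ^ p.P ≤ (p.fmul a b : ℝ) / 2 ^ p.P := by
  have h := e3_div_ge (a * b) (2 ^ p.P)
  push_cast at h
  rw [div_mul_div_comm, ← div_div, ← sub_div]
  exact div_le_div_of_nonneg_right h (by positivity)

theorem e3_fmul_apx {a b : ℕ} {α β Ω ε₁ ε₂ : ℝ} (ha : (a : ℝ) / 2 ^ p.P ≤ Ω) (h0 : 0 ≤ β)
    (h1 : β ≤ 1) (e1 : |(a : ℝ) / 2 ^ p.P - α| ≤ ε₁) (e2 : |(b : ℝ) / 2 ^ p.P - β| ≤ ε₂) :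
    |(p.fmul a b : ℝ) / 2 ^ p.P - α * β| ≤ ε₁ + Ω * ε₂ + 1 / 2 ^ p.P := by
  have h2 := e3_fmul_le (p := p) a b
  have h3 := e3_fmul_ge (p := p) a b
  have ha0 : (0 : ℝ) ≤ a / 2 ^ p.P := by positivity
  have h4 : |(a : ℝ) / 2 ^ p.P * (b / 2 ^ p.P) - α * β| ≤ ε₁ + Ω * ε₂ := by
    rw [show (a : ℝ) / 2 ^ p.P * (b / 2 ^ p.P) - α * β =
      (a / 2 ^ p.P - α) * β + a / 2 ^ p.P * (b / 2 ^ p.P - β) by ring]
    refine (abs_add_le _ _).trans (add_le_add ?_ ?_)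
    · rw [abs_mul, abs_of_nonneg h0]
      exact (mul_le_of_le_one_right (abs_nonneg _) h1).trans e1
    · rw [abs_mul, abs_of_nonneg ha0]
      exact mul_le_mul ha e2 (abs_nonneg _) (ha0.trans ha)
  have h5 : (0 : ℝ) ≤ 1 / 2 ^ p.P := by positivity
  rw [abs_le] at h4 ⊢
  constructor <;> linarith [h4.1, h4.2]

theorem e3_fmul_bd {a b : ℕ} {Ω : ℝ} (ha : (a : ℝ) / 2 ^ p.P ≤ Ω) (hb : (b : ℝ) / 2 ^ p.P ≤ 1) :
    (p.fmul a b : ℝ) / 2 ^ p.P ≤ Ω :=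
  (e3_fmul_le a b).trans ((mul_le_of_le_one_right (by positivity) hb).trans ha)

theorem e3_cast_sub (a b : ℕ) : ((a - b : ℕ) : ℝ) = max 0 ((a : ℝ) - b) := by
  rcases le_total a b with h | h
  · rw [Nat.sub_eq_zero_of_le h, max_eq_left (sub_nonpos.2 (by exact_mod_cast h)), Nat.cast_zero]
  · rw [Nat.cast_sub h, max_eq_right (sub_nonneg.2 (by exact_mod_cast h))]

theorem e3_cast_dist (a b : ℕ) : ((a - b + (b - a) : ℕ) : ℝ) = |(a : ℝ) - b| := by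
  rcases le_total a b with h | h
  · rw [Nat.sub_eq_zero_of_le h, zero_add, Nat.cast_sub h,
      abs_of_nonpos (sub_nonpos.2 (by exact_mod_cast h)), neg_sub]
  · rw [Nat.sub_eq_zero_of_le h, add_zero, Nat.cast_sub h,
      abs_of_nonneg (sub_nonneg.2 (by exact_mod_cast h))]

theorem e3_dist (c x : ℕ) : ((c * 2 ^ p.P - x + (x - c * 2 ^ p.P) : ℕ) : ℝ) =
    |(c : ℝ) - x / 2 ^ p.P| * 2 ^ p.P := by
  have hZ : (0 : ℝ) < 2 ^ p.P := by positivity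
  rw [e3_cast_dist, ← abs_of_pos hZ, ← abs_mul, abs_of_pos hZ, sub_mul, div_mul_cancel₀ _ hZ.ne']
  push_cast
  rfl

theorem e3_max_mul (x : ℝ) {Z : ℝ} (hZ : 0 ≤ Z) : max 0 (x * Z) = max 0 x * Z := by
  rw [max_mul_of_nonneg _ _ hZ, zero_mul]

theorem e3_clamp {n : ℕ} {x : ℝ} (h : (n : ℝ) = max 0 (x * 2 ^ p.P)) :
    ((min (2 ^ p.P) n : ℕ) : ℝ) / 2 ^ p.P = clamp x := by
  have hZ : (0 : ℝ) < 2 ^ p.P := by positivity
  rw [Nat.cast_min, h, e3_max_mul _ hZ.le, div_eq_iff hZ.ne', clamp, min_mul_of_nonneg _ _ hZ.le,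
    one_mul, Nat.cast_pow, Nat.cast_ofNat]

theorem e3_nstN (χ x : ℕ) : (p.nstN χ x : ℝ) = p.nst χ (x / 2 ^ p.P) * 2 ^ p.P := by
  have hZ : (0 : ℝ) < 2 ^ p.P := by positivity
  rw [Par.nstN, Par.nst, Nat.cast_mul, Nat.cast_mul, e3_cast_sub, e3_dist, mul_assoc _ (max _ _),
    ← e3_max_mul _ hZ.le, sub_mul, one_mul, Nat.cast_pow, Nat.cast_ofNat]

theorem e3_faN (χ x : ℕ) :
    (p.faN χ x : ℝ) / 2 ^ p.P = clamp (p.nst χ (x / 2 ^ p.P) - p.cj χ) := by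
  refine e3_clamp ?_
  rw [e3_cast_sub, e3_nstN, sub_mul]
  push_cast
  rfl

theorem e3_clamp_nonneg (x : ℝ) : 0 ≤ clamp x := le_min zero_le_one (le_max_left _ _)

theorem e3_clamp_le (x : ℝ) : clamp x ≤ 1 := min_le_left _ _

theorem e3_clamp_lip (x y : ℝ) : |clamp x - clamp y| ≤ |x - y| := by
  unfold clamp
  refine (abs_min_sub_min_le_max _ _ _ _).trans (max_le (by simp) ?_)
  exact (abs_max_sub_max_le_max _ _ _ _).trans (max_le (by simp) le_rfl)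

theorem e3_dist_lip (c x y : ℝ) : |(|c - x|) - (|c - y|)| ≤ |x - y| :=
  (abs_abs_sub_abs_le_abs_sub _ _).trans (by rw [sub_sub_sub_cancel_left, abs_sub_comm])

theorem e3_nst_lip (χ : ℕ) (x y : ℝ) : |p.nst χ x - p.nst χ y| ≤ p.M * p.cu χ * |x - y| := by
  unfold Par.nst
  rw [← mul_sub, abs_mul, abs_of_nonneg (by positivity : (0 : ℝ) ≤ p.M * p.cu χ)]
  refine mul_le_mul_of_nonneg_left ?_ (by positivity)
  refine (abs_max_sub_max_le_max _ _ _ _).trans (max_le (by simp) ?_)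
  rw [sub_sub_sub_cancel_left, abs_sub_comm]
  exact e3_dist_lip _ _ _

theorem e3_Lam (hp : p.Small lg) {χ : ℕ} (hχ : χ < p.A) :
    (p.M : ℝ) * p.cu χ ≤ 2 ^ lg * 2 ^ lg := by
  have h2 : p.M ≤ 2 ^ lg := Nat.pow_le_pow_right two_pos (by have := hp.mu_le; omega)
  have h3 : p.A ≤ 2 ^ lg := Nat.pow_le_pow_right two_pos hp.W_le
  have h4 : p.cu χ ≤ χ := Nat.div_le_self _ _
  exact_mod_cast Nat.mul_le_mul h2 (by omega)

theorem e3_faN_apx (hp : p.Small lg) {χ : ℕ} (hχ : χ < p.A) (x : ℕ) (x' : ℝ) :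
    |(p.faN χ x : ℝ) / 2 ^ p.P - clamp (p.nst χ x' - p.cj χ)| ≤
      2 ^ lg * 2 ^ lg * |(x : ℝ) / 2 ^ p.P - x'| := by
  rw [e3_faN]
  refine (e3_clamp_lip _ _).trans ?_
  rw [sub_sub_sub_cancel_right]
  exact (e3_nst_lip _ _ _).trans (mul_le_mul_of_nonneg_right (e3_Lam hp hχ) (abs_nonneg _))

theorem e3_faN_le (χ x : ℕ) : (p.faN χ x : ℝ) / 2 ^ p.P ≤ 1 := by
  rw [e3_faN]
  exact e3_clamp_le _

theorem e3_fb1 (χ x : ℕ) : ((min (2 ^ p.P) (p.nstN χ x + 2 ^ p.P - p.cj χ * 2 ^ p.P) : ℕ) : ℝ) /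
    2 ^ p.P = clamp (p.nst χ (x / 2 ^ p.P) - p.cj χ + 1) := by
  refine e3_clamp ?_
  rw [e3_cast_sub, Nat.cast_add, e3_nstN]
  push_cast
  congr 1
  ring

theorem e3_fb2 (χ x : ℕ) : ((min (2 ^ p.P) (2 * 2 ^ p.P - ((p.cu χ * 2 ^ p.P - x) +
    (x - p.cu χ * 2 ^ p.P))) : ℕ) : ℝ) / 2 ^ p.P = clamp (2 - |(p.cu χ : ℝ) - x / 2 ^ p.P|) := by
  refine e3_clamp ?_
  rw [e3_cast_sub, e3_dist, sub_mul]
  push_cast
  rfl

theorem e3_fbN_le (χ x : ℕ) : (p.fbN χ x : ℝ) / 2 ^ p.P ≤ 1 :=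
  e3_fmul_bd ((e3_fb1 χ x).trans_le (e3_clamp_le _)) ((e3_fb2 χ x).trans_le (e3_clamp_le _))

theorem e3_fbN_apx (hp : p.Small lg) {χ : ℕ} (hχ : χ < p.A) (x : ℕ) (x' : ℝ) :
    |(p.fbN χ x : ℝ) / 2 ^ p.P - p.fb χ x'| ≤
      (2 ^ lg * 2 ^ lg + 1) * |(x : ℝ) / 2 ^ p.P - x'| + 1 / 2 ^ p.P := by
  have h := e3_fmul_apx (p := p) (Ω := 1) ((e3_fb1 χ x).trans_le (e3_clamp_le _))
    (e3_clamp_nonneg (2 - |(p.cu χ : ℝ) - x'|)) (e3_clamp_le _)
    (α := clamp (p.nst χ x' - p.cj χ + 1)) (ε₁ := 2 ^ lg * 2 ^ lg * |(x : ℝ) / 2 ^ p.P - x'|)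
    (ε₂ := |(x : ℝ) / 2 ^ p.P - x'|)
    (b := min (2 ^ p.P) (2 * 2 ^ p.P - ((p.cu χ * 2 ^ p.P - x) + (x - p.cu χ * 2 ^ p.P))))
    (by
      rw [e3_fb1]
      refine (e3_clamp_lip _ _).trans ?_
      rw [add_sub_add_right_eq_sub, sub_sub_sub_cancel_right]
      exact (e3_nst_lip _ _ _).trans (mul_le_mul_of_nonneg_right (e3_Lam hp hχ) (abs_nonneg _)))
    (by
      rw [e3_fb2]
      refine (e3_clamp_lip _ _).trans ?_
      rw [sub_sub_sub_cancel_left, abs_sub_comm]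
      exact e3_dist_lip _ _ _)
  refine le_trans h (le_of_eq ?_)
  ring

theorem e3_cst_le (r χ : ℕ) : (p.cst r χ : ℝ) / 2 ^ p.P ≤ 2 ^ r / (p.cu χ * p.M) := by
  have h : (p.cst r χ : ℝ) ≤ (2 ^ (p.P + r) : ℕ) / (p.cu χ * p.M : ℕ) := Nat.cast_div_le
  push_cast at h
  rw [div_le_iff₀ (by positivity)]
  refine h.trans (le_of_eq ?_)
  ring

theorem e3_cst_apx (r χ : ℕ) :
    |(p.cst r χ : ℝ) / 2 ^ p.P - 2 ^ r / (p.cu χ * p.M)| ≤ 1 / 2 ^ p.P := by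
  have h1 := e3_cst_le (p := p) r χ
  have h := e3_div_ge (2 ^ (p.P + r)) (p.cu χ * p.M)
  push_cast at h
  have h2 : 2 ^ r / (p.cu χ * p.M) - 1 / 2 ^ p.P ≤ (p.cst r χ : ℝ) / 2 ^ p.P := by
    rw [le_div_iff₀ (by positivity), sub_mul, div_mul_cancel₀ 1 (by positivity)]
    refine le_trans (le_of_eq ?_) h
    ring
  have h5 : (0 : ℝ) ≤ 1 / 2 ^ p.P := by positivity
  rw [abs_le]
  constructor <;> linarith

theorem e3_kap_le (sf : Bool) (χ : ℕ) : (2 : ℝ) ^ p.rs sf χ / (p.cu χ * p.M) ≤ 1 := by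
  rcases Nat.eq_zero_or_pos (p.cu χ) with h | h
  · simp [h]
  · have h1 : 2 ^ p.rs sf χ ≤ p.cu χ := by
      unfold Par.rs
      split_ifs with hf
      · unfold Par.flg at hf
        rw [Bool.and_eq_true, decide_eq_true_eq] at hf
        exact hf.2.le
      · exact h
    have h2 : 1 ≤ p.M := Nat.one_le_two_pow
    have h3 : 2 ^ p.rs sf χ ≤ p.cu χ * p.M := h1.trans (Nat.le_mul_of_pos_right _ h2)
    refine div_le_one_of_le₀ (by exact_mod_cast h3) (by positivity)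

theorem e3_sq4 {x a b c d Y : ℝ} (h : |x| ≤ Y * (|a| + |b| + |c| + |d|)) :
    x ^ 2 ≤ 4 * Y ^ 2 * (a ^ 2 + b ^ 2 + c ^ 2 + d ^ 2) := by
  have h1 := pow_le_pow_left₀ (abs_nonneg x) h 2
  rw [sq_abs, mul_pow] at h1
  refine h1.trans ?_
  rw [mul_comm 4, mul_assoc]
  refine mul_le_mul_of_nonneg_left ?_ (sq_nonneg _)
  rw [← sq_abs a, ← sq_abs b, ← sq_abs c, ← sq_abs d]
  nlinarith [sq_nonneg (|a| - |b|), sq_nonneg (|a| - |c|), sq_nonneg (|a| - |d|),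
    sq_nonneg (|b| - |c|), sq_nonneg (|b| - |d|), sq_nonneg (|c| - |d|)]

/-- The error of the new weight. -/
theorem e3_wt (hp : p.Small lg) (sf : Bool) {χ χ' : ℕ} (hχ : χ < p.A) (hχ' : χ' < p.A) {w : ℕ}
    (hw : (w : ℝ) / 2 ^ p.P ≤ p.Om) (om : ℝ) (x x' : ℕ) (c c' : ℝ) :
    ((p.fmul (p.fmul (p.fmul w (p.cst (p.rs sf χ) χ)) (p.faN χ x)) (p.fbN χ' x') : ℝ) / 2 ^ p.P -
      om * 2 ^ p.rs sf χ * p.fa χ c * p.fb χ' c') ^ 2 ≤ 4 * ((2 ^ lg) ^ 4) ^ 2 *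
      (((w : ℝ) / 2 ^ p.P - om) ^ 2 + ((x : ℝ) / 2 ^ p.P - c) ^ 2 + ((x' : ℝ) / 2 ^ p.P - c') ^ 2 +
        (1 / 2 ^ p.P) ^ 2) := by
  refine e3_sq4 ?_
  have b1 := e3_fmul_bd hw ((e3_cst_le _ χ).trans (e3_kap_le sf χ))
  have b2 := e3_fmul_bd b1 (e3_faN_le χ x)
  have h1 := e3_fmul_apx (α := om) hw (by positivity) (e3_kap_le sf χ) le_rfl (e3_cst_apx _ χ)
  have h2 := e3_fmul_apx b1 (e3_clamp_nonneg _) (e3_clamp_le _) h1 (e3_faN_apx hp hχ x c)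
  have h3 := e3_fmul_apx b2 (fb_nonneg _ _) (fb_le_one _ _) h2 (e3_fbN_apx hp hχ' x' c')
  rw [show om * 2 ^ p.rs sf χ * p.fa χ c = om * (2 ^ p.rs sf χ / (p.cu χ * p.M)) *
    clamp (p.nst χ c - p.cj χ) by unfold Par.fa; ring]
  refine h3.trans ?_
  rw [abs_of_nonneg (by positivity : (0 : ℝ) ≤ 1 / 2 ^ p.P)]
  have hy16 := e3_y hp
  have hO := e3_Om_le hp
  have hO1 := e3_one_le_Om p
  generalize (2 : ℝ) ^ lg = y at *
  generalize (p.Om : ℝ) = Ω at *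
  have n1 := abs_nonneg ((w : ℝ) / 2 ^ p.P - om)
  have n2 := abs_nonneg ((x : ℝ) / 2 ^ p.P - c)
  have n3 := abs_nonneg ((x' : ℝ) / 2 ^ p.P - c')
  have n4 : (0 : ℝ) ≤ 1 / 2 ^ p.P := by positivity
  generalize |(w : ℝ) / 2 ^ p.P - om| = a1 at *
  generalize |(x : ℝ) / 2 ^ p.P - c| = a2 at *
  generalize |(x' : ℝ) / 2 ^ p.P - c'| = a3 at *
  generalize (1 : ℝ) / 2 ^ p.P = a4 at *
  have y1 : 1 ≤ y := by linarith
  have y2 : 16 * y ≤ y * y := by nlinarith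
  have c3 : Ω * (y * y + 1) ≤ y ^ 4 := by
    calc _ ≤ y * (y * y + y * y) := by gcongr; nlinarith
      _ = 2 * y ^ 3 := by ring
      _ ≤ y * y ^ 3 := by gcongr; linarith
      _ = _ := by ring
  have c1 : 1 ≤ y ^ 4 := one_le_pow₀ y1
  have c2 : Ω * (y * y) ≤ y ^ 4 := by nlinarith
  have c4 : 2 * Ω + 3 ≤ y ^ 4 := by nlinarith
  have d1 := mul_le_mul_of_nonneg_right c1 n1
  have d2 := mul_le_mul_of_nonneg_right c2 n2
  have d3 := mul_le_mul_of_nonneg_right c3 n3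
  have d4 := mul_le_mul_of_nonneg_right c4 n4
  linarith

/-- The error of the new boundary vector. -/
theorem e3_al (hp : p.Small lg) {χ : ℕ} (hχ : χ < p.A) {w : ℕ} (hw : w ≤ 2 ^ p.P) (om : ℝ) (x : ℕ)
    (c : ℝ) (b : Prop) [Decidable b] :
    ((p.fmul w (if b then p.fmul (p.cst 0 χ) (p.faN χ x) else p.fbN χ x) : ℝ) / 2 ^ p.P -
      om * (if b then p.fa χ c else p.fb χ c)) ^ 2 ≤ 4 * ((2 ^ lg) ^ 4) ^ 2 *
      (((w : ℝ) / 2 ^ p.P - om) ^ 2 + ((x : ℝ) / 2 ^ p.P - c) ^ 2 + 0 ^ 2 + (1 / 2 ^ p.P) ^ 2) := by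
  refine e3_sq4 ?_
  have hw' : (w : ℝ) / 2 ^ p.P ≤ 1 := div_le_one_of_le₀ (by exact_mod_cast hw) (by positivity)
  have hk : (2 : ℝ) ^ 0 / (p.cu χ * p.M) ≤ 1 := e3_kap_le false χ
  have h0 : |((if b then p.fmul (p.cst 0 χ) (p.faN χ x) else p.fbN χ x : ℕ) : ℝ) / 2 ^ p.P -
      (if b then p.fa χ c else p.fb χ c)| ≤
      (2 ^ lg * 2 ^ lg + 1) * |(x : ℝ) / 2 ^ p.P - c| + 2 * (1 / 2 ^ p.P) := by
    have n4 : (0 : ℝ) ≤ 1 / 2 ^ p.P := by positivity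
    split_ifs
    · have h1 := e3_fmul_apx ((e3_cst_le 0 χ).trans hk) (e3_clamp_nonneg _) (e3_clamp_le _)
        (e3_cst_apx 0 χ) (e3_faN_apx hp hχ x c)
      rw [show p.fa χ c = 2 ^ 0 / (p.cu χ * p.M) * clamp (p.nst χ c - p.cj χ) by
        unfold Par.fa; ring]
      linarith [abs_nonneg ((x : ℝ) / 2 ^ p.P - c)]
    · linarith [e3_fbN_apx hp hχ x c]
  have hb0 : 0 ≤ (if b then p.fa χ c else p.fb χ c) := by
    split_ifs
    · exact fa_nonneg _ _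
    · exact fb_nonneg _ _
  have hb1 : (if b then p.fa χ c else p.fb χ c) ≤ 1 := by
    split_ifs
    · exact (fa_le χ c).trans (by simpa using hk)
    · exact fb_le_one _ _
  refine (e3_fmul_apx (α := om) hw' hb0 hb1 le_rfl h0).trans ?_
  rw [abs_of_nonneg (by positivity : (0 : ℝ) ≤ 1 / 2 ^ p.P), abs_zero]
  have hy16 := e3_y hp
  generalize (2 : ℝ) ^ lg = y at *
  have n1 := abs_nonneg ((w : ℝ) / 2 ^ p.P - om)
  have n2 := abs_nonneg ((x : ℝ) / 2 ^ p.P - c)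
  have n4 : (0 : ℝ) ≤ 1 / 2 ^ p.P := by positivity
  generalize |(w : ℝ) / 2 ^ p.P - om| = a1 at *
  generalize |(x : ℝ) / 2 ^ p.P - c| = a2 at *
  generalize (1 : ℝ) / 2 ^ p.P = a4 at *
  have y1 : 1 ≤ y := by linarith
  have y2 : 16 * y ≤ y * y := by nlinarith
  have c2 : y * y + 1 ≤ y ^ 4 := by nlinarith
  have c1 : 1 ≤ y ^ 4 := one_le_pow₀ y1
  have c4 : 3 ≤ y ^ 4 := by nlinarith
  have d1 := mul_le_mul_of_nonneg_right c1 n1
  have d2 := mul_le_mul_of_nonneg_right c2 n2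
  have d4 := mul_le_mul_of_nonneg_right c4 n4
  linarith

/-! ### The operation `D` -/

/-- The error of the centre at one name. -/
noncomputable def e3_dl (p : Par) (S : Sys) (L : Lv) (d : Bool) (j : ℕ) (e : Env) (v : ℕ) : ℝ :=
  ((L.ctrE p S.toShp d j e v : ℝ) / 2 ^ p.P - S.ctr d v) ^ 2

theorem e3_one_le_Y (lg : ℕ) : (1 : ℝ) ≤ 4 * ((2 ^ lg) ^ 4) ^ 2 := by
  have : (1 : ℝ) ≤ ((2 ^ lg) ^ 4) ^ 2 := one_le_pow₀ (one_le_pow₀ (one_le_pow₀ one_le_two))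
  linarith

theorem e3_mem_D (hS : S.WF p k eb) {d sf : Bool} {t : Tm} (hx : t.x < 2 ^ S.q)
    (hz : t.z < 2 ^ S.q) {χx χz : ℕ} (h : S.toShp.chD p d sf t χx χz ∈ (S.D p d sf).T) :
    t ∈ S.T := by
  obtain ⟨a, ha, e⟩ := mem_image.1 h
  have h1 := (mem_product.1 ha).1
  have h2 := congrArg (S.toShp.paD p d sf) e
  rw [paD_chD _ _ _ hx hz, paD_chD _ _ _ (hS.tm _ h1).x_lt (hS.tm _ h1).z_lt] at h2
  exact h2 ▸ h1

theorem e3_term (hp : p.Small lg) (hS : S.WF p k eb) (hL : L.WF p F S.q eb (p.Om * 2 ^ p.P))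
    (d sf : Bool) (j : ℕ) (e : Env) {χx χz : ℕ} (hx : χx < p.A) (hz : χz < p.A) {t : Tm}
    (ht : t ∈ L.V j (p.sub S.q e χx χz)) :
    (if S.toShp.chD p d sf t χx χz ∈ (S.D p d sf).T then
      (((L.D p F S.toShp d sf).w j e (S.toShp.chD p d sf t χx χz) : ℝ) / 2 ^ p.P -
        (S.D p d sf).om (S.toShp.chD p d sf t χx χz)) ^ 2 else 1) ≤
    4 * ((2 ^ lg) ^ 4) ^ 2 * ((if t ∈ S.T then
      ((L.w j (p.sub S.q e χx χz) t : ℝ) / 2 ^ p.P - S.om t) ^ 2 else 1) +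
      (e3_dl p S L d j e (t.ep d) + e3_dl p S L d j e (t.ep !d) + (1 / 2 ^ p.P) ^ 2)) := by
  have htm := hL.tm _ _ t ht
  have hd : 0 ≤ e3_dl p S L d j e (t.ep d) + e3_dl p S L d j e (t.ep !d) + (1 / 2 ^ p.P) ^ 2 := by
    unfold e3_dl
    positivity
  by_cases hT : t ∈ S.T
  · have hm : S.toShp.chD p d sf t χx χz ∈ (S.D p d sf).T :=
      mem_image.2 ⟨(t, χx, χz), mem_product.2 ⟨hT, mem_product.2 ⟨mem_range.2 hx, mem_range.2 hz⟩⟩,
        rfl⟩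
    rw [if_pos hm, if_pos hT]
    have e1 : S.toShp.ck (S.toShp.chD p d sf t χx χz).x = χx := Shp.ck_dn _ htm.x_lt _
    have e2 : S.toShp.ck (S.toShp.chD p d sf t χx χz).z = χz := Shp.ck_dn _ htm.z_lt _
    have e3 : ∀ b, S.toShp.ck ((S.toShp.chD p d sf t χx χz).ep b) = if b then χz else χx := by
      intro b
      cases b
      · exact e1
      · exact e2
    have e4 : ∀ b, S.toShp.up ((S.toShp.chD p d sf t χx χz).ep b) = t.ep b := by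
      intro b
      cases b
      · exact Shp.up_dn _ htm.x_lt _
      · exact Shp.up_dn _ htm.z_lt _
    have hc : ∀ b : Bool, (if b then χz else χx) < p.A := by
      intro b
      cases b
      · exact hx
      · exact hz
    simp only [Lv.D, Sys.D, e1, e2, e3, e4, paD_chD _ _ _ htm.x_lt htm.z_lt]
    refine (e3_wt hp sf (hc d) (hc !d) (e3_w_le hL ht) _ _ _ _ _).trans (le_of_eq ?_)
    unfold e3_dl
    ring
  · rw [if_neg fun h => hT (e3_mem_D hS htm.x_lt htm.z_lt h), if_neg hT]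
    have := e3_one_le_Y lg
    nlinarith

theorem e3_badT (hp : p.Small lg) (hS : S.WF p k eb) (hL : L.WF p F S.q eb (p.Om * 2 ^ p.P))
    (d sf : Bool) (j : ℕ) (e : Env) :
    badT p F (S.D p d sf) (L.D p F S.toShp d sf) j e ((L.D p F S.toShp d sf).V j e) ≤
      ∑ a ∈ range p.A ×ˢ range p.A, 4 * ((2 ^ lg) ^ 4) ^ 2 *
        (badT p F S L j (p.sub S.q e a.1 a.2) (L.N p j (p.sub S.q e a.1 a.2)) +
          p.Kp * (2 * ∑ v ∈ range (2 ^ S.q), e3_dl p S L d j e v + 2 ^ S.q * (1 / 2 ^ p.P) ^ 2)) := by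
  have hY := e3_one_le_Y lg
  have h1 : (∑ t ∈ (L.D p F S.toShp d sf).V j e, if t ∈ (S.D p d sf).T then
      (((L.D p F S.toShp d sf).w j e t : ℝ) / 2 ^ p.P - (S.D p d sf).om t) ^ 2 else 1) ≤
      ∑ a ∈ range p.A ×ˢ range p.A, 4 * ((2 ^ lg) ^ 4) ^ 2 *
        ((∑ t ∈ L.N p j (p.sub S.q e a.1 a.2), if t ∈ S.T then
          ((L.w j (p.sub S.q e a.1 a.2) t : ℝ) / 2 ^ p.P - S.om t) ^ 2 else 1) +
          p.Kp * (2 * ∑ v ∈ range (2 ^ S.q), e3_dl p S L d j e v + 2 ^ S.q * (1 / 2 ^ p.P) ^ 2)) := by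
    have h0 : ∀ t, 0 ≤ if t ∈ (S.D p d sf).T then
        (((L.D p F S.toShp d sf).w j e t : ℝ) / 2 ^ p.P - (S.D p d sf).om t) ^ 2 else 1 :=
      fun t => by split_ifs <;> positivity
    refine (e3_sum_biUnion_le _ _ _ h0).trans (sum_le_sum fun a ha => ?_)
    refine (sum_le_sum_of_subset_of_nonneg (filter_subset _ _) fun t _ _ => h0 t).trans ?_
    rw [← biUnion_singleton]
    refine (e3_sum_biUnion_le _ _ _ h0).trans ?_
    simp only [sum_singleton]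
    rw [mem_product, mem_range, mem_range] at ha
    refine (sum_le_sum fun t ht => e3_term hp hS hL d sf j e ha.1 ha.2
      (Lv.N_subset _ _ ht)).trans ?_
    rw [← mul_sum, sum_add_distrib]
    refine mul_le_mul_of_nonneg_left (add_le_add_right ?_ _) (by positivity)
    have h2 : ∀ (b : Bool) (g : ℕ → ℝ), (∀ v, 0 ≤ g v) →
        ∑ t ∈ L.N p j (p.sub S.q e a.1 a.2), g (t.ep b) ≤ p.Kp * ∑ v ∈ range (2 ^ S.q), g v :=
      fun b g hg => e3_fib_le _ (fun t : Tm => t.ep b) g hg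
        (fun t ht => e3_ep_lt (hL.tm _ _ t (Lv.N_subset _ _ ht)) b) (Lv.card_N_le _ _ b)
    have h3 := h2 d (e3_dl p S L d j e) fun v => sq_nonneg _
    have h4 := h2 (!d) (e3_dl p S L d j e) fun v => sq_nonneg _
    have h5 := h2 d (fun _ => (1 / 2 ^ p.P) ^ 2) fun v => sq_nonneg _
    rw [sum_const (s := range _), card_range, nsmul_eq_mul, Nat.cast_pow, Nat.cast_ofNat] at h5
    rw [sum_add_distrib, sum_add_distrib]
    linarith
  have h2 : ((((S.D p d sf).T.filter fun t => 0 < (S.D p d sf).om t ∧ act F (S.D p d sf).q e t ∧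
      t ∉ (L.D p F S.toShp d sf).V j e).card : ℕ) : ℝ) ≤
      ∑ a ∈ range p.A ×ˢ range p.A, 4 * ((2 ^ lg) ^ 4) ^ 2 *
        (((S.T.filter fun t => 0 < S.om t ∧ act F S.q (p.sub S.q e a.1 a.2) t ∧
          t ∉ L.N p j (p.sub S.q e a.1 a.2)).card : ℕ) : ℝ) := by
    refine le_trans ?_ (sum_le_sum fun a _ => le_mul_of_one_le_left (Nat.cast_nonneg _) hY)
    simp only [card_filter, Nat.cast_sum]
    rw [sum_D hS, sum_comm (s := range p.A ×ˢ range p.A)]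
    refine sum_le_sum fun t ht => ?_
    rw [sum_product]
    refine sum_le_sum fun χx hx => sum_le_sum fun χz hz => ?_
    have htm := hS.tm t ht
    rw [Nat.cast_le]
    split_ifs with h1 h2
    · exact le_rfl
    · refine absurd ⟨?_, act_of_chD htm (mem_range.1 hx) (mem_range.1 hz) h1.2.1, fun h => ?_⟩ h2
      · refine (hS.om_nonneg t ht).lt_of_ne fun h0 => h1.1.ne ?_
        simp only [Sys.D, paD_chD _ _ _ htm.x_lt htm.z_lt, ← h0, zero_mul]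
      · exact h1.2.2 (mem_biUnion.2 ⟨(χx, χz), mem_product.2 ⟨hx, hz⟩,
          mem_filter.2 ⟨mem_image_of_mem _ h, h1.2.1⟩⟩)
    · exact Nat.zero_le _
    · exact le_rfl
  refine (add_le_add h1 h2).trans (le_of_eq ?_)
  rw [← sum_add_distrib]
  refine sum_congr rfl fun a _ => ?_
  unfold badT
  ring

theorem e3_badA (hp : p.Small lg) (hL : L.WF p F S.q eb (p.Om * 2 ^ p.P)) (d sf : Bool) (j : ℕ)
    (e : Env) : badA p (S.D p d sf) (L.D p F S.toShp d sf) j e ≤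
      p.A * (4 * ((2 ^ lg) ^ 4) ^ 2 * (badA p S L j e +
        (2 * ∑ v ∈ range (2 ^ S.q), e3_dl p S L d j e v + 2 * (2 ^ S.q * (1 / 2 ^ p.P) ^ 2)))) := by
  have h1 : ∀ d' : Bool, ∑ v ∈ range (2 ^ (S.toShp.q + p.W)),
      (((L.D p F S.toShp d sf).al j e d' v : ℝ) / 2 ^ p.P - (S.D p d sf).al d' v) ^ 2 ≤
      p.A * (4 * ((2 ^ lg) ^ 4) ^ 2 *
        (∑ v ∈ range (2 ^ S.q), ((L.al j e d' v : ℝ) / 2 ^ p.P - S.al d' v) ^ 2 +
        ∑ v ∈ range (2 ^ S.q), e3_dl p S L d j e v + 2 ^ S.q * (1 / 2 ^ p.P) ^ 2)) := by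
    intro d'
    rw [sum_names]
    have h2 : ∀ v ∈ range (2 ^ S.q), ∑ χ ∈ range p.A,
        (((L.D p F S.toShp d sf).al j e d' (S.toShp.dn v χ) : ℝ) / 2 ^ p.P -
          (S.D p d sf).al d' (S.toShp.dn v χ)) ^ 2 ≤ p.A * (4 * ((2 ^ lg) ^ 4) ^ 2 *
          (((L.al j e d' v : ℝ) / 2 ^ p.P - S.al d' v) ^ 2 + e3_dl p S L d j e v +
            (1 / 2 ^ p.P) ^ 2)) := by
      intro v hv
      rw [mem_range] at hv
      refine (sum_le_card_nsmul _ _ _ fun χ hχ => ?_).trans (by rw [card_range, nsmul_eq_mul])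
      rw [mem_range] at hχ
      simp only [Lv.D, Sys.D, Shp.up_dn _ hv, Shp.ck_dn _ hv, if_pos (Shp.dn_lt _ hv hχ)]
      refine (e3_al hp hχ (hL.al_le j e d' v) _ _ _ _).trans (le_of_eq ?_)
      unfold e3_dl
      ring
    refine (sum_le_sum h2).trans (le_of_eq ?_)
    rw [← mul_sum, ← mul_sum, sum_add_distrib, sum_add_distrib, sum_const (s := range _),
      card_range, nsmul_eq_mul, Nat.cast_pow, Nat.cast_ofNat]
  unfold badA
  rw [Fintype.sum_bool, Fintype.sum_bool]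
  refine (add_le_add (h1 true) (h1 false)).trans (le_of_eq ?_)
  ring

theorem D_err (hp : p.Small lg) (hS : S.WF p k eb) (hW : S.Wt p.Om)
    (hL : L.WF p F S.q eb (p.Om * 2 ^ p.P)) (hq : S.q + p.W ≤ p.m) (he : eb ≤ p.m) (hF : Few p F S)
    (hX : 2 ^ p.m ≤ X) (h : Err p F S L X) (d sf : Bool) :
    ErrV p F (S.D p d sf) (L.D p F S.toShp d sf) (2 ^ (60 * lg) * X) := by
  intro j hj e hok
  have hC : avg p.m e (fun e' => ∑ v ∈ range (2 ^ S.q), e3_dl p S L d j e' v) ≤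
      2 ^ (20 * lg) * X / 2 ^ j := ctr_err hp hS hW hL (by omega) he hF hX h d hj hok
  refine (avg_mono hok fun e' _ => add_le_add (e3_badT hp hS hL d sf j e')
    (e3_badA hp hL d sf j e')).trans ?_
  rw [avg_add, avg_sum (range p.A ×ˢ range p.A)]
  simp only [avg_mul, avg_add, avg_const]
  have hX0 : 0 ≤ X := le_trans (by positivity) hX
  have hA := e3_errA h hj hok
  have hT : ∀ a ∈ range p.A ×ˢ range p.A, avg p.m e (fun e' =>
      badT p F S L j (p.sub S.q e' a.1 a.2) (L.N p j (p.sub S.q e' a.1 a.2))) ≤ X / 2 ^ j := by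
    intro a ha
    rw [mem_product, mem_range, mem_range] at ha
    rw [avg_sub fun e' => badT p F S L j e' (L.N p j e')]
    exact e3_errT h hj (hok.sub hq ha.1 ha.2)
  have hZ : (2 : ℝ) ^ S.q * (1 / 2 ^ p.P) ^ 2 ≤ X / 2 ^ j := by
    have hqX : (2 : ℝ) ^ S.q ≤ X := (pow_le_pow_right₀ one_le_two (by omega)).trans hX
    have b1 : (2 : ℝ) ^ j ≤ 2 ^ p.P := pow_le_pow_right₀ one_le_two hj
    have b0 : (1 : ℝ) ≤ 2 ^ j := one_le_pow₀ one_le_two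
    have b2 : (2 : ℝ) ^ j ≤ (2 ^ p.P) ^ 2 := by nlinarith
    rw [one_div_pow, mul_one_div]
    gcongr
  rw [mul_comm 20, pow_mul, mul_div_assoc] at hC
  rw [mul_comm 60, pow_mul, mul_div_assoc]
  have hy16 := e3_y hp
  have hK : (p.Kp : ℝ) ≤ 2 ^ lg := by exact_mod_cast hp.Kp_le
  have hAy : (p.A : ℝ) ≤ 2 ^ lg := by exact_mod_cast Nat.pow_le_pow_right two_pos hp.W_le
  have hx0 : 0 ≤ X / 2 ^ j := by positivity
  generalize (2 : ℝ) ^ lg = y at *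
  generalize X / 2 ^ j = x at *
  generalize (2 : ℝ) ^ S.q * (1 / 2 ^ p.P) ^ 2 = z at *
  generalize avg p.m e (fun e' => ∑ v ∈ range (2 ^ S.q), e3_dl p S L d j e' v) = c at *
  generalize avg p.m e (fun e' => badA p S L j e') = u at *
  have y1 : 1 ≤ y := by linarith
  have y0 : 0 ≤ y := by linarith
  have hK0 : (0 : ℝ) ≤ p.Kp := Nat.cast_nonneg _
  have hA0 : (0 : ℝ) ≤ p.A := Nat.cast_nonneg _
  have h1 : ∑ a ∈ range p.A ×ˢ range p.A, 4 * (y ^ 4) ^ 2 * (avg p.m e (fun e' =>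
      badT p F S L j (p.sub S.q e' a.1 a.2) (L.N p j (p.sub S.q e' a.1 a.2))) +
        p.Kp * (2 * c + z)) ≤ y * y * (4 * (y ^ 4) ^ 2 * (x + y * (2 * (y ^ 20 * x) + x))) := by
    refine (sum_le_card_nsmul _ _ (4 * (y ^ 4) ^ 2 * (x + y * (2 * (y ^ 20 * x) + x)))
      fun a ha => ?_).trans ?_
    · have h2 : (p.Kp : ℝ) * (2 * c + z) ≤ p.Kp * (2 * (y ^ 20 * x) + x) := by gcongr
      have h3 : (p.Kp : ℝ) * (2 * (y ^ 20 * x) + x) ≤ y * (2 * (y ^ 20 * x) + x) := by gcongr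
      exact mul_le_mul_of_nonneg_left (add_le_add (hT a ha) (h2.trans h3)) (by positivity)
    · rw [card_product, card_range, nsmul_eq_mul, Nat.cast_mul]
      gcongr
  have h2 : (p.A : ℝ) * (4 * (y ^ 4) ^ 2 * (u + (2 * c + 2 * z))) ≤
      y * (4 * (y ^ 4) ^ 2 * (x + (2 * (y ^ 20 * x) + 2 * x))) := by
    calc _ ≤ (p.A : ℝ) * (4 * (y ^ 4) ^ 2 * (x + (2 * (y ^ 20 * x) + 2 * x))) := by gcongr
      _ ≤ _ := by gcongr
  refine (add_le_add h1 h2).trans ?_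
  have a1 : y ^ 10 ≤ y ^ 31 := pow_le_pow_right₀ y1 (by norm_num)
  have a2 : y ^ 11 ≤ y ^ 31 := pow_le_pow_right₀ y1 (by norm_num)
  have a3 : y ^ 9 ≤ y ^ 31 := pow_le_pow_right₀ y1 (by norm_num)
  have a4 : y ^ 29 ≤ y ^ 31 := pow_le_pow_right₀ y1 (by norm_num)
  have a5 : 36 * y ^ 31 ≤ y ^ 60 := by
    calc _ ≤ y * y * y ^ 31 := by gcongr; nlinarith
      _ = y ^ 33 := by ring
      _ ≤ _ := pow_le_pow_right₀ y1 (by norm_num)
  calc _ = (4 * y ^ 10 + 8 * y ^ 31 + 4 * y ^ 11 + 12 * y ^ 9 + 8 * y ^ 29) * x := by ring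
    _ ≤ _ := mul_le_mul_of_nonneg_right (by linarith) hx0

end Vale.Agent.P313.NL
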