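import Vale.Agent.P313.NL.ID1

/-! The operation `M`: sums over the children. -/

namespace Vale.Agent.P313.NL

open Finset
open scoped Classical

variable {p : Par} {S : Sys} {k eb : ℕ}

theorem im1_up_dn (H : Shp) {v : ℕ} (hv : v < 2 ^ H.q) (χ : ℕ) : H.up (H.dn v χ) = v := by
  unfold Shp.up Shp.dn
  rw [Nat.add_mul_mod_self_left, Nat.mod_eq_of_lt hv]

theorem im1_ck_dn (H : Shp) {v : ℕ} (hv : v < 2 ^ H.q) (χ : ℕ) : H.ck (H.dn v χ) = χ := by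
  unfold Shp.ck Shp.dn
  rw [Nat.add_mul_div_left _ _ (Nat.two_pow_pos _), Nat.div_eq_of_lt hv, Nat.zero_add]

theorem im1_dn_lt (H : Shp) {v χ : ℕ} (hv : v < 2 ^ H.q) (hχ : χ < p.A) :
    H.dn v χ < 2 ^ (H.q + p.W) := by
  unfold Shp.dn
  unfold Par.A at hχ
  rw [pow_add]
  calc v + 2 ^ H.q * χ < 2 ^ H.q + 2 ^ H.q * χ := Nat.add_lt_add_right hv _
    _ = 2 ^ H.q * (χ + 1) := by ring
    _ ≤ 2 ^ H.q * 2 ^ p.W := Nat.mul_le_mul_left _ hχ

theorem im1_ht_dn (H : Shp) (h : p.n0 ≤ H.q) (v χ : ℕ) : p.ht (H.dn v χ) = p.ht v := by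
  unfold Par.ht Shp.dn
  obtain ⟨r, hr⟩ := Nat.exists_eq_add_of_le h
  rw [hr, pow_add, mul_assoc, Nat.add_mul_mod_self_left]

theorem im1_ht_up (H : Shp) (h : p.n0 ≤ H.q) (v : ℕ) : p.ht (H.up v) = p.ht v := by
  unfold Par.ht Shp.up
  exact Nat.mod_mod_of_dvd _ (pow_dvd_pow 2 h)

theorem paU_chU (H : Shp) {t : Tm} (hx : t.x < 2 ^ H.q) (hz : t.z < 2 ^ H.q) (χx χz : ℕ) :
    H.paU (H.chU t χx χz) = t := by
  apply Tm.ext
  · exact im1_up_dn H hx χx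
  · exact im1_up_dn H hz χz
  · rfl
  · rfl

theorem pa1_chM {H : Shp} {t1 t2 : Tm} (h1 : TmOk p H.q eb t1) (hd : t1.k.dbl = false)
    (χx χz : ℕ) : H.pa1 (H.chM t1 t2 χx χz) = t1 := by
  obtain ⟨hy, hk⟩ := h1.sing hd
  apply Tm.ext
  · exact im1_up_dn H h1.x_lt χx
  · rfl
  · exact hy.symm
  · rw [hk]
    show sgl (if decide (t1.k.E < t2.k.E) = true then min t1.k.E t2.k.E
      else max t1.k.E t2.k.E) = sgl t1.k.E
    by_cases hl : t1.k.E < t2.k.E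
    · rw [if_pos (decide_eq_true hl), min_eq_left hl.le]
    · rw [if_neg (by simpa using hl), max_eq_left (not_lt.1 hl)]

theorem pa2_chM {H : Shp} {t1 t2 : Tm} (h2 : TmOk p H.q eb t2) (hd : t2.k.dbl = false)
    (he : t1.z = t2.x) (χx χz : ℕ) : H.pa2 (H.chM t1 t2 χx χz) = t2 := by
  obtain ⟨hy, hk⟩ := h2.sing hd
  apply Tm.ext
  · exact he
  · exact im1_up_dn H h2.z_lt χz
  · exact hy.symm
  · rw [hk]
    show sgl (if decide (t1.k.E < t2.k.E) = true then max t1.k.E t2.k.E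
      else min t1.k.E t2.k.E) = sgl t2.k.E
    by_cases hl : t1.k.E < t2.k.E
    · rw [if_pos (decide_eq_true hl), max_eq_right hl.le]
    · rw [if_neg (by simpa using hl), min_eq_right (not_lt.1 hl)]

theorem isM_chM (H : Shp) (t1 t2 : Tm) (χx χz : ℕ) : H.isM (H.chM t1 t2 χx χz) := ⟨rfl, rfl⟩

theorem not_isM_chU {H : Shp} {t : Tm} (h : TmOk p H.q eb t) (χx χz : ℕ) :
    ¬ H.isM (H.chU t χx χz) := fun hm => (h.mid hm.1).2.ne hm.2

theorem TmOk.chU {H : Shp} {t : Tm} (h : TmOk p H.q eb t) (hq : p.n0 ≤ H.q) {χx χz : ℕ}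
    (hx : χx < p.A) (hz : χz < p.A) : TmOk p (H.q + p.W) (eb + p.c) (H.chU t χx χz) where
  x_lt := im1_dn_lt H h.x_lt hx
  z_lt := im1_dn_lt H h.z_lt hz
  ht_lt := by
    show p.ht (H.dn t.x χx) < p.ht (H.dn t.z χz)
    rw [im1_ht_dn H hq, im1_ht_dn H hq]
    exact h.ht_lt
  ht_z := by
    show p.ht (H.dn t.z χz) < p.N
    rw [im1_ht_dn H hq]
    exact h.ht_z
  sing := h.sing
  mid hd := ⟨(h.mid hd).1, (h.mid hd).2.trans_le (Nat.le_add_right _ _)⟩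
  D_le := h.D_le
  E_le := h.E_le.trans (Nat.le_add_right _ _)
  h_le := h.h_le.trans (Nat.le_add_right _ _)
  V_le := h.V_le.trans (Nat.le_add_right _ _)

theorem TmOk.chM {H : Shp} {t1 t2 : Tm} (h1 : TmOk p H.q eb t1) (h2 : TmOk p H.q eb t2)
    (he : t1.z = t2.x) (hq : p.n0 ≤ H.q) (hW : 1 ≤ p.W1) {χx χz : ℕ} (hx : χx < p.A)
    (hz : χz < p.A) : TmOk p (H.q + p.W) (eb + p.c) (H.chM t1 t2 χx χz) where
  x_lt := im1_dn_lt H h1.x_lt hx
  z_lt := im1_dn_lt H h2.z_lt hz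
  ht_lt := by
    show p.ht (H.dn t1.x χx) < p.ht (H.dn t2.z χz)
    rw [im1_ht_dn H hq, im1_ht_dn H hq]
    exact h1.ht_lt.trans (he ▸ h2.ht_lt)
  ht_z := by
    show p.ht (H.dn t2.z χz) < p.N
    rw [im1_ht_dn H hq]
    exact h2.ht_z
  sing hd := absurd hd (by simp [Shp.chM])
  mid _ := ⟨h1.z_lt, by
    show H.q < H.q + p.W
    unfold Par.W
    omega⟩
  D_le := Nat.zero_le _
  E_le := ((min_le_left _ _).trans h1.E_le).trans (Nat.le_add_right _ _)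
  h_le := (max_le h1.E_le h2.E_le).trans (Nat.le_add_right _ _)
  V_le := (max_le h1.E_le h2.E_le).trans (Nat.le_add_right _ _)

theorem im1_mem_pairs {T1 T2 : Finset Tm} {a : Tm × Tm} : a ∈ pairs T1 T2 ↔
    a.1 ∈ T1 ∧ a.2 ∈ T2 ∧ a.1.z = a.2.x ∧ a.1.k.dbl = false ∧ a.2.k.dbl = false := by
  unfold pairs
  rw [mem_filter, mem_product, and_assoc]

theorem im1_mem_M {t : Tm} : t ∈ (S.M p).T ↔
    (∃ u ∈ S.T, ∃ χx < p.A, ∃ χz < p.A, S.chU u χx χz = t) ∨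
      ∃ a ∈ pairs S.T S.T, ∃ χx < p.A, ∃ χz < p.A, S.chM a.1 a.2 χx χz = t := by
  show t ∈ _ ∪ _ ↔ _
  rw [mem_union, mem_image, mem_image]
  constructor
  · rintro (⟨⟨u, χx, χz⟩, hm, rfl⟩ | ⟨⟨a, χx, χz⟩, hm, rfl⟩)
    · rw [mem_product, mem_product, mem_range, mem_range] at hm
      exact Or.inl ⟨u, hm.1, χx, hm.2.1, χz, hm.2.2, rfl⟩
    · rw [mem_product, mem_product, mem_range, mem_range] at hm
      exact Or.inr ⟨a, hm.1, χx, hm.2.1, χz, hm.2.2, rfl⟩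
  · rintro (⟨u, hu, χx, hx, χz, hz, rfl⟩ | ⟨a, ha, χx, hx, χz, hz, rfl⟩)
    · refine Or.inl ⟨(u, χx, χz), ?_, rfl⟩
      rw [mem_product, mem_product, mem_range, mem_range]
      exact ⟨hu, hx, hz⟩
    · refine Or.inr ⟨(a, χx, χz), ?_, rfl⟩
      rw [mem_product, mem_product, mem_range, mem_range]
      exact ⟨ha, hx, hz⟩

theorem sum_M (h : S.WF p k eb) (f : Tm → ℝ) : ∑ t ∈ (S.M p).T, f t =
    (∑ t ∈ S.T, ∑ χx ∈ range p.A, ∑ χz ∈ range p.A, f (S.chU t χx χz)) +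
      ∑ a ∈ pairs S.T S.T, ∑ χx ∈ range p.A, ∑ χz ∈ range p.A, f (S.chM a.1 a.2 χx χz) := by
  show ∑ t ∈ _ ∪ _, f t = _
  rw [sum_union, sum_image, sum_image, sum_product, sum_product]
  · simp only [sum_product]
  · rintro ⟨a, χx, χz⟩ ha ⟨b, ψx, ψz⟩ hb hab
    have ha' := im1_mem_pairs.1 (mem_product.1 (mem_coe.1 ha)).1
    have hb' := im1_mem_pairs.1 (mem_product.1 (mem_coe.1 hb)).1
    have hab' : S.chM a.1 a.2 χx χz = S.chM b.1 b.2 ψx ψz := hab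
    have h1 : a.1 = b.1 := by
      rw [← pa1_chM (t2 := a.2) (h.tm _ ha'.1) ha'.2.2.2.1 χx χz, hab',
        pa1_chM (h.tm _ hb'.1) hb'.2.2.2.1]
    have h2 : a.2 = b.2 := by
      rw [← pa2_chM (h.tm _ ha'.2.1) ha'.2.2.2.2 ha'.2.2.1 χx χz, hab',
        pa2_chM (h.tm _ hb'.2.1) hb'.2.2.2.2 hb'.2.2.1]
    have h3 : χx = ψx := by
      have := congrArg (fun t => S.ck t.x) hab'
      simpa only [Shp.chM, im1_ck_dn _ (h.tm _ ha'.1).x_lt, im1_ck_dn _ (h.tm _ hb'.1).x_lt]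
        using this
    have h4 : χz = ψz := by
      have := congrArg (fun t => S.ck t.z) hab'
      simpa only [Shp.chM, im1_ck_dn _ (h.tm _ ha'.2.1).z_lt, im1_ck_dn _ (h.tm _ hb'.2.1).z_lt]
        using this
    rw [Prod.ext h1 h2, h3, h4]
  · rintro ⟨a, χx, χz⟩ ha ⟨b, ψx, ψz⟩ hb hab
    have ha' : TmOk p S.q eb a := h.tm _ (mem_product.1 (mem_coe.1 ha)).1
    have hb' : TmOk p S.q eb b := h.tm _ (mem_product.1 (mem_coe.1 hb)).1
    have hab' : S.chU a χx χz = S.chU b ψx ψz := hab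
    have h1 : a = b := by
      rw [← paU_chU S.toShp ha'.x_lt ha'.z_lt χx χz, hab', paU_chU S.toShp hb'.x_lt hb'.z_lt]
    have h3 : χx = ψx := by
      have := congrArg (fun t => S.ck t.x) hab'
      simpa only [Shp.chU, im1_ck_dn _ ha'.x_lt, im1_ck_dn _ hb'.x_lt] using this
    have h4 : χz = ψz := by
      have := congrArg (fun t => S.ck t.z) hab'
      simpa only [Shp.chU, im1_ck_dn _ ha'.z_lt, im1_ck_dn _ hb'.z_lt] using this
    rw [h1, h3, h4]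
  · rw [disjoint_left]
    intro t h1 h2
    obtain ⟨a, ha, rfl⟩ := mem_image.1 h1
    obtain ⟨b, _, hb⟩ := mem_image.1 h2
    exact not_isM_chU (h.tm _ (mem_product.1 ha).1) a.2.1 a.2.2 (hb ▸ isM_chM _ _ _ _ _)

theorem im1_om_chU (h : S.WF p k eb) {t : Tm} (ht : t ∈ S.T) (χx χz : ℕ) :
    (S.M p).om (S.chU t χx χz) = if S.okU p t χx χz then
      (if S.en p t ∧ p.cb χz = true then S.om t / 2 else S.om t) else 0 := by
  have hk := h.tm t ht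
  have e1 : S.ck (S.chU t χx χz).x = χx := im1_ck_dn _ hk.x_lt χx
  have e2 : S.ck (S.chU t χx χz).z = χz := im1_ck_dn _ hk.z_lt χz
  show (if S.isM (S.chU t χx χz) then _ else _) = _
  rw [if_neg (not_isM_chU hk χx χz), paU_chU _ hk.x_lt hk.z_lt, e1, e2]

theorem im1_om_chM (h : S.WF p k eb) {a : Tm × Tm} (ha : a ∈ pairs S.T S.T) (χx χz : ℕ) :
    (S.M p).om (S.chM a.1 a.2 χx χz) =
      if S.okM p a.1 a.2 χx χz then S.om a.1 * S.om a.2 / 2 else 0 := by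
  obtain ⟨h1, h2, he, d1, d2⟩ := im1_mem_pairs.1 ha
  have e1 : S.ck (S.chM a.1 a.2 χx χz).x = χx := im1_ck_dn _ (h.tm _ h1).x_lt χx
  have e2 : S.ck (S.chM a.1 a.2 χx χz).z = χz := im1_ck_dn _ (h.tm _ h2).z_lt χz
  show (if S.isM (S.chM a.1 a.2 χx χz) then _ else _) = _
  rw [if_pos (isM_chM _ _ _ _ _), pa1_chM (h.tm _ h1) d1, pa2_chM (h.tm _ h2) d2 he, e1, e2]

theorem im1_I_sgl {q : ℕ} {t : Tm} (h : TmOk p q eb t) (hd : t.k.dbl = false) : t.I = t.k.E := by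
  unfold Tm.I
  rw [(h.sing hd).2]
  rfl

theorem im1_I_chM (H : Shp) (t1 t2 : Tm) (χx χz : ℕ) :
    (H.chM t1 t2 χx χz).I = t1.k.E + t2.k.E := by
  show min t1.k.E t2.k.E + (max t1.k.E t2.k.E - 0) = _
  rw [Nat.sub_zero, min_add_max]

theorem ms_chU (h : S.WF p k eb) {t : Tm} (ht : t ∈ S.T) (χx χz : ℕ) :
    (S.M p).ms (S.chU t χx χz) = if S.okU p t χx χz then
      (if S.en p t ∧ p.cb χz = true then S.ms t / 2 else S.ms t) else 0 := by
  unfold Sys.ms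
  rw [im1_om_chU h ht]
  show _ / 2 ^ t.I = _
  split_ifs
  · ring
  · rfl
  · exact zero_div _

theorem ms_chM (h : S.WF p k eb) {a : Tm × Tm} (ha : a ∈ pairs S.T S.T) (χx χz : ℕ) :
    (S.M p).ms (S.chM a.1 a.2 χx χz) =
      if S.okM p a.1 a.2 χx χz then S.ms a.1 * S.ms a.2 / 2 else 0 := by
  obtain ⟨h1, h2, _, d1, d2⟩ := im1_mem_pairs.1 ha
  unfold Sys.ms
  rw [im1_om_chM h ha, im1_I_chM, im1_I_sgl (h.tm _ h1) d1, im1_I_sgl (h.tm _ h2) d2]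
  split_ifs
  · rw [pow_add]
    field_simp
  · exact zero_div _

theorem im1_sum_divmod (m n : ℕ) (g : ℕ → ℕ → ℝ) :
    ∑ χ ∈ range (m * n), g (χ / n) (χ % n) = ∑ a ∈ range m, ∑ b ∈ range n, g a b := by
  induction m with
  | zero => simp
  | succ m ih =>
    rw [Nat.succ_mul, sum_range_add, ih, sum_range_succ]
    refine congrArg _ (sum_congr rfl fun b hb => ?_)
    have hb' := mem_range.1 hb
    have hn : 0 < n := by omega
    rw [Nat.add_comm, Nat.add_mul_div_right _ _ hn, Nat.add_mul_mod_self_right,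
      Nat.div_eq_of_lt hb', Nat.mod_eq_of_lt hb', Nat.zero_add]

/-- A chunk is determined by its two labels and its bit, and all small labels occur. -/
theorem sum_chunk (f : ℕ → ℕ → Bool → ℝ) (hW : 1 ≤ p.W1) :
    ∑ χ ∈ range p.A, f (p.cl true χ) (p.cl false χ) (p.cb χ) =
      ∑ a ∈ range (2 ^ p.W1), ∑ b ∈ range (2 ^ (p.W1 - 1)), ∑ c : Bool, f a b c := by
  have hA : p.A = 2 ^ p.W1 * 2 ^ p.W1 := by
    unfold Par.A Par.W
    rw [← pow_add, two_mul]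
  have h2 : 2 ^ p.W1 = 2 ^ (p.W1 - 1) * 2 := by
    rw [← pow_succ, Nat.sub_add_cancel hW]
  rw [hA]
  refine (im1_sum_divmod _ _ fun a j => f a (j / 2) (decide (j % 2 = 1))).trans ?_
  refine sum_congr rfl fun a _ => ?_
  rw [h2]
  refine (im1_sum_divmod _ 2 fun b c => f a b (decide (c = 1))).trans ?_
  refine sum_congr rfl fun b _ => ?_
  rw [Fintype.sum_bool, sum_range_succ, sum_range_one, add_comm]
  rfl

theorem im1_om_pos_U (h : S.WF p k eb) {t : Tm} (ht : t ∈ S.T) {χx χz : ℕ}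
    (hp : 0 < (S.M p).om (S.chU t χx χz)) : S.okU p t χx χz ∧ 0 < S.om t := by
  rw [im1_om_chU h ht] at hp
  split_ifs at hp with h1 h2
  · exact ⟨h1, by linarith⟩
  · exact ⟨h1, hp⟩
  · exact absurd hp (lt_irrefl _)

theorem im1_om_pos_M (h : S.WF p k eb) {a : Tm × Tm} (ha : a ∈ pairs S.T S.T) {χx χz : ℕ}
    (hp : 0 < (S.M p).om (S.chM a.1 a.2 χx χz)) :
    S.okM p a.1 a.2 χx χz ∧ 0 < S.om a.1 ∧ 0 < S.om a.2 := by
  obtain ⟨h1, h2, -⟩ := im1_mem_pairs.1 ha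
  rw [im1_om_chM h ha] at hp
  split_ifs at hp with h3
  · have h4 : S.om a.1 * S.om a.2 ≠ 0 := ne_of_gt (by linarith)
    exact ⟨h3, (h.om_nonneg _ h1).lt_of_ne (left_ne_zero_of_mul h4).symm,
      (h.om_nonneg _ h2).lt_of_ne (right_ne_zero_of_mul h4).symm⟩
  · exact absurd hp (lt_irrefl _)

theorem M_wf (h : S.WF p k eb) (hW : 1 ≤ p.W1) : (S.M p).WF p (k + 1) (eb + p.c) where
  n0_le := h.n0_le.trans (Nat.le_add_right _ _)
  tm t ht := by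
    rcases im1_mem_M.1 ht with ⟨u, hu, χx, hx, χz, hz, rfl⟩ | ⟨a, ha, χx, hx, χz, hz, rfl⟩
    · exact (h.tm u hu).chU h.n0_le hx hz
    · obtain ⟨h1, h2, he, -⟩ := im1_mem_pairs.1 ha
      exact (h.tm _ h1).chM (h.tm _ h2) he h.n0_le hW hx hz
  om_nonneg t ht := by
    rcases im1_mem_M.1 ht with ⟨u, hu, χx, -, χz, -, rfl⟩ | ⟨a, ha, χx, -, χz, -, rfl⟩
    · have := h.om_nonneg u hu
      rw [im1_om_chU h hu]
      split_ifs
      · linarith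
      · exact this
      · exact le_rfl
    · obtain ⟨h1, h2, -⟩ := im1_mem_pairs.1 ha
      rw [im1_om_chM h ha]
      split_ifs
      · exact div_nonneg (mul_nonneg (h.om_nonneg _ h1) (h.om_nonneg _ h2)) zero_le_two
      · exact le_rfl
  al_nonneg d v := by
    show 0 ≤ if v < 2 ^ (S.q + p.W) ∧ S.vld p (S.up v) (S.ck v) then S.al d (S.up v) else 0
    split_ifs
    · exact h.al_nonneg _ _
    · exact le_rfl
  al_le d v := by
    show (if v < 2 ^ (S.q + p.W) ∧ S.vld p (S.up v) (S.ck v) then S.al d (S.up v) else 0) ≤ 1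
    split_ifs
    · exact h.al_le _ _
    · exact zero_le_one
  al_tp d v hv := by
    have hv' : (if v < 2 ^ (S.q + p.W) ∧ S.vld p (S.up v) (S.ck v) then S.al d (S.up v) else 0)
      ≠ 0 := hv
    split_ifs at hv' with h1
    · refine ⟨?_, h1.1⟩
      have := (h.al_tp d _ hv').1
      unfold Par.tp at this ⊢
      rwa [im1_ht_up _ h.n0_le] at this
    · exact absurd rfl hv'
  lv_eq t ht hp := by
    rcases im1_mem_M.1 ht with ⟨u, hu, χx, -, χz, -, rfl⟩ | ⟨a, ha, χx, -, χz, -, rfl⟩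
    · obtain ⟨ok, -⟩ := im1_om_pos_U h hu hp
      show p.cl true (S.ck (S.dn u.z χz)) = p.cl false (S.ck (S.dn u.x χx))
      rw [im1_ck_dn _ (h.tm u hu).z_lt, im1_ck_dn _ (h.tm u hu).x_lt, ok.2.2.2.1, ok.2.2.2.2]
    · obtain ⟨ok, -⟩ := im1_om_pos_M h ha hp
      obtain ⟨h1, h2, -⟩ := im1_mem_pairs.1 ha
      show p.cl true (S.ck (S.dn a.2.z χz)) = p.cl false (S.ck (S.dn a.1.x χx))
      rw [im1_ck_dn _ (h.tm _ h2).z_lt, im1_ck_dn _ (h.tm _ h1).x_lt, ok.2.2.2.2.2.1,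
        ok.2.2.2.2.2.2]
  lam_le t ht hp := by
    rcases im1_mem_M.1 ht with ⟨u, hu, χx, -, χz, -, rfl⟩ | ⟨a, ha, χx, -, χz, -, rfl⟩
    · obtain ⟨ok, hu'⟩ := im1_om_pos_U h hu hp
      show p.cl false (S.ck (S.dn u.x χx)) ≤ k + 1
      rw [im1_ck_dn _ (h.tm u hu).x_lt, ok.2.2.2.1]
      exact Nat.add_le_add (h.lam_le u hu hu') (Bool.toNat_le _)
    · obtain ⟨ok, p1, p2⟩ := im1_om_pos_M h ha hp
      obtain ⟨h1, h2, -⟩ := im1_mem_pairs.1 ha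
      show p.cl false (S.ck (S.dn a.1.x χx)) ≤ k + 1
      rw [im1_ck_dn _ (h.tm _ h1).x_lt, ok.2.2.2.2.2.1]
      exact (max_le (h.lam_le _ h1 p1) (h.lam_le _ h2 p2)).trans (Nat.le_succ _)

end Vale.Agent.P313.NL
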