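import Vale.Agent.P313.NL.E2
import Vale.Agent.P313.NL.IM1

/-! The error after `M`, and after the test of the ranks. -/

namespace Vale.Agent.P313.NL

open Finset
open scoped Classical

variable {p : Par} {F : ℕ → ℕ → ℕ} {k eb lg : ℕ} {S : Sys} {L : Lv} {X : ℝ}

/-- The two kinds of valid terms after `M`. -/
theorem e4_mem_V {H : Shp} {j : ℕ} {e : Env} {t : Tm} : t ∈ (L.M p H).V j e ↔
    ∃ χx < p.A, ∃ χz < p.A, (∃ t0 ∈ L.N p j (p.sub H.q e χx χz), H.chU t0 χx χz = t) ∨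
      ∃ b ∈ pairs (L.N p j (p.sub H.q e χx χz).r1) (L.N p j (p.sub H.q e χx χz).r2),
        H.chM b.1 b.2 χx χz = t := by
  simp only [Lv.M, mem_biUnion, mem_union, mem_image, mem_product, mem_range]
  constructor
  · rintro ⟨a, ⟨h1, h2⟩, h⟩
    exact ⟨a.1, h1, a.2, h2, h⟩
  · rintro ⟨a, h1, b, h2, h⟩
    exact ⟨(a, b), ⟨h1, h2⟩, h⟩

theorem e4_mem_pairs {T1 T2 : Finset Tm} {a : Tm × Tm} : a ∈ pairs T1 T2 ↔
    a.1 ∈ T1 ∧ a.2 ∈ T2 ∧ a.1.z = a.2.x ∧ a.1.k.dbl = false ∧ a.2.k.dbl = false := by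
  simp only [pairs, mem_filter, mem_product, and_assoc]

theorem e4_ck_chU (H : Shp) {t : Tm} (h : TmOk p H.q eb t) (χx χz : ℕ) :
    H.ck (H.chU t χx χz).x = χx ∧ H.ck (H.chU t χx χz).z = χz :=
  ⟨H.ck_dn h.x_lt χx, H.ck_dn h.z_lt χz⟩

theorem e4_ck_chM (H : Shp) {t1 t2 : Tm} (h1 : TmOk p H.q eb t1) (h2 : TmOk p H.q eb t2)
    (χx χz : ℕ) : H.ck (H.chM t1 t2 χx χz).x = χx ∧ H.ck (H.chM t1 t2 χx χz).z = χz :=
  ⟨H.ck_dn h1.x_lt χx, H.ck_dn h2.z_lt χz⟩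

theorem e4_w_chU (H : Shp) {t : Tm} (h : TmOk p H.q eb t) (j : ℕ) (e : Env) (χx χz : ℕ) :
    (L.M p H).w j e (H.chU t χx χz) = if H.okU p t χx χz then
      (if H.en p t ∧ p.cb χz = true then L.w j (p.sub H.q e χx χz) t / 2
        else L.w j (p.sub H.q e χx χz) t) else 0 := by
  simp only [Lv.M]
  rw [if_neg (not_isM_chU h χx χz), paU_chU H h.x_lt h.z_lt, (e4_ck_chU H h χx χz).1,
    (e4_ck_chU H h χx χz).2]

theorem e4_w_chM (H : Shp) {t1 t2 : Tm} (h1 : TmOk p H.q eb t1) (h2 : TmOk p H.q eb t2)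
    (d1 : t1.k.dbl = false) (d2 : t2.k.dbl = false) (he : t1.z = t2.x) (j : ℕ) (e : Env)
    (χx χz : ℕ) :
    (L.M p H).w j e (H.chM t1 t2 χx χz) = if H.okM p t1 t2 χx χz then
      p.fmul (L.w j (p.sub H.q e χx χz).r1 t1) (L.w j (p.sub H.q e χx χz).r2 t2) / 2 else 0 := by
  simp only [Lv.M]
  rw [if_pos (isM_chM H t1 t2 χx χz), pa1_chM h1 d1, pa2_chM h2 d2 he,
    (e4_ck_chM H h1 h2 χx χz).1, (e4_ck_chM H h1 h2 χx χz).2]

theorem e4_om_chU {t : Tm} (h : TmOk p S.q eb t) (χx χz : ℕ) :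
    (S.M p).om (S.chU t χx χz) = if S.okU p t χx χz then
      (if S.en p t ∧ p.cb χz = true then S.om t / 2 else S.om t) else 0 := by
  simp only [Sys.M]
  rw [if_neg (not_isM_chU h χx χz), paU_chU S.toShp h.x_lt h.z_lt,
    (e4_ck_chU S.toShp h χx χz).1, (e4_ck_chU S.toShp h χx χz).2]

theorem e4_om_chM {t1 t2 : Tm} (h1 : TmOk p S.q eb t1) (h2 : TmOk p S.q eb t2)
    (d1 : t1.k.dbl = false) (d2 : t2.k.dbl = false) (he : t1.z = t2.x) (χx χz : ℕ) :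
    (S.M p).om (S.chM t1 t2 χx χz) =
      if S.okM p t1 t2 χx χz then S.om t1 * S.om t2 / 2 else 0 := by
  simp only [Sys.M]
  rw [if_pos (isM_chM S.toShp t1 t2 χx χz), pa1_chM h1 d1, pa2_chM h2 d2 he,
    (e4_ck_chM S.toShp h1 h2 χx χz).1, (e4_ck_chM S.toShp h1 h2 χx χz).2]

theorem e4_fmul_le {x y : ℕ} (hx : x ≤ 2 ^ p.P) (hy : y ≤ 2 ^ p.P) : p.fmul x y ≤ 2 ^ p.P := by
  unfold Par.fmul
  exact Nat.div_le_of_le_mul (Nat.mul_le_mul hx hy)

theorem Lv.WF.M {H : Shp} (h : L.WF p F H.q eb (2 ^ p.P)) (hq : p.n0 ≤ H.q) (hW : 1 ≤ p.W1) :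
    (L.M p H).WF p F (H.q + p.W) (eb + p.c) (2 ^ p.P) := by
  refine ⟨fun j e t ht => ?_, fun j e t ht => ?_, fun j e t ht => ?_, fun j e d v => ?_⟩
  · obtain ⟨χx, hx, χz, hz, ⟨t0, h0, rfl⟩ | ⟨b, hb, rfl⟩⟩ := e4_mem_V.1 ht
    · exact (h.tm _ _ _ (Lv.N_subset _ _ h0)).chU hq hx hz
    · obtain ⟨b1, b2, he, -, -⟩ := e4_mem_pairs.1 hb
      exact (h.tm _ _ _ (Lv.N_subset _ _ b1)).chM (h.tm _ _ _ (Lv.N_subset _ _ b2)) he hq hW hx hz
  · obtain ⟨χx, hx, χz, hz, ⟨t0, h0, rfl⟩ | ⟨b, hb, rfl⟩⟩ := e4_mem_V.1 ht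
    · exact (act_chU (h.tm _ _ _ (Lv.N_subset _ _ h0)) hx hz).2 (h.act _ _ _ (Lv.N_subset _ _ h0))
    · obtain ⟨b1, b2, he, d1, d2⟩ := e4_mem_pairs.1 hb
      exact (act_chM (h.tm _ _ _ (Lv.N_subset _ _ b1)) (h.tm _ _ _ (Lv.N_subset _ _ b2)) d1 d2 he
        hx hz).2 ⟨h.act _ _ _ (Lv.N_subset _ _ b1), h.act _ _ _ (Lv.N_subset _ _ b2)⟩
  · obtain ⟨χx, hx, χz, hz, ⟨t0, h0, rfl⟩ | ⟨b, hb, rfl⟩⟩ := e4_mem_V.1 ht
    · have h1 := h.w_le _ _ _ (Lv.N_subset _ _ h0)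
      rw [e4_w_chU H (h.tm _ _ _ (Lv.N_subset _ _ h0))]
      split_ifs
      · exact (Nat.div_le_self _ _).trans h1
      · exact h1
      · exact Nat.zero_le _
    · obtain ⟨b1, b2, he, d1, d2⟩ := e4_mem_pairs.1 hb
      rw [e4_w_chM H (h.tm _ _ _ (Lv.N_subset _ _ b1)) (h.tm _ _ _ (Lv.N_subset _ _ b2)) d1 d2 he]
      split_ifs
      · exact (Nat.div_le_self _ _).trans (e4_fmul_le (h.w_le _ _ _ (Lv.N_subset _ _ b1))
          (h.w_le _ _ _ (Lv.N_subset _ _ b2)))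
      · exact Nat.zero_le _
  · simp only [Lv.M]
    split_ifs
    · exact h.al_le _ _ _ _
    · exact Nat.zero_le _

/-! ### Sums over pairs -/

theorem e4_pairs_fst {T1 T2 : Finset Tm} {g : Tm → ℝ} (hg : ∀ t ∈ T1, 0 ≤ g t) (Q : Tm → Prop)
    {K : ℕ} (hK : ∀ v, (T2.filter fun t => t.ep false = v ∧ Q t).card ≤ K) :
    ∑ a ∈ pairs T1 T2, (if Q a.2 then g a.1 else 0) ≤ K * ∑ t ∈ T1, g t := by
  rw [pairs, sum_filter, sum_product, mul_sum]
  refine sum_le_sum fun t1 h1 => ?_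
  calc _ ≤ ∑ t2 ∈ T2, (if t2.ep false = t1.z ∧ Q t2 then g t1 else 0) := by
        refine sum_le_sum fun t2 _ => ?_
        have h0 := hg t1 h1
        by_cases hQ : Q t2
        · by_cases he : t1.z = t2.x
          · rw [if_pos hQ, if_pos (show t2.ep false = t1.z ∧ Q t2 from ⟨he.symm, hQ⟩)]
            split_ifs
            · exact le_rfl
            · exact h0
          · rw [if_neg fun h => he h.1]
            split_ifs
            · exact h0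
            · exact le_rfl
        · rw [if_neg hQ, ite_self, if_neg fun h => hQ h.2]
    _ = ((T2.filter fun t => t.ep false = t1.z ∧ Q t).card : ℕ) * g t1 := by
        rw [← sum_filter, sum_const, nsmul_eq_mul]
    _ ≤ _ := mul_le_mul_of_nonneg_right (Nat.cast_le.2 (hK _)) (hg t1 h1)

theorem e4_pairs_snd {T1 T2 : Finset Tm} {g : Tm → ℝ} (hg : ∀ t ∈ T2, 0 ≤ g t) (Q : Tm → Prop)
    {K : ℕ} (hK : ∀ v, (T1.filter fun t => t.ep true = v ∧ Q t).card ≤ K) :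
    ∑ a ∈ pairs T1 T2, (if Q a.1 then g a.2 else 0) ≤ K * ∑ t ∈ T2, g t := by
  rw [pairs, sum_filter, sum_product_right, mul_sum]
  refine sum_le_sum fun t2 h2 => ?_
  calc _ ≤ ∑ t1 ∈ T1, (if t1.ep true = t2.x ∧ Q t1 then g t2 else 0) := by
        refine sum_le_sum fun t1 _ => ?_
        have h0 := hg t2 h2
        by_cases hQ : Q t1
        · by_cases he : t1.z = t2.x
          · rw [if_pos hQ, if_pos (show t1.ep true = t2.x ∧ Q t1 from ⟨he, hQ⟩)]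
            split_ifs
            · exact le_rfl
            · exact h0
          · rw [if_neg fun h => he h.1]
            split_ifs
            · exact h0
            · exact le_rfl
        · rw [if_neg hQ, ite_self, if_neg fun h => hQ h.2]
    _ = ((T1.filter fun t => t.ep true = t2.x ∧ Q t).card : ℕ) * g t2 := by
        rw [← sum_filter, sum_const, nsmul_eq_mul]
    _ ≤ _ := mul_le_mul_of_nonneg_right (Nat.cast_le.2 (hK _)) (hg t2 h2)

theorem e4_pairs_fstN {T1 : Finset Tm} {g : Tm → ℝ} (hg : ∀ t ∈ T1, 0 ≤ g t) (j : ℕ) (e : Env) :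
    ∑ a ∈ pairs T1 (L.N p j e), g a.1 ≤ p.Kp * ∑ t ∈ T1, g t := by
  have h := e4_pairs_fst (T2 := L.N p j e) hg (fun _ => True) (K := p.Kp) fun v => by
    simpa only [and_true] using Lv.card_N_le (L := L) (p := p) j e false v
  simpa only [if_true] using h

theorem e4_pairs_sndN {T2 : Finset Tm} {g : Tm → ℝ} (hg : ∀ t ∈ T2, 0 ≤ g t) (j : ℕ) (e : Env) :
    ∑ a ∈ pairs (L.N p j e) T2, g a.2 ≤ p.Kp * ∑ t ∈ T2, g t := by
  have h := e4_pairs_snd (T1 := L.N p j e) hg (fun _ => True) (K := p.Kp) fun v => by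
    simpa only [and_true] using Lv.card_N_le (L := L) (p := p) j e true v
  simpa only [if_true] using h

theorem e4_card_N {wm : ℕ} (hL : L.WF p F S.q eb wm) (j : ℕ) (e : Env) :
    (L.N p j e).card ≤ p.Kp * 2 ^ S.q := by
  have h := card_le_mul_card_image_of_maps_to (f := fun t : Tm => t.ep false) (s := L.N p j e)
    (t := range (2 ^ S.q)) (fun t ht => mem_range.2 (hL.tm _ _ _ (Lv.N_subset _ _ ht)).x_lt) p.Kp
    fun v _ => Lv.card_N_le j e false v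
  rwa [card_range] at h

/-! ### The error of one term -/

/-- The error of one term. -/
noncomputable def e4T (p : Par) (S : Sys) (L : Lv) (j : ℕ) (e : Env) (t : Tm) : ℝ :=
  if t ∈ S.T then ((L.w j e t : ℝ) / 2 ^ p.P - S.om t) ^ 2 else 1

/-- The indicator of a missing term. -/
noncomputable def e4M (F : ℕ → ℕ → ℕ) (S : Sys) (e : Env) (Y : Finset Tm) (t : Tm) : ℝ :=
  if 0 < S.om t ∧ act F S.q e t ∧ t ∉ Y then 1 else 0

theorem e4T_nonneg (j : ℕ) (e : Env) (t : Tm) : 0 ≤ e4T p S L j e t := by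
  unfold e4T
  split_ifs
  · exact sq_nonneg _
  · exact zero_le_one

theorem e4M_nonneg (e : Env) (Y : Finset Tm) (t : Tm) : 0 ≤ e4M F S e Y t := by
  unfold e4M
  split_ifs
  · exact zero_le_one
  · exact le_rfl

theorem e4_badT (j : ℕ) (e : Env) (Y : Finset Tm) :
    badT p F S L j e Y = ∑ t ∈ Y, e4T p S L j e t + ∑ t ∈ S.T, e4M F S e Y t := by
  unfold badT e4T e4M
  rw [natCast_card_filter]

theorem e4_badA_nonneg (j : ℕ) (e : Env) : 0 ≤ badA p S L j e :=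
  sum_nonneg fun _ _ => sum_nonneg fun _ _ => sq_nonneg _

theorem e4_half (w : ℕ) {Z : ℝ} (hZ : 0 < Z) (o : ℝ) :
    (((w / 2 : ℕ) : ℝ) / Z - o / 2) ^ 2 ≤ ((w : ℝ) / Z - o) ^ 2 + (1 / Z) ^ 2 := by
  have h1 : (w : ℝ) = 2 * ((w / 2 : ℕ) : ℝ) + ((w % 2 : ℕ) : ℝ) := by
    exact_mod_cast (Nat.div_add_mod w 2).symm
  have h2 : ((w % 2 : ℕ) : ℝ) ≤ 1 := by
    exact_mod_cast Nat.lt_succ_iff.1 (Nat.mod_lt w two_pos)
  have h3 : (0 : ℝ) ≤ ((w % 2 : ℕ) : ℝ) := Nat.cast_nonneg _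
  have h4 : ((w / 2 : ℕ) : ℝ) / Z - o / 2 =
      (((w : ℝ) / Z - o) - ((w % 2 : ℕ) : ℝ) * (1 / Z)) / 2 := by
    rw [h1]
    field_simp
    ring
  have h5 : 0 < 1 / Z := by positivity
  rw [h4]
  generalize (w : ℝ) / Z - o = a at *
  generalize ((w % 2 : ℕ) : ℝ) = r at *
  generalize 1 / Z = u at *
  have h6 : (r * u) ^ 2 ≤ u ^ 2 := by
    apply pow_le_pow_left₀ (mul_nonneg h3 h5.le)
    nlinarith
  nlinarith [sq_nonneg (a + r * u), sq_nonneg a, sq_nonneg (r * u)]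

theorem e4_prod {w1 w2 : ℕ} (h2 : w2 ≤ 2 ^ p.P) {o1 o2 : ℝ} (a0 : 0 ≤ o1) (a1 : o1 ≤ 1) :
    (((p.fmul w1 w2 / 2 : ℕ) : ℝ) / 2 ^ p.P - o1 * o2 / 2) ^ 2 ≤
      ((w1 : ℝ) / 2 ^ p.P - o1) ^ 2 + ((w2 : ℝ) / 2 ^ p.P - o2) ^ 2 + 3 * (1 / 2 ^ p.P) ^ 2 := by
  have hZ : (0 : ℝ) < 2 ^ p.P := by positivity
  have hN : 0 < 2 ^ p.P * 2 := by positivity
  have e0 : p.fmul w1 w2 / 2 = w1 * w2 / (2 ^ p.P * 2) := by
    unfold Par.fmul
    rw [Nat.div_div_eq_div_mul]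
  have h1 : ((w1 : ℝ) * w2) = 2 ^ p.P * 2 * ((w1 * w2 / (2 ^ p.P * 2) : ℕ) : ℝ) +
      ((w1 * w2 % (2 ^ p.P * 2) : ℕ) : ℝ) := by
    exact_mod_cast (Nat.div_add_mod (w1 * w2) (2 ^ p.P * 2)).symm
  have h3 : ((w1 * w2 % (2 ^ p.P * 2) : ℕ) : ℝ) ≤ 2 ^ p.P * 2 := by
    exact_mod_cast (Nat.mod_lt (w1 * w2) hN).le
  have h4 : (0 : ℝ) ≤ ((w1 * w2 % (2 ^ p.P * 2) : ℕ) : ℝ) := Nat.cast_nonneg _
  have h5 : (w2 : ℝ) / 2 ^ p.P ≤ 1 := by
    rw [div_le_one hZ]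
    exact_mod_cast h2
  have h6 : 0 ≤ (w2 : ℝ) / 2 ^ p.P := by positivity
  rw [e0]
  generalize ((w1 * w2 / (2 ^ p.P * 2) : ℕ) : ℝ) = n at *
  generalize ((w1 * w2 % (2 ^ p.P * 2) : ℕ) : ℝ) = r at *
  generalize (2 : ℝ) ^ p.P = Z at *
  have h7 : n / Z - o1 * o2 / 2 = (((w1 : ℝ) / Z - o1) * (w2 / Z) + o1 * ((w2 : ℝ) / Z - o2)) / 2 -
      r / (Z * 2) * (1 / Z) := by
    have : n = ((w1 : ℝ) * w2 - r) / (Z * 2) := by
      rw [h1]
      field_simp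
      ring
    rw [this]
    field_simp
    ring
  have h8 : 0 ≤ r / (Z * 2) := by positivity
  have h9 : r / (Z * 2) ≤ 1 := by
    rw [div_le_one (by positivity)]
    exact h3
  have h10 : 0 < 1 / Z := by positivity
  rw [h7]
  generalize (w1 : ℝ) / Z - o1 = a at *
  generalize (w2 : ℝ) / Z - o2 = b at *
  generalize (w2 : ℝ) / Z = y at *
  generalize r / (Z * 2) = s at *
  generalize 1 / Z = u at *
  have b1 : (a * y) ^ 2 ≤ a ^ 2 := by
    rw [mul_pow]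
    exact mul_le_of_le_one_right (sq_nonneg _) (pow_le_one₀ h6 h5)
  have b2 : (o1 * b) ^ 2 ≤ b ^ 2 := by
    rw [mul_pow]
    exact mul_le_of_le_one_left (sq_nonneg _) (pow_le_one₀ a0 a1)
  have b3 : (s * u) ^ 2 ≤ u ^ 2 := by
    rw [mul_pow]
    exact mul_le_of_le_one_left (sq_nonneg _) (pow_le_one₀ h8 h9)
  generalize a * y = A at *
  generalize o1 * b = B at *
  generalize s * u = C at *
  nlinarith [sq_nonneg (A - B), sq_nonneg (A + 2 * C), sq_nonneg (B + 2 * C), sq_nonneg A,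
    sq_nonneg B, sq_nonneg a, sq_nonneg b]

theorem e4_mem_T {t : Tm} : t ∈ (S.M p).T ↔ ∃ χx < p.A, ∃ χz < p.A,
    (∃ t0 ∈ S.T, S.chU t0 χx χz = t) ∨ ∃ b ∈ pairs S.T S.T, S.chM b.1 b.2 χx χz = t := by
  simp only [Sys.M, mem_union, mem_image, mem_product, mem_range]
  constructor
  · rintro (⟨a, ⟨h0, h1, h2⟩, h⟩ | ⟨a, ⟨h0, h1, h2⟩, h⟩)
    · exact ⟨_, h1, _, h2, Or.inl ⟨_, h0, h⟩⟩
    · exact ⟨_, h1, _, h2, Or.inr ⟨_, h0, h⟩⟩
  · rintro ⟨a, h1, b, h2, ⟨t0, h0, h⟩ | ⟨t0, h0, h⟩⟩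
    · exact Or.inl ⟨(t0, a, b), ⟨h0, h1, h2⟩, h⟩
    · exact Or.inr ⟨(t0, a, b), ⟨h0, h1, h2⟩, h⟩

theorem e4T_chU (hS : S.WF p k eb) {t : Tm} (h : TmOk p S.q eb t) (j : ℕ) (e : Env) {χx χz : ℕ}
    (hx : χx < p.A) (hz : χz < p.A) :
    e4T p (S.M p) (L.M p S.toShp) j e (S.chU t χx χz) ≤
      e4T p S L j (p.sub S.q e χx χz) t + (1 / 2 ^ p.P) ^ 2 := by
  have hu : (0 : ℝ) ≤ (1 / 2 ^ p.P) ^ 2 := sq_nonneg _
  unfold e4T
  by_cases ht : t ∈ S.T
  · rw [if_pos ht, if_pos (e4_mem_T.2 ⟨χx, hx, χz, hz, Or.inl ⟨t, ht, rfl⟩⟩),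
      e4_w_chU S.toShp h, e4_om_chU h]
    split_ifs
    · exact e4_half _ (by positivity) _
    · exact le_add_of_nonneg_right hu
    · rw [Nat.cast_zero, zero_div, sub_zero, zero_pow two_ne_zero]
      positivity
  · rw [if_neg ht, if_neg]
    · exact le_add_of_nonneg_right hu
    · intro hm
      obtain ⟨χx', -, χz', -, ⟨t0, h0, he⟩ | ⟨b, -, he⟩⟩ := e4_mem_T.1 hm
      · have h1 := congrArg S.paU he
        rw [paU_chU _ (hS.tm _ h0).x_lt (hS.tm _ h0).z_lt, paU_chU _ h.x_lt h.z_lt] at h1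
        exact ht (h1 ▸ h0)
      · exact not_isM_chU h χx χz (he ▸ isM_chM S.toShp b.1 b.2 χx' χz')

theorem e4T_chM (hS : S.WF p k eb) (hW : S.Wt 1) {t1 t2 : Tm} (h1 : TmOk p S.q eb t1)
    (h2 : TmOk p S.q eb t2) (d1 : t1.k.dbl = false) (d2 : t2.k.dbl = false) (he : t1.z = t2.x)
    (j : ℕ) (e : Env) {χx χz : ℕ} (hx : χx < p.A) (hz : χz < p.A)
    (hw : L.w j (p.sub S.q e χx χz).r2 t2 ≤ 2 ^ p.P) :
    e4T p (S.M p) (L.M p S.toShp) j e (S.chM t1 t2 χx χz) ≤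
      e4T p S L j (p.sub S.q e χx χz).r1 t1 + e4T p S L j (p.sub S.q e χx χz).r2 t2 +
        3 * (1 / 2 ^ p.P) ^ 2 := by
  have hu : (0 : ℝ) ≤ 3 * (1 / 2 ^ p.P) ^ 2 := by positivity
  have n1 := e4T_nonneg (p := p) (S := S) (L := L) j (p.sub S.q e χx χz).r1 t1
  have n2 := e4T_nonneg (p := p) (S := S) (L := L) j (p.sub S.q e χx χz).r2 t2
  by_cases ht : t1 ∈ S.T ∧ t2 ∈ S.T
  · unfold e4T
    rw [if_pos ht.1, if_pos ht.2, if_pos (e4_mem_T.2 ⟨χx, hx, χz, hz,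
      Or.inr ⟨(t1, t2), e4_mem_pairs.2 ⟨ht.1, ht.2, he, d1, d2⟩, rfl⟩⟩),
      e4_w_chM S.toShp h1 h2 d1 d2 he, e4_om_chM h1 h2 d1 d2 he]
    split_ifs
    · exact e4_prod hw (hS.om_nonneg _ ht.1) (hW.1 _ ht.1)
    · rw [Nat.cast_zero, zero_div, sub_zero, zero_pow two_ne_zero]
      positivity
  · have hm : S.chM t1 t2 χx χz ∉ (S.M p).T := by
      intro hm
      obtain ⟨χx', -, χz', -, ⟨t0, h0, hc⟩ | ⟨b, hb, hc⟩⟩ := e4_mem_T.1 hm
      · exact not_isM_chU (hS.tm _ h0) χx' χz' (hc ▸ isM_chM S.toShp t1 t2 χx χz)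
      · obtain ⟨b1, b2, be, c1, c2⟩ := e4_mem_pairs.1 hb
        have g1 := congrArg S.pa1 hc
        have g2 := congrArg S.pa2 hc
        rw [pa1_chM (hS.tm _ b1) c1, pa1_chM h1 d1] at g1
        rw [pa2_chM (hS.tm _ b2) c2 be, pa2_chM h2 d2 he] at g2
        exact ht ⟨g1 ▸ b1, g2 ▸ b2⟩
    have e0 : e4T p (S.M p) (L.M p S.toShp) j e (S.chM t1 t2 χx χz) = 1 := if_neg hm
    rw [e0]
    rcases not_and_or.1 ht with ht | ht
    · have e1 : e4T p S L j (p.sub S.q e χx χz).r1 t1 = 1 := if_neg ht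
      linarith
    · have e2 : e4T p S L j (p.sub S.q e χx χz).r2 t2 = 1 := if_neg ht
      linarith

theorem e4M_chU (hS : S.WF p k eb) {t : Tm} (ht : t ∈ S.T) (j : ℕ) (e : Env) {χx χz : ℕ}
    (hx : χx < p.A) (hz : χz < p.A) :
    e4M F (S.M p) e ((L.M p S.toShp).V j e) (S.chU t χx χz) ≤
      e4M F S (p.sub S.q e χx χz) (L.N p j (p.sub S.q e χx χz)) t := by
  have n0 := e4M_nonneg (F := F) (S := S) (p.sub S.q e χx χz) (L.N p j (p.sub S.q e χx χz)) t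
  unfold e4M at n0 ⊢
  split_ifs with h1 h2
  · exact le_rfl
  · refine absurd ⟨?_, (act_chU (hS.tm _ ht) hx hz).1 h1.2.1, fun hN => h1.2.2 ?_⟩ h2
    · have h3 := h1.1
      rw [e4_om_chU (hS.tm _ ht)] at h3
      split_ifs at h3
      · linarith
      · exact h3
      · exact absurd h3 (lt_irrefl _)
    · exact e4_mem_V.2 ⟨χx, hx, χz, hz, Or.inl ⟨t, hN, rfl⟩⟩
  · exact zero_le_one
  · exact le_rfl

theorem e4M_chM (hS : S.WF p k eb) {a : Tm × Tm} (ha : a ∈ pairs S.T S.T) (j : ℕ) (e : Env)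
    {χx χz : ℕ} (hx : χx < p.A) (hz : χz < p.A) :
    e4M F (S.M p) e ((L.M p S.toShp).V j e) (S.chM a.1 a.2 χx χz) ≤
      (if act F S.q (p.sub S.q e χx χz).r2 a.2 then
        e4M F S (p.sub S.q e χx χz).r1 (L.N p j (p.sub S.q e χx χz).r1) a.1 else 0) +
      if act F S.q (p.sub S.q e χx χz).r1 a.1 then
        e4M F S (p.sub S.q e χx χz).r2 (L.N p j (p.sub S.q e χx χz).r2) a.2 else 0 := by
  obtain ⟨b1, b2, he, d1, d2⟩ := e4_mem_pairs.1 ha
  have n1 := e4M_nonneg (F := F) (S := S) (p.sub S.q e χx χz).r1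
    (L.N p j (p.sub S.q e χx χz).r1) a.1
  have n2 := e4M_nonneg (F := F) (S := S) (p.sub S.q e χx χz).r2
    (L.N p j (p.sub S.q e χx χz).r2) a.2
  by_cases h1 : 0 < (S.M p).om (S.chM a.1 a.2 χx χz) ∧
      act F (S.M p).q e (S.chM a.1 a.2 χx χz) ∧ S.chM a.1 a.2 χx χz ∉ (L.M p S.toShp).V j e
  · have e0 : e4M F (S.M p) e ((L.M p S.toShp).V j e) (S.chM a.1 a.2 χx χz) = 1 := if_pos h1
    obtain ⟨h3, h4, h5⟩ := h1
    obtain ⟨a1, a2⟩ := (act_chM (hS.tm _ b1) (hS.tm _ b2) d1 d2 he hx hz).1 h4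
    rw [e4_om_chM (hS.tm _ b1) (hS.tm _ b2) d1 d2 he] at h3
    have o1 := hS.om_nonneg _ b1
    have o2 := hS.om_nonneg _ b2
    have h6 : 0 < S.om a.1 * S.om a.2 := by
      split_ifs at h3
      · linarith
      · exact absurd h3 (lt_irrefl _)
    have p1 : 0 < S.om a.1 := o1.lt_of_ne fun h0 => by
      rw [← h0, zero_mul] at h6
      exact lt_irrefl _ h6
    have p2 : 0 < S.om a.2 := o2.lt_of_ne fun h0 => by
      rw [← h0, mul_zero] at h6
      exact lt_irrefl _ h6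
    rw [e0, if_pos a1, if_pos a2]
    by_cases m1 : a.1 ∈ L.N p j (p.sub S.q e χx χz).r1
    · by_cases m2 : a.2 ∈ L.N p j (p.sub S.q e χx χz).r2
      · exact absurd (e4_mem_V.2 ⟨χx, hx, χz, hz,
          Or.inr ⟨a, e4_mem_pairs.2 ⟨m1, m2, he, d1, d2⟩, rfl⟩⟩) h5
      · have e2 : e4M F S (p.sub S.q e χx χz).r2 (L.N p j (p.sub S.q e χx χz).r2) a.2 = 1 :=
          if_pos ⟨p2, a2, m2⟩
        linarith
    · have e1 : e4M F S (p.sub S.q e χx χz).r1 (L.N p j (p.sub S.q e χx χz).r1) a.1 = 1 :=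
        if_pos ⟨p1, a1, m1⟩
      linarith
  · have e0 : e4M F (S.M p) e ((L.M p S.toShp).V j e) (S.chM a.1 a.2 χx χz) = 0 := if_neg h1
    rw [e0]
    refine add_nonneg ?_ ?_
    · split_ifs
      · exact n1
      · exact le_rfl
    · split_ifs
      · exact n2
      · exact le_rfl

/-! ### The sums -/

theorem e4_sum_biUnion {ι : Type} (s : Finset ι) (T : ι → Finset Tm) {f : Tm → ℝ}
    (hf : ∀ t, 0 ≤ f t) : ∑ t ∈ s.biUnion T, f t ≤ ∑ i ∈ s, ∑ t ∈ T i, f t := by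
  induction s using Finset.induction_on with
  | empty => simp
  | insert i s hi ih =>
    rw [biUnion_insert, sum_insert hi]
    have h1 := sum_union_inter (s₁ := T i) (s₂ := s.biUnion T) (f := f)
    have h2 : 0 ≤ ∑ t ∈ T i ∩ s.biUnion T, f t := sum_nonneg fun t _ => hf t
    linarith

theorem e4_sum_union (T1 T2 : Finset Tm) {f : Tm → ℝ} (hf : ∀ t, 0 ≤ f t) :
    ∑ t ∈ T1 ∪ T2, f t ≤ ∑ t ∈ T1, f t + ∑ t ∈ T2, f t := by
  have h1 := sum_union_inter (s₁ := T1) (s₂ := T2) (f := f)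
  have h2 : 0 ≤ ∑ t ∈ T1 ∩ T2, f t := sum_nonneg fun t _ => hf t
  linarith

theorem e4_sum_image {ι : Type} (s : Finset ι) (g : ι → Tm) {f : Tm → ℝ} (hf : ∀ t, 0 ≤ f t) :
    ∑ t ∈ s.image g, f t ≤ ∑ i ∈ s, f (g i) := by
  induction s using Finset.induction_on with
  | empty => simp
  | insert i s hi ih =>
    rw [image_insert, sum_insert hi]
    by_cases h : g i ∈ s.image g
    · rw [insert_eq_of_mem h]
      linarith [hf (g i)]
    · rw [sum_insert h]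
      linarith

theorem e4_sumT (hS : S.WF p k eb) (hW : S.Wt 1) (hL : L.WF p F S.q eb (2 ^ p.P)) (j : ℕ)
    (e : Env) :
    ∑ t ∈ (L.M p S.toShp).V j e, e4T p (S.M p) (L.M p S.toShp) j e t ≤
      ∑ a ∈ range p.A ×ˢ range p.A,
        (∑ t ∈ L.N p j (p.sub S.q e a.1 a.2), e4T p S L j (p.sub S.q e a.1 a.2) t +
        p.Kp * ∑ t ∈ L.N p j (p.sub S.q e a.1 a.2).r1, e4T p S L j (p.sub S.q e a.1 a.2).r1 t +
        p.Kp * ∑ t ∈ L.N p j (p.sub S.q e a.1 a.2).r2, e4T p S L j (p.sub S.q e a.1 a.2).r2 t +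
        (p.Kp + 3 * p.Kp * p.Kp) * (2 ^ S.q * (1 / 2 ^ p.P) ^ 2)) := by
  refine (e4_sum_biUnion _ _ (e4T_nonneg j e)).trans (sum_le_sum fun a ha => ?_)
  obtain ⟨hx, hz⟩ := mem_product.1 ha
  rw [mem_range] at hx hz
  refine (e4_sum_union _ _ (e4T_nonneg j e)).trans ?_
  have hu : (0 : ℝ) ≤ (1 / 2 ^ p.P) ^ 2 := sq_nonneg _
  have c0 : ∀ e', (((L.N p j e').card : ℕ) : ℝ) ≤ p.Kp * 2 ^ S.q := fun e' => by
    exact_mod_cast e4_card_N hL j e'
  have h1 := (e4_sum_image (L.N p j (p.sub S.q e a.1 a.2)) (fun t => S.chU t a.1 a.2)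
    (e4T_nonneg (p := p) (S := S.M p) (L := L.M p S.toShp) j e)).trans
    (sum_le_sum fun t ht => e4T_chU hS (hL.tm _ _ _ (Lv.N_subset _ _ ht)) j e hx hz)
  have h2 := (e4_sum_image (pairs (L.N p j (p.sub S.q e a.1 a.2).r1)
    (L.N p j (p.sub S.q e a.1 a.2).r2)) (fun b => S.chM b.1 b.2 a.1 a.2)
    (e4T_nonneg (p := p) (S := S.M p) (L := L.M p S.toShp) j e)).trans
    (sum_le_sum fun b hb => by
      obtain ⟨b1, b2, he, d1, d2⟩ := e4_mem_pairs.1 hb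
      exact e4T_chM hS hW (hL.tm _ _ _ (Lv.N_subset _ _ b1)) (hL.tm _ _ _ (Lv.N_subset _ _ b2))
        d1 d2 he j e hx hz (hL.w_le _ _ _ (Lv.N_subset _ _ b2)))
  rw [sum_add_distrib, sum_const, nsmul_eq_mul] at h1
  rw [sum_add_distrib, sum_add_distrib] at h2
  have h3 := e4_pairs_fstN (p := p) (L := L) (T1 := L.N p j (p.sub S.q e a.1 a.2).r1)
    (fun t _ => e4T_nonneg (p := p) (S := S) (L := L) j (p.sub S.q e a.1 a.2).r1 t) j
    (p.sub S.q e a.1 a.2).r2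
  have h4 := e4_pairs_sndN (p := p) (L := L) (T2 := L.N p j (p.sub S.q e a.1 a.2).r2)
    (fun t _ => e4T_nonneg (p := p) (S := S) (L := L) j (p.sub S.q e a.1 a.2).r2 t) j
    (p.sub S.q e a.1 a.2).r1
  have h5 := e4_pairs_fstN (p := p) (L := L) (T1 := L.N p j (p.sub S.q e a.1 a.2).r1)
    (g := fun _ => 3 * (1 / 2 ^ p.P) ^ 2) (fun _ _ => by positivity) j (p.sub S.q e a.1 a.2).r2
  rw [sum_const (s := L.N p j (p.sub S.q e a.1 a.2).r1), nsmul_eq_mul] at h5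
  have h6 := mul_le_mul_of_nonneg_right (c0 (p.sub S.q e a.1 a.2)) hu
  have h7 := mul_le_mul_of_nonneg_left (mul_le_mul_of_nonneg_right (c0 (p.sub S.q e a.1 a.2).r1)
    (show (0 : ℝ) ≤ 3 * (1 / 2 ^ p.P) ^ 2 by positivity)) (Nat.cast_nonneg (α := ℝ) p.Kp)
  linarith

theorem e4_sumM (hS : S.WF p k eb) (hq : S.q + p.W ≤ p.m) (hF : Few p F S) (j : ℕ) {e : Env}
    (he : e.Ok p.m) :
    ∑ t ∈ (S.M p).T, e4M F (S.M p) e ((L.M p S.toShp).V j e) t ≤
      ∑ a ∈ range p.A ×ˢ range p.A,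
        (∑ t ∈ S.T, e4M F S (p.sub S.q e a.1 a.2) (L.N p j (p.sub S.q e a.1 a.2)) t +
        p.Kp * ∑ t ∈ S.T, e4M F S (p.sub S.q e a.1 a.2).r1 (L.N p j (p.sub S.q e a.1 a.2).r1) t +
        p.Kp * ∑ t ∈ S.T,
          e4M F S (p.sub S.q e a.1 a.2).r2 (L.N p j (p.sub S.q e a.1 a.2).r2) t) := by
  rw [sum_M hS]
  simp only [← sum_product']
  rw [sum_product_right, sum_product_right (s := pairs S.T S.T), ← sum_add_distrib]
  refine sum_le_sum fun a ha => ?_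
  obtain ⟨hx, hz⟩ := mem_product.1 ha
  rw [mem_range] at hx hz
  have ok := he.sub hq hx hz
  have h1 := sum_le_sum fun t (ht : t ∈ S.T) => e4M_chU (F := F) (L := L) hS ht j e hx hz
  have h2 := sum_le_sum fun b (hb : b ∈ pairs S.T S.T) =>
    e4M_chM (F := F) (L := L) hS hb j e hx hz
  rw [sum_add_distrib] at h2
  have h3 := e4_pairs_fst (T1 := S.T) (T2 := S.T) (fun t _ => e4M_nonneg (F := F) (S := S)
    (p.sub S.q e a.1 a.2).r1 (L.N p j (p.sub S.q e a.1 a.2).r1) t)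
    (act F S.q (p.sub S.q e a.1 a.2).r2) (hF _ ok.r2 false)
  have h4 := e4_pairs_snd (T1 := S.T) (T2 := S.T) (fun t _ => e4M_nonneg (F := F) (S := S)
    (p.sub S.q e a.1 a.2).r2 (L.N p j (p.sub S.q e a.1 a.2).r2) t)
    (act F S.q (p.sub S.q e a.1 a.2).r1) (hF _ ok.r1 true)
  linarith

theorem e4_badA (j : ℕ) (e : Env) :
    badA p (S.M p) (L.M p S.toShp) j e ≤ p.A * badA p S L j e := by
  unfold badA
  rw [mul_sum]
  refine sum_le_sum fun d _ => ?_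
  rw [show (S.M p).q = S.q + p.W from rfl, sum_names S.toShp, mul_sum]
  refine sum_le_sum fun v hv => ?_
  rw [mem_range] at hv
  refine (sum_le_card_nsmul _ _ (((L.al j e d v : ℝ) / 2 ^ p.P - S.al d v) ^ 2)
    fun χ hχ => ?_).trans (by rw [card_range, nsmul_eq_mul])
  rw [mem_range] at hχ
  simp only [Lv.M, Sys.M]
  rw [S.up_dn hv, S.ck_dn hv]
  by_cases h : S.vld p v χ
  · rw [if_pos h, if_pos ⟨S.dn_lt hv hχ, h⟩]
  · rw [if_neg h, if_neg fun h' => h h'.2, Nat.cast_zero, zero_div, sub_zero, zero_pow two_ne_zero]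
    exact sq_nonneg _

theorem M_err (hp : p.Small lg) (hS : S.WF p k eb) (hW : S.Wt 1)
    (hL : L.WF p F S.q eb (2 ^ p.P)) (hq : S.q + p.W ≤ p.m) (hF : Few p F S)
    (hX : 2 ^ p.m ≤ X) (h : Err p F S L X) :
    ErrV p F (S.M p) (L.M p S.toShp) (2 ^ (60 * lg) * X) := by
  intro j hj e he
  set B : Env → ℝ := fun e' => badT p F S L j e' (L.N p j e') + badA p S L j e' with hB
  set u : ℝ := 2 ^ S.q * (1 / 2 ^ p.P) ^ 2 with hu
  have hK : (0 : ℝ) ≤ p.Kp := Nat.cast_nonneg _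
  have hA : (0 : ℝ) ≤ p.A := Nat.cast_nonneg _
  have h1 : ∀ e' : Env, e'.Ok p.m →
      badT p F (S.M p) (L.M p S.toShp) j e' ((L.M p S.toShp).V j e') +
        badA p (S.M p) (L.M p S.toShp) j e' ≤
      ∑ a ∈ range p.A ×ˢ range p.A, (B (p.sub S.q e' a.1 a.2) +
        p.Kp * B (p.sub S.q e' a.1 a.2).r1 + p.Kp * B (p.sub S.q e' a.1 a.2).r2 +
        (p.Kp + 3 * p.Kp * p.Kp) * u) + p.A * B e' := by
    intro e' he'
    refine add_le_add ?_ ((e4_badA j e').trans (mul_le_mul_of_nonneg_left ?_ hA))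
    · rw [e4_badT]
      refine (add_le_add (e4_sumT hS hW hL j e') (e4_sumM hS hq hF j he')).trans ?_
      rw [← sum_add_distrib]
      refine sum_le_sum fun a _ => ?_
      simp only [hB, e4_badT]
      have a0 := e4_badA_nonneg (p := p) (S := S) (L := L) j (p.sub S.q e' a.1 a.2)
      have a1 := mul_nonneg hK
        (e4_badA_nonneg (p := p) (S := S) (L := L) j (p.sub S.q e' a.1 a.2).r1)
      have a2 := mul_nonneg hK
        (e4_badA_nonneg (p := p) (S := S) (L := L) j (p.sub S.q e' a.1 a.2).r2)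
      linarith
    · simp only [hB, e4_badT]
      have a1 : 0 ≤ ∑ t ∈ L.N p j e', e4T p S L j e' t := sum_nonneg fun t _ => e4T_nonneg _ _ _
      have a2 : 0 ≤ ∑ t ∈ S.T, e4M F S e' (L.N p j e') t :=
        sum_nonneg fun t _ => e4M_nonneg _ _ _
      linarith
  refine (avg_mono he h1).trans ?_
  have hY : u ≤ X / 2 ^ j := by
    have g1 : (2 : ℝ) ^ S.q ≤ X :=
      (pow_le_pow_right₀ one_le_two ((Nat.le_add_right _ _).trans hq)).trans hX
    have g2 : ((1 : ℝ) / 2 ^ p.P) ^ 2 ≤ 1 / 2 ^ j := by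
      rw [div_pow, one_pow, ← pow_mul]
      exact one_div_le_one_div_of_le (by positivity) (pow_le_pow_right₀ one_le_two (by omega))
    rw [hu, div_eq_mul_one_div X]
    exact mul_le_mul g1 g2 (by positivity) (le_trans (by positivity) g1)
  have hY0 : 0 ≤ X / 2 ^ j := le_trans (by positivity) hY
  rw [avg_add, avg_sum, avg_mul]
  have h2 : ∀ a ∈ range p.A ×ˢ range p.A, avg p.m e (fun e' => B (p.sub S.q e' a.1 a.2) +
      p.Kp * B (p.sub S.q e' a.1 a.2).r1 + p.Kp * B (p.sub S.q e' a.1 a.2).r2 +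
      (p.Kp + 3 * p.Kp * p.Kp) * u) ≤ (1 + 3 * p.Kp + 3 * p.Kp * p.Kp) * (X / 2 ^ j) := by
    intro a ha
    obtain ⟨hx, hz⟩ := mem_product.1 ha
    rw [mem_range] at hx hz
    have ok := he.sub hq hx hz
    rw [avg_add, avg_add, avg_add, avg_mul, avg_mul, avg_const, avg_sub B,
      avg_sub fun e' => B e'.r1, avg_sub fun e' => B e'.r2, avg_r1 B, avg_r2 B]
    have g0 : avg p.m (p.sub S.q e a.1 a.2) B ≤ X / 2 ^ j := h j hj _ ok
    have g1 : avg p.m (p.sub S.q e a.1 a.2).r1 B ≤ X / 2 ^ j := h j hj _ ok.r1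
    have g2 : avg p.m (p.sub S.q e a.1 a.2).r2 B ≤ X / 2 ^ j := h j hj _ ok.r2
    have g3 := mul_le_mul_of_nonneg_left g1 hK
    have g4 := mul_le_mul_of_nonneg_left g2 hK
    have g5 := mul_le_mul_of_nonneg_left hY
      (show (0 : ℝ) ≤ p.Kp + 3 * p.Kp * p.Kp by positivity)
    linarith
  have h3 := sum_le_card_nsmul _ _ _ h2
  rw [card_product, card_range, nsmul_eq_mul, Nat.cast_mul] at h3
  have h4 := mul_le_mul_of_nonneg_left (show avg p.m e B ≤ X / 2 ^ j from h j hj e he) hA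
  have hc : (p.A : ℝ) * p.A * (1 + 3 * p.Kp + 3 * p.Kp * p.Kp) + p.A ≤ 2 ^ (60 * lg) := by
    have c1 : p.A ≤ 2 ^ lg := Nat.pow_le_pow_right two_pos hp.W_le
    have c2 := hp.Kp_le
    have c3 : 8 ≤ 2 ^ lg := by
      have := hp.c_le
      exact Nat.pow_le_pow_right two_pos (show 3 ≤ lg by omega)
    have c4 : (2 ^ lg) ^ 5 ≤ 2 ^ (60 * lg) := by
      rw [← pow_mul]
      exact Nat.pow_le_pow_right two_pos (by omega)
    have c5 : p.A * p.A * (1 + 3 * p.Kp + 3 * p.Kp * p.Kp) + p.A ≤ 2 ^ (60 * lg) := by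
      refine le_trans ?_ c4
      generalize 2 ^ lg = y at *
      have d1 : 1 + 3 * p.Kp + 3 * p.Kp * p.Kp ≤ 7 * (y * y) := by nlinarith
      have d2 : p.A * p.A * (1 + 3 * p.Kp + 3 * p.Kp * p.Kp) ≤ y * y * (7 * (y * y)) :=
        Nat.mul_le_mul (Nat.mul_le_mul c1 c1) d1
      have d3 : y ≤ y ^ 4 := Nat.le_self_pow (by norm_num) y
      calc _ ≤ 8 * y ^ 4 := by nlinarith
        _ ≤ y * y ^ 4 := Nat.mul_le_mul_right _ c3
        _ = y ^ 5 := by ring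
    exact_mod_cast c5
  have h5 := mul_le_mul_of_nonneg_right hc hY0
  rw [mul_div_assoc]
  linarith

theorem e4_tlt_irrefl (d : Bool) (t : Tm) : ¬ tlt d t t := by
  unfold tlt
  omega

theorem err_of_errV {wm : ℕ} (hp : p.Small lg) (hL : L.WF p F S.q eb wm) (hF : Few p F S)
    (h : ErrV p F S L X) : Err p F S L (2 ^ (lg + 2) * X) := by
  intro j hj e he
  have h1 : ∀ e' : Env, e'.Ok p.m → badT p F S L j e' (L.N p j e') + badA p S L j e' ≤
      2 ^ (lg + 2) * (badT p F S L j e' (L.V j e') + badA p S L j e') := by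
    intro e' he'
    have a0 := e4_badA_nonneg (p := p) (S := S) (L := L) j e'
    have a1 : ∑ t ∈ L.N p j e', e4T p S L j e' t ≤ ∑ t ∈ L.V j e', e4T p S L j e' t :=
      sum_le_sum_of_subset_of_nonneg (Lv.N_subset _ _) fun t _ _ => e4T_nonneg _ _ _
    have a2 : 0 ≤ ∑ t ∈ S.T, e4M F S e' (L.V j e') t := sum_nonneg fun t _ => e4M_nonneg _ _ _
    have a3 : 0 ≤ ∑ t ∈ L.V j e', e4T p S L j e' t := sum_nonneg fun t _ => e4T_nonneg _ _ _
    have a4 : ∀ t ∈ S.T, e4M F S e' (L.N p j e') t ≤ e4M F S e' (L.V j e') t +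
        ∑ d : Bool, ∑ t' ∈ L.V j e' \ S.T,
          if t.ep d = t'.ep d ∧ act F S.q e' t then (1 : ℝ) else 0 := by
      intro t ht
      have n0 : ∀ d : Bool, ∀ t' ∈ L.V j e' \ S.T,
          (0 : ℝ) ≤ if t.ep d = t'.ep d ∧ act F S.q e' t then (1 : ℝ) else 0 := fun d t' _ => by
        split_ifs
        · exact zero_le_one
        · exact le_rfl
      have n1 : 0 ≤ ∑ d : Bool, ∑ t' ∈ L.V j e' \ S.T,
          if t.ep d = t'.ep d ∧ act F S.q e' t then (1 : ℝ) else 0 :=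
        sum_nonneg fun d _ => sum_nonneg (n0 d)
      have n2 := e4M_nonneg (F := F) (S := S) e' (L.V j e') t
      by_cases hm : 0 < S.om t ∧ act F S.q e' t ∧ t ∉ L.N p j e'
      · have e0 : e4M F S e' (L.N p j e') t = 1 := if_pos hm
        rw [e0]
        by_cases hV : t ∈ L.V j e'
        · obtain ⟨d, hd⟩ : ∃ d, p.Kp ≤ rank (L.V j e') d t := by
            by_contra hc
            refine hm.2.2 (mem_filter.2 ⟨hV, fun d => ?_⟩)
            exact not_le.1 fun hd => hc ⟨d, hd⟩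
          obtain ⟨t', ht', hd'⟩ : ∃ t' ∈ L.V j e' \ S.T, t.ep d = t'.ep d := by
            by_contra hc
            have s1 : insert t ((L.V j e').filter fun t' => t'.ep d = t.ep d ∧ tlt d t' t) ⊆
                S.T.filter fun t' => t'.ep d = t.ep d ∧ act F S.q e' t' := by
              intro t' ht'
              rcases mem_insert.1 ht' with rfl | ht'
              · exact mem_filter.2 ⟨ht, rfl, hm.2.1⟩
              · obtain ⟨v1, v2, -⟩ := mem_filter.1 ht'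
                refine mem_filter.2 ⟨?_, v2, hL.act _ _ _ v1⟩
                by_contra hn
                exact hc ⟨t', mem_sdiff.2 ⟨v1, hn⟩, v2.symm⟩
            have s2 := (card_le_card s1).trans (hF e' he' d (t.ep d))
            rw [card_insert_of_notMem fun hi => e4_tlt_irrefl d t (mem_filter.1 hi).2.2] at s2
            unfold rank at hd
            omega
          have g1 := single_le_sum (n0 d) ht'
          rw [if_pos ⟨hd', hm.2.1⟩] at g1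
          have g2 := single_le_sum (f := fun d : Bool => ∑ t' ∈ L.V j e' \ S.T,
            if t.ep d = t'.ep d ∧ act F S.q e' t then (1 : ℝ) else 0)
            (fun d _ => sum_nonneg (n0 d)) (mem_univ d)
          linarith
        · have e1 : e4M F S e' (L.V j e') t = 1 := if_pos ⟨hm.1, hm.2.1, hV⟩
          linarith
      · have e0 : e4M F S e' (L.N p j e') t = 0 := if_neg hm
        linarith
    have a5 := sum_le_sum a4
    rw [sum_add_distrib, sum_comm] at a5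
    have a6 : ∀ d ∈ (univ : Finset Bool), ∑ t ∈ S.T, ∑ t' ∈ L.V j e' \ S.T,
        (if t.ep d = t'.ep d ∧ act F S.q e' t then (1 : ℝ) else 0) ≤
        2 ^ lg * ∑ t ∈ L.V j e', e4T p S L j e' t := by
      intro d _
      rw [sum_comm]
      calc _ ≤ ∑ t' ∈ L.V j e' \ S.T, 2 ^ lg * e4T p S L j e' t' := by
            refine sum_le_sum fun t' ht' => ?_
            have e1 : e4T p S L j e' t' = 1 := if_neg (mem_sdiff.1 ht').2
            rw [e1, mul_one, ← natCast_card_filter]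
            exact_mod_cast (hF e' he' d (t'.ep d)).trans hp.Kp_le
        _ ≤ _ := by
            rw [← mul_sum]
            exact mul_le_mul_of_nonneg_left (sum_le_sum_of_subset_of_nonneg sdiff_subset
              fun t _ _ => e4T_nonneg _ _ _) (by positivity)
    have a7 := sum_le_card_nsmul _ _ _ a6
    rw [card_univ, Fintype.card_bool, nsmul_eq_mul, Nat.cast_ofNat] at a7
    have a8 : (1 : ℝ) ≤ 2 ^ lg := one_le_pow₀ one_le_two
    rw [e4_badT, e4_badT, pow_add]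
    nlinarith [mul_nonneg (sub_nonneg.2 a8) a0, mul_nonneg (sub_nonneg.2 a8) a2,
      mul_nonneg (sub_nonneg.2 a8) a3]
  refine (avg_mono he h1).trans ?_
  rw [avg_mul, mul_div_assoc]
  exact mul_le_mul_of_nonneg_left (h j hj e he) (by positivity)

end Vale.Agent.P313.NL
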