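import Vale.Agent.P313.NL.IDef
import Mathlib.Algebra.BigOperators.Field

/-! The operation `R` keeps the kernel. -/

namespace Vale.Agent.P313.NL

open Finset
open scoped Classical

variable {p : Par} {S : Sys} {k eb : ℕ}

variable {B : ℝ}

theorem ir1_clamp_nonneg (x : ℝ) : 0 ≤ clamp x := le_min zero_le_one (le_max_left _ _)
theorem ir1_clamp_le (x : ℝ) : clamp x ≤ 1 := min_le_left _ _
theorem ir1_clamp_mono {x y : ℝ} (h : x ≤ y) : clamp x ≤ clamp y :=
  min_le_min le_rfl (max_le_max le_rfl h)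
theorem ir1_clamp_zero {x : ℝ} (h : x ≤ 0) : clamp x = 0 := by
  rw [clamp, max_eq_left h, min_eq_right zero_le_one]
theorem ir1_clamp_one {x : ℝ} (h : 1 ≤ x) : clamp x = 1 :=
  min_eq_left (h.trans (le_max_right _ _))

theorem ir1_psi_succ (i : ℕ) (x : ℝ) : psi (i + 1) x = clamp (2 - 2 * (2 ^ i * x)) := by
  rw [psi, pow_succ]
  congr 1
  ring

theorem chi_nonneg (i : ℕ) {x : ℝ} (hx : 0 ≤ x) : 0 ≤ p.chi i x := by
  unfold Par.chi
  split_ifs
  · have h : 0 ≤ 2 ^ i * x := by positivity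
    rw [ir1_psi_succ, psi, sub_nonneg]
    exact ir1_clamp_mono (by linarith)
  · exact ir1_clamp_nonneg _

theorem chi_le_one (i : ℕ) (x : ℝ) : p.chi i x ≤ 1 := by
  unfold Par.chi
  split_ifs
  · exact (sub_le_self _ (ir1_clamp_nonneg _)).trans (ir1_clamp_le _)
  · exact ir1_clamp_le _

theorem sum_chi {x : ℝ} (hx : x ≤ 1) : ∑ i ∈ range (p.c + 1), p.chi i x = 1 := by
  have h1 : ∑ i ∈ range p.c, p.chi i x = psi 0 x - psi p.c x := by
    rw [← sum_range_sub' (fun i => psi i x)]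
    exact sum_congr rfl fun i hi => if_pos (mem_range.1 hi)
  have h2 : p.chi p.c x = psi p.c x := if_neg (lt_irrefl _)
  rw [sum_range_succ, h1, h2, sub_add_cancel]
  exact ir1_clamp_one (by linarith)

theorem chi_ne_zero {i : ℕ} {x : ℝ} (hi : i ≤ p.c) (h : p.chi i x ≠ 0) :
    2 ^ i * x < 2 ∧ (i < p.c → 1 / 2 < 2 ^ i * x) := by
  refine ⟨not_le.1 fun h1 => h ?_, fun h0 => not_le.1 fun h1 => h ?_⟩
  · unfold Par.chi
    split_ifs with h0
    · rw [ir1_psi_succ, psi, ir1_clamp_zero (by linarith), ir1_clamp_zero (by linarith), sub_zero]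
    · obtain rfl : i = p.c := by omega
      exact ir1_clamp_zero (by linarith)
  · rw [Par.chi, if_pos h0, ir1_psi_succ, psi, ir1_clamp_one (by linarith),
      ir1_clamp_one (by linarith), sub_self]

theorem ir1_chi_le {i : ℕ} {x : ℝ} (hi : i ≤ p.c) (hx : 0 ≤ x) : 2 ^ i * x * p.chi i x ≤ 2 := by
  by_cases h : p.chi i x = 0
  · rw [h, mul_zero]
    exact zero_le_two
  · exact (mul_le_of_le_one_right (by positivity) (chi_le_one i x)).trans (chi_ne_zero hi h).1.le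

theorem ir1_sp_le (t : Tm) {s : ℕ} (hs : s ≤ p.c) : p.sp t s ≤ p.c :=
  max_le hs (Nat.sub_le _ _)

theorem I_chP {t : Tm} (h : t.k.D ≤ t.k.h) {s : ℕ} (hs : s ≤ p.c) :
    (p.chP t s).I = t.I + p.sp t s := by
  simp only [Tm.I, Par.chP, Par.sp]
  omega

theorem TmOk.chP {q : ℕ} {t : Tm} (h : TmOk p q eb t) {s : ℕ} (hs : s ≤ p.c) :
    TmOk p q (eb + p.c) (p.chP t s) := by
  have h1 := h.D_le
  have h2 := h.E_le
  have h3 := h.h_le
  have h4 := h.V_le
  refine ⟨h.x_lt, h.z_lt, h.ht_lt, h.ht_z, fun hd => ?_, h.mid, ?_, ?_, ?_, ?_⟩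
  · have hd' : t.k.dbl = false := hd
    obtain ⟨h5, h6⟩ := h.sing hd'
    refine ⟨h5, ?_⟩
    have e1 : t.k.D = 0 := congrArg Key.D h6
    have e2 : t.k.h = 0 := congrArg Key.h h6
    have e3 : t.k.V = 0 := congrArg Key.V h6
    have e4 : t.k.s0 = 0 := congrArg Key.s0 h6
    have e5 : t.k.hv = false := congrArg Key.hv h6
    refine Key.ext rfl ?_ ?_ e3 e4 e5 hd'
    · simp only [Par.chP, Par.sp, sgl, hd', e1, e2, Bool.false_eq_true, if_false]
      omega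
    · simp only [Par.chP, sgl, hd', e2, Bool.false_eq_true, if_false]
  · simp only [Par.chP, Par.sp]
    omega
  · simp only [Par.chP]
    omega
  · simp only [Par.chP]
    split_ifs <;> omega
  · simp only [Par.chP]
    omega

theorem TmOk.chA {q : ℕ} {t : Tm} (h : TmOk p q eb t) {i : ℕ} (hi : i ≤ p.c) :
    TmOk p q (eb + p.c) (chA t.x t.z (t.k.E + i)) :=
  ⟨h.x_lt, h.z_lt, h.ht_lt, h.ht_z, fun _ => ⟨rfl, rfl⟩, fun hd => absurd hd Bool.false_ne_true,
    le_rfl, add_le_add h.E_le hi, Nat.zero_le _, Nat.zero_le _⟩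

theorem ir1_ms_nonneg (h : S.WF p k eb) {t : Tm} (ht : t ∈ S.T) : 0 ≤ S.ms t :=
  div_nonneg (h.om_nonneg t ht) (by positivity)

theorem Wg_nonneg (h : S.WF p k eb) (x z E : ℕ) : 0 ≤ S.Wg x z E :=
  mul_nonneg (by positivity) (sum_nonneg fun _ ht => ir1_ms_nonneg h (mem_filter.1 ht).1)

theorem ir1_B_nonneg (h : S.WF p k eb) {a : Tm × ℕ} (ha : a.1 ∈ S.T) :
    0 ≤ 2 ^ p.sp a.1 a.2 * (S.om a.1 * p.chi a.2 (S.om a.1)) *
      p.chi p.c (S.Wg a.1.x a.1.z a.1.k.E) :=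
  mul_nonneg (mul_nonneg (by positivity) (mul_nonneg (h.om_nonneg _ ha)
    (chi_nonneg _ (h.om_nonneg _ ha)))) (chi_nonneg _ (Wg_nonneg h _ _ _))

theorem R_om_nonneg (h : S.WF p k eb) (t : Tm) : 0 ≤ (S.R p).om t := by
  refine add_nonneg ?_ (sum_nonneg fun a ha => ir1_B_nonneg h (mem_product.1 (mem_filter.1 ha).1).1)
  split_ifs
  · exact le_rfl
  · exact sum_nonneg fun i _ => mul_nonneg (mul_nonneg (by positivity) (Wg_nonneg h _ _ _))
      (chi_nonneg _ (Wg_nonneg h _ _ _))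

theorem ir1_memA {t : Tm} (ht : t ∈ S.T) {i : ℕ} (hi : i < p.c)
    (h : p.chi i (S.Wg t.x t.z t.k.E) ≠ 0) : chA t.x t.z (t.k.E + i) ∈ (S.R p).T :=
  mem_union_left _ (mem_image.2 ⟨(t, i), mem_filter.2 ⟨mem_product.2 ⟨ht, mem_range.2 hi⟩,
    le_trans (by norm_num) ((chi_ne_zero hi.le h).2 hi).le⟩, rfl⟩)

theorem ir1_memP {t : Tm} (ht : t ∈ S.T) {s : ℕ} (hs : s ≤ p.c) (h : p.chi s (S.om t) ≠ 0) :
    p.chP t s ∈ (S.R p).T :=
  mem_union_right _ (mem_image.2 ⟨(t, s), mem_filter.2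
    ⟨mem_product.2 ⟨ht, mem_range.2 (Nat.lt_succ_of_le hs)⟩, hs.eq_or_lt.imp id fun hi =>
      le_trans (by norm_num) ((chi_ne_zero hs h).2 hi).le⟩, rfl⟩)

/-- The origin of a nonzero weight. -/
theorem ir1_cases {t : Tm} (ht : (S.R p).om t ≠ 0) :
    (t.k.dbl = false ∧ ∃ t' ∈ S.T, ∃ i < p.c, S.om t' ≠ 0 ∧ t'.x = t.x ∧ t'.z = t.z ∧
      t'.k.E + i = t.k.E ∧ p.chi i (S.Wg t'.x t'.z t'.k.E) ≠ 0) ∨
    ∃ t' ∈ S.T, ∃ s ≤ p.c, S.om t' ≠ 0 ∧ p.chP t' s = t ∧ p.chi s (S.om t') ≠ 0 ∧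
      p.chi p.c (S.Wg t'.x t'.z t'.k.E) ≠ 0 := by
  have h0 : ∀ a b : ℝ, a + b ≠ 0 → a ≠ 0 ∨ b ≠ 0 := fun a b e =>
    or_iff_not_imp_left.2 fun h1 h2 => e (by rw [not_not.1 h1, h2, add_zero])
  rcases h0 _ _ ht with h1 | h1
  · left
    split_ifs at h1 with hd
    · exact absurd rfl h1
    · obtain ⟨i, hi, h2⟩ := exists_ne_zero_of_sum_ne_zero h1
      obtain ⟨h3, h4⟩ := mem_filter.1 hi
      obtain ⟨t', ht', h5⟩ := exists_ne_zero_of_sum_ne_zero
        (right_ne_zero_of_mul (right_ne_zero_of_mul (left_ne_zero_of_mul h2)))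
      obtain ⟨h6, h7, h8, h9⟩ := mem_filter.1 ht'
      refine ⟨Bool.eq_false_iff.2 hd, t', h6, i, mem_range.1 h3, fun e => h5 ?_, h7, h8,
        by omega, ?_⟩
      · rw [Sys.ms, e, zero_div]
      · rw [h7, h8, h9]
        exact right_ne_zero_of_mul h2
  · obtain ⟨a, ha, h2⟩ := exists_ne_zero_of_sum_ne_zero h1
    obtain ⟨h3, h4⟩ := mem_filter.1 ha
    obtain ⟨h5, h6⟩ := mem_product.1 h3
    have h7 := right_ne_zero_of_mul (left_ne_zero_of_mul h2)
    exact Or.inr ⟨a.1, h5, a.2, Nat.le_of_lt_succ (mem_range.1 h6), left_ne_zero_of_mul h7, h4,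
      right_ne_zero_of_mul h7, right_ne_zero_of_mul h2⟩

theorem ir1_eq_chA {t : Tm} (h : t.y = 0 ∧ t.k = sgl t.k.E) : chA t.x t.z t.k.E = t :=
  Tm.ext rfl rfl h.1.symm h.2.symm

set_option linter.unusedVariables false in
/-- Terms with positive weight are listed. -/
theorem R_mem (h : S.WF p k eb) {t : Tm} (hs : t.k.dbl = false → t.y = 0 ∧ t.k = sgl t.k.E)
    (ht : (S.R p).om t ≠ 0) : t ∈ (S.R p).T := by
  rcases ir1_cases ht with ⟨hd, t', h1, i, hi, -, h2, h3, h4, h5⟩ | ⟨t', h1, s, h2, -, rfl, h3, -⟩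
  · have h6 := ir1_memA h1 hi h5
    rwa [h2, h3, h4, ir1_eq_chA (hs hd)] at h6
  · exact ir1_memP h1 h2 h3

theorem ir1_tm (h : S.WF p k eb) {t : Tm} (ht : t ∈ (S.R p).T) : TmOk p S.q (eb + p.c) t := by
  rcases mem_union.1 ht with h1 | h1
  · obtain ⟨a, ha, rfl⟩ := mem_image.1 h1
    obtain ⟨h2, h3⟩ := mem_product.1 (mem_filter.1 ha).1
    exact (h.tm _ h2).chA (mem_range.1 h3).le
  · obtain ⟨a, ha, rfl⟩ := mem_image.1 h1
    obtain ⟨h2, h3⟩ := mem_product.1 (mem_filter.1 ha).1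
    exact (h.tm _ h2).chP (Nat.le_of_lt_succ (mem_range.1 h3))

/-- The mass of a term after `R` as a sum over its parents. -/
theorem ir1_ms (h : S.WF p k eb) {t : Tm} (hs : t.k.dbl = false → t.y = 0 ∧ t.k = sgl t.k.E) :
    (S.R p).ms t =
      ∑ a ∈ S.T ×ˢ range p.c with chA a.1.x a.1.z (a.1.k.E + a.2) = t,
        S.ms a.1 * p.chi a.2 (S.Wg a.1.x a.1.z a.1.k.E) +
      ∑ a ∈ S.T ×ˢ range (p.c + 1) with p.chP a.1 a.2 = t,
        S.ms a.1 * p.chi a.2 (S.om a.1) * p.chi p.c (S.Wg a.1.x a.1.z a.1.k.E) := by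
  rw [Sys.ms, Sys.R]
  simp only []
  rw [add_div]
  congr 1
  · split_ifs with hd
    · rw [zero_div, eq_comm]
      refine sum_eq_zero fun a ha => ?_
      rw [← (mem_filter.1 ha).2] at hd
      exact absurd hd Bool.false_ne_true
    · have h1 := ir1_eq_chA (hs (Bool.eq_false_iff.2 hd))
      have h2 : t.I = t.k.E := by rw [← h1]; rfl
      rw [sum_div, sum_filter, sum_filter, sum_product_right]
      refine sum_congr rfl fun i _ => ?_
      rw [← sum_filter]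
      split_ifs with hi
      · have h3 : (S.T.filter fun a => chA a.x a.z (a.k.E + i) = t) =
            S.T.filter fun a => a.x = t.x ∧ a.z = t.z ∧ a.k.E = t.k.E - i := by
          refine filter_congr fun a _ => ⟨fun e => ?_, fun e => ?_⟩
          · rw [← e]
            exact ⟨rfl, rfl, (Nat.add_sub_cancel _ _).symm⟩
          · rw [e.1, e.2.1, e.2.2, Nat.sub_add_cancel hi, h1]
        have h4 : (2 : ℝ) ^ t.k.E = 2 ^ i * 2 ^ (t.k.E - i) := by
          rw [← pow_add, Nat.add_sub_cancel' hi]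
        rw [h3, sum_congr rfl (g := fun a => S.ms a * p.chi i (S.Wg t.x t.z (t.k.E - i)))
          fun a ha => by rw [(mem_filter.1 ha).2.1, (mem_filter.1 ha).2.2.1,
            (mem_filter.1 ha).2.2.2], ← sum_mul, h2, h4]
        nth_rw 1 [Sys.Wg]
        field_simp
      · refine (sum_eq_zero fun a ha => absurd ?_ hi).symm
        rw [← (mem_filter.1 ha).2]
        exact Nat.le_add_left _ _
  · rw [sum_div]
    refine sum_congr rfl fun a ha => ?_
    obtain ⟨h1, h2⟩ := mem_filter.1 ha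
    obtain ⟨h3, h4⟩ := mem_product.1 h1
    rw [← h2, I_chP (h.tm _ h3).D_le (Nat.le_of_lt_succ (mem_range.1 h4)), pow_add, Sys.ms]
    field_simp

theorem ir1_fiber {α : Type} (U : Finset Tm) (A : Finset α) (φ : α → Tm) (g : α → ℝ)
    (F : Tm → ℝ) (h : ∀ a ∈ A, g a ≠ 0 → φ a ∈ U) :
    ∑ t ∈ U, (∑ a ∈ A with φ a = t, g a) * F t = ∑ a ∈ A, g a * F (φ a) := by
  simp only [sum_filter, sum_mul, ite_mul, zero_mul]
  rw [sum_comm]
  refine sum_congr rfl fun a ha => ?_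
  rw [sum_ite_eq]
  split_ifs with h1
  · rfl
  · rw [not_not.1 fun h2 => h1 (h a ha h2), zero_mul]

/-- Sums over the terms after `R`. -/
theorem ir1_sum (h : S.WF p k eb) (F : Tm → ℝ) :
    ∑ t ∈ (S.R p).T, (S.R p).ms t * F t =
      ∑ t ∈ S.T, ∑ i ∈ range p.c,
        S.ms t * p.chi i (S.Wg t.x t.z t.k.E) * F (chA t.x t.z (t.k.E + i)) +
      ∑ t ∈ S.T, ∑ s ∈ range (p.c + 1),
        S.ms t * p.chi s (S.om t) * p.chi p.c (S.Wg t.x t.z t.k.E) * F (p.chP t s) := by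
  rw [sum_congr rfl fun t ht => by rw [ir1_ms h (ir1_tm h ht).sing, add_mul], sum_add_distrib,
    ir1_fiber, ir1_fiber, sum_product, sum_product]
  · intro a ha h1
    exact ir1_memP (mem_product.1 ha).1 (Nat.le_of_lt_succ (mem_range.1 (mem_product.1 ha).2))
      (right_ne_zero_of_mul (left_ne_zero_of_mul h1))
  · intro a ha h1
    exact ir1_memA (mem_product.1 ha).1 (mem_range.1 (mem_product.1 ha).2)
      (right_ne_zero_of_mul h1)

/-- Sums of functions of the ends and of the rank. -/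
theorem ir1_sum_E (h : S.WF p k eb) (hW : S.Wt 1) (f : ℕ → ℕ → ℕ → ℝ) :
    ∑ t ∈ (S.R p).T, (S.R p).ms t * f t.x t.z t.k.E = ∑ t ∈ S.T, ∑ i ∈ range (p.c + 1),
      S.ms t * p.chi i (S.Wg t.x t.z t.k.E) * f t.x t.z (t.k.E + i) := by
  rw [ir1_sum h fun t => f t.x t.z t.k.E, ← sum_add_distrib]
  refine sum_congr rfl fun t ht => ?_
  rw [sum_range_succ fun i => S.ms t * p.chi i (S.Wg t.x t.z t.k.E) * f t.x t.z (t.k.E + i)]
  congr 1
  change ∑ s ∈ range (p.c + 1), S.ms t * p.chi s (S.om t) * p.chi p.c (S.Wg t.x t.z t.k.E) *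
    f t.x t.z (t.k.E + p.c) = _
  rw [← sum_mul, ← sum_mul, ← mul_sum, sum_chi (hW.1 t ht), mul_one]

theorem R_sum (h : S.WF p k eb) (hW : S.Wt 1) (f : ℕ → ℕ → ℝ) :
    ∑ t ∈ (S.R p).T, (S.R p).ms t * f t.x t.z = ∑ t ∈ S.T, S.ms t * f t.x t.z := by
  rw [ir1_sum_E h hW fun x z _ => f x z]
  refine sum_congr rfl fun t _ => ?_
  rw [← sum_mul, ← mul_sum, sum_chi (hW.2 _ _ _), mul_one]

/-- A term with positive weight has a parent with positive weight and the same ends. -/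
theorem ir1_parent (h : S.WF p k eb) {t : Tm} (ht : (S.R p).om t ≠ 0) :
    ∃ t' ∈ S.T, 0 < S.om t' ∧ t'.x = t.x ∧ t'.z = t.z := by
  rcases ir1_cases ht with ⟨-, t', h1, -, -, h2, h3, h4, -⟩ | ⟨t', h1, s, -, h2, rfl, -⟩
  · exact ⟨t', h1, (h.om_nonneg _ h1).lt_of_ne' h2, h3, h4⟩
  · exact ⟨t', h1, (h.om_nonneg _ h1).lt_of_ne' h2, rfl, rfl⟩

theorem R_wf (h : S.WF p k eb) : (S.R p).WF p k (eb + p.c) := by
  refine ⟨h.n0_le, fun _ ht => ir1_tm h ht, fun t _ => R_om_nonneg h t, h.al_nonneg, h.al_le,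
    h.al_tp, fun t _ ht => ?_, fun t _ ht => ?_⟩
  · obtain ⟨t', h1, h2, h3, h4⟩ := ir1_parent h ht.ne'
    rw [← h3, ← h4]
    exact h.lv_eq t' h1 h2
  · obtain ⟨t', h1, h2, h3, -⟩ := ir1_parent h ht.ne'
    have h5 := h.lam_le t' h1 h2
    rw [Shp.lam, h3] at h5
    exact h5

/-- Sums over the terms with a condition on the ends. -/
theorem ir1_sum_ep (h : S.WF p k eb) (hW : S.Wt 1) (d : Bool) (r : ℕ → ℕ → Prop)
    [∀ t : Tm, Decidable (r (t.ep d) (t.ep !d))] (g : ℕ → ℝ) :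
    ∑ t ∈ (S.R p).T with r (t.ep d) (t.ep !d), (S.R p).ms t * g (t.ep !d) =
      ∑ t ∈ S.T with r (t.ep d) (t.ep !d), S.ms t * g (t.ep !d) := by
  have h1 := R_sum h hW fun x z => if r (if d then z else x) (if (!d) then z else x) then
    g (if (!d) then z else x) else 0
  rw [sum_filter, sum_filter]
  refine Eq.trans (sum_congr rfl fun t _ => ?_) (h1.trans (sum_congr rfl fun t _ => ?_))
  all_goals
    by_cases h2 : r (t.ep d) (t.ep !d)
    · rw [if_pos h2, if_pos (show r (if d then t.z else t.x) (if (!d) then t.z else t.x) from h2)]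
      rfl
    · rw [if_neg h2,
        if_neg (show ¬r (if d then t.z else t.x) (if (!d) then t.z else t.x) from h2), mul_zero]

theorem R_pot (h : S.WF p k eb) (hW : S.Wt 1) {μ : Bool → ℕ → ℝ} (hμ : S.Pot μ) :
    (S.R p).Pot μ := fun d v =>
  ⟨(hμ d v).1, (hμ d v).2.trans
    (congrArg (S.al d v + ·) (ir1_sum_ep h hW d (fun a _ => a = v) (μ d)).symm)⟩

theorem ir1_ldC (h : S.WF p k eb) (hW : S.Wt 1) (d : Bool) (v : ℕ) :
    (S.R p).ldC d v = S.ldC d v := by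
  have h1 := ir1_sum_ep h hW d (fun a b => a = v ∧ S.fl d b = false) fun _ => 1
  simp only [mul_one] at h1
  exact h1

theorem R_LD0 (h : S.WF p k eb) (hW : S.Wt 1) {d : Bool} (hL : S.LD0 d B) : (S.R p).LD0 d B :=
  ⟨hL.1, fun v => (ir1_ldC h hW d v).trans_le (hL.2 v)⟩

/-- The weights of the groups after `R`. -/
theorem ir1_Wg (h : S.WF p k eb) (hW : S.Wt 1) (x z E : ℕ) : (S.R p).Wg x z E =
    ∑ i ∈ range (p.c + 1) with i ≤ E, 2 ^ i * S.Wg x z (E - i) * p.chi i (S.Wg x z (E - i)) := by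
  have h1 := ir1_sum_E h hW fun a b e => if a = x ∧ b = z ∧ e = E then 1 else 0
  simp only [mul_ite, mul_one, mul_zero] at h1
  rw [Sys.Wg, sum_filter, h1, sum_comm, mul_sum, sum_filter]
  refine sum_congr rfl fun i _ => ?_
  rw [← sum_filter]
  split_ifs with hi
  · have h3 : (S.T.filter fun a => a.x = x ∧ a.z = z ∧ a.k.E + i = E) =
        S.T.filter fun a => a.x = x ∧ a.z = z ∧ a.k.E = E - i :=
      filter_congr fun a _ => and_congr Iff.rfl (and_congr Iff.rfl (by omega))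
    have h4 : (2 : ℝ) ^ E = 2 ^ i * 2 ^ (E - i) := by rw [← pow_add, Nat.add_sub_cancel' hi]
    rw [h3, sum_congr rfl (g := fun a => S.ms a * p.chi i (S.Wg x z (E - i)))
      fun a ha => by rw [(mem_filter.1 ha).2.1, (mem_filter.1 ha).2.2.1,
        (mem_filter.1 ha).2.2.2], ← sum_mul, h4]
    nth_rw 2 [Sys.Wg]
    ring
  · refine mul_eq_zero_of_right _ (sum_eq_zero fun a ha => absurd ?_ hi)
    rw [← (mem_filter.1 ha).2.2.2]
    exact Nat.le_add_left _ _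

theorem ir1_Wg_le (h : S.WF p k eb) (hW : S.Wt 1) (x z E : ℕ) : (S.R p).Wg x z E ≤ p.Om := by
  rw [ir1_Wg h hW]
  refine (sum_le_card_nsmul _ _ 2 fun i hi => ir1_chi_le
    (Nat.le_of_lt_succ (mem_range.1 (mem_filter.1 hi).1)) (Wg_nonneg h _ _ _)).trans ?_
  have h1 : (((range (p.c + 1)).filter fun i => i ≤ E).card : ℝ) ≤ (p.c + 1 : ℕ) :=
    Nat.cast_le.2 ((card_filter_le _ _).trans (card_range _).le)
  rw [nsmul_eq_mul, Par.Om]
  push_cast at h1 ⊢
  linarith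

theorem ir1_le_Wg (h : S.WF p k eb) {t : Tm} (ht : t ∈ S.T) :
    S.om t ≤ 2 ^ (t.k.h - t.k.D) * S.Wg t.x t.z t.k.E := by
  have h1 : S.ms t ≤ ∑ a ∈ S.T with a.x = t.x ∧ a.z = t.z ∧ a.k.E = t.k.E, S.ms a :=
    single_le_sum (fun a ha => ir1_ms_nonneg h (mem_filter.1 ha).1)
      (mem_filter.2 ⟨ht, rfl, rfl, rfl⟩)
  have h2 : S.om t = 2 ^ (t.k.h - t.k.D) * (2 ^ t.k.E * S.ms t) := by
    rw [Sys.ms, Tm.I, pow_add]
    field_simp
  rw [h2, Sys.Wg]
  gcongr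

theorem ir1_chP_inj {t t' : Tm} {s s' : ℕ} (hs : s ≤ p.c) (h : p.chP t s = p.chP t' s')
    (h' : p.sp t s = p.sp t' s') : t = t' := by
  have e1 := congrArg (fun a : Tm => a.k.dbl) h
  have e2 := congrArg (fun a : Tm => a.k.E) h
  have e3 := congrArg (fun a : Tm => a.k.D) h
  have e4 := congrArg (fun a : Tm => a.k.h) h
  have e5 := ir1_sp_le t hs
  have e6 := congrArg Tm.x h
  have e7 := congrArg Tm.z h
  have e8 := congrArg Tm.y h
  have e9 := congrArg (fun a : Tm => a.k.V) h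
  have e10 := congrArg (fun a : Tm => a.k.s0) h
  have e11 := congrArg (fun a : Tm => a.k.hv) h
  have e0 : t.k.dbl = t'.k.dbl := e1
  simp only [Par.chP, ← e0, ← h'] at e2 e3 e4
  exact Tm.ext e6 e7 e8 (Key.ext (by omega) (by omega) (by omega) e9 e10 e11 e0)

theorem ir1_one_le (h : S.WF p k eb) (hW : S.Wt 1) {t : Tm} (ht : t ∈ S.T) (σ : ℕ) :
    ∑ s ∈ range (p.c + 1) with p.sp t s = σ,
      2 ^ p.sp t s * (S.om t * p.chi s (S.om t)) * p.chi p.c (S.Wg t.x t.z t.k.E) ≤ 2 := by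
  have h0 := h.om_nonneg t ht
  have h1 := chi_nonneg (p := p) p.c (Wg_nonneg h t.x t.z t.k.E)
  have h2 := chi_le_one (p := p) p.c (S.Wg t.x t.z t.k.E)
  by_cases hσ : σ = p.c - (t.k.h - t.k.D)
  · have h3 : 2 ^ σ * S.om t * p.chi p.c (S.Wg t.x t.z t.k.E) ≤ 2 := by
      by_cases h4 : p.c ≤ t.k.h - t.k.D
      · rw [hσ, Nat.sub_eq_zero_of_le h4, pow_zero, one_mul]
        exact (mul_le_one₀ (hW.1 t ht) h1 h2).trans one_le_two
      · refine le_trans (mul_le_mul_of_nonneg_right ?_ h1)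
          (ir1_chi_le le_rfl (Wg_nonneg h t.x t.z t.k.E))
        have h5 : (2 : ℝ) ^ p.c = 2 ^ σ * 2 ^ (t.k.h - t.k.D) := by
          rw [← pow_add, hσ, Nat.sub_add_cancel (not_le.1 h4).le]
        rw [h5, mul_assoc]
        exact mul_le_mul_of_nonneg_left (ir1_le_Wg h ht) (by positivity)
    refine le_trans ?_ h3
    rw [sum_congr rfl (g := fun s => 2 ^ σ * S.om t * p.chi p.c (S.Wg t.x t.z t.k.E) *
      p.chi s (S.om t)) fun s hs => by rw [(mem_filter.1 hs).2]; ring, ← mul_sum]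
    refine mul_le_of_le_one_right (by positivity) ?_
    rw [← sum_chi (p := p) (hW.1 t ht)]
    exact sum_le_sum_of_subset_of_nonneg (filter_subset _ _) fun s _ _ => chi_nonneg s h0
  · have h3 : ∀ s, p.sp t s = σ → s = σ := fun s hs => by
      rw [Par.sp] at hs
      omega
    refine (sum_le_card_nsmul _ _ 2 fun s hs => ?_).trans ?_
    · obtain ⟨h4, h5⟩ := mem_filter.1 hs
      rw [h5, ← h3 s h5, ← mul_assoc]
      exact (mul_le_of_le_one_right (mul_nonneg (by positivity) (chi_nonneg s h0)) h2).trans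
        (ir1_chi_le (Nat.le_of_lt_succ (mem_range.1 h4)) h0)
    · have h4 : (((range (p.c + 1)).filter fun s => p.sp t s = σ).card : ℝ) ≤ (1 : ℕ) :=
        Nat.cast_le.2 (card_le_one.2 fun a ha b hb =>
          (h3 a (mem_filter.1 ha).2).trans (h3 b (mem_filter.1 hb).2).symm)
      rw [nsmul_eq_mul]
      push_cast at h4
      linarith

theorem ir1_B_le (h : S.WF p k eb) (hW : S.Wt 1) (t : Tm) :
    ∑ a ∈ S.T ×ˢ range (p.c + 1) with p.chP a.1 a.2 = t, 2 ^ p.sp a.1 a.2 *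
      (S.om a.1 * p.chi a.2 (S.om a.1)) * p.chi p.c (S.Wg a.1.x a.1.z a.1.k.E) ≤ p.Om := by
  have h0 : ∀ a ∈ (S.T ×ˢ range (p.c + 1)).filter fun a => p.chP a.1 a.2 = t, a.2 ≤ p.c :=
    fun a ha => Nat.le_of_lt_succ (mem_range.1 (mem_product.1 (mem_filter.1 ha).1).2)
  rw [← sum_fiberwise_of_maps_to (t := range (p.c + 1)) (g := fun a : Tm × ℕ => p.sp a.1 a.2)
    fun a ha => mem_range.2 (Nat.lt_succ_of_le (ir1_sp_le _ (h0 a ha)))]
  refine (sum_le_card_nsmul _ _ 2 fun σ _ => ?_).trans (le_of_eq ?_)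
  · rcases eq_empty_or_nonempty (((S.T ×ˢ range (p.c + 1)).filter
      fun a => p.chP a.1 a.2 = t).filter fun a => p.sp a.1 a.2 = σ) with h1 | ⟨b, hb⟩
    · rw [h1, sum_empty]
      exact zero_le_two
    · obtain ⟨h1, h2⟩ := mem_filter.1 hb
      have h3 := (mem_product.1 (mem_filter.1 h1).1).1
      refine le_trans ?_ (ir1_one_le h hW h3 σ)
      rw [← sum_singleton (fun u => ∑ s ∈ range (p.c + 1) with p.sp b.1 s = σ, 2 ^ p.sp u s *
        (S.om u * p.chi s (S.om u)) * p.chi p.c (S.Wg u.x u.z u.k.E)) b.1, ← sum_product']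
      refine sum_le_sum_of_subset_of_nonneg (fun a ha => ?_) fun a ha _ => ir1_B_nonneg h ?_
      · obtain ⟨h4, h5⟩ := mem_filter.1 ha
        have h6 : a.1 = b.1 := ir1_chP_inj (h0 a h4)
          ((mem_filter.1 h4).2.trans (mem_filter.1 h1).2.symm) (h5.trans h2.symm)
        exact mem_product.2 ⟨mem_singleton.2 h6,
          mem_filter.2 ⟨(mem_product.1 (mem_filter.1 h4).1).2, h6 ▸ h5⟩⟩
      · rw [mem_singleton.1 (mem_product.1 ha).1]
        exact h3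
  · rw [card_range, nsmul_eq_mul, Par.Om]
    push_cast
    ring

set_option linter.unusedVariables false in
theorem R_Wt (h : S.WF p k eb) (hc : 1 ≤ p.c) (hW : S.Wt 1) : (S.R p).Wt p.Om := by
  refine ⟨fun t ht => ?_, ir1_Wg_le h hW⟩
  cases hd : t.k.dbl
  · have h1 := ir1_le_Wg (R_wf h) ht
    have h2 : t.k.h = 0 := congrArg Key.h ((ir1_tm h ht).sing hd).2
    rw [h2, Nat.zero_sub, pow_zero, one_mul] at h1
    exact h1.trans (ir1_Wg_le h hW _ _ _)
  · have h1 := ir1_B_le h hW t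
    rw [← zero_add (∑ a ∈ _, _), ← if_pos (e := ∑ i ∈ range p.c with i ≤ t.k.E,
      2 ^ i * S.Wg t.x t.z (t.k.E - i) * p.chi i (S.Wg t.x t.z (t.k.E - i))) (t := (0 : ℝ)) hd]
      at h1
    exact h1

end Vale.Agent.P313.NL
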