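import Vale.Agent.P313.NL.E1
import Vale.Agent.P313.NL.E2
import Vale.Agent.P313.NL.IR1

/-! The error of the estimate for the weights of groups. -/

namespace Vale.Agent.P313.NL

open Finset
open scoped Classical

variable {p : Par} {F : ℕ → ℕ → ℕ} {k eb lg : ℕ} {S : Sys} {L : Lv} {X : ℝ}

/-- The weight of the active listed terms of a group. -/
noncomputable def e5g (F : ℕ → ℕ → ℕ) (S : Sys) (x z E : ℕ) (e : Env) : ℝ :=
  ∑ t ∈ S.T with (t.x = x ∧ t.z = z ∧ t.k.E = E) ∧ act F S.q e t, S.om t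

/-- The error of one term. -/
noncomputable def e5b (p : Par) (S : Sys) (L : Lv) (j : ℕ) (e : Env) (t : Tm) : ℝ :=
  if t ∈ L.N p j e then (if t ∈ S.T then ((L.w j e t : ℝ) / 2 ^ p.P - S.om t) ^ 2 else 1)
  else if 0 < S.om t then 1 else 0

/-- The terms which are usable or active. -/
noncomputable def e5U (p : Par) (F : ℕ → ℕ → ℕ) (S : Sys) (L : Lv) (j : ℕ) (e : Env) :
    Finset Tm := L.N p j e ∪ S.T.filter (act F S.q e)

theorem e5b_nonneg (j : ℕ) (e : Env) (t : Tm) : 0 ≤ e5b p S L j e t := by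
  unfold e5b
  split_ifs <;> positivity

theorem e5_badT_nonneg (j : ℕ) (e : Env) (Y : Finset Tm) : 0 ≤ badT p F S L j e Y := by
  unfold badT
  refine add_nonneg (sum_nonneg fun t _ => ?_) (Nat.cast_nonneg _)
  split_ifs <;> positivity

theorem e5_badA_nonneg (j : ℕ) (e : Env) : 0 ≤ badA p S L j e :=
  sum_nonneg fun _ _ => sum_nonneg fun _ _ => sq_nonneg _

theorem e5_sum_b (j : ℕ) (e : Env) :
    ∑ t ∈ e5U p F S L j e, e5b p S L j e t ≤ badT p F S L j e (L.N p j e) := by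
  have hU : e5U p F S L j e = L.N p j e ∪ (S.T.filter (act F S.q e) \ L.N p j e) := by
    rw [e5U, union_sdiff_self_eq_union]
  rw [hU, sum_union disjoint_sdiff, badT]
  refine add_le_add (le_of_eq (sum_congr rfl fun t ht => by rw [e5b, if_pos ht])) (le_of_eq ?_)
  rw [card_filter, Nat.cast_sum, sdiff_eq_filter, filter_filter, sum_filter]
  refine sum_congr rfl fun t _ => ?_
  by_cases h1 : t ∈ L.N p j e <;> by_cases h2 : act F S.q e t <;> by_cases h3 : 0 < S.om t <;>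
    simp [e5b, h1, h2, h3]

theorem e5_card_U (hF : Few p F S) (j : ℕ) {e : Env} (hok : e.Ok p.m) (v : ℕ) :
    ((e5U p F S L j e).filter fun t => t.x = v).card ≤ 2 * p.Kp := by
  have h1 := L.card_N_le (p := p) j e false v
  have h2 := hF e hok false v
  have h3 : (e5U p F S L j e).filter (fun t => t.x = v) ⊆
      ((L.N p j e).filter fun t => t.ep false = v) ∪
        S.T.filter fun t => t.ep false = v ∧ act F S.q e t := by
    intro t ht
    obtain ⟨h, hx⟩ := mem_filter.1 ht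
    rcases mem_union.1 h with h | h
    · exact mem_union_left _ (mem_filter.2 ⟨h, hx⟩)
    · exact mem_union_right _ (mem_filter.2 ⟨(mem_filter.1 h).1, hx, (mem_filter.1 h).2⟩)
  have := (card_le_card h3).trans (card_union_le _ _)
  omega

/-- The error of the weight of a group in one environment. -/
theorem e5_grp (hS : S.WF p k eb) (hW : S.Wt 1) (hL : L.WF p F S.q eb (2 ^ p.P)) (hF : Few p F S)
    (j : ℕ) {e : Env} (hok : e.Ok p.m) (x z E : ℕ) :
    ((L.fW p x z E j e : ℝ) / 2 ^ p.P - e5g F S x z E e) ^ 2 ≤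
      2 * p.Kp * ∑ t ∈ e5U p F S L j e with t.x = x, e5b p S L j e t := by
  set U := (e5U p F S L j e).filter fun t => t.x = x with hU
  let δ : Tm → ℝ := fun t => if t.x = x ∧ t.z = z ∧ t.k.E = E then
    (if t ∈ L.N p j e then (L.w j e t : ℝ) / 2 ^ p.P else 0) -
      (if t ∈ S.T ∧ act F S.q e t then S.om t else 0) else 0
  have hZ : (0 : ℝ) < 2 ^ p.P := by positivity
  have h1 : (L.fW p x z E j e : ℝ) / 2 ^ p.P = ∑ t ∈ U, if t.x = x ∧ t.z = z ∧ t.k.E = E then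
      (if t ∈ L.N p j e then (L.w j e t : ℝ) / 2 ^ p.P else 0) else 0 := by
    rw [Lv.fW, Nat.cast_sum, sum_div, ← sum_filter, ← sum_filter]
    refine sum_congr ?_ fun _ _ => rfl
    ext t
    simp only [hU, e5U, mem_filter, mem_union]
    tauto
  have h2 : e5g F S x z E e = ∑ t ∈ U, if t.x = x ∧ t.z = z ∧ t.k.E = E then
      (if t ∈ S.T ∧ act F S.q e t then S.om t else 0) else 0 := by
    rw [e5g, ← sum_filter, ← sum_filter]
    refine sum_congr ?_ fun _ _ => rfl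
    ext t
    simp only [hU, e5U, mem_filter, mem_union]
    tauto
  have h3 : (L.fW p x z E j e : ℝ) / 2 ^ p.P - e5g F S x z E e = ∑ t ∈ U, δ t := by
    rw [h1, h2, ← sum_sub_distrib]
    refine sum_congr rfl fun t _ => ?_
    simp only [δ]
    split_ifs <;> simp
  have h4 : ∀ t ∈ U, δ t ^ 2 ≤ e5b p S L j e t := by
    intro t ht
    simp only [δ]
    by_cases hg : t.x = x ∧ t.z = z ∧ t.k.E = E
    swap
    · rw [if_neg hg]
      simpa using e5b_nonneg j e t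
    rw [if_pos hg, e5b]
    by_cases hN : t ∈ L.N p j e
    · have ha := hL.act j e t (L.N_subset j e hN)
      have hw := hL.w_le j e t (L.N_subset j e hN)
      rw [if_pos hN, if_pos hN]
      by_cases hT : t ∈ S.T
      · rw [if_pos ⟨hT, ha⟩, if_pos hT]
      · rw [if_neg (fun h => hT h.1), if_neg hT, sub_zero]
        have hw' : (L.w j e t : ℝ) / 2 ^ p.P ≤ 1 := by
          rw [div_le_one hZ]
          exact_mod_cast hw
        have hw0 : 0 ≤ (L.w j e t : ℝ) / 2 ^ p.P := by positivity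
        nlinarith
    · rw [if_neg hN, if_neg hN]
      by_cases hT : t ∈ S.T ∧ act F S.q e t
      · rw [if_pos hT]
        have a0 := hS.om_nonneg t hT.1
        have a1 := hW.1 t hT.1
        split_ifs with h0
        · nlinarith
        · have : S.om t = 0 := le_antisymm (not_lt.1 h0) a0
          simp [this]
      · rw [if_neg hT]
        split_ifs <;> simp
  rw [h3]
  have h5 : (U.card : ℝ) ≤ 2 * p.Kp := by exact_mod_cast e5_card_U hF j hok x
  calc (∑ t ∈ U, δ t) ^ 2 ≤ U.card * ∑ t ∈ U, δ t ^ 2 := sq_sum_le_card_mul_sum_sq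
    _ ≤ 2 * p.Kp * ∑ t ∈ U, e5b p S L j e t :=
      mul_le_mul h5 (sum_le_sum h4) (sum_nonneg fun _ _ => sq_nonneg _) (by positivity)

theorem e5_swap {A U : Finset Tm} {b : Tm → ℝ} (hb : ∀ t, 0 ≤ b t) {K : ℕ}
    (hA : ∀ v, (A.filter fun t => t.x = v).card ≤ K) :
    ∑ t ∈ A, ∑ t' ∈ U with t'.x = t.x, b t' ≤ K * ∑ t' ∈ U, b t' := by
  simp_rw [sum_filter]
  rw [sum_comm, mul_sum]
  refine sum_le_sum fun t' _ => ?_
  rw [← sum_filter, sum_const, nsmul_eq_mul]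
  refine mul_le_mul_of_nonneg_right ?_ (hb t')
  have : (A.filter fun t => t'.x = t.x) = A.filter fun t => t.x = t'.x :=
    filter_congr fun _ _ => eq_comm
  rw [this]
  exact_mod_cast hA t'.x

theorem e5_pow (p : Par) : 2 ^ p.mh * 2 ^ p.mh = 2 ^ p.m := by
  rw [Par.m, two_mul, pow_add]

theorem e5_okV {e : Env} (hok : e.Ok p.m) {δb δc a : ℕ} (hb : δb < 2 ^ p.m) (hc : δc < 2 ^ p.m)
    (ha : a < 2 ^ p.mh * 2 ^ p.mh) : (φV e δb δc a).Ok p.m := by
  rw [e5_pow] at ha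
  exact hok.sh ha (Nat.xor_lt_two_pow ha hb) hc

theorem e5_okG {e : Env} (hok : e.Ok p.m) {δb δc a : ℕ} (hb : δb < 2 ^ p.m) (hc : δc < 2 ^ p.m)
    (ha : a < 2 ^ p.mh * 2 ^ p.mh) : (φG e δb δc a).Ok p.m := by
  rw [e5_pow] at ha
  exact hok.sh ha (Nat.xor_lt_two_pow ha hb) (Nat.xor_lt_two_pow ha hc)

theorem e5g_nonneg (hS : S.WF p k eb) (x z E : ℕ) (e : Env) : 0 ≤ e5g F S x z E e :=
  sum_nonneg fun t ht => hS.om_nonneg t (mem_filter.1 ht).1

theorem e5g_le (hW : S.Wt 1) (hF : Few p F S) (x z E : ℕ) {e : Env} (hok : e.Ok p.m) :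
    e5g F S x z E e ≤ p.Kp := by
  have h2 := hF e hok false x
  have h3 : (S.T.filter fun t => (t.x = x ∧ t.z = z ∧ t.k.E = E) ∧ act F S.q e t) ⊆
      S.T.filter fun t => t.ep false = x ∧ act F S.q e t := by
    intro t ht
    obtain ⟨a1, a2, a3⟩ := mem_filter.1 ht
    exact mem_filter.2 ⟨a1, a2.1, a3⟩
  have h4 := (card_le_card h3).trans h2
  calc e5g F S x z E e ≤ _ := sum_le_card_nsmul _ _ 1 fun t ht => hW.1 t (mem_filter.1 ht).1
    _ ≤ p.Kp := by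
      rw [nsmul_eq_mul, mul_one]
      exact_mod_cast h4

/-- The mean of the active weight is the weight of the group. -/
theorem e5_J (hS : S.WF p k eb) (he : eb ≤ p.m) (e : Env) (δb δc a0 : ℕ) {t : Tm}
    (ha : act F S.q (φG e δb δc a0) t) :
    Mix.J (2 ^ p.mh) (fun s => e5g F S t.x t.z t.k.E (φV e δb δc s)) = S.Wg t.x t.z t.k.E := by
  have hn : (0 : ℝ) < (2 ^ p.mh * 2 ^ p.mh : ℕ) := by positivity
  rw [Mix.J, div_eq_iff hn.ne', Sys.Wg, mul_sum, sum_mul]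
  simp only [e5g]
  simp_rw [← filter_filter, sum_filter (act F S.q _)]
  rw [sum_comm]
  refine sum_congr rfl fun t' ht' => ?_
  have hE := (mem_filter.1 ht').2
  have hz := (mem_filter.1 (mem_filter.1 ht').1).2
  have hx := (mem_filter.1 (mem_filter.1 (mem_filter.1 ht').1).1).2
  have hT := (mem_filter.1 (mem_filter.1 (mem_filter.1 ht').1).1).1
  have hc := card_act_φV (F := F) (e := e) (hS.tm t' hT) he δb δc a0
    (by rw [hx, hz, hE]; exact ha.1)
  rw [← sum_filter, sum_const, nsmul_eq_mul, hc, Sys.ms, Tm.I, pow_add, hE]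
  field_simp

/-- The estimate for the weight of a group on one register. -/
theorem e5_tel (j : ℕ) (e : Env) (δb δc a x z E : ℕ) :
    L.WE p j (φG e δb δc a) x z E = telR (2 ^ p.mh) (fun l => ∀ l' ≤ l, 1 ≤ l' →
      ∃ w < 4 ^ (Mix.t0 * l'), (fun l s => ∃ t ∈ L.N p (j - l) (φG e δb δc s), t.x = x ∧ t.z = z) l'
        (Mix.walk (2 ^ p.mh) (Mix.t0 * l') w a))
      (fun j s => L.fW p x z E j (φV e δb δc s)) j a := by
  rw [Lv.WE, v0_φG, tel_eq_telR _ _ _ (fun t w => wkAB_φV δb δc t w a)]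
  simp only [Lv.hd, wkG_φG]

/-- The error for fixed differences. -/
theorem e5_fix (hS : S.WF p k eb) (hW : S.Wt 1) (hL : L.WF p F S.q eb (2 ^ p.P)) (he : eb ≤ p.m)
    (hF : Few p F S) (j : ℕ) {e : Env} (hok : e.Ok p.m) {δb δc : ℕ} (hb : δb < 2 ^ p.m)
    (hc : δc < 2 ^ p.m) :
    ∑ a ∈ range (2 ^ p.mh * 2 ^ p.mh), ∑ t ∈ S.T with 0 < S.om t ∧ act F S.q (φG e δb δc a) t,
      ((L.WE p j (φG e δb δc a) t.x t.z t.k.E : ℝ) / 2 ^ p.P - S.Wg t.x t.z t.k.E) ^ 2 ≤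
    64 * (j + 3) * ((∑ l ∈ range (j + 1), (1 / 4) ^ l * (2 * p.Kp * p.Kp *
        ∑ s ∈ range (2 ^ p.mh * 2 ^ p.mh),
          badT p F S L (j - l) (φV e δb δc s) (L.N p (j - l) (φV e δb δc s)))) +
      p.Kp * 2 ^ S.q * ((2 ^ p.mh * 2 ^ p.mh : ℕ) *
        ((1 / 4) ^ j * (p.Kp : ℝ) ^ 2 + ((j + 1) / 2 ^ p.P) ^ 2)) +
      (p.Kp : ℝ) ^ 2 * ∑ l ∈ range j with 1 ≤ l, (1 / 4) ^ l *
        ∑ s ∈ range (2 ^ p.mh * 2 ^ p.mh),
          badT p F S L (j - l) (φG e δb δc s) (L.N p (j - l) (φG e δb δc s))) := by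
  set n := 2 ^ p.mh with hn
  have hn0 : 0 < n := by positivity
  set A := S.T.filter fun t => 0 < S.om t ∧ act F S.q (φG e δb δc 0) t with hA
  have hAa : ∀ a, (S.T.filter fun t => 0 < S.om t ∧ act F S.q (φG e δb δc a) t) = A := fun a =>
    filter_congr fun t _ => by rw [act_φG δb δc a 0]
  have hAx : ∀ v, (A.filter fun t => t.x = v).card ≤ p.Kp := by
    intro v
    refine (card_le_card ?_).trans (hF _ (e5_okG hok hb hc (Nat.mul_pos hn0 hn0)) false v)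
    intro t ht
    obtain ⟨a1, a2⟩ := mem_filter.1 ht
    obtain ⟨a3, -, a4⟩ := mem_filter.1 a1
    exact mem_filter.2 ⟨a3, a2, a4⟩
  have hAc : (A.card : ℝ) ≤ p.Kp * 2 ^ S.q := by
    have := card_le_mul_card_image_of_maps_to (s := A) (t := range (2 ^ S.q)) (f := fun t => t.x)
      (fun t ht => mem_range.2 (hS.tm t (mem_filter.1 ht).1).x_lt) p.Kp (fun v _ => hAx v)
    rw [card_range] at this
    exact_mod_cast this
  simp_rw [hAa]
  rw [sum_comm]
  have key : ∀ t ∈ A, ∑ a ∈ range (n * n),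
      ((L.WE p j (φG e δb δc a) t.x t.z t.k.E : ℝ) / 2 ^ p.P - S.Wg t.x t.z t.k.E) ^ 2 ≤
      64 * (j + 3) * ((∑ l ∈ range (j + 1), (1 / 4) ^ l * ∑ s ∈ range (n * n), (2 * p.Kp *
          ∑ t' ∈ e5U p F S L (j - l) (φV e δb δc s) with t'.x = t.x,
            e5b p S L (j - l) (φV e δb δc s) t')) +
        (n * n : ℕ) * ((1 / 4) ^ j * (p.Kp : ℝ) ^ 2 + ((j + 1) / 2 ^ p.P) ^ 2) +
        (p.Kp : ℝ) ^ 2 * ∑ l ∈ range j with 1 ≤ l, (1 / 4) ^ l * ∑ s ∈ range (n * n),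
          if t ∉ L.N p (j - l) (φG e δb δc s) then (1 : ℝ) else 0) := by
    intro t ht
    obtain ⟨hT, h0, ha⟩ := mem_filter.1 ht
    have h1 := telR_err_stop hn0 (fun j s => L.fW p t.x t.z t.k.E j (φV e δb δc s))
      (fun s => e5g F S t.x t.z t.k.E (φV e δb δc s)) (Z := 2 ^ p.P) (G := p.Kp) (by positivity)
      (fun s _ => e5g_nonneg hS _ _ _ _) (fun s hs => e5g_le hW hF _ _ _ (e5_okV hok hb hc hs))
      (fun l s => ∃ t' ∈ L.N p (j - l) (φG e δb δc s), t'.x = t.x ∧ t'.z = t.z) j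
    rw [e5_J hS he e δb δc 0 ha] at h1
    simp_rw [e5_tel]
    refine h1.trans (mul_le_mul_of_nonneg_left ?_ (by positivity))
    refine add_le_add (add_le_add (sum_le_sum fun l _ => mul_le_mul_of_nonneg_left
      (sum_le_sum fun s hs => e5_grp hS hW hL hF _ (e5_okV hok hb hc (mem_range.1 hs)) _ _ _)
      (by positivity)) le_rfl) (mul_le_mul_of_nonneg_left (sum_le_sum fun l _ =>
        mul_le_mul_of_nonneg_left ?_ (by positivity)) (by positivity))
    rw [card_filter, Nat.cast_sum]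
    refine sum_le_sum fun s _ => ?_
    by_cases hN : t ∈ L.N p (j - l) (φG e δb δc s)
    · rw [if_neg (not_not.2 ⟨t, hN, rfl, rfl⟩)]
      simp [hN]
    · rw [if_pos hN]
      split_ifs <;> simp
  refine (sum_le_sum key).trans ?_
  rw [← mul_sum]
  refine mul_le_mul_of_nonneg_left ?_ (by positivity)
  rw [sum_add_distrib, sum_add_distrib]
  refine add_le_add (add_le_add ?_ ?_) ?_
  · rw [sum_comm]
    refine sum_le_sum fun l _ => ?_
    rw [← mul_sum]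
    refine mul_le_mul_of_nonneg_left ?_ (by positivity)
    rw [sum_comm, mul_sum]
    refine sum_le_sum fun s _ => ?_
    rw [← mul_sum, mul_assoc (2 * (p.Kp : ℝ))]
    refine mul_le_mul_of_nonneg_left ?_ (by positivity)
    exact (e5_swap (e5b_nonneg _ _) hAx).trans
      (mul_le_mul_of_nonneg_left (e5_sum_b _ _) (by positivity))
  · rw [sum_const, nsmul_eq_mul]
    exact mul_le_mul_of_nonneg_right hAc (by positivity)
  · rw [← mul_sum]
    refine mul_le_mul_of_nonneg_left ?_ (by positivity)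
    rw [sum_comm]
    refine sum_le_sum fun l _ => ?_
    rw [← mul_sum]
    refine mul_le_mul_of_nonneg_left ?_ (by positivity)
    rw [sum_comm]
    refine sum_le_sum fun s _ => ?_
    rw [badT, ← hAa s, ← sum_filter, sum_const, nsmul_eq_mul, mul_one, filter_filter]
    simp_rw [and_assoc]
    refine le_add_of_nonneg_left (sum_nonneg fun t _ => ?_)
    split_ifs <;> positivity

theorem e5_geo (j : ℕ) {X : ℝ} (hX : 0 ≤ X) {I : Finset ℕ} (hI : I ⊆ range (j + 1)) :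
    ∑ l ∈ I, (1 / 4 : ℝ) ^ l * (X / 2 ^ (j - l)) ≤ 2 * (X / 2 ^ j) := by
  have h1 : ∀ l ∈ range (j + 1),
      (1 / 4 : ℝ) ^ l * (X / 2 ^ (j - l)) = X / 2 ^ j * (1 / 2) ^ l := by
    intro l hl
    obtain ⟨i, rfl⟩ := Nat.exists_eq_add_of_le (Nat.lt_succ_iff.1 (mem_range.1 hl))
    have h4 : (1 / 4 : ℝ) ^ l = (1 / 2) ^ l * (1 / 2) ^ l := by
      rw [← mul_pow]
      norm_num
    rw [Nat.add_sub_cancel_left, h4, pow_add, one_div_pow]
    field_simp
  calc _ ≤ ∑ l ∈ range (j + 1), (1 / 4 : ℝ) ^ l * (X / 2 ^ (j - l)) :=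
        sum_le_sum_of_subset_of_nonneg hI fun _ _ _ => by positivity
    _ = X / 2 ^ j * ∑ l ∈ range (j + 1), (1 / 2 : ℝ) ^ l := by
        rw [sum_congr rfl h1, mul_sum]
    _ ≤ X / 2 ^ j * 2 := mul_le_mul_of_nonneg_left (sum_geometric_two_le _) (by positivity)
    _ = _ := by ring

theorem e5_avg (h : Err p F S L X) {j : ℕ} (hj : j ≤ p.P) {e : Env} (hok : e.Ok p.m) :
    avg p.m e (fun e' => badT p F S L j e' (L.N p j e')) ≤ X / 2 ^ j :=
  (avg_mono hok fun e' _ => le_add_of_nonneg_right (e5_badA_nonneg j e')).trans (h j hj e hok)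

theorem WE_err (hp : p.Small lg) (hS : S.WF p k eb) (hW : S.Wt 1)
    (hL : L.WF p F S.q eb (2 ^ p.P)) (hq : S.q ≤ p.m) (he : eb ≤ p.m) (hF : Few p F S)
    (hX : 2 ^ p.m ≤ X) (h : Err p F S L X) {j : ℕ} (hj : j ≤ p.P) {e : Env} (hok : e.Ok p.m) :
    avg p.m e (fun e' => ∑ t ∈ S.T with 0 < S.om t ∧ act F S.q e' t,
      ((L.WE p j e' t.x t.z t.k.E : ℝ) / 2 ^ p.P - S.Wg t.x t.z t.k.E) ^ 2) ≤
      2 ^ (20 * lg) * X / 2 ^ j := by
  have hM : (0 : ℝ) < 2 ^ (3 * p.m) := by positivity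
  have hX0 : 0 ≤ X := le_trans (by positivity) hX
  set K : ℝ := (p.Kp : ℝ) with hK
  have hK0 : 0 ≤ K := Nat.cast_nonneg _
  set Y : ℝ := X / 2 ^ j with hY
  have hY0 : 0 ≤ Y := by positivity
  have hV : ∀ l, ∑ δb ∈ range (2 ^ p.m), ∑ δc ∈ range (2 ^ p.m),
      ∑ s ∈ range (2 ^ p.mh * 2 ^ p.mh),
        badT p F S L (j - l) (φV e δb δc s) (L.N p (j - l) (φV e δb δc s)) ≤
      X / 2 ^ (j - l) * 2 ^ (3 * p.m) := by
    intro l
    have := e5_avg h ((Nat.sub_le j l).trans hj) hok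
    rwa [avg_φV, div_le_iff₀ hM] at this
  have hG : ∀ l, ∑ δb ∈ range (2 ^ p.m), ∑ δc ∈ range (2 ^ p.m),
      ∑ s ∈ range (2 ^ p.mh * 2 ^ p.mh),
        badT p F S L (j - l) (φG e δb δc s) (L.N p (j - l) (φG e δb δc s)) ≤
      X / 2 ^ (j - l) * 2 ^ (3 * p.m) := by
    intro l
    have := e5_avg h ((Nat.sub_le j l).trans hj) hok
    rwa [avg_φG, div_le_iff₀ hM] at this
  have hsum : ∀ (I : Finset ℕ) (c : ℝ) (b : ℕ → ℕ → ℕ → ℝ), I ⊆ range (j + 1) → 0 ≤ c →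
      (∀ l, ∑ δb ∈ range (2 ^ p.m), ∑ δc ∈ range (2 ^ p.m), b l δb δc ≤
        X / 2 ^ (j - l) * 2 ^ (3 * p.m)) →
      ∑ δb ∈ range (2 ^ p.m), ∑ δc ∈ range (2 ^ p.m), ∑ l ∈ I, (1 / 4 : ℝ) ^ l * (c * b l δb δc) ≤
        c * (2 * Y) * 2 ^ (3 * p.m) := by
    intro I c b hI hc hb
    calc _ = ∑ l ∈ I, ∑ δb ∈ range (2 ^ p.m), ∑ δc ∈ range (2 ^ p.m),
          (1 / 4 : ℝ) ^ l * (c * b l δb δc) := by
          rw [sum_comm (s := I)]
          exact sum_congr rfl fun _ _ => sum_comm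
      _ = ∑ l ∈ I, (1 / 4 : ℝ) ^ l * (c * ∑ δb ∈ range (2 ^ p.m), ∑ δc ∈ range (2 ^ p.m),
          b l δb δc) := by simp_rw [mul_sum]
      _ ≤ ∑ l ∈ I, (1 / 4 : ℝ) ^ l * (c * (X / 2 ^ (j - l) * 2 ^ (3 * p.m))) :=
          sum_le_sum fun l _ => mul_le_mul_of_nonneg_left
            (mul_le_mul_of_nonneg_left (hb l) hc) (by positivity)
      _ = c * (∑ l ∈ I, (1 / 4 : ℝ) ^ l * (X / 2 ^ (j - l))) * 2 ^ (3 * p.m) := by
          rw [mul_sum, sum_mul]
          exact sum_congr rfl fun _ _ => by ring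
      _ ≤ _ := mul_le_mul_of_nonneg_right
          (mul_le_mul_of_nonneg_left (e5_geo j hX0 hI) hc) hM.le
  set T : ℝ := 2 ^ lg with hT
  have hlg : 4 ≤ lg := by have := hp.c_le; have := hp.c_pos; omega
  have hT16 : 16 ≤ T := by
    have : (2 : ℝ) ^ 4 ≤ 2 ^ lg := pow_le_pow_right₀ (by norm_num) hlg
    rw [hT]
    linarith
  have hKT : K ≤ T := by rw [hK, hT]; exact_mod_cast hp.Kp_le
  have hjT : (j : ℝ) + 1 ≤ T := by
    have : j + 1 ≤ 2 ^ lg := by have := hp.P_le; omega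
    rw [hT]
    exact_mod_cast this
  have hc : 2 ^ S.q * ((1 / 4) ^ j * K ^ 2 + ((j + 1) / 2 ^ p.P) ^ 2) ≤ 2 * T ^ 2 * Y := by
    have a1 : (2 : ℝ) ^ S.q ≤ X := le_trans (pow_le_pow_right₀ (by norm_num) hq) hX
    have a2 : (1 / 4 : ℝ) ^ j ≤ 1 / 2 ^ j := by
      rw [← one_div_pow]
      exact pow_le_pow_left₀ (by norm_num) (by norm_num) j
    have a3 : (((j : ℝ) + 1) / 2 ^ p.P) ^ 2 ≤ T ^ 2 * (1 / 2 ^ j) := by
      rw [div_pow, mul_one_div]
      refine div_le_div₀ (by positivity) (pow_le_pow_left₀ (by positivity) hjT 2) (by positivity) ?_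
      rw [← pow_mul]
      exact pow_le_pow_right₀ (by norm_num) (by omega)
    have a4 : (1 / 4 : ℝ) ^ j * K ^ 2 ≤ T ^ 2 * (1 / 2 ^ j) := by
      rw [mul_comm]
      exact mul_le_mul (pow_le_pow_left₀ hK0 hKT 2) a2 (by positivity) (by positivity)
    calc _ ≤ X * (T ^ 2 * (1 / 2 ^ j) + T ^ 2 * (1 / 2 ^ j)) :=
          mul_le_mul a1 (add_le_add a4 a3) (by positivity) hX0
      _ = _ := by rw [hY]; ring
  rw [avg_φG, div_le_iff₀ hM]
  refine (sum_le_sum fun δb hb => sum_le_sum fun δc hc =>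
    e5_fix hS hW hL he hF j hok (mem_range.1 hb) (mem_range.1 hc)).trans ?_
  simp_rw [← mul_sum, sum_add_distrib]
  have b1 := hsum (range (j + 1)) (2 * K * K) _ subset_rfl (by positivity) hV
  have b3 := hsum ((range j).filter fun l => 1 ≤ l) 1 _
    ((filter_subset _ _).trans (range_subset_range.2 (Nat.le_succ j))) zero_le_one hG
  simp only [one_mul] at b3
  have b2 : ∑ _δb ∈ range (2 ^ p.m), ∑ _δc ∈ range (2 ^ p.m), K * 2 ^ S.q *
      ((2 ^ p.mh * 2 ^ p.mh : ℕ) * ((1 / 4) ^ j * K ^ 2 + ((j + 1) / 2 ^ p.P) ^ 2)) ≤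
      K * (2 * T ^ 2 * Y) * 2 ^ (3 * p.m) := by
    rw [sum_const, sum_const, card_range, nsmul_eq_mul, nsmul_eq_mul, e5_pow]
    calc _ = K * (2 ^ S.q * ((1 / 4) ^ j * K ^ 2 + ((j + 1) / 2 ^ p.P) ^ 2)) *
          2 ^ (3 * p.m) := by push_cast; ring
      _ ≤ _ := mul_le_mul_of_nonneg_right (mul_le_mul_of_nonneg_left hc hK0) hM.le
  have b4 : ∑ δb ∈ range (2 ^ p.m), ∑ δc ∈ range (2 ^ p.m), K ^ 2 * ∑ l ∈ range j with 1 ≤ l,
      (1 / 4 : ℝ) ^ l * ∑ s ∈ range (2 ^ p.mh * 2 ^ p.mh),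
        badT p F S L (j - l) (φG e δb δc s) (L.N p (j - l) (φG e δb δc s)) ≤
      K ^ 2 * (2 * Y * 2 ^ (3 * p.m)) := by
    simp_rw [← mul_sum]
    exact mul_le_mul_of_nonneg_left b3 (by positivity)
  have hK2 : K ^ 2 ≤ T ^ 2 := pow_le_pow_left₀ hK0 hKT 2
  have hT0 : 0 ≤ T := by linarith
  have c1 : 2 * K * K * 2 + K * (2 * T ^ 2) + K ^ 2 * 2 ≤ 4 * T ^ 3 := by
    have d1 : K * (2 * T ^ 2) ≤ T * (2 * T ^ 2) := mul_le_mul_of_nonneg_right hKT (by positivity)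
    have d2 : 16 * T ^ 2 ≤ T * T ^ 2 := mul_le_mul_of_nonneg_right hT16 (by positivity)
    nlinarith
  have c2 : 64 * ((j : ℝ) + 3) * (4 * T ^ 3) ≤ 2 ^ (20 * lg) := by
    have d1 : 64 * ((j : ℝ) + 3) * (4 * T ^ 3) ≤ 64 * (2 * T) * (4 * T ^ 3) :=
      mul_le_mul_of_nonneg_right (by linarith) (by positivity)
    have d2 : (16 : ℝ) ^ 16 ≤ T ^ 16 := pow_le_pow_left₀ (by norm_num) hT16 16
    have d3 : (2 : ℝ) ^ (20 * lg) = T ^ 16 * T ^ 4 := by rw [hT, ← pow_add, ← pow_mul, mul_comm]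
    have d4 : 512 * T ^ 4 ≤ T ^ 16 * T ^ 4 :=
      mul_le_mul_of_nonneg_right (le_trans (by norm_num) d2) (by positivity)
    rw [d3]
    nlinarith
  calc _ ≤ 64 * ((j : ℝ) + 3) * (2 * K * K * (2 * Y) * 2 ^ (3 * p.m) +
        K * (2 * T ^ 2 * Y) * 2 ^ (3 * p.m) + K ^ 2 * (2 * Y * 2 ^ (3 * p.m))) :=
        mul_le_mul_of_nonneg_left (add_le_add (add_le_add b1 b2) b4) (by positivity)
    _ = 64 * ((j : ℝ) + 3) * (2 * K * K * 2 + K * (2 * T ^ 2) + K ^ 2 * 2) *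
        (Y * 2 ^ (3 * p.m)) := by ring
    _ ≤ 2 ^ (20 * lg) * (Y * 2 ^ (3 * p.m)) := mul_le_mul_of_nonneg_right
        ((mul_le_mul_of_nonneg_left c1 (by positivity)).trans c2) (by positivity)
    _ = _ := by rw [hY]; ring

end Vale.Agent.P313.NL
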