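import Vale.Agent.P313.NL.E5

/-! The error after `R`. -/

namespace Vale.Agent.P313.NL

open Finset
open scoped Classical

variable {p : Par} {F : ℕ → ℕ → ℕ} {k eb lg : ℕ} {S : Sys} {L : Lv} {X : ℝ}

theorem e6_mem_wit {j : ℕ} {e : Env} {a : ℕ × Tm} : a ∈ L.wit p j e ↔
    a.2.k.D ≤ p.m ∧ a.1 < 2 ^ p.wb ∧ a.2 ∈ L.N p j (p.xc e a.2.k.D a.1) := by
  unfold Lv.wit
  simp only [mem_biUnion, mem_product, mem_range, mem_image, mem_filter]
  constructor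
  · rintro ⟨b, ⟨h1, h2⟩, t, ⟨h3, h4⟩, rfl⟩
    refine ⟨by simp only; omega, h2, ?_⟩
    simp only
    rw [h4]
    exact h3
  · rintro ⟨h1, h2, h3⟩
    exact ⟨(a.2.k.D, a.1), ⟨by simp only; omega, h2⟩, a.2, ⟨h3, rfl⟩, rfl⟩

theorem e6_mem_V {H : Shp} {j : ℕ} {e : Env} {t : Tm} : t ∈ (L.R p F H).V j e ↔
    (∃ a ∈ L.wit p j e, ∃ i < p.c, L.okA p F H j e a i ∧ chA a.2.x a.2.z (a.2.k.E + i) = t) ∨
      ∃ a ∈ L.wit p j e, ∃ s ≤ p.c, L.okP p F H j e a s ∧ p.chP a.2 s = t := by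
  simp only [Lv.R, mem_union, mem_image, mem_filter, mem_product, mem_range]
  constructor
  · rintro (⟨b, ⟨⟨h1, h2⟩, h3⟩, h4⟩ | ⟨b, ⟨⟨h1, h2⟩, h3⟩, h4⟩)
    · exact Or.inl ⟨b.1, h1, b.2, h2, h3, h4⟩
    · exact Or.inr ⟨b.1, h1, b.2, by omega, h3, h4⟩
  · rintro (⟨a, h1, i, h2, h3, h4⟩ | ⟨a, h1, i, h2, h3, h4⟩)
    · exact Or.inl ⟨(a, i), ⟨⟨h1, h2⟩, h3⟩, h4⟩
    · exact Or.inr ⟨(a, i), ⟨⟨h1, by simp only; omega⟩, h3⟩, h4⟩

theorem Lv.WF.R {H : Shp} {wm : ℕ} (h : L.WF p F H.q eb wm) :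
    (L.R p F H).WF p F H.q (eb + p.c) (p.Om * 2 ^ p.P) := by
  refine ⟨fun j e t ht => ?_, fun j e t ht => ?_, fun j e t _ => min_le_left _ _, h.al_le⟩
  · rcases e6_mem_V.1 ht with ⟨a, h1, i, h2, _, rfl⟩ | ⟨a, h1, s, h2, _, rfl⟩
    · exact (h.tm _ _ _ (Lv.N_subset _ _ (e6_mem_wit.1 h1).2.2)).chA h2.le
    · exact (h.tm _ _ _ (Lv.N_subset _ _ (e6_mem_wit.1 h1).2.2)).chP h2
  · rcases e6_mem_V.1 ht with ⟨a, _, i, _, h3, rfl⟩ | ⟨a, _, s, _, h3, rfl⟩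
    · exact h3.2.2
    · exact h3.2.2

/-! ### Fixed point forms -/

theorem e6_psiN (i x : ℕ) : (p.psiN i x : ℝ) / 2 ^ p.P = psi i ((x : ℝ) / 2 ^ p.P) := by
  have hZ : (0 : ℝ) < 2 ^ p.P := by positivity
  unfold Par.psiN psi clamp
  rw [Nat.cast_min, div_eq_iff hZ.ne', min_mul_of_nonneg _ _ hZ.le, max_mul_of_nonneg _ _ hZ.le]
  have h1 : (2 - 2 ^ i * ((x : ℝ) / 2 ^ p.P)) * 2 ^ p.P = 2 * 2 ^ p.P - 2 ^ i * x := by
    field_simp
  rw [h1, one_mul, zero_mul]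
  have h2 : ((2 * 2 ^ p.P - 2 ^ i * x : ℕ) : ℝ) = max 0 (2 * 2 ^ p.P - 2 ^ i * x : ℝ) := by
    rcases le_total (2 ^ i * x) (2 * 2 ^ p.P) with h | h
    · rw [Nat.cast_sub h]
      have : ((2 ^ i * x : ℕ) : ℝ) ≤ ((2 * 2 ^ p.P : ℕ) : ℝ) := Nat.cast_le.2 h
      push_cast at this ⊢
      rw [max_eq_right (by linarith)]
    · rw [Nat.sub_eq_zero_of_le h]
      have : ((2 * 2 ^ p.P : ℕ) : ℝ) ≤ ((2 ^ i * x : ℕ) : ℝ) := Nat.cast_le.2 h
      push_cast at this ⊢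
      rw [max_eq_left (by linarith)]
  rw [h2]
  push_cast
  rfl

theorem e6_chiN (i x : ℕ) : (p.chiN i x : ℝ) / 2 ^ p.P = p.chi i ((x : ℝ) / 2 ^ p.P) := by
  unfold Par.chiN Par.chi
  split_ifs with h
  · have h1 : p.psiN (i + 1) x ≤ p.psiN i x := by
      unfold Par.psiN
      refine min_le_min le_rfl (Nat.sub_le_sub_left ?_ _)
      exact Nat.mul_le_mul_right _ (Nat.pow_le_pow_right (by norm_num) (by omega))
    rw [Nat.cast_sub h1, sub_div, e6_psiN, e6_psiN]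
  · exact e6_psiN _ _

theorem e6_psi_lip (i : ℕ) (x y : ℝ) : |psi i x - psi i y| ≤ 2 ^ i * |x - y| := by
  unfold psi clamp
  have h1 : |min 1 (max 0 (2 - 2 ^ i * x)) - min 1 (max 0 (2 - 2 ^ i * y))| ≤
      |(2 - 2 ^ i * x) - (2 - 2 ^ i * y)| := by
    refine (abs_min_sub_min_le_max _ _ _ _).trans (max_le (by simp) ?_)
    exact (abs_max_sub_max_le_max _ _ _ _).trans (max_le (by simp) le_rfl)
  refine h1.trans (le_of_eq ?_)
  have : (2 - 2 ^ i * x) - (2 - 2 ^ i * y) = -(2 ^ i * (x - y)) := by ring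
  rw [this, abs_neg, abs_mul, abs_of_pos (by positivity : (0 : ℝ) < 2 ^ i)]

theorem e6_chi_lip {i : ℕ} (x y : ℝ) : |p.chi i x - p.chi i y| ≤ 2 * 2 ^ p.c * |x - y| := by
  unfold Par.chi
  have h0 := abs_nonneg (x - y)
  split_ifs with h
  · have h1 := e6_psi_lip i x y
    have h2 := e6_psi_lip (i + 1) x y
    have h3 : (2 : ℝ) ^ i ≤ 2 ^ p.c := pow_le_pow_right₀ (by norm_num) h.le
    have h4 : (2 : ℝ) ^ (i + 1) ≤ 2 ^ p.c := pow_le_pow_right₀ (by norm_num) h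
    have h5 : psi i x - psi (i + 1) x - (psi i y - psi (i + 1) y) =
        (psi i x - psi i y) - (psi (i + 1) x - psi (i + 1) y) := by ring
    rw [h5]
    refine (abs_sub _ _).trans ?_
    nlinarith [mul_le_mul_of_nonneg_right h3 h0, mul_le_mul_of_nonneg_right h4 h0]
  · have h1 := e6_psi_lip p.c x y
    have : (0 : ℝ) ≤ 2 ^ p.c * |x - y| := by positivity
    linarith

theorem e6_fmul (x y : ℕ) :
    |(p.fmul x y : ℝ) / 2 ^ p.P - (x : ℝ) / 2 ^ p.P * ((y : ℝ) / 2 ^ p.P)| ≤ 1 / 2 ^ p.P := by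
  have hZ : (0 : ℝ) < 2 ^ p.P := by positivity
  unfold Par.fmul
  have h1 : ((x * y / 2 ^ p.P : ℕ) : ℝ) ≤ ((x * y : ℕ) : ℝ) / ((2 ^ p.P : ℕ) : ℝ) := Nat.cast_div_le
  have h2 : ((x * y : ℕ) : ℝ) < ((x * y / 2 ^ p.P : ℕ) + 1) * ((2 ^ p.P : ℕ) : ℝ) := by
    have := Nat.lt_div_mul_add (a := x * y) (b := 2 ^ p.P) (by positivity)
    have h3 : ((x * y : ℕ) : ℝ) < ((x * y / 2 ^ p.P * 2 ^ p.P + 2 ^ p.P : ℕ) : ℝ) := Nat.cast_lt.2 this
    rw [Nat.cast_add, Nat.cast_mul (x * y / 2 ^ p.P)] at h3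
    linarith
  push_cast at h1 h2
  have h4 : (x : ℝ) * y / 2 ^ p.P < ((x * y / 2 ^ p.P : ℕ) : ℝ) + 1 := by
    rw [div_lt_iff₀ hZ]
    exact h2
  have h5 : ((x * y / 2 ^ p.P : ℕ) : ℝ) / 2 ^ p.P - (x : ℝ) / 2 ^ p.P * ((y : ℝ) / 2 ^ p.P) =
      (((x * y / 2 ^ p.P : ℕ) : ℝ) - (x : ℝ) * y / 2 ^ p.P) / 2 ^ p.P := by
    field_simp
  rw [h5, abs_div, abs_of_pos hZ]
  refine div_le_div_of_nonneg_right ?_ hZ.le
  rw [abs_le]
  constructor <;> linarith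

/-- The class function. -/
theorem e6_cls {i x : ℕ} {W η : ℝ} (h0 : 0 ≤ W) (h1 : W ≤ 1) (h : |(x : ℝ) / 2 ^ p.P - W| ≤ η) :
    |(p.fmul x (p.chiN i x) : ℝ) / 2 ^ p.P - W * p.chi i W| ≤ 3 * 2 ^ p.c * η + 1 / 2 ^ p.P := by
  have a1 := e6_fmul (p := p) x (p.chiN i x)
  rw [e6_chiN] at a1
  set y : ℝ := (x : ℝ) / 2 ^ p.P with hy
  have hy0 : 0 ≤ y := by positivity
  have a2 : |p.chi i y - p.chi i W| ≤ 2 * 2 ^ p.c * η :=
    (e6_chi_lip y W).trans (mul_le_mul_of_nonneg_left h (by positivity))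
  have a3 : y * p.chi i y - W * p.chi i W = (y - W) * p.chi i y + W * (p.chi i y - p.chi i W) := by
    ring
  have hη : 0 ≤ η := (abs_nonneg _).trans h
  have a4 : |(y - W) * p.chi i y| ≤ η := by
    rw [abs_mul, abs_of_nonneg (chi_nonneg i hy0)]
    calc |y - W| * p.chi i y ≤ η * 1 :=
          mul_le_mul h (chi_le_one i y) (chi_nonneg i hy0) hη
      _ = η := mul_one _
  have a5 : |W * (p.chi i y - p.chi i W)| ≤ 2 * 2 ^ p.c * η := by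
    rw [abs_mul, abs_of_nonneg h0]
    calc W * |p.chi i y - p.chi i W| ≤ 1 * (2 * 2 ^ p.c * η) :=
          mul_le_mul h1 a2 (abs_nonneg _) zero_le_one
      _ = _ := one_mul _
  have a6 : |y * p.chi i y - W * p.chi i W| ≤ η + 2 * 2 ^ p.c * η := by
    rw [a3]
    exact (abs_add_le _ _).trans (add_le_add a4 a5)
  have a7 : η ≤ 2 ^ p.c * η := le_mul_of_one_le_left hη (one_le_pow₀ (by norm_num))
  have a8 := abs_sub_le ((p.fmul x (p.chiN i x) : ℝ) / 2 ^ p.P) (y * p.chi i y) (W * p.chi i W)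
  linarith

/-- The factor of a term which is passed on. -/
theorem e6_pas {s x y : ℕ} {w W η : ℝ} (h0 : 0 ≤ w) (h1 : w ≤ 1)
    (h : |(x : ℝ) / 2 ^ p.P - w| ≤ η) (h' : 0 < w → |(y : ℝ) / 2 ^ p.P - W| ≤ η) :
    |(p.fmul (p.fmul x (p.chiN s x)) (p.chiN p.c y) : ℝ) / 2 ^ p.P - w * p.chi s w * p.chi p.c W| ≤
      5 * 2 ^ p.c * η + 2 / 2 ^ p.P := by
  have a0 := e6_cls (p := p) (i := s) h0 h1 h
  have a1 := e6_fmul (p := p) (p.fmul x (p.chiN s x)) (p.chiN p.c y)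
  rw [e6_chiN] at a1
  set A : ℝ := (p.fmul x (p.chiN s x) : ℝ) / 2 ^ p.P with hA
  set Y : ℝ := (y : ℝ) / 2 ^ p.P with hY
  have hY0 : 0 ≤ Y := by positivity
  have hη : 0 ≤ η := (abs_nonneg _).trans h
  have a3 : A * p.chi p.c Y - w * p.chi s w * p.chi p.c W =
      (A - w * p.chi s w) * p.chi p.c Y + w * p.chi s w * (p.chi p.c Y - p.chi p.c W) := by ring
  have a4 : |(A - w * p.chi s w) * p.chi p.c Y| ≤ 3 * 2 ^ p.c * η + 1 / 2 ^ p.P := by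
    rw [abs_mul, abs_of_nonneg (chi_nonneg _ hY0)]
    calc |A - w * p.chi s w| * p.chi p.c Y ≤ (3 * 2 ^ p.c * η + 1 / 2 ^ p.P) * 1 :=
          mul_le_mul a0 (chi_le_one _ Y) (chi_nonneg _ hY0) (by positivity)
      _ = _ := mul_one _
  have a5 : |w * p.chi s w * (p.chi p.c Y - p.chi p.c W)| ≤ 2 * 2 ^ p.c * η := by
    rcases h0.eq_or_lt with h2 | h2
    · rw [← h2, zero_mul, zero_mul, abs_zero]
      positivity
    · have b1 : |p.chi p.c Y - p.chi p.c W| ≤ 2 * 2 ^ p.c * η :=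
        (e6_chi_lip Y W).trans (mul_le_mul_of_nonneg_left (h' h2) (by positivity))
      have b2 : 0 ≤ w * p.chi s w := mul_nonneg h0 (chi_nonneg _ h0)
      have b3 : w * p.chi s w ≤ 1 := mul_le_one₀ h1 (chi_nonneg _ h0) (chi_le_one _ _)
      rw [abs_mul, abs_of_nonneg b2]
      calc w * p.chi s w * |p.chi p.c Y - p.chi p.c W| ≤ 1 * (2 * 2 ^ p.c * η) :=
            mul_le_mul b3 b1 (abs_nonneg _) zero_le_one
        _ = _ := one_mul _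
  have a6 : |A * p.chi p.c Y - w * p.chi s w * p.chi p.c W| ≤
      3 * 2 ^ p.c * η + 1 / 2 ^ p.P + 2 * 2 ^ p.c * η := by
    rw [a3]
    exact (abs_add_le _ _).trans (add_le_add a4 a5)
  have a8 := abs_sub_le ((p.fmul (p.fmul x (p.chiN s x)) (p.chiN p.c y) : ℝ) / 2 ^ p.P)
    (A * p.chi p.c Y) (w * p.chi s w * p.chi p.c W)
  have a9 : (2 : ℝ) / 2 ^ p.P = 1 / 2 ^ p.P + 1 / 2 ^ p.P := by ring
  linarith

/-! ### Good sources -/

/-- All estimates for the terms with the source `x` are good. -/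
structure E6Loc (p : Par) (F : ℕ → ℕ → ℕ) (S : Sys) (L : Lv) (lg j : ℕ) (e : Env) (x : ℕ)
    (η : ℝ) : Prop where
  f1 : ∀ D ≤ p.m, ∀ τ < 2 ^ p.wb, ∀ t ∈ L.N p j (p.xc e D τ), t.x = x →
    t ∈ S.T ∧ |(L.w j (p.xc e D τ) t : ℝ) / 2 ^ p.P - S.om t| ≤ η
  f2 : ∀ D ≤ p.m, ∀ τ < 2 ^ p.wb, ∀ t ∈ S.T, t.x = x → 0 < S.om t → act F S.q (p.xc e D τ) t →
    t ∈ L.N p j (p.xc e D τ)
  f3 : ∀ D ≤ p.m, ∀ τ < 2 ^ p.wb, ∀ t ∈ S.T, t.x = x → 0 < S.om t → act F S.q (p.xc e D τ) t →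
    |(L.WE p j (p.xc e D τ) t.x t.z t.k.E : ℝ) / 2 ^ p.P - S.Wg t.x t.z t.k.E| ≤ η
  small : 2 ^ lg * η < 1

variable {j x wm : ℕ} {e : Env} {η : ℝ}

theorem e6_small (hη : 0 ≤ η) (h : 2 ^ lg * η < 1) {i : ℕ} (hi : i ≤ lg) : 2 ^ i * η < 1 :=
  lt_of_le_of_lt (mul_le_mul_of_nonneg_right (pow_le_pow_right₀ (by norm_num) hi) hη) h

theorem E6Loc.okA (h : E6Loc p F S L lg j e x η) (hp : p.Small lg) (hL : L.WF p F S.q eb wm)
    {a : ℕ × Tm} (ha : a ∈ L.wit p j e) (hx : a.2.x = x) {i : ℕ}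
    (ho : L.okA p F S.toShp j e a i) : a.2 ∈ S.T ∧
      |(L.WE p j (p.xc e a.2.k.D a.1) a.2.x a.2.z a.2.k.E : ℝ) / 2 ^ p.P -
        S.Wg a.2.x a.2.z a.2.k.E| ≤ η := by
  obtain ⟨h1, h2, h3⟩ := e6_mem_wit.1 ha
  obtain ⟨h4, h5⟩ := h.f1 _ h1 _ h2 _ h3 hx
  refine ⟨h4, h.f3 _ h1 _ h2 _ h4 hx ?_ (hL.act _ _ _ (Lv.N_subset _ _ h3))⟩
  have hη : 0 ≤ η := (abs_nonneg _).trans h5
  have h6 := e6_small hη h.small hp.tw_le
  have h7 : ((2 ^ (p.P - p.tw) : ℕ) : ℝ) ≤ L.w j (p.xc e a.2.k.D a.1) a.2 := Nat.cast_le.2 ho.1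
  have h8 : (2 : ℝ) ^ p.P = 2 ^ p.tw * 2 ^ (p.P - p.tw) := by
    rw [← pow_add]
    congr 1
    have := hp.tw_le
    have := hp.lg_le
    omega
  have hZ : (0 : ℝ) < 2 ^ p.P := by positivity
  have hT : (0 : ℝ) < 2 ^ p.tw := by positivity
  have h9 : 1 ≤ 2 ^ p.tw * ((L.w j (p.xc e a.2.k.D a.1) a.2 : ℝ) / 2 ^ p.P) := by
    rw [← mul_div_assoc, le_div_iff₀ hZ, one_mul, h8]
    push_cast at h7
    exact mul_le_mul_of_nonneg_left h7 hT.le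
  have h10 := (abs_le.1 h5).2
  by_contra h11
  have h12 : (L.w j (p.xc e a.2.k.D a.1) a.2 : ℝ) / 2 ^ p.P ≤ η := by linarith [not_lt.1 h11]
  have := mul_le_mul_of_nonneg_left h12 hT.le
  linarith

theorem e6_up {i u : ℕ} {W : ℝ} (hη : 0 ≤ η) (h : 2 ^ lg * η < 1) (hi : i + 3 ≤ lg)
    (h1 : |(u : ℝ) / 2 ^ p.P - W| ≤ η) (h2 : 1 / 2 < 2 ^ i * W) : 2 ^ p.P ≤ 4 * 2 ^ i * u := by
  have h3 := e6_small hη h hi
  have hZ : (0 : ℝ) < 2 ^ p.P := by positivity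
  have hI : (0 : ℝ) < 2 ^ i := by positivity
  have h4 := (abs_le.1 h1).1
  have h5 : W - η ≤ (u : ℝ) / 2 ^ p.P := by linarith
  have h6 := mul_le_mul_of_nonneg_left h5 hI.le
  rw [pow_add] at h3
  have h7 : 1 ≤ 4 * 2 ^ i * (u : ℝ) / 2 ^ p.P := by
    rw [mul_div_assoc, mul_assoc]
    nlinarith
  rw [le_div_iff₀ hZ, one_mul] at h7
  exact_mod_cast h7

theorem e6_down {i u : ℕ} {W : ℝ} (hη : 0 ≤ η) (h : 2 ^ lg * η < 1) (hi : i + 3 ≤ lg)
    (h1 : |(u : ℝ) / 2 ^ p.P - W| ≤ η) (h2 : 2 ^ p.P ≤ 4 * 2 ^ i * u) : 1 / 8 ≤ 2 ^ i * W := by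
  have h3 := e6_small hη h hi
  have hZ : (0 : ℝ) < 2 ^ p.P := by positivity
  have hI : (0 : ℝ) < 2 ^ i := by positivity
  have h4 := (abs_le.1 h1).2
  have h5 : (u : ℝ) / 2 ^ p.P ≤ W + η := by linarith
  have h6 := mul_le_mul_of_nonneg_left h5 hI.le
  rw [pow_add] at h3
  have h7 : 1 ≤ 4 * 2 ^ i * (u : ℝ) / 2 ^ p.P := by
    rw [le_div_iff₀ hZ, one_mul]
    exact_mod_cast h2
  rw [mul_div_assoc, mul_assoc] at h7
  nlinarith

theorem e6_wit_act (hS : S.WF p k eb) (hT : Wit p F S) (hok : e.Ok p.m) {z E i : ℕ}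
    (hi : i < p.c) (h0 : p.chi i (S.Wg x z E) ≠ 0) (ha : act F S.q e (chA x z (E + i))) :
    ∃ τ < 2 ^ p.wb, ∃ t ∈ S.T, t.x = x ∧ t.z = z ∧ t.k.E = E ∧
      2 ≤ 2 ^ p.tw * S.om t ∧ act F S.q (p.xc e t.k.D τ) t := by
  have h1 := (chi_ne_zero hi.le h0).2 hi
  refine hT e hok x z E (fun n hn h0 => ha.1 n (lt_of_lt_of_le hn (Nat.le_add_right _ _)) h0) ?_
  have h2 : (2 : ℝ) ^ (i + 1) ≤ 2 ^ p.c := pow_le_pow_right₀ (by norm_num) hi
  have h3 := mul_le_mul_of_nonneg_right h2 (Wg_nonneg hS x z E)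
  rw [pow_succ] at h3
  nlinarith

theorem E6Loc.exA (h : E6Loc p F S L lg j e x η) (hp : p.Small lg) (hS : S.WF p k eb)
    (he : eb ≤ p.m) (hT : Wit p F S) (hok : e.Ok p.m) {z E i : ℕ} (hi : i < p.c)
    (h0 : p.chi i (S.Wg x z E) ≠ 0) (ha : act F S.q e (chA x z (E + i))) :
    ∃ a ∈ L.wit p j e, a.2.x = x ∧ a.2.z = z ∧ a.2.k.E = E ∧ L.okA p F S.toShp j e a i := by
  obtain ⟨τ, h1, t, h2, h3, h4, h5, h6, h7⟩ := e6_wit_act hS hT hok hi h0 ha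
  have hD : t.k.D ≤ p.m := ((hS.tm t h2).D_le.trans (hS.tm t h2).h_le).trans he
  have hT0 : (0 : ℝ) < 2 ^ p.tw := by positivity
  have hom : 0 < S.om t := by
    by_contra h8
    have := mul_le_mul_of_nonneg_left (not_lt.1 h8) hT0.le
    linarith
  have h8 := h.f2 _ hD _ h1 t h2 h3 hom h7
  have h9 := (h.f1 _ hD _ h1 t h8 h3).2
  have h10 := h.f3 _ hD _ h1 t h2 h3 hom h7
  have hη : 0 ≤ η := (abs_nonneg _).trans h9
  refine ⟨(τ, t), e6_mem_wit.2 ⟨hD, h1, h8⟩, h3, h4, h5, ?_, ?_, ?_⟩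
  · have h11 := e6_small hη h.small hp.tw_le
    have hZ : (0 : ℝ) < 2 ^ p.P := by positivity
    have h12 : S.om t - η ≤ (L.w j (p.xc e t.k.D τ) t : ℝ) / 2 ^ p.P := by
      linarith [(abs_le.1 h9).1]
    have h13 := mul_le_mul_of_nonneg_left h12 hT0.le
    have h14 : 1 ≤ 2 ^ p.tw * (L.w j (p.xc e t.k.D τ) t : ℝ) / 2 ^ p.P := by
      rw [mul_div_assoc]
      linarith
    have h15 : (2 : ℝ) ^ p.P = 2 ^ p.tw * 2 ^ (p.P - p.tw) := by
      rw [← pow_add]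
      congr 1
      have := hp.tw_le
      have := hp.lg_le
      omega
    rw [le_div_iff₀ hZ, one_mul, h15] at h14
    have h16 := le_of_mul_le_mul_left h14 hT0
    exact_mod_cast h16
  · have h11 := (chi_ne_zero hi.le h0).2 hi
    rw [← h3, ← h4, ← h5] at h11
    exact e6_up hη h.small (by have := hp.c_le; omega) h10 h11
  · simp only
    rw [h3, h4, h5]
    exact ha

theorem e6_tau (hp : p.Small lg) {t : Tm} {s τ : ℕ}
    (h : τ < 2 ^ (min (p.chP t s).k.D t.k.h - t.k.D)) : τ < 2 ^ p.wb := by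
  refine lt_of_lt_of_le h (Nat.pow_le_pow_right (by norm_num) ?_)
  have h1 := hp.wb_ge
  have h2 : (p.chP t s).k.D ≤ t.k.D + 2 * p.c := by
    simp only [Par.chP]
    split_ifs <;> omega
  omega

theorem E6Loc.exP (h : E6Loc p F S L lg j e x η) (hp : p.Small lg) (hS : S.WF p k eb)
    (he : eb ≤ p.m) {t : Tm} (ht : t ∈ S.T) (hx : t.x = x) {s : ℕ} (hs : s ≤ p.c)
    (h0 : S.om t * p.chi s (S.om t) ≠ 0) (ha : act F S.q e (p.chP t s)) :
    ∃ τ, (τ, t) ∈ L.wit p j e ∧ L.okP p F S.toShp j e (τ, t) s := by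
  obtain ⟨τ, ⟨h1, h2⟩, -⟩ := act_chP (hS.tm t ht) he hs ha
  have hD : t.k.D ≤ p.m := ((hS.tm t ht).D_le.trans (hS.tm t ht).h_le).trans he
  have hom : 0 < S.om t := lt_of_le_of_ne (hS.om_nonneg t ht) (left_ne_zero_of_mul h0).symm
  have h3 := e6_tau hp h1
  have h8 := h.f2 _ hD _ h3 t ht hx hom h2
  have h9 := (h.f1 _ hD _ h3 t h8 hx).2
  have hη : 0 ≤ η := (abs_nonneg _).trans h9
  refine ⟨τ, e6_mem_wit.2 ⟨hD, h3, h8⟩, h1, ?_, ha⟩
  rcases hs.eq_or_lt with h4 | h4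
  · exact Or.inl h4
  · exact Or.inr (e6_up hη h.small (by have := hp.c_le; omega) h9
      ((chi_ne_zero hs (right_ne_zero_of_mul h0)).2 h4))

theorem e6_mem_T {t : Tm} : t ∈ (S.R p).T ↔
    (∃ t0 ∈ S.T, ∃ i < p.c, 1 / 8 ≤ 2 ^ i * S.Wg t0.x t0.z t0.k.E ∧
      chA t0.x t0.z (t0.k.E + i) = t) ∨
      ∃ t0 ∈ S.T, ∃ s ≤ p.c, (s = p.c ∨ 1 / 8 ≤ 2 ^ s * S.om t0) ∧ p.chP t0 s = t := by
  simp only [Sys.R, mem_union, mem_image, mem_filter, mem_product, mem_range]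
  constructor
  · rintro (⟨b, ⟨⟨h1, h2⟩, h3⟩, h4⟩ | ⟨b, ⟨⟨h1, h2⟩, h3⟩, h4⟩)
    · exact Or.inl ⟨b.1, h1, b.2, h2, h3, h4⟩
    · exact Or.inr ⟨b.1, h1, b.2, by omega, h3, h4⟩
  · rintro (⟨a, h1, i, h2, h3, h4⟩ | ⟨a, h1, i, h2, h3, h4⟩)
    · exact Or.inl ⟨(a, i), ⟨⟨h1, h2⟩, h3⟩, h4⟩
    · exact Or.inr ⟨(a, i), ⟨⟨h1, by simp only; omega⟩, h3⟩, h4⟩

/-- No garbage. -/
theorem E6Loc.sub (h : E6Loc p F S L lg j e x η) (hp : p.Small lg) (hL : L.WF p F S.q eb wm)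
    {t : Tm} (ht : t ∈ (L.R p F S.toShp).V j e) (hx : t.x = x) : t ∈ (S.R p).T := by
  rw [e6_mem_T]
  rcases e6_mem_V.1 ht with ⟨a, h1, i, h2, h3, rfl⟩ | ⟨a, h1, s, h2, h3, rfl⟩
  · obtain ⟨h4, h5⟩ := h.okA hp hL h1 hx h3
    exact Or.inl ⟨a.2, h4, i, h2, e6_down ((abs_nonneg _).trans h5) h.small
      (by have := hp.c_le; omega) h5 h3.2.1, rfl⟩
  · obtain ⟨h4, h5, h6⟩ := e6_mem_wit.1 h1
    obtain ⟨h7, h8⟩ := h.f1 _ h4 _ h5 _ h6 hx
    refine Or.inr ⟨a.2, h7, s, h2, ?_, rfl⟩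
    rcases h3.2.1 with h9 | h9
    · exact Or.inl h9
    · exact Or.inr (e6_down ((abs_nonneg _).trans h8) h.small
        (by have := hp.c_le; omega) h8 h9)

theorem e6_eq_chA {q eb : ℕ} {t : Tm} (h : TmOk p q eb t) (hd : t.k.dbl = false) :
    chA t.x t.z t.k.E = t := by
  obtain ⟨h1, h2⟩ := h.sing hd
  ext1
  · rfl
  · rfl
  · exact h1.symm
  · exact h2.symm

/-- The two ways for a positive weight. -/
theorem e6_pos {t : Tm} (h : (S.R p).om t ≠ 0) :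
    (t.k.dbl = false ∧ ∃ i < p.c, i ≤ t.k.E ∧ p.chi i (S.Wg t.x t.z (t.k.E - i)) ≠ 0) ∨
      ∃ t0 ∈ S.T, ∃ s ≤ p.c, p.chP t0 s = t ∧ S.om t0 * p.chi s (S.om t0) ≠ 0 := by
  by_contra h1
  rw [not_or] at h1
  obtain ⟨h1, h2⟩ := h1
  apply h
  simp only [Sys.R]
  have a1 : (if t.k.dbl = true then (0 : ℝ) else ∑ i ∈ range p.c with i ≤ t.k.E,
      2 ^ i * S.Wg t.x t.z (t.k.E - i) * p.chi i (S.Wg t.x t.z (t.k.E - i))) = 0 := by
    split_ifs with h3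
    · rfl
    · refine sum_eq_zero fun i hi => ?_
      rw [mem_filter, mem_range] at hi
      have : p.chi i (S.Wg t.x t.z (t.k.E - i)) = 0 := by
        by_contra h4
        exact h1 ⟨by simpa using h3, i, hi.1, hi.2, h4⟩
      rw [this, mul_zero]
  rw [a1, zero_add]
  refine sum_eq_zero fun a ha => ?_
  rw [mem_filter, mem_product, mem_range] at ha
  have : S.om a.1 * p.chi a.2 (S.om a.1) = 0 := by
    by_contra h4
    exact h2 ⟨a.1, ha.1.1, a.2, by omega, ha.2, h4⟩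
  rw [this, mul_zero, zero_mul]

/-- Nothing is missing. -/
theorem E6Loc.sup (h : E6Loc p F S L lg j e x η) (hp : p.Small lg) (hS : S.WF p k eb)
    (he : eb ≤ p.m) (hT : Wit p F S) (hok : e.Ok p.m) {t : Tm} (ht : t ∈ (S.R p).T)
    (hx : t.x = x) (h0 : 0 < (S.R p).om t) (ha : act F S.q e t) :
    t ∈ (L.R p F S.toShp).V j e := by
  rw [e6_mem_V]
  rcases e6_pos h0.ne' with ⟨h1, i, h2, h3, h4⟩ | ⟨t0, h1, s, h2, h3, h4⟩
  · have h5 := e6_eq_chA ((R_wf hS).tm t ht) h1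
    have h6 : t.k.E - i + i = t.k.E := by omega
    rw [hx] at h4 h5
    obtain ⟨a, b1, b2, b3, b4, b5⟩ := h.exA hp hS he hT hok h2 h4 (by rw [h6, h5]; exact ha)
    exact Or.inl ⟨a, b1, i, h2, b5, by rw [b2, b3, b4, h6, h5]⟩
  · have h5 : t0.x = x := by rw [← hx, ← h3]; rfl
    obtain ⟨τ, b1, b2⟩ := h.exP hp hS he h1 h5 h2 h4 (by rw [h3]; exact ha)
    exact Or.inr ⟨(τ, t0), b1, s, h2, b2, h3⟩

/-! ### Counts -/

theorem e6_three (hp : p.Small lg) : (p.m + 1) * 2 ^ p.wb * p.Kp ≤ 2 ^ (3 * lg) := by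
  have h1 : 2 ^ p.wb ≤ 2 ^ lg := Nat.pow_le_pow_right (by norm_num) hp.wb_le
  calc (p.m + 1) * 2 ^ p.wb * p.Kp ≤ 2 ^ lg * 2 ^ lg * 2 ^ lg :=
        Nat.mul_le_mul (Nat.mul_le_mul hp.m_le h1) hp.Kp_le
    _ = 2 ^ (3 * lg) := by ring

theorem e6_card_wit (hp : p.Small lg) (j : ℕ) (e : Env) (x : ℕ) :
    ((L.wit p j e).filter fun a => a.2.x = x).card ≤ 2 ^ (3 * lg) := by
  refine le_trans ?_ (e6_three hp)
  have h1 : ((L.wit p j e).filter fun a => a.2.x = x) ⊆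
      (range (p.m + 1) ×ˢ range (2 ^ p.wb)).biUnion fun b =>
        ((L.N p j (p.xc e b.1 b.2)).filter fun t => t.ep false = x).image fun t => (b.2, t) := by
    intro a ha
    rw [mem_filter] at ha
    obtain ⟨h1, h2, h3⟩ := e6_mem_wit.1 ha.1
    rw [mem_biUnion]
    refine ⟨(a.2.k.D, a.1), mem_product.2 ⟨mem_range.2 (by simp only; omega), mem_range.2 h2⟩, ?_⟩
    exact mem_image.2 ⟨a.2, mem_filter.2 ⟨h3, ha.2⟩, rfl⟩
  refine (card_le_card h1).trans (card_biUnion_le.trans ?_)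
  refine (sum_le_card_nsmul _ _ p.Kp fun b _ => card_image_le.trans (Lv.card_N_le _ _ _ _)).trans ?_
  rw [card_product, card_range, card_range, smul_eq_mul]

theorem e6_c_lt (hp : p.Small lg) : 2 * (p.c + 1) ≤ 2 ^ lg := by
  have h1 := hp.c_le
  have h2 : lg - 1 < 2 ^ (lg - 1) := Nat.lt_two_pow_self
  have h3 : 2 ^ lg = 2 * 2 ^ (lg - 1) := by
    rw [← pow_succ']
    congr 1
    omega
  omega

/-- The children of a set of terms. -/
theorem e6_card_ch (hp : p.Small lg) {ι : Type} (W : Finset ι) (f : ι → Tm)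
    (hW : W.card ≤ 2 ^ (3 * lg)) (Y : Finset Tm)
    (hY : ∀ t ∈ Y, ∃ a ∈ W, ∃ i ≤ p.c, chA (f a).x (f a).z ((f a).k.E + i) = t ∨
      p.chP (f a) i = t) : Y.card ≤ 2 ^ (4 * lg) := by
  have h1 : Y ⊆ ((W ×ˢ range (p.c + 1)).image fun a =>
      chA (f a.1).x (f a.1).z ((f a.1).k.E + a.2)) ∪
      (W ×ˢ range (p.c + 1)).image fun a => p.chP (f a.1) a.2 := by
    intro t ht
    obtain ⟨a, h1, i, h2, h3⟩ := hY t ht
    have h4 : (a, i) ∈ W ×ˢ range (p.c + 1) := mem_product.2 ⟨h1, mem_range.2 (by simp only; omega)⟩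
    rcases h3 with h3 | h3
    · exact mem_union_left _ (mem_image.2 ⟨(a, i), h4, h3⟩)
    · exact mem_union_right _ (mem_image.2 ⟨(a, i), h4, h3⟩)
  refine (card_le_card h1).trans ((card_union_le _ _).trans ?_)
  refine (add_le_add card_image_le card_image_le).trans ?_
  rw [card_product, card_range]
  have h2 := e6_c_lt hp
  calc W.card * (p.c + 1) + W.card * (p.c + 1) = W.card * (2 * (p.c + 1)) := by ring
    _ ≤ 2 ^ (3 * lg) * 2 ^ lg := Nat.mul_le_mul hW h2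
    _ = 2 ^ (4 * lg) := by ring

theorem e6_card_V (hp : p.Small lg) {H : Shp} (j : ℕ) (e : Env) (x : ℕ) :
    (((L.R p F H).V j e).filter fun t => t.x = x).card ≤ 2 ^ (4 * lg) := by
  refine e6_card_ch hp _ (fun a : ℕ × Tm => a.2) (e6_card_wit (L := L) hp j e x) _ fun t ht => ?_
  rw [mem_filter] at ht
  obtain ⟨ht, hx⟩ := ht
  rcases e6_mem_V.1 ht with ⟨a, h1, i, h2, _, rfl⟩ | ⟨a, h1, s, h2, _, rfl⟩
  · exact ⟨a, mem_filter.2 ⟨h1, hx⟩, i, h2.le, Or.inl rfl⟩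
  · exact ⟨a, mem_filter.2 ⟨h1, hx⟩, s, h2, Or.inr rfl⟩

theorem e6_card_T (hp : p.Small lg) (hS : S.WF p k eb) (he : eb ≤ p.m) (hF : Few p F S)
    (hT : Wit p F S) (hok : e.Ok p.m) (Y : Finset Tm)
    (hY : ∀ t ∈ Y, t ∈ (S.R p).T ∧ (S.R p).om t ≠ 0 ∧ act F S.q e t ∧ t.x = x) :
    Y.card ≤ 2 ^ (4 * lg) := by
  let W : Finset Tm := (range (p.m + 1) ×ˢ range (2 ^ p.wb)).biUnion fun b =>
    S.T.filter fun t => t.ep false = x ∧ act F S.q (p.xc e b.1 b.2) t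
  have hW : W.card ≤ 2 ^ (3 * lg) := by
    refine le_trans ?_ (e6_three hp)
    refine card_biUnion_le.trans ?_
    refine (sum_le_card_nsmul _ _ p.Kp fun b _ => hF _ (hok.xc _ _) false x).trans ?_
    rw [card_product, card_range, card_range, smul_eq_mul]
  have hm : ∀ t ∈ S.T, ∀ τ < 2 ^ p.wb, t.x = x → act F S.q (p.xc e t.k.D τ) t → t ∈ W := by
    intro t ht τ h1 h2 h3
    have hD : t.k.D ≤ p.m := ((hS.tm t ht).D_le.trans (hS.tm t ht).h_le).trans he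
    exact mem_biUnion.2 ⟨(t.k.D, τ), mem_product.2 ⟨mem_range.2 (by simp only; omega),
      mem_range.2 h1⟩, mem_filter.2 ⟨ht, h2, h3⟩⟩
  refine e6_card_ch hp W (fun t => t) hW Y fun t ht => ?_
  obtain ⟨ht, h0, ha, hx⟩ := hY t ht
  rcases e6_pos h0 with ⟨h1, i, h2, h3, h4⟩ | ⟨t0, h1, s, h2, h3, h4⟩
  · have h5 := e6_eq_chA ((R_wf hS).tm t ht) h1
    have h6 : t.k.E - i + i = t.k.E := by omega
    obtain ⟨τ, b1, t0, b2, b3, b4, b5, _, b7⟩ :=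
      e6_wit_act hS hT hok h2 h4 (by rw [h6, h5]; exact ha)
    exact ⟨t0, hm t0 b2 τ b1 (b3.trans hx) b7, i, h2.le, Or.inl (by rw [b3, b4, b5, h6, h5])⟩
  · obtain ⟨τ, ⟨b1, b2⟩, -⟩ := act_chP (hS.tm t0 h1) he h2 (by rw [h3]; exact ha)
    have h5 : t0.x = x := by rw [← hx, ← h3]; rfl
    exact ⟨t0, hm t0 h1 τ (e6_tau hp b1) h5 b2, s, h2, Or.inr h3⟩

/-! ### The weights -/

theorem E6Loc.errA (h : E6Loc p F S L lg j e x η) (hη : 0 ≤ η) (hp : p.Small lg)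
    (hS : S.WF p k eb) (hW : S.Wt 1) (hL : L.WF p F S.q eb wm) (he : eb ≤ p.m) (hT : Wit p F S)
    (hok : e.Ok p.m) {z E i : ℕ} (hi : i < p.c) (ha : act F S.q e (chA x z (E + i))) :
    |(p.fmul (L.WA p F S.toShp j e x z E i) (p.chiN i (L.WA p F S.toShp j e x z E i)) : ℝ) /
      2 ^ p.P - S.Wg x z E * p.chi i (S.Wg x z E)| ≤ 3 * 2 ^ p.c * η + 1 / 2 ^ p.P := by
  unfold Lv.WA
  split_ifs with h1
  · have h2 := min'_mem _ h1
    generalize (L.codesA p F S.toShp j e x z E i).min' h1 = n at h2 ⊢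
    obtain ⟨a, h3, rfl⟩ := mem_image.1 h2
    rw [mem_filter] at h3
    obtain ⟨h3, h4, h5, h6, h7⟩ := h3
    have h8 := (e6_mem_wit.1 h3).2.1
    have h9 : (a.2.k.D * 2 ^ p.wb + a.1) / 2 ^ p.wb = a.2.k.D := by
      rw [Nat.add_comm, Nat.add_mul_div_right _ _ (by positivity), Nat.div_eq_of_lt h8,
        Nat.zero_add]
    have h10 : (a.2.k.D * 2 ^ p.wb + a.1) % 2 ^ p.wb = a.1 := by
      rw [Nat.add_comm, Nat.add_mul_mod_self_right, Nat.mod_eq_of_lt h8]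
    rw [h9, h10]
    have h11 := (h.okA hp hL h3 h4 h7).2
    rw [h4, h5, h6] at h11
    exact e6_cls (Wg_nonneg hS x z E) (hW.2 x z E) h11
  · have h2 : p.chi i (S.Wg x z E) = 0 := by
      by_contra h2
      obtain ⟨a, b1, b2, b3, b4, b5⟩ := h.exA hp hS he hT hok hi h2 ha
      exact h1 ⟨_, mem_image.2 ⟨a, mem_filter.2 ⟨b1, b2, b3, b4, b5⟩, rfl⟩⟩
    rw [h2]
    simp only [Par.fmul, zero_mul, Nat.zero_div, Nat.cast_zero, zero_div, mul_zero, sub_zero,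
      abs_zero]
    positivity

theorem e6_sp_le (t : Tm) {s : ℕ} (hs : s ≤ p.c) : p.sp t s ≤ p.c :=
  max_le hs (Nat.sub_le _ _)

theorem E6Loc.errP (h : E6Loc p F S L lg j e x η) (hη : 0 ≤ η) (hp : p.Small lg)
    (hS : S.WF p k eb) (hW : S.Wt 1) (hL : L.WF p F S.q eb wm) (he : eb ≤ p.m)
    {t : Tm} (hx : t.x = x) (ha : act F S.q e t) :
    |((∑ a ∈ L.wit p j e ×ˢ range (p.c + 1) with
        L.okP p F S.toShp j e a.1 a.2 ∧ p.chP a.1.2 a.2 = t,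
      2 ^ p.sp a.1.2 a.2 * p.fmul (p.fmul (L.w j (p.xc e a.1.2.k.D a.1.1) a.1.2)
        (p.chiN a.2 (L.w j (p.xc e a.1.2.k.D a.1.1) a.1.2)))
        (p.chiN p.c (L.WE p j (p.xc e a.1.2.k.D a.1.1) a.1.2.x a.1.2.z a.1.2.k.E)) : ℕ) : ℝ) /
        2 ^ p.P - ∑ a ∈ S.T ×ˢ range (p.c + 1) with p.chP a.1 a.2 = t,
      2 ^ p.sp a.1 a.2 * (S.om a.1 * p.chi a.2 (S.om a.1)) *
        p.chi p.c (S.Wg a.1.x a.1.z a.1.k.E)| ≤
      2 ^ (4 * lg) * (2 ^ p.c * (5 * 2 ^ p.c * η + 2 / 2 ^ p.P)) := by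
  set I := (L.wit p j e ×ˢ range (p.c + 1)).filter fun a =>
    L.okP p F S.toShp j e a.1 a.2 ∧ p.chP a.1.2 a.2 = t with hI
  have hmem : ∀ a ∈ I, a.1 ∈ L.wit p j e ∧ a.2 ≤ p.c ∧ L.okP p F S.toShp j e a.1 a.2 ∧
      p.chP a.1.2 a.2 = t ∧ a.1.2.x = x := by
    intro a ha
    rw [hI, mem_filter, mem_product, mem_range] at ha
    exact ⟨ha.1.1, by omega, ha.2.1, ha.2.2, by rw [← hx, ← ha.2.2]; rfl⟩
  have hinj : Set.InjOn (fun a : (ℕ × Tm) × ℕ => (a.1.2, a.2)) I := by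
    intro a ha b hb hab
    obtain ⟨a1, a2, a3, a4, a5⟩ := hmem a ha
    obtain ⟨b1, b2, b3, b4, b5⟩ := hmem b hb
    simp only [Prod.mk.injEq] at hab
    obtain ⟨⟨τ, t1⟩, s⟩ := a
    obtain ⟨⟨τ', t2⟩, s'⟩ := b
    simp only at hab a1 a2 a3 b1 b3
    obtain ⟨rfl, rfl⟩ := hab
    have c1 := Lv.N_subset _ _ (e6_mem_wit.1 a1).2.2
    have c2 := Lv.N_subset _ _ (e6_mem_wit.1 b1).2.2
    have c3 := (act_chP (hL.tm _ _ _ c1) he a2 a3.2.2).unique ⟨a3.1, hL.act _ _ _ c1⟩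
      ⟨b3.1, hL.act _ _ _ c2⟩
    simp only at c3
    rw [c3]
  have hsum : ∑ a ∈ S.T ×ˢ range (p.c + 1) with p.chP a.1 a.2 = t,
      2 ^ p.sp a.1 a.2 * (S.om a.1 * p.chi a.2 (S.om a.1)) *
        p.chi p.c (S.Wg a.1.x a.1.z a.1.k.E) = ∑ a ∈ I,
      2 ^ p.sp a.1.2 a.2 * (S.om a.1.2 * p.chi a.2 (S.om a.1.2)) *
        p.chi p.c (S.Wg a.1.2.x a.1.2.z a.1.2.k.E) := by
    rw [← sum_image (f := fun a : Tm × ℕ => 2 ^ p.sp a.1 a.2 * (S.om a.1 * p.chi a.2 (S.om a.1)) *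
        p.chi p.c (S.Wg a.1.x a.1.z a.1.k.E)) hinj]
    symm
    refine sum_subset ?_ ?_
    · intro b hb
      obtain ⟨a, ha, rfl⟩ := mem_image.1 hb
      obtain ⟨a1, a2, a3, a4, a5⟩ := hmem a ha
      obtain ⟨c1, c2, c3⟩ := e6_mem_wit.1 a1
      exact mem_filter.2 ⟨mem_product.2 ⟨(h.f1 _ c1 _ c2 _ c3 a5).1,
        mem_range.2 (by simp only; omega)⟩, a4⟩
    · intro b hb hb'
      rw [mem_filter, mem_product, mem_range] at hb
      have h0 : S.om b.1 * p.chi b.2 (S.om b.1) = 0 := by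
        by_contra h0
        have h5 : b.1.x = x := by rw [← hx, ← hb.2]; rfl
        obtain ⟨τ, b1, b2⟩ := h.exP hp hS he hb.1.1 h5 (by omega) h0 (by rw [hb.2]; exact ha)
        exact hb' (mem_image.2 ⟨((τ, b.1), b.2), mem_filter.2 ⟨mem_product.2 ⟨b1,
          mem_range.2 hb.1.2⟩, b2, hb.2⟩, rfl⟩)
      rw [h0, mul_zero, zero_mul]
  rw [hsum, Nat.cast_sum, sum_div, ← sum_sub_distrib]
  refine (abs_sum_le_sum_abs _ _).trans ?_
  refine (sum_le_card_nsmul _ _ (2 ^ p.c * (5 * 2 ^ p.c * η + 2 / 2 ^ p.P)) fun a ha => ?_).trans ?_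
  · obtain ⟨a1, a2, a3, a4, a5⟩ := hmem a ha
    obtain ⟨c1, c2, c3⟩ := e6_mem_wit.1 a1
    obtain ⟨c4, c5⟩ := h.f1 _ c1 _ c2 _ c3 a5
    have c6 := e6_pas (p := p) (s := a.2) (hS.om_nonneg _ c4) (hW.1 _ c4) c5 fun h0 =>
      h.f3 _ c1 _ c2 _ c4 a5 h0 (hL.act _ _ _ (Lv.N_subset _ _ c3))
    rw [Nat.cast_mul, Nat.cast_pow, Nat.cast_ofNat, mul_div_assoc, mul_assoc, ← mul_sub, abs_mul,
      abs_of_pos (by positivity : (0 : ℝ) < 2 ^ p.sp a.1.2 a.2)]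
    exact mul_le_mul (pow_le_pow_right₀ (by norm_num) (e6_sp_le _ a2)) c6 (abs_nonneg _)
      (by positivity)
  · rw [nsmul_eq_mul]
    refine mul_le_mul_of_nonneg_right ?_ (by positivity)
    have h1 : I ⊆ ((L.wit p j e).filter fun a => a.2.x = x) ×ˢ range (p.c + 1) := by
      intro a ha
      obtain ⟨a1, a2, a3, a4, a5⟩ := hmem a ha
      exact mem_product.2 ⟨mem_filter.2 ⟨a1, a5⟩, mem_range.2 (by omega)⟩
    have h2 := card_le_card h1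
    rw [card_product, card_range] at h2
    have h3 := e6_c_lt hp
    have h4 : I.card ≤ 2 ^ (4 * lg) :=
      calc I.card ≤ 2 ^ (3 * lg) * 2 ^ lg :=
            h2.trans (Nat.mul_le_mul (e6_card_wit hp j e x) (by omega))
        _ = 2 ^ (4 * lg) := by ring
    exact_mod_cast h4

theorem E6Loc.err (h : E6Loc p F S L lg j e x η) (hη : 0 ≤ η) (hp : p.Small lg)
    (hS : S.WF p k eb) (hW : S.Wt 1) (hL : L.WF p F S.q eb wm) (he : eb ≤ p.m) (hT : Wit p F S)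
    (hok : e.Ok p.m) {t : Tm} (ht : t ∈ (L.R p F S.toShp).V j e) (hx : t.x = x) :
    |((L.R p F S.toShp).w j e t : ℝ) / 2 ^ p.P - (S.R p).om t| ≤
      2 ^ (7 * lg) * (η + 1 / 2 ^ p.P) := by
  have hZ : (0 : ℝ) < 2 ^ p.P := by positivity
  have hL' := Lv.WF.R (H := S.toShp) hL
  have ha := hL'.act _ _ _ ht
  have hom := (R_Wt hS hp.c_pos hW).1 t (h.sub hp hL ht hx)
  have hP := h.errP hη hp hS hW hL he hx ha
  have hA : |((if t.k.dbl then 0 else ∑ i ∈ range p.c with i ≤ t.k.E,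
      2 ^ i * p.fmul (L.WA p F S.toShp j e t.x t.z (t.k.E - i) i)
        (p.chiN i (L.WA p F S.toShp j e t.x t.z (t.k.E - i) i)) : ℕ) : ℝ) / 2 ^ p.P -
      (if t.k.dbl then 0 else ∑ i ∈ range p.c with i ≤ t.k.E,
      2 ^ i * S.Wg t.x t.z (t.k.E - i) * p.chi i (S.Wg t.x t.z (t.k.E - i)))| ≤
      p.c * (2 ^ p.c * (3 * 2 ^ p.c * η + 1 / 2 ^ p.P)) := by
    split_ifs with hd
    · simp only [Nat.cast_zero, zero_div, sub_zero, abs_zero]
      positivity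
    · have h5 := e6_eq_chA (hL'.tm _ _ _ ht) (by simpa using hd)
      rw [Nat.cast_sum, sum_div, ← sum_sub_distrib]
      refine (abs_sum_le_sum_abs _ _).trans ?_
      refine (sum_le_card_nsmul _ _ (2 ^ p.c * (3 * 2 ^ p.c * η + 1 / 2 ^ p.P))
        fun i hi => ?_).trans ?_
      · rw [mem_filter, mem_range] at hi
        have h6 : t.k.E - i + i = t.k.E := by omega
        rw [hx] at h5 ⊢
        have c6 := h.errA hη hp hS hW hL he hT hok (z := t.z) (E := t.k.E - i) hi.1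
          (by rw [h6, h5]; exact ha)
        rw [Nat.cast_mul, Nat.cast_pow, Nat.cast_ofNat, mul_div_assoc, mul_assoc, ← mul_sub,
          abs_mul, abs_of_pos (by positivity : (0 : ℝ) < 2 ^ i)]
        exact mul_le_mul (pow_le_pow_right₀ (by norm_num) hi.1.le) c6 (abs_nonneg _)
          (by positivity)
      · rw [nsmul_eq_mul]
        refine mul_le_mul_of_nonneg_right ?_ (by positivity)
        have h1 := (card_filter_le (range p.c) fun i => i ≤ t.k.E)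
        rw [card_range] at h1
        exact_mod_cast h1
  simp only [Lv.R, Sys.R] at hom ⊢
  generalize (if t.k.dbl then 0 else ∑ i ∈ range p.c with i ≤ t.k.E,
      2 ^ i * p.fmul (L.WA p F S.toShp j e t.x t.z (t.k.E - i) i)
        (p.chiN i (L.WA p F S.toShp j e t.x t.z (t.k.E - i) i)) : ℕ) = A at hA ⊢
  generalize (if t.k.dbl then 0 else ∑ i ∈ range p.c with i ≤ t.k.E,
      2 ^ i * S.Wg t.x t.z (t.k.E - i) * p.chi i (S.Wg t.x t.z (t.k.E - i)) : ℝ) = A0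
    at hA hom ⊢
  generalize (∑ a ∈ L.wit p j e ×ˢ range (p.c + 1) with
        L.okP p F S.toShp j e a.1 a.2 ∧ p.chP a.1.2 a.2 = t,
      2 ^ p.sp a.1.2 a.2 * p.fmul (p.fmul (L.w j (p.xc e a.1.2.k.D a.1.1) a.1.2)
        (p.chiN a.2 (L.w j (p.xc e a.1.2.k.D a.1.1) a.1.2)))
        (p.chiN p.c (L.WE p j (p.xc e a.1.2.k.D a.1.1) a.1.2.x a.1.2.z a.1.2.k.E)) : ℕ) = B
    at hP ⊢
  generalize (∑ a ∈ S.T ×ˢ range (p.c + 1) with p.chP a.1 a.2 = t,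
      2 ^ p.sp a.1 a.2 * (S.om a.1 * p.chi a.2 (S.om a.1)) *
        p.chi p.c (S.Wg a.1.x a.1.z a.1.k.E) : ℝ) = B0 at hP hom ⊢
  have h1 : |((min (p.Om * 2 ^ p.P) (A + B) : ℕ) : ℝ) / 2 ^ p.P - (A0 + B0)| ≤
      |((A + B : ℕ) : ℝ) / 2 ^ p.P - (A0 + B0)| := by
    rcases le_total (A + B) (p.Om * 2 ^ p.P) with h1 | h1
    · rw [min_eq_right h1]
    · rw [min_eq_left h1]
      have h2 : ((p.Om * 2 ^ p.P : ℕ) : ℝ) / 2 ^ p.P = p.Om := by
        push_cast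
        field_simp
      have h3 : (p.Om : ℝ) ≤ ((A + B : ℕ) : ℝ) / 2 ^ p.P := by
        rw [← h2]
        exact div_le_div_of_nonneg_right (Nat.cast_le.2 h1) hZ.le
      rw [h2, abs_of_nonneg (by linarith), abs_of_nonneg (by linarith)]
      linarith
  refine h1.trans ?_
  have h2 : ((A + B : ℕ) : ℝ) / 2 ^ p.P - (A0 + B0) =
      ((A : ℝ) / 2 ^ p.P - A0) + ((B : ℝ) / 2 ^ p.P - B0) := by
    push_cast
    ring
  rw [h2]
  refine (abs_add_le _ _).trans ((add_le_add hA hP).trans ?_)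
  have c1 : (8 : ℝ) * 2 ^ p.c ≤ 2 ^ lg := by
    have : (2 : ℝ) ^ (p.c + 3) ≤ 2 ^ lg := pow_le_pow_right₀ (by norm_num) hp.c_le
    rw [pow_add] at this
    linarith
  have c2 : (p.c : ℝ) ≤ 2 ^ (4 * lg) := by
    have b1 := e6_c_lt hp
    have b2 : 2 ^ lg ≤ 2 ^ (4 * lg) := Nat.pow_le_pow_right (by norm_num) (by omega)
    exact_mod_cast (by omega : p.c ≤ 2 ^ (4 * lg))
  have c3 : (1 : ℝ) ≤ 2 ^ p.c := one_le_pow₀ (by norm_num)
  have c4 : (2 : ℝ) ^ (7 * lg) = 2 ^ (4 * lg) * (2 ^ lg * 2 ^ lg * 2 ^ lg) := by ring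
  have c5 : (0 : ℝ) < 1 / 2 ^ p.P := by positivity
  have c6 : (2 : ℝ) / 2 ^ p.P = 2 * (1 / 2 ^ p.P) := by ring
  rw [c4, c6]
  generalize (1 : ℝ) / 2 ^ p.P = ε at c5 ⊢
  generalize (2 : ℝ) ^ p.c = u at c1 c3 ⊢
  generalize (2 : ℝ) ^ lg = y at c1 ⊢
  have c7 : (0 : ℝ) ≤ u * (3 * u * η + ε) := by positivity
  have c8 := mul_le_mul_of_nonneg_right c2 c7
  refine (add_le_add c8 le_rfl).trans ?_
  rw [← mul_add, mul_assoc (2 ^ (4 * lg) : ℝ)]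
  refine mul_le_mul_of_nonneg_left ?_ (by positivity)
  have c9 : 64 * (u * u) ≤ y * y := by nlinarith
  have c10 : y * y ≤ y * y * y := by nlinarith
  have c11 : u ≤ u * u := by nlinarith
  have c12 : 8 * (u * u) ≤ y * y * y := by nlinarith
  have c13 : 3 * u ≤ y * y * y := by nlinarith
  nlinarith [mul_le_mul_of_nonneg_right c12 hη, mul_le_mul_of_nonneg_right c13 c5.le]

/-! ### Assembly -/

/-- The part of `badT` with the source `x`. -/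
noncomputable def e6bad (p : Par) (F : ℕ → ℕ → ℕ) (S : Sys) (L : Lv) (j : ℕ) (e : Env)
    (Y : Finset Tm) (x : ℕ) : ℝ :=
  (∑ t ∈ Y with t.x = x, if t ∈ S.T then ((L.w j e t : ℝ) / 2 ^ p.P - S.om t) ^ 2 else 1) +
    ∑ _t ∈ (S.T.filter fun t => 0 < S.om t ∧ act F S.q e t ∧ t ∉ Y) with _t.x = x, (1 : ℝ)

/-- The error of the weights of the groups with the source `x`. -/
noncomputable def e6grp (p : Par) (F : ℕ → ℕ → ℕ) (S : Sys) (L : Lv) (j : ℕ) (e : Env)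
    (x : ℕ) : ℝ :=
  ∑ t ∈ (S.T.filter fun t => 0 < S.om t ∧ act F S.q e t) with t.x = x,
    ((L.WE p j e t.x t.z t.k.E : ℝ) / 2 ^ p.P - S.Wg t.x t.z t.k.E) ^ 2

theorem e6_fib {q : ℕ} {Y : Finset Tm} (h : ∀ t ∈ Y, t.x < 2 ^ q) (f : Tm → ℝ) :
    ∑ x ∈ range (2 ^ q), ∑ t ∈ Y with t.x = x, f t = ∑ t ∈ Y, f t :=
  sum_fiberwise_of_maps_to (fun t ht => mem_range.2 (h t ht)) f

theorem e6_sum_bad {Y : Finset Tm} (h : ∀ t ∈ Y, t.x < 2 ^ S.q) (h' : ∀ t ∈ S.T, t.x < 2 ^ S.q) :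
    ∑ x ∈ range (2 ^ S.q), e6bad p F S L j e Y x = badT p F S L j e Y := by
  unfold e6bad badT
  rw [sum_add_distrib, e6_fib h, e6_fib fun t ht => h' t (mem_filter.1 ht).1, sum_const,
    nsmul_eq_mul, mul_one]

theorem e6_c1_nonneg (t : Tm) :
    0 ≤ if t ∈ S.T then ((L.w j e t : ℝ) / 2 ^ p.P - S.om t) ^ 2 else 1 := by
  split_ifs <;> positivity

theorem e6bad_nonneg (Y : Finset Tm) : 0 ≤ e6bad p F S L j e Y x :=
  add_nonneg (sum_nonneg fun t _ => e6_c1_nonneg t) (sum_nonneg fun _ _ => zero_le_one)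

theorem e6grp_nonneg : 0 ≤ e6grp p F S L j e x := sum_nonneg fun _ _ => sq_nonneg _

/-- All local errors at the source `x`. -/
noncomputable def e6loc (p : Par) (F : ℕ → ℕ → ℕ) (S : Sys) (L : Lv) (j : ℕ) (e : Env)
    (x : ℕ) : ℝ :=
  ∑ b ∈ range (p.m + 1) ×ˢ range (2 ^ p.wb),
    (e6bad p F S L j (p.xc e b.1 b.2) (L.N p j (p.xc e b.1 b.2)) x +
      e6grp p F S L j (p.xc e b.1 b.2) x)

theorem e6loc_nonneg : 0 ≤ e6loc p F S L j e x :=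
  sum_nonneg fun _ _ => add_nonneg (e6bad_nonneg _) e6grp_nonneg

theorem e6_loc (h : 2 ^ (2 * lg) * e6loc p F S L j e x < 1) :
    E6Loc p F S L lg j e x √(e6loc p F S L j e x) := by
  have h0 : ∀ D ≤ p.m, ∀ τ < 2 ^ p.wb, e6bad p F S L j (p.xc e D τ) (L.N p j (p.xc e D τ)) x +
      e6grp p F S L j (p.xc e D τ) x ≤ e6loc p F S L j e x := by
    intro D hD τ hτ
    exact single_le_sum (f := fun b : ℕ × ℕ =>
      e6bad p F S L j (p.xc e b.1 b.2) (L.N p j (p.xc e b.1 b.2)) x +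
        e6grp p F S L j (p.xc e b.1 b.2) x) (fun _ _ => add_nonneg (e6bad_nonneg _) e6grp_nonneg)
      (a := (D, τ)) (mem_product.2 ⟨mem_range.2 (by simp only; omega), mem_range.2 hτ⟩)
  have hb := e6loc_nonneg (p := p) (F := F) (S := S) (L := L) (j := j) (e := e) (x := x)
  have h1 : e6loc p F S L j e x < 1 :=
    lt_of_le_of_lt (le_mul_of_one_le_left hb (one_le_pow₀ (by norm_num))) h
  refine ⟨fun D hD τ hτ t ht hx => ?_, fun D hD τ hτ t ht hx h2 h3 => ?_,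
    fun D hD τ hτ t ht hx h2 h3 => ?_, ?_⟩
  · have a1 := single_le_sum (f := fun t => if t ∈ S.T then
      ((L.w j (p.xc e D τ) t : ℝ) / 2 ^ p.P - S.om t) ^ 2 else 1) (fun t _ => e6_c1_nonneg t)
      (mem_filter.2 ⟨ht, hx⟩ : t ∈ (L.N p j (p.xc e D τ)).filter fun t => t.x = x)
    have a2 : (if t ∈ S.T then ((L.w j (p.xc e D τ) t : ℝ) / 2 ^ p.P - S.om t) ^ 2 else 1) ≤
        e6loc p F S L j e x := by
      refine le_trans ?_ (h0 D hD τ hτ)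
      refine le_trans ?_ (le_add_of_nonneg_right e6grp_nonneg)
      exact a1.trans (le_add_of_nonneg_right (sum_nonneg fun _ _ => zero_le_one))
    split_ifs at a2 with h2
    · exact ⟨h2, Real.abs_le_sqrt a2⟩
    · linarith
  · by_contra h4
    have a1 := single_le_sum (f := fun _ : Tm => (1 : ℝ)) (fun _ _ => zero_le_one)
      (mem_filter.2 ⟨mem_filter.2 ⟨ht, h2, h3, h4⟩, hx⟩ : t ∈ (S.T.filter fun t => 0 < S.om t ∧
        act F S.q (p.xc e D τ) t ∧ t ∉ L.N p j (p.xc e D τ)).filter fun t => t.x = x)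
    have a2 : (1 : ℝ) ≤ e6loc p F S L j e x := by
      refine le_trans ?_ (h0 D hD τ hτ)
      refine le_trans ?_ (le_add_of_nonneg_right e6grp_nonneg)
      exact a1.trans (le_add_of_nonneg_left (sum_nonneg fun t _ => e6_c1_nonneg t))
    linarith
  · refine Real.abs_le_sqrt (le_trans ?_ (h0 D hD τ hτ))
    refine le_trans ?_ (le_add_of_nonneg_left (e6bad_nonneg _))
    exact single_le_sum (f := fun t : Tm => ((L.WE p j (p.xc e D τ) t.x t.z t.k.E : ℝ) / 2 ^ p.P -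
      S.Wg t.x t.z t.k.E) ^ 2) (fun _ _ => sq_nonneg _)
      (mem_filter.2 ⟨mem_filter.2 ⟨ht, h2, h3⟩, hx⟩ : t ∈ (S.T.filter fun t => 0 < S.om t ∧
        act F S.q (p.xc e D τ) t).filter fun t => t.x = x)
  · have a1 : (2 ^ lg * √(e6loc p F S L j e x)) ^ 2 < 1 := by
      rw [mul_pow, Real.sq_sqrt hb, ← pow_mul, mul_comm lg 2]
      exact h
    exact (sq_lt_one_iff₀ (by positivity)).1 a1

/-- The error at one source. -/
theorem e6_point (hp : p.Small lg) (hS : S.WF p k eb) (hW : S.Wt 1) (hL : L.WF p F S.q eb wm)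
    (he : eb ≤ p.m) (hF : Few p F S) (hT : Wit p F S) (hok : e.Ok p.m) :
    e6bad p F (S.R p) (L.R p F S.toShp) j e ((L.R p F S.toShp).V j e) x ≤
      2 ^ (19 * lg) * (e6loc p F S L j e x + (1 / 2 ^ p.P) ^ 2) := by
  have hb := e6loc_nonneg (p := p) (F := F) (S := S) (L := L) (j := j) (e := e) (x := x)
  have hV : (((((L.R p F S.toShp).V j e).filter fun t => t.x = x).card : ℕ) : ℝ) ≤ 2 ^ (4 * lg) := by
    exact_mod_cast e6_card_V hp j e x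
  have hlg : 1 ≤ lg := by have := hp.c_le; omega
  have h2 : (2 : ℝ) ≤ 2 ^ lg := by
    have : (2 : ℝ) ^ 1 ≤ 2 ^ lg := pow_le_pow_right₀ (by norm_num) hlg
    simpa using this
  unfold e6bad
  by_cases h : 2 ^ (2 * lg) * e6loc p F S L j e x < 1
  · have h1 := e6_loc h
    have a1 : ((S.R p).T.filter fun t => 0 < (S.R p).om t ∧ act F (S.R p).q e t ∧
        t ∉ (L.R p F S.toShp).V j e).filter (fun t => t.x = x) = ∅ := by
      refine filter_eq_empty_iff.2 fun t ht hx => ?_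
      rw [mem_filter] at ht
      exact ht.2.2.2 (h1.sup hp hS he hT hok ht.1 hx ht.2.1 ht.2.2.1)
    rw [a1, sum_empty, add_zero]
    refine (sum_le_card_nsmul _ _ (2 ^ (15 * lg) * (e6loc p F S L j e x + (1 / 2 ^ p.P) ^ 2))
      fun t ht => ?_).trans ?_
    · rw [mem_filter] at ht
      rw [if_pos (h1.sub hp hL ht.1 ht.2)]
      have a2 := h1.err (Real.sqrt_nonneg _) hp hS hW hL he hT hok ht.1 ht.2
      have a3 := sq_le_sq' (abs_le.1 a2).1 (abs_le.1 a2).2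
      refine a3.trans ?_
      have a4 : (√(e6loc p F S L j e x) + 1 / 2 ^ p.P) ^ 2 ≤
          2 * (e6loc p F S L j e x + (1 / 2 ^ p.P) ^ 2) := by
        nlinarith [Real.sq_sqrt hb, sq_nonneg (√(e6loc p F S L j e x) - 1 / 2 ^ p.P)]
      have a5 : (2 : ℝ) ^ (15 * lg) = (2 ^ (7 * lg)) ^ 2 * 2 ^ lg := by ring
      rw [mul_pow, a5, mul_assoc]
      refine mul_le_mul_of_nonneg_left (a4.trans ?_) (by positivity)
      exact mul_le_mul_of_nonneg_right h2 (by positivity)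
    · rw [nsmul_eq_mul]
      have a5 : (2 : ℝ) ^ (19 * lg) = 2 ^ (4 * lg) * 2 ^ (15 * lg) := by ring
      rw [a5, mul_assoc]
      exact mul_le_mul_of_nonneg_right hV (by positivity)
  · have hOm : (p.Om : ℝ) ≤ 2 ^ lg := by
      have := e6_c_lt hp
      exact_mod_cast (by unfold Par.Om; omega : p.Om ≤ 2 ^ lg)
    have a1 : (∑ t ∈ (L.R p F S.toShp).V j e with t.x = x, if t ∈ (S.R p).T then
        (((L.R p F S.toShp).w j e t : ℝ) / 2 ^ p.P - (S.R p).om t) ^ 2 else 1) ≤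
        2 ^ (4 * lg) * (2 ^ lg) ^ 2 := by
      refine (sum_le_card_nsmul _ _ ((2 ^ lg) ^ 2) fun t ht => ?_).trans ?_
      · split_ifs with h3
        · have b1 := (R_Wt hS hp.c_pos hW).1 t h3
          have b2 := R_om_nonneg hS t
          have b3 : (0 : ℝ) ≤ ((L.R p F S.toShp).w j e t : ℝ) / 2 ^ p.P := by positivity
          have b4 : ((L.R p F S.toShp).w j e t : ℝ) / 2 ^ p.P ≤ p.Om := by
            rw [div_le_iff₀ (by positivity)]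
            exact_mod_cast (Lv.WF.R (H := S.toShp) hL).w_le _ _ _ (mem_filter.1 ht).1
          exact sq_le_sq' (by linarith) (by linarith)
        · exact one_le_pow₀ (by linarith)
      · rw [nsmul_eq_mul]
        exact mul_le_mul_of_nonneg_right hV (by positivity)
    have a2 : ∑ _t ∈ ((S.R p).T.filter fun t => 0 < (S.R p).om t ∧ act F (S.R p).q e t ∧
        t ∉ (L.R p F S.toShp).V j e) with _t.x = x, (1 : ℝ) ≤ 2 ^ (4 * lg) := by
      rw [sum_const, nsmul_eq_mul, mul_one]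
      have := e6_card_T hp hS he hF hT hok (((S.R p).T.filter fun t => 0 < (S.R p).om t ∧
        act F (S.R p).q e t ∧ t ∉ (L.R p F S.toShp).V j e).filter fun t => t.x = x) (x := x)
        fun t ht => by
          rw [mem_filter, mem_filter] at ht
          exact ⟨ht.1.1, ht.1.2.1.ne', ht.1.2.2.1, ht.2⟩
      exact_mod_cast this
    refine (add_le_add a1 a2).trans ?_
    have a3 : (2 : ℝ) ^ (4 * lg) * (2 ^ lg) ^ 2 + 2 ^ (4 * lg) ≤ 2 ^ (17 * lg) := by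
      have b1 : (2 : ℝ) ^ (4 * lg) * (2 ^ lg) ^ 2 = 2 ^ (6 * lg) := by ring
      have b2 : (2 : ℝ) ^ (4 * lg) ≤ 2 ^ (6 * lg) := pow_le_pow_right₀ (by norm_num) (by omega)
      have b3 : (2 : ℝ) ^ (6 * lg + 1) ≤ 2 ^ (17 * lg) := pow_le_pow_right₀ (by norm_num) (by omega)
      rw [pow_succ] at b3
      linarith
    refine a3.trans ?_
    have a4 : (2 : ℝ) ^ (19 * lg) = 2 ^ (17 * lg) * 2 ^ (2 * lg) := by ring
    rw [a4, mul_assoc]
    refine le_mul_of_one_le_right (by positivity) ((not_lt.1 h).trans ?_)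
    exact mul_le_mul_of_nonneg_left (le_add_of_nonneg_right (by positivity)) (by positivity)

theorem e6_badA_nonneg : 0 ≤ badA p S L j e :=
  sum_nonneg fun _ _ => sum_nonneg fun _ _ => sq_nonneg _

theorem e6_badT_nonneg (Y : Finset Tm) : 0 ≤ badT p F S L j e Y :=
  add_nonneg (sum_nonneg fun t _ => e6_c1_nonneg t) (Nat.cast_nonneg _)

theorem R_err (hp : p.Small lg) (hS : S.WF p k eb) (hW : S.Wt 1)
    (hL : L.WF p F S.q eb (2 ^ p.P)) (hq : S.q ≤ p.m) (he : eb + p.wb ≤ p.m) (hF : Few p F S)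
    (hT : Wit p F S) (hX : 2 ^ p.m ≤ X) (h : Err p F S L X) :
    ErrV p F (S.R p) (L.R p F S.toShp) (2 ^ (60 * lg) * X) := by
  intro j hj e hok
  have he' : eb ≤ p.m := by omega
  have hX0 : 0 ≤ X := le_trans (by positivity) hX
  have hY0 : 0 ≤ X / 2 ^ j := by positivity
  let G : Env → ℝ := fun e' => badT p F S L j e' (L.N p j e') +
    ∑ t ∈ S.T with 0 < S.om t ∧ act F S.q e' t,
      ((L.WE p j e' t.x t.z t.k.E : ℝ) / 2 ^ p.P - S.Wg t.x t.z t.k.E) ^ 2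
  have hε : (2 ^ S.q : ℝ) * (1 / 2 ^ p.P) ^ 2 ≤ X / 2 ^ j := by
    have a1 : (2 : ℝ) ^ S.q ≤ X := (pow_le_pow_right₀ (by norm_num) hq).trans hX
    have a2 : ((1 : ℝ) / 2 ^ p.P) ^ 2 ≤ 1 / 2 ^ j := by
      rw [div_pow, one_pow, ← pow_mul]
      exact one_div_le_one_div_of_le (by positivity) (pow_le_pow_right₀ (by norm_num) (by omega))
    rw [div_eq_mul_one_div X]
    exact mul_le_mul a1 a2 (by positivity) hX0
  have h1 : ∀ e' : Env, e'.Ok p.m → badT p F (S.R p) (L.R p F S.toShp) j e'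
      ((L.R p F S.toShp).V j e') + badA p (S.R p) (L.R p F S.toShp) j e' ≤
      2 ^ (19 * lg) * ((∑ b ∈ range (p.m + 1) ×ˢ range (2 ^ p.wb), G (p.xc e' b.1 b.2)) +
        X / 2 ^ j) + (badT p F S L j e' (L.N p j e') + badA p S L j e') := by
    intro e' hok'
    refine add_le_add ?_ (le_add_of_nonneg_left (e6_badT_nonneg _))
    rw [← e6_sum_bad (S := S.R p) (fun t ht => ((Lv.WF.R (H := S.toShp) hL).tm _ _ _ ht).x_lt)
      fun t ht => ((R_wf hS).tm t ht).x_lt]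
    refine (sum_le_sum fun x _ => e6_point hp hS hW hL he' hF hT hok').trans ?_
    rw [← mul_sum, sum_add_distrib, sum_const, card_range, nsmul_eq_mul]
    refine mul_le_mul_of_nonneg_left (add_le_add (le_of_eq ?_) ?_) (by positivity)
    · unfold e6loc
      rw [sum_comm]
      refine sum_congr rfl fun b _ => ?_
      rw [sum_add_distrib]
      refine congrArg₂ (· + ·) (e6_sum_bad
        (fun t ht => (hL.tm _ _ _ (Lv.N_subset _ _ ht)).x_lt) fun t ht => (hS.tm t ht).x_lt) ?_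
      exact e6_fib (fun t ht => (hS.tm t (mem_filter.1 ht).1).x_lt) _
    · push_cast
      exact hε
  refine (avg_mono hok h1).trans ?_
  rw [avg_add, avg_mul, avg_add, avg_const, avg_sum]
  have h2 : avg p.m e G ≤ (1 + 2 ^ (20 * lg)) * (X / 2 ^ j) := by
    rw [avg_add, add_mul, one_mul, ← mul_div_assoc]
    refine add_le_add (le_trans (avg_mono hok fun e' _ => ?_) (h j hj e hok))
      (WE_err hp hS hW hL hq he' hF hX h hj hok)
    exact le_add_of_nonneg_right e6_badA_nonneg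
  have h3 : ∑ b ∈ range (p.m + 1) ×ˢ range (2 ^ p.wb),
      avg p.m e (fun e' => G (p.xc e' b.1 b.2)) ≤
      2 ^ (2 * lg) * ((1 + 2 ^ (20 * lg)) * (X / 2 ^ j)) := by
    refine (sum_le_card_nsmul _ _ _ fun b _ => (avg_xc G b.1 b.2).le.trans h2).trans ?_
    rw [nsmul_eq_mul, card_product, card_range, card_range]
    refine mul_le_mul_of_nonneg_right ?_ (by positivity)
    have a1 : 2 ^ p.wb ≤ 2 ^ lg := Nat.pow_le_pow_right (by norm_num) hp.wb_le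
    have a2 : (p.m + 1) * 2 ^ p.wb ≤ 2 ^ (2 * lg) :=
      calc (p.m + 1) * 2 ^ p.wb ≤ 2 ^ lg * 2 ^ lg := Nat.mul_le_mul hp.m_le a1
        _ = 2 ^ (2 * lg) := by ring
    exact_mod_cast a2
  have h4 := h j hj e hok
  have h5 := mul_le_mul_of_nonneg_left (add_le_add h3 (le_refl (X / 2 ^ j)))
    (by positivity : (0 : ℝ) ≤ 2 ^ (19 * lg))
  refine (add_le_add h5 h4).trans ?_
  have hlg : 1 ≤ lg := by have := hp.c_le; omega
  have a1 : (2 : ℝ) ^ (19 * lg) * (2 ^ (2 * lg) * (1 + 2 ^ (20 * lg)) + 1) + 1 ≤ 2 ^ (60 * lg) := by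
    have b0 : (2 : ℝ) ^ (19 * lg) * (2 ^ (2 * lg) * (1 + 2 ^ (20 * lg)) + 1) + 1 =
        2 ^ (21 * lg) + 2 ^ (41 * lg) + 2 ^ (19 * lg) + 2 ^ 0 := by ring
    have b1 : (2 : ℝ) ^ (21 * lg) ≤ 2 ^ (41 * lg) := pow_le_pow_right₀ (by norm_num) (by omega)
    have b2 : (2 : ℝ) ^ (19 * lg) ≤ 2 ^ (41 * lg) := pow_le_pow_right₀ (by norm_num) (by omega)
    have b3 : (2 : ℝ) ^ 0 ≤ 2 ^ (41 * lg) := pow_le_pow_right₀ (by norm_num) (by omega)
    have b4 : (2 : ℝ) ^ (41 * lg + 2) ≤ 2 ^ (60 * lg) := pow_le_pow_right₀ (by norm_num) (by omega)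
    rw [pow_add] at b4
    rw [b0]
    linarith
  calc (2 : ℝ) ^ (19 * lg) * (2 ^ (2 * lg) * ((1 + 2 ^ (20 * lg)) * (X / 2 ^ j)) + X / 2 ^ j) +
        X / 2 ^ j = (2 ^ (19 * lg) * (2 ^ (2 * lg) * (1 + 2 ^ (20 * lg)) + 1) + 1) * (X / 2 ^ j) := by
        ring
    _ ≤ 2 ^ (60 * lg) * (X / 2 ^ j) := mul_le_mul_of_nonneg_right a1 hY0
    _ = _ := by ring

end Vale.Agent.P313.NL
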