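import Vale.Agent.P313.NL.IDef
import Vale.Agent.P313.F43.Lin

/-! The first system, and the end of the hierarchy. -/

namespace Vale.Agent.P313.NL

open Finset
open scoped Classical

variable {p : Par} {S : Sys} {k eb : ℕ}

open F43

/-- The first graph. -/
structure Gr (p : Par) (A0 : ℕ → ℕ → ℕ) : Prop where
  two_le : 2 ≤ p.N
  N_le : p.N ≤ 2 ^ p.n0
  sub : Sub (mat p.N A0 2)
  col : ∀ v, ((range p.N).filter fun u => A0 u v ≠ 0).card ≤ 2

variable {A0 : ℕ → ℕ → ℕ}

theorem ib_mem {t : Tm} :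
    t ∈ (base p A0).T ↔ t.x < p.N ∧ t.z < p.N ∧ A0 t.x t.z ≠ 0 ∧ t = chA t.x t.z 0 := by
  simp only [base, mem_image, mem_filter, mem_product, mem_range]
  constructor
  · rintro ⟨a, ⟨⟨h1, h2⟩, h3⟩, rfl⟩
    exact ⟨h1, h2, h3, rfl⟩
  · rintro ⟨h1, h2, h3, h4⟩
    exact ⟨(t.x, t.z), ⟨⟨h1, h2⟩, h3⟩, h4.symm⟩

theorem ib_key {t : Tm} (ht : t ∈ (base p A0).T) : t.k = sgl 0 := by
  rw [(ib_mem.1 ht).2.2.2]
  rfl

theorem ib_I {t : Tm} (ht : t ∈ (base p A0).T) : t.I = 0 := by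
  rw [Tm.I, ib_key ht]
  rfl

theorem ib_ms {t : Tm} (ht : t ∈ (base p A0).T) : (base p A0).ms t = (A0 t.x t.z : ℝ) / 2 := by
  rw [Sys.ms, ib_I ht, pow_zero, div_one]
  rfl

theorem ib_ht (h : Gr p A0) {v : ℕ} (hv : v < p.N) : p.ht v = v :=
  Nat.mod_eq_of_lt (hv.trans_le h.N_le)

theorem ib_entry (h : Gr p A0) (u v : Fin p.N) : mat p.N A0 2 u v ≤ 1 :=
  (single_le_sum (fun v _ => h.sub.nonneg u v) (mem_univ v)).trans (h.sub.row u)

theorem ib_om (h : Gr p A0) {t : Tm} (ht : t ∈ (base p A0).T) : (A0 t.x t.z : ℝ) / 2 ≤ 1 := by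
  obtain ⟨h1, h2, -⟩ := ib_mem.1 ht
  simpa [mat] using ib_entry h ⟨_, h1⟩ ⟨_, h2⟩

theorem base_wf (h : Gr p A0) : (base p A0).WF p 0 0 := by
  have h2 := h.two_le
  have h3 := h.N_le
  refine ⟨le_rfl, fun t ht => ?_, fun t _ => ?_, fun d v => ?_, fun d v => ?_, fun d v hv => ?_,
    fun _ _ _ => rfl, fun _ _ _ => le_rfl⟩
  · obtain ⟨hx, hz, h0, e⟩ := ib_mem.1 ht
    have hk := ib_key ht
    refine ⟨hx.trans_le h3, hz.trans_le h3, ?_, by rwa [ib_ht h hz], fun _ => ⟨by rw [e]; rfl,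
      by rw [hk]; rfl⟩, fun hd => ?_, by rw [hk]; rfl, by rw [hk]; rfl, by rw [hk]; rfl,
      by rw [hk]; rfl⟩
    · rw [ib_ht h hx, ib_ht h hz]
      by_contra hn
      have := h.sub.tri ⟨_, hx⟩ ⟨_, hz⟩ (not_lt.1 hn)
      simp [mat, h0] at this
    · rw [hk] at hd
      exact absurd hd (by simp [sgl])
  · show (0 : ℝ) ≤ (A0 t.x t.z : ℝ) / 2
    positivity
  · simp only [base]
    split_ifs <;> norm_num
  · simp only [base]
    split_ifs <;> norm_num
  · have h4 : v = if d then 0 else p.N - 1 := by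
      by_contra hn
      exact hv (if_neg hn)
    have h5 : v < p.N := by split_ifs at h4 <;> omega
    refine ⟨?_, h5.trans_le h3⟩
    cases d <;> simpa [Par.tp, ib_ht h h5] using h4

theorem base_Wt (h : Gr p A0) : (base p A0).Wt 1 := by
  refine ⟨fun t ht => ib_om h ht, fun x z E => ?_⟩
  rw [Sys.Wg]
  rcases eq_empty_or_nonempty ((base p A0).T.filter fun t => t.x = x ∧ t.z = z ∧ t.k.E = E) with
    e | ⟨t, ht⟩
  · rw [e, sum_empty, mul_zero]
    exact zero_le_one
  · obtain ⟨h1, rfl, rfl, rfl⟩ := mem_filter.1 ht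
    rw [sum_eq_single_of_mem t ht fun s hs hn => absurd ?_ hn, ib_ms h1, ib_key h1]
    · simpa [sgl] using ib_om h h1
    · obtain ⟨h2, e1, e2, -⟩ := mem_filter.1 hs
      rw [(ib_mem.1 h2).2.2.2, (ib_mem.1 h1).2.2.2, e1, e2]

theorem base_deg (h : Gr p A0) (d : Bool) (v : ℕ) :
    ((base p A0).T.filter fun t => t.ep d = v).card ≤ 2 := by
  have inj : ∀ s ∈ (base p A0).T, ∀ t ∈ (base p A0).T, s.x = t.x → s.z = t.z → s = t :=
    fun s hs t ht e1 e2 => by rw [(ib_mem.1 hs).2.2.2, (ib_mem.1 ht).2.2.2, e1, e2]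
  cases d
  · by_cases hv : v < p.N
    · have h1 : (univ.filter fun z : Fin p.N => A0 v z ≠ 0).card ≤ 2 := by
        have h2 := card_nsmul_le_sum (univ.filter fun z : Fin p.N => A0 v z ≠ 0)
          (fun z => mat p.N A0 2 ⟨v, hv⟩ z) (1 / 2) fun z hz => by
            have : (1 : ℝ) ≤ A0 v z := Nat.one_le_cast.2 (Nat.pos_of_ne_zero (mem_filter.1 hz).2)
            simp only [mat, Nat.cast_ofNat]
            linarith
        have h3 := (h2.trans (sum_le_sum_of_subset_of_nonneg (filter_subset _ _)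
          fun z _ _ => h.sub.nonneg _ z)).trans (h.sub.row _)
        rw [nsmul_eq_mul] at h3
        exact_mod_cast (show (((univ.filter fun z : Fin p.N => A0 v z ≠ 0).card : ℕ) : ℝ) ≤ 2 by
          linarith)
      refine le_trans ?_ ((card_image_le (f := fun z : Fin p.N => chA v z 0)).trans h1)
      refine card_le_card fun t ht => ?_
      obtain ⟨h2, rfl⟩ := mem_filter.1 ht
      obtain ⟨-, hz, h0, e⟩ := ib_mem.1 h2
      exact mem_image.2 ⟨⟨t.z, hz⟩, mem_filter.2 ⟨mem_univ _, h0⟩, e.symm⟩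
    · rw [filter_eq_empty_iff.2 fun t ht e => hv (by subst e; exact (ib_mem.1 ht).1)]
      simp
  · refine le_trans ?_ ((card_image_le (f := fun u => chA u v 0)).trans (h.col v))
    refine card_le_card fun t ht => ?_
    obtain ⟨h2, rfl⟩ := mem_filter.1 ht
    obtain ⟨hx, -, h0, e⟩ := ib_mem.1 h2
    exact mem_image.2 ⟨t.x, mem_filter.2 ⟨mem_range.2 hx, h0⟩, e.symm⟩

theorem ib_sum_le (h : Gr p A0) (d : Bool) (v : ℕ) {f : Tm → ℝ}
    (hf : ∀ t ∈ (base p A0).T, f t ≤ 1) : ∑ t ∈ (base p A0).T with t.ep d = v, f t ≤ 2 := by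
  refine (sum_le_card_nsmul _ _ 1 fun t ht => hf t (mem_filter.1 ht).1).trans ?_
  rw [nsmul_eq_mul, mul_one]
  exact_mod_cast base_deg h d v

theorem base_LD0 (h : Gr p A0) (d : Bool) : (base p A0).LD0 d 2 := by
  refine ⟨fun _ => rfl, fun v => le_of_eq_of_le (sum_congr ?_ fun _ _ => rfl)
    (ib_sum_le h d v fun t ht => (ib_ms ht).trans_le (ib_om h ht))⟩
  exact filter_congr fun t _ => and_iff_left rfl

theorem ib_dbl {t : Tm} (ht : t ∈ (base p A0).T) : t.k.dbl ≠ true := by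
  rw [ib_key ht]
  simp [sgl]

theorem base_W2 : (base p A0).W2 0 := fun x z V => by
  rw [filter_eq_empty_iff.2 fun t ht e => ib_dbl ht e.1]
  simp

theorem base_G2 : (base p A0).G2 p true 0 := fun t ht _ => by
  have h1 : (base p A0).idle t = false := by simp [Shp.idle, ib_dbl ht, base]
  have h2 : (base p A0).lam t = 0 := rfl
  rw [h1, h2, ib_key ht]
  simp [sgl]

theorem base_Cnt (h : Gr p A0) : (base p A0).Cnt 2 0 0 := by
  refine ⟨fun d v => ib_sum_le h d v fun t ht => by rw [ib_I ht]; norm_num,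
    fun x z k hk => ?_, fun d v y k hk => ?_⟩
  · rw [filter_eq_empty_iff.2 fun t ht e => ib_dbl ht (by rw [e.2.2, hk])]
    simp
  · rw [filter_eq_empty_iff.2 fun t ht e => ib_dbl ht (by rw [e.2.2, hk])]
    simp

theorem ib_sum (f : ℕ → ℕ → ℝ) :
    ∑ t ∈ (base p A0).T, (base p A0).ms t * f t.x t.z =
      ∑ u : Fin p.N, ∑ v : Fin p.N, mat p.N A0 2 u v * f u v := by
  rw [sum_congr rfl fun t ht => by rw [ib_ms ht]]
  simp only [base]
  rw [sum_image fun a _ b _ e => Prod.ext (congrArg Tm.x e) (congrArg Tm.z e), sum_filter,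
    sum_product, sum_range]
  refine sum_congr rfl fun u _ => ?_
  rw [sum_range]
  refine sum_congr rfl fun v _ => ?_
  split_ifs with h
  · simp [mat, chA]
  · simp [mat, show A0 u v = 0 from not_not.1 h]

theorem ib_tot (h : Gr p A0) {f : ℕ → ℝ} (h0 : ∀ v, p.N ≤ v → f v = 0) (h1 : ∀ v, f v ≤ 1) :
    ∑ v ∈ range (2 ^ p.n0), f v ≤ p.N := by
  rw [← sum_subset (range_subset_range.2 h.N_le) fun v _ hv => h0 v (by simpa using hv)]
  exact (sum_le_card_nsmul _ _ 1 fun v _ => h1 v).trans (by simp)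

theorem base_pot (h : Gr p A0) (h0 : 0 < p.N) (h1 : p.N - 1 < p.N) :
    ∃ μ, (base p A0).Pot μ ∧ (base p A0).vlu μ = gr (mat p.N A0 2) ⟨0, h0⟩ ⟨p.N - 1, h1⟩ ∧
      (base p A0).Phi p μ ≤ p.N ∧ ∀ d, (base p A0).tot μ d ≤ p.N := by
  let μ : Bool → ℕ → ℝ := fun d v => if hv : v < p.N then
    (if d then gr (mat p.N A0 2) ⟨0, h0⟩ ⟨v, hv⟩ else gr (mat p.N A0 2) ⟨v, hv⟩ ⟨p.N - 1, h1⟩) else 0
  have m0 : ∀ d v, 0 ≤ μ d v := fun d v => by
    simp only [μ]
    split_ifs
    exacts [h.sub.gr_nonneg _ _, h.sub.gr_nonneg _ _, le_rfl]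
  have m1 : ∀ d v, μ d v ≤ 1 := fun d v => by
    simp only [μ]
    split_ifs
    exacts [h.sub.gr_le_one _ _, h.sub.gr_le_one _ _, zero_le_one]
  have m2 : ∀ d v, p.N ≤ v → μ d v = 0 := fun d v hv => dif_neg (not_lt.2 hv)
  refine ⟨μ, fun d v => ⟨m0 d v, ?_⟩, ?_, ?_, fun d => ib_tot h (m2 d) (m1 d)⟩
  · have e := ib_sum (p := p) (A0 := A0) fun x z =>
      if (if d then z else x) = v then μ d (if d then x else z) else 0
    have e' : ∑ t ∈ (base p A0).T with t.ep d = v, (base p A0).ms t * μ d (t.ep !d) =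
        ∑ t ∈ (base p A0).T, (base p A0).ms t *
          if (if d then t.z else t.x) = v then μ d (if d then t.x else t.z) else 0 := by
      rw [sum_filter]
      refine sum_congr rfl fun t _ => ?_
      cases d <;> simp [Tm.ep]
    rw [e', e]
    by_cases hv : v < p.N
    · lift v to Fin p.N using hv
      cases d
      · have := h.sub.gr_col v ⟨p.N - 1, h1⟩
        simp only [Fin.ext_iff] at this
        simpa [μ, base, ← Fin.ext_iff] using this
      · have := h.sub.gr_row ⟨0, h0⟩ v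
        simp only [Fin.ext_iff, eq_comm (a := 0)] at this
        simpa [μ, base, ← Fin.ext_iff, mul_comm] using this
    · have h2 : ∀ u : Fin p.N, (u : ℕ) ≠ v := fun u e => hv (e ▸ u.2)
      have h3 : v ≠ 0 := by omega
      have h4 : v ≠ p.N - 1 := by omega
      cases d <;> simp [μ, base, hv, h2, h3, h4]
  · rw [Sys.vlu, sum_eq_single_of_mem 0 (mem_range.2 (by positivity)) fun v _ hv => by
      simp [base, hv]]
    simp [base, μ, h0]
  · refine le_trans (sum_le_sum_of_subset_of_nonneg (filter_subset _ _) fun v _ _ => ?_)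
      (ib_tot h (fun v hv => ?_) fun v => ?_)
    · exact div_nonneg (mul_nonneg (m0 _ _) (m0 _ _)) (by positivity)
    · rw [m2 _ _ hv, zero_mul, zero_div]
    · exact (div_le_self (mul_nonneg (m0 _ _) (m0 _ _)) (one_le_pow₀ one_le_two)).trans
        (mul_le_one₀ (m1 _ _) (m0 _ _) (m1 _ _))

theorem ib_ms_nonneg (h : S.WF p k eb) {t : Tm} (ht : t ∈ S.T) : 0 ≤ S.ms t :=
  div_nonneg (h.om_nonneg t ht) (by positivity)

theorem ib_geom (J n : ℕ) : ∑ E ∈ Ico J (J + n), (1 : ℝ) / 2 ^ E ≤ 2 / 2 ^ J - 2 / 2 ^ (J + n) := by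
  induction n with
  | zero => simp
  | succ n ih =>
    rw [← add_assoc, sum_Ico_succ_top (Nat.le_add_right _ _), pow_succ]
    have : (2 : ℝ) / 2 ^ (J + n) = 2 * (1 / 2 ^ (J + n)) := by ring
    have : (2 : ℝ) / (2 ^ (J + n) * 2) = 1 / 2 ^ (J + n) := by field_simp
    linarith

theorem ib_tail {s : Finset Tm} {f : Tm → ℝ} {g : Tm → ℕ} {C : ℝ} (hC : 0 ≤ C) (J : ℕ)
    (h : ∀ E, ∑ t ∈ s with g t = E, f t ≤ C / 2 ^ E) :
    ∑ t ∈ s with J ≤ g t, f t ≤ 2 * C / 2 ^ J := by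
  rw [← sum_fiberwise_of_maps_to (g := g) (t := Ico J (J + (s.sup g + 1))) fun t ht =>
    mem_Ico.2 ⟨(mem_filter.1 ht).2, by have := le_sup (f := g) (mem_filter.1 ht).1; omega⟩]
  calc _ ≤ ∑ E ∈ Ico J (J + (s.sup g + 1)), C * (1 / 2 ^ E) := sum_le_sum fun E hE => by
        rw [filter_filter, mul_one_div]
        refine le_of_eq_of_le (sum_congr (filter_congr fun t _ => ?_) fun _ _ => rfl) (h E)
        exact and_iff_right_of_imp fun e => e ▸ (mem_Ico.1 hE).1
    _ ≤ C * (2 / 2 ^ J) := by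
        rw [← mul_sum]
        refine mul_le_mul_of_nonneg_left ((ib_geom J _).trans (sub_le_self _ ?_)) hC
        positivity
    _ = _ := by ring

/-- The mass of the terms of a large rank. -/
theorem ib_light (h : S.WF p k eb) {Ω Γ : ℝ} (hW : S.Wt Ω) (h2 : S.W2 Γ) (J x z : ℕ) :
    ∑ t ∈ S.T with (J ≤ max t.k.E t.k.V) ∧ t.x = x ∧ t.z = z, S.ms t ≤ 2 * (Ω + Γ) / 2 ^ J := by
  have m0 : ∀ {P : Tm → Prop} [DecidablePred P], ∀ t ∈ S.T.filter P, 0 ≤ S.ms t :=
    fun t ht => ib_ms_nonneg h (mem_filter.1 ht).1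
  have hΩ : 0 ≤ Ω := le_trans (mul_nonneg (by positivity) (sum_nonneg m0)) (hW.2 0 0 0)
  have hΓ : 0 ≤ Γ := by simpa using (sum_nonneg m0).trans (h2 0 0 0)
  have a1 := ib_tail (s := S.T.filter fun t => t.x = x ∧ t.z = z) (f := S.ms) (g := fun t => t.k.E)
    hΩ J fun E => by
      rw [le_div_iff₀' (by positivity), filter_filter]
      simpa only [and_assoc, Sys.Wg] using hW.2 x z E
  have a2 := ib_tail (s := S.T.filter fun t => t.k.dbl = true ∧ t.x = x ∧ t.z = z) (f := S.ms)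
    (g := fun t => t.k.V) hΓ J fun E => by
      rw [filter_filter]
      simpa only [and_assoc] using h2 x z E
  rw [mul_add, add_div]
  refine le_trans ?_ (add_le_add a1 a2)
  simp only [filter_filter, sum_filter, ← sum_add_distrib]
  refine sum_le_sum fun t ht => ?_
  have h0 := ib_ms_nonneg h ht
  have h1 : t.k.dbl = true ∨ t.k.V = 0 := by
    cases hd : t.k.dbl
    · right
      rw [((h.tm t ht).sing hd).2]
      rfl
    · exact .inl rfl
  split_ifs with c1 c2 c3 <;> first | linarith | (exfalso; grind)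

/-- A high level forces a large rank. -/
theorem ib_rank {b κ J : ℕ} (hG : S.G2 p true b) (hJ : b + 1023 * 1024 * J ≤ 1021 * p.c * κ)
    {t : Tm} (ht : t ∈ S.T) (h0 : 0 < S.om t) (hκ : κ ≤ S.lam t) : J ≤ max t.k.E t.k.V := by
  have h1 := hG t ht h0
  have h2 : S.cr p t ≤ 2 * S.lam t := by
    rw [Sys.cr]
    split_ifs <;> omega
  have h3 := Nat.mul_le_mul_left p.c h2
  have h4 := Nat.mul_le_mul_left p.c hκ
  rw [mul_left_comm] at h3
  rw [mul_assoc 1021] at hJ
  omega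

theorem ib_ep_lt (h : S.WF p k eb) (d : Bool) {t : Tm} (ht : t ∈ S.T) :
    t.ep d ∈ range (2 ^ S.q) := by
  cases d
  exacts [mem_range.2 (h.tm t ht).x_lt, mem_range.2 (h.tm t ht).z_lt]

theorem ib_fib (h : S.WF p k eb) (d : Bool) {s : Finset Tm} (hs : s ⊆ S.T) (f : Tm → ℝ)
    (g : ℕ → ℝ) : ∑ v ∈ range (2 ^ S.q), (∑ t ∈ s with t.ep d = v, f t) * g v =
      ∑ t ∈ s, f t * g (t.ep d) := by
  rw [← sum_fiberwise_of_maps_to (g := fun t => t.ep d) fun t ht => ib_ep_lt h d (hs ht)]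
  refine sum_congr rfl fun v _ => ?_
  rw [sum_mul]
  exact sum_congr rfl fun t ht => by rw [(mem_filter.1 ht).2]

theorem ib_heavy (h : S.WF p k eb) {μ : Bool → ℕ → ℝ} (hμ : S.Pot μ) {Ω Γ : ℝ}
    (hW : S.Wt Ω) (h2 : S.W2 Γ) (J : ℕ) :
    ∑ t ∈ S.T with J ≤ max t.k.E t.k.V, S.ms t * μ true t.x * μ false t.z ≤
      2 * (Ω + Γ) / 2 ^ J * (S.tot μ true * S.tot μ false) := by
  rw [← sum_fiberwise_of_maps_to (g := fun t => (t.x, t.z))
    (t := range (2 ^ S.q) ×ˢ range (2 ^ S.q)) fun t ht => mem_product.2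
      ⟨ib_ep_lt h false (mem_filter.1 ht).1, ib_ep_lt h true (mem_filter.1 ht).1⟩,
    Sys.tot, Sys.tot, sum_mul_sum, ← sum_product', mul_sum]
  refine sum_le_sum fun a _ => le_of_eq_of_le ?_ (mul_le_mul_of_nonneg_right
    (ib_light h hW h2 J a.1 a.2) (mul_nonneg (hμ _ _).1 (hμ _ _).1))
  rw [sum_mul, filter_filter]
  refine sum_congr (filter_congr fun t _ => by rw [Prod.ext_iff]) fun t ht => ?_
  obtain ⟨-, -, e1, e2⟩ := mem_filter.1 ht
  rw [e1, e2, mul_assoc]

set_option linter.unusedVariables false in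
/-- Long paths have a small value. -/
theorem vlu_direct (h : S.WF p k eb) (hN : 2 ≤ p.N) {μ : Bool → ℕ → ℝ} (hμ : S.Pot μ) {Ω Γ : ℝ}
    (hW : S.Wt Ω) (h2 : S.W2 Γ) {b κ J : ℕ} (hG : S.G2 p true b)
    (hJ : b + 1023 * 1024 * J ≤ 1021 * p.c * κ) (hc : 1 ≤ p.c) :
    S.direct ≤ S.vlu μ ∧ S.vlu μ ≤ S.direct + 4 ^ κ * S.Phi p μ +
      4 * (Ω + Γ) / 2 ^ J * (S.tot μ true * S.tot μ false) := by
  set F : Bool → ℕ → ℝ := fun d v => ∑ t ∈ S.T with t.ep d = v, S.ms t * μ d (t.ep !d) with hF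
  set U := S.T.filter fun t => J ≤ max t.k.E t.k.V with hU
  set G : Bool → ℕ → ℝ := fun d v => ∑ t ∈ U with t.ep d = v, S.ms t * μ d (t.ep !d) with hG'
  have m0 : ∀ d v, 0 ≤ μ d v := fun d v => (hμ d v).1
  have e0 : ∀ d v, μ d v = S.al d v + F d v := fun d v => (hμ d v).2
  have F0 : ∀ d v, 0 ≤ F d v := fun d v =>
    sum_nonneg fun t ht => mul_nonneg (ib_ms_nonneg h (mem_filter.1 ht).1) (m0 _ _)
  have G0 : ∀ d v, 0 ≤ G d v := fun d v => sum_nonneg fun t ht =>
    mul_nonneg (ib_ms_nonneg h (mem_filter.1 (mem_filter.1 ht).1).1) (m0 _ _)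
  have F1 : ∀ d v, F d v ≤ μ d v := fun d v => by linarith [e0 d v, h.al_nonneg d v]
  have a1 : ∀ d v, S.al d v ≤ μ d v := fun d v => by linarith [e0 d v, F0 d v]
  have Ftp : ∀ d v, p.tp d v = true → F d v = 0 := fun d v hv =>
    sum_eq_zero fun t ht => by
      obtain ⟨h1, rfl⟩ := mem_filter.1 ht
      have h3 := (h.tm t h1).ht_lt
      have h4 := (h.tm t h1).ht_z
      cases d <;> simp [Par.tp, Tm.ep] at hv <;> omega
  have FG : ∀ d v, κ ≤ S.lv d v → F d v = G d v := fun d v hv => by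
    refine (sum_subset (filter_subset_filter _ (filter_subset _ _)) fun t ht hn => ?_).symm
    obtain ⟨h1, rfl⟩ := mem_filter.1 ht
    rcases (h.om_nonneg t h1).eq_or_lt with e | e
    · rw [Sys.ms, ← e, zero_div, zero_mul]
    · refine (hn (mem_filter.2 ⟨mem_filter.2 ⟨h1, ib_rank hG hJ h1 e ?_⟩, rfl⟩)).elim
      cases d
      exacts [hv, hv.trans_eq (h.lv_eq t h1 e)]
  have hv : S.vlu μ = S.direct + ∑ t ∈ S.T, S.ms t * S.al true t.x * F false t.z := by
    have h1 : S.vlu μ = ∑ v ∈ range (2 ^ S.q), F false v * S.al true v :=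
      sum_congr rfl fun v _ => by
        rw [e0, mul_add, mul_comm (F false v), add_eq_right, mul_eq_zero]
        by_contra hn
        have h3 := (h.al_tp _ _ (not_or.1 hn).1).1
        have h4 := (h.al_tp _ _ (not_or.1 hn).2).1
        simp [Par.tp] at h3 h4
        omega
    rw [h1, ib_fib h false subset_rfl, Sys.direct, ← sum_add_distrib]
    refine sum_congr rfl fun t _ => ?_
    rw [e0]
    simp only [Tm.ep, Bool.not_false, if_true, Bool.false_eq_true, if_false]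
    ring
  have hL := ib_heavy h hμ hW h2 J
  have L1 : ∑ v ∈ range (2 ^ S.q), G true v * μ false v =
      ∑ t ∈ U, S.ms t * μ true t.x * μ false t.z := ib_fib h true (filter_subset _ _) _ _
  have L2 : ∑ v ∈ range (2 ^ S.q), G false v * μ true v =
      ∑ t ∈ U, S.ms t * μ true t.x * μ false t.z :=
    (ib_fib h false (filter_subset _ _) _ _).trans (sum_congr rfl fun t _ => mul_right_comm _ _ _)
  have h3 : ∑ t ∈ S.T, S.ms t * S.al true t.x * F false t.z ≤
      ∑ v ∈ range (2 ^ S.q), F true v * F false v :=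
    le_of_le_of_eq (sum_le_sum fun t ht => mul_le_mul_of_nonneg_right
      (mul_le_mul_of_nonneg_left (a1 _ _) (ib_ms_nonneg h ht)) (F0 _ _))
      (ib_fib h true subset_rfl _ _).symm
  have h4 : ∑ v ∈ range (2 ^ S.q), F true v * F false v ≤ 4 ^ κ * S.Phi p μ +
      (∑ v ∈ range (2 ^ S.q), G true v * μ false v +
        ∑ v ∈ range (2 ^ S.q), G false v * μ true v) := by
    rw [Sys.Phi, sum_filter, mul_sum, ← sum_add_distrib, ← sum_add_distrib]
    refine sum_le_sum fun v _ => ?_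
    have g1 := mul_nonneg (G0 true v) (m0 false v)
    have g2 := mul_nonneg (G0 false v) (m0 true v)
    have g3 := mul_nonneg (m0 true v) (m0 false v)
    split_ifs with c
    · have g4 : 0 ≤ 4 ^ κ * (μ true v * μ false v / 2 ^ (S.lv true v + S.lv false v)) := by
        positivity
      by_cases c1 : κ ≤ S.lv true v
      · have := mul_le_mul_of_nonneg_left (F1 false v) (G0 true v)
        rw [FG true v c1]
        linarith
      by_cases c2 : κ ≤ S.lv false v
      · have := mul_le_mul_of_nonneg_right (F1 true v) (G0 false v)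
        rw [FG false v c2]
        linarith
      have g5 : μ true v * μ false v ≤
          4 ^ κ * (μ true v * μ false v / 2 ^ (S.lv true v + S.lv false v)) := by
        rw [mul_div_left_comm]
        refine le_mul_of_one_le_right g3 ((one_le_div (by positivity)).2 ?_)
        rw [show (4 : ℝ) = 2 ^ 2 by norm_num, ← pow_mul]
        exact pow_le_pow_right₀ one_le_two (by omega)
      have := mul_le_mul (F1 true v) (F1 false v) (F0 _ _) (m0 _ _)
      linarith
    · have : F true v * F false v = 0 := by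
        rcases not_and_or.1 c with c | c
        · rw [Ftp true v (by simpa using c), zero_mul]
        · rw [Ftp false v (by simpa using c), mul_zero]
      linarith
  have h5 : 0 ≤ ∑ t ∈ S.T, S.ms t * S.al true t.x * F false t.z := sum_nonneg fun t ht =>
    mul_nonneg (mul_nonneg (ib_ms_nonneg h ht) (h.al_nonneg _ _)) (F0 _ _)
  have h6 : 4 * (Ω + Γ) / 2 ^ J * (S.tot μ true * S.tot μ false) =
      2 * (2 * (Ω + Γ) / 2 ^ J * (S.tot μ true * S.tot μ false)) := by ring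
  exact ⟨by linarith, by linarith⟩

end Vale.Agent.P313.NL
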