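import Vale.Agent.P313.NL.ID1

/-! Weights, ranks and counts under the operation `D`. -/

namespace Vale.Agent.P313.NL

open Finset
open scoped Classical

variable {p : Par} {S : Sys} {k eb : ℕ}

variable {B Ω κ Γ n n2 n3 : ℝ}

theorem id3_sum_le {α β : Type} {s : Finset α} {u : Finset β} (e : α → β) (he : Set.InjOn e s)
    (hm : ∀ a ∈ s, e a ∈ u) {f : α → ℝ} {g : β → ℝ} (h : ∀ a ∈ s, f a ≤ g (e a))
    (hg : ∀ b ∈ u, 0 ≤ g b) : ∑ a ∈ s, f a ≤ ∑ b ∈ u, g b :=
  (sum_le_sum h).trans ((sum_image he).symm.le.trans (sum_le_sum_of_subset_of_nonneg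
    (image_subset_iff.2 hm) fun b hb _ => hg b hb))

theorem id3_ms_nonneg (h : S.WF p k eb) {t : Tm} (ht : t ∈ S.T) : 0 ≤ S.ms t :=
  div_nonneg (h.om_nonneg t ht) (by positivity)

theorem id3_fa_le (χ : ℕ) (x : ℝ) : p.fa χ x ≤ 1 / p.M := by
  simpa [Par.rs, Par.flg] using rs_fa_le (p := p) false χ x

theorem id3_M_pos (p : Par) : (1 : ℝ) ≤ p.M := by exact_mod_cast Nat.one_le_two_pow

theorem id3_fa_le_one (χ : ℕ) (x : ℝ) : p.fa χ x ≤ 1 :=
  (id3_fa_le χ x).trans ((div_le_one (by linarith [id3_M_pos p])).2 (id3_M_pos p))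

section par

variable {d sf : Bool} {t u : Tm}

theorem id3_par (h : S.WF p k eb) (ht : t ∈ (S.D p d sf).T) : S.paD p d sf t ∈ S.T ∧
    S.ck t.x < p.A ∧ S.ck t.z < p.A ∧ S.chD p d sf (S.paD p d sf t) (S.ck t.x) (S.ck t.z) = t := by
  obtain ⟨⟨t, a, b⟩, c, rfl⟩ := mem_image.1 ht
  simp only [mem_product, mem_range] at c
  have hx := (h.tm t c.1).x_lt
  have hz := (h.tm t c.1).z_lt
  rw [paD_chD _ _ _ hx hz]
  simp only [Shp.chD, S.ck_dn hx, S.ck_dn hz]
  exact ⟨c.1, c.2.1, c.2.2, trivial⟩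

theorem id3_ck_lt (h : S.WF p k eb) (ht : t ∈ (S.D p d sf).T) (e : Bool) : S.ck (t.ep e) < p.A := by
  cases e
  exacts [(id3_par h ht).2.1, (id3_par h ht).2.2.1]

theorem id3_inj (h : S.WF p k eb) (ht : t ∈ (S.D p d sf).T) (hu : u ∈ (S.D p d sf).T)
    (e : S.paD p d sf t = S.paD p d sf u) (ex : S.ck t.x = S.ck u.x) (ez : S.ck t.z = S.ck u.z) :
    t = u := by
  rw [← (id3_par h ht).2.2.2, e, ex, ez, (id3_par h hu).2.2.2]

theorem id3_inj' (h : S.WF p k eb) (ht : t ∈ (S.D p d sf).T) (hu : u ∈ (S.D p d sf).T)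
    (e : S.paD p d sf t = S.paD p d sf u) {c : Bool} (e1 : t.ep c = u.ep c)
    (e2 : S.ck (t.ep !c) = S.ck (u.ep !c)) : t = u := by
  cases c
  exacts [id3_inj h ht hu e (congrArg _ e1) e2, id3_inj h ht hu e e2 (congrArg _ e1)]

theorem id3_ep (t : Tm) (c : Bool) : (S.paD p d sf t).ep c = S.up (t.ep c) := by
  cases c <;> rfl

theorem id3_E (h : S.WF p k eb) (ht : t ∈ (S.D p d sf).T) :
    t.k.E = (S.paD p d sf t).k.E + p.rs sf (S.ck (t.ep d)) := by
  refine (congrArg (·.k.E) (id3_par h ht).2.2.2).symm.trans ?_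
  cases d <;> rfl

theorem id3_ms (h : S.WF p k eb) (ht : t ∈ (S.D p d sf).T) :
    (S.D p d sf).ms t = S.ms (S.paD p d sf t) * p.fa (S.ck (t.ep d)) (S.ctr d (S.up (t.ep d))) *
      p.fb (S.ck (t.ep !d)) (S.ctr d (S.up (t.ep !d))) := by
  have := ms_chD h d sf (id3_par h ht).1 (S.ck t.x) (S.ck t.z)
  rw [(id3_par h ht).2.2.2, id3_ep, id3_ep] at this
  cases d <;> exact this

theorem id3_ms_le (h : S.WF p k eb) (ht : t ∈ (S.D p d sf).T) : (S.D p d sf).ms t ≤
    p.fa (S.ck (t.ep d)) (S.ctr d (S.up (t.ep d))) * S.ms (S.paD p d sf t) := by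
  rw [id3_ms h ht, mul_comm (p.fa _ _)]
  exact mul_le_of_le_one_right (mul_nonneg (id3_ms_nonneg h (id3_par h ht).1) (fa_nonneg _ _))
    (fb_le_one _ _)

theorem id3_idle (t : Tm) :
    (S.D p d sf).idle t = (S.idle (S.paD p d sf t) || p.flg sf (S.ck (t.ep d))) := by
  cases d <;> simp [Shp.idle, Sys.D, Shp.D, Shp.paD, Tm.ep, Bool.or_assoc, Bool.or_comm,
    Bool.or_left_comm]

theorem id3_calm (h : S.WF p k eb) (ht : t ∈ (S.D p d sf).T) (hi : (S.D p d sf).idle t = false) :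
    S.idle (S.paD p d sf t) = false ∧ (S.paD p d sf t).k.E = t.k.E := by
  rw [id3_idle, Bool.or_eq_false_iff] at hi
  exact ⟨hi.1, by simp [id3_E h ht, Par.rs, hi.2]⟩

end par

theorem id3_Wg_nonneg (h : S.WF p k eb) (x z E : ℕ) : 0 ≤ S.Wg x z E :=
  mul_nonneg (by positivity) (sum_nonneg fun _ ht => id3_ms_nonneg h (mem_filter.1 ht).1)

theorem D_Wt (h : S.WF p k eb) (d sf : Bool) (hW : S.Wt Ω) : (S.D p d sf).Wt (Ω / p.M) := by
  have h0 : 0 ≤ Ω := (id3_Wg_nonneg h 0 0 0).trans (hW.2 0 0 0)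
  have key : ∀ χ x w, 0 ≤ w → w ≤ Ω → w * (2 ^ p.rs sf χ * p.fa χ x) ≤ Ω / p.M :=
    fun χ x w _ b => (mul_le_mul b (rs_fa_le sf χ x)
      (mul_nonneg (by positivity) (fa_nonneg _ _)) h0).trans (mul_one_div _ _).le
  refine ⟨fun t ht => ?_, fun x z E => ?_⟩
  · have a := (id3_par h ht).1
    refine le_trans (mul_le_of_le_one_right (mul_nonneg (mul_nonneg (h.om_nonneg _ a)
      (by positivity)) (fa_nonneg _ _)) (fb_le_one _ _)) ?_
    rw [mul_assoc]
    exact key _ _ _ (h.om_nonneg _ a) (hW.1 _ a)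
  · set v := if d then z else x
    set r := p.rs sf (S.ck v)
    by_cases hr : r ≤ E
    · obtain ⟨E, rfl⟩ := Nat.exists_eq_add_of_le' hr
      refine le_trans ?_ (key (S.ck v) (S.ctr d (S.up v)) _ (id3_Wg_nonneg h (S.up x) (S.up z) E)
        (hW.2 _ _ _))
      rw [Sys.Wg, Sys.Wg, pow_add, mul_mul_mul_comm, mul_comm (∑ _ ∈ _, _) (p.fa _ _),
        mul_sum _ _ (p.fa _ _)]
      refine mul_le_mul_of_nonneg_left (id3_sum_le (S.paD p d sf) (fun t ht u hu e => ?_)
        (fun t ht => ?_) (fun t ht => ?_) fun t ht => mul_nonneg (fa_nonneg _ _)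
          (id3_ms_nonneg h (mem_filter.1 ht).1)) (by positivity)
      · obtain ⟨a, b, c, -⟩ := mem_filter.1 ht
        obtain ⟨a', b', c', -⟩ := mem_filter.1 hu
        exact id3_inj h a a' e (by rw [b, b']) (by rw [c, c'])
      · obtain ⟨a, rfl, rfl, c⟩ := mem_filter.1 ht
        exact mem_filter.2 ⟨(id3_par h a).1, rfl, rfl,
          Nat.add_right_cancel ((id3_E h a).symm.trans c)⟩
      · obtain ⟨a, rfl, rfl, -⟩ := mem_filter.1 ht
        exact id3_ms_le h a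
    · rw [Sys.Wg, sum_eq_zero, mul_zero]
      · exact div_nonneg h0 (Nat.cast_nonneg _)
      · intro t ht
        obtain ⟨a, rfl, rfl, rfl⟩ := mem_filter.1 ht
        exact (hr ((id3_E h a).symm ▸ Nat.le_add_left _ _)).elim

theorem id3_GG_nonneg (h : S.WF p k eb) (e : Bool) (x z E : ℕ) : 0 ≤ S.GG e x z E :=
  sum_nonneg fun _ ha =>
    have := mem_product.1 (mem_filter.1 ha).1
    mul_nonneg (id3_ms_nonneg h this.1) (id3_ms_nonneg h this.2)

theorem id3_GG (h : S.WF p k eb) (d sf e : Bool) (x z E : ℕ) : (S.D p d sf).GG e x z E ≤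
    p.fa (S.ck (if d then z else x)) (S.ctr d (S.up (if d then z else x))) *
      S.GG e (S.up x) (S.up z) E := by
  have nn : ∀ a ∈ S.T ×ˢ S.T, 0 ≤ p.fa (S.ck (if d then z else x))
      (S.ctr d (S.up (if d then z else x))) * (S.ms a.1 * S.ms a.2) := fun a ha =>
    mul_nonneg (fa_nonneg _ _) (mul_nonneg (id3_ms_nonneg h (mem_product.1 ha).1)
      (id3_ms_nonneg h (mem_product.1 ha).2))
  rw [Sys.GG, Sys.GG, mul_sum]
  refine le_trans ?_ (sum_le_sum fun a ha => mul_le_of_le_one_right (nn a (mem_filter.1 ha).1)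
    (sum_fa_le (p := p) (one_le_ctr h d a.1.z)))
  simp only [mul_sum]
  rw [← sum_product']
  refine id3_sum_le (fun a => ((S.paD p d sf a.1, S.paD p d sf a.2), S.ck a.1.z))
    (fun a ha b hb q => ?_) (fun a ha => ?_) (fun a ha => ?_) fun a ha =>
      mul_nonneg (nn _ (mem_filter.1 (mem_product.1 ha).1).1) (fa_nonneg _ _)
  · obtain ⟨a0, a1, a2, a3, -⟩ := mem_filter.1 ha
    obtain ⟨b0, b1, b2, b3, -⟩ := mem_filter.1 hb
    simp only [Prod.mk.injEq] at q
    exact Prod.ext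
      (id3_inj h (mem_product.1 a0).1 (mem_product.1 b0).1 q.1.1 (by rw [a2, b2]) q.2)
      (id3_inj h (mem_product.1 a0).2 (mem_product.1 b0).2 q.1.2 (by rw [← a1, ← b1, q.2])
        (by rw [a3, b3]))
  · obtain ⟨a0, a1, rfl, rfl, a4, rfl⟩ := mem_filter.1 ha
    obtain ⟨b1, b2⟩ := mem_product.1 a0
    refine mem_product.2 ⟨mem_filter.2 ⟨mem_product.2 ⟨(id3_par h b1).1, (id3_par h b2).1⟩,
      congrArg S.up a1, rfl, rfl, ?_⟩, mem_range.2 (id3_par h b1).2.2.1⟩
    cases e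
    exacts [id3_calm h b2 a4, id3_calm h b1 a4]
  · obtain ⟨a0, a1, rfl, rfl, -⟩ := mem_filter.1 ha
    obtain ⟨b1, b2⟩ := mem_product.1 a0
    refine (mul_le_mul (id3_ms_le h b1) (id3_ms_le h b2) ((id3_ms h b2).symm ▸ mul_nonneg
      (mul_nonneg (id3_ms_nonneg h (id3_par h b2).1) (fa_nonneg _ _)) (fb_nonneg _ _))
      (mul_nonneg (fa_nonneg _ _) (id3_ms_nonneg h (id3_par h b1).1))).trans (le_of_eq ?_)
    cases d
    · simp only [Tm.ep, Shp.paD, a1, Bool.false_eq_true, if_false]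
      ring
    · simp only [Tm.ep, Shp.paD, if_true]
      ring

theorem id3_GG_init (h : S.WF p k eb) {d : Bool} (hW : S.Wt Ω) (hL : ∀ v, S.fl d v = false)
    (x z E : ℕ) : S.GG d x z E ≤ S.ldC d (if d then z else x) * (Ω / 2 ^ E) := by
  have w : ∀ x z, ∑ t ∈ S.T with t.x = x ∧ t.z = z ∧ t.k.E = E, S.ms t ≤ Ω / 2 ^ E := fun x z =>
    (le_div_iff₀' (by positivity)).2 (hW.2 x z E)
  rw [Sys.ldC, sum_mul, Sys.GG]
  cases d
  · refine le_trans ?_ (sum_le_sum fun t ht => mul_le_mul_of_nonneg_left (w t.z z)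
      (id3_ms_nonneg h (mem_filter.1 ht).1))
    simp only [mul_sum]
    rw [sum_sigma']
    refine id3_sum_le (fun a => ⟨a.1, a.2⟩) (fun a _ b _ q => ?_) (fun a ha => ?_)
      (fun _ _ => le_rfl) fun a ha =>
        mul_nonneg (id3_ms_nonneg h (mem_filter.1 (mem_sigma.1 ha).1).1)
          (id3_ms_nonneg h (mem_filter.1 (mem_sigma.1 ha).2).1)
    · simp only [Sigma.mk.injEq, heq_eq_eq] at q
      exact Prod.ext q.1 q.2
    · obtain ⟨a0, a1, a2, a3, -, a5⟩ := mem_filter.1 ha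
      exact mem_sigma.2 ⟨mem_filter.2 ⟨(mem_product.1 a0).1, a2, hL _⟩,
        mem_filter.2 ⟨(mem_product.1 a0).2, a1.symm, a3, a5⟩⟩
  · refine le_trans ?_ (sum_le_sum fun t ht => mul_le_mul_of_nonneg_left (w x t.x)
      (id3_ms_nonneg h (mem_filter.1 ht).1))
    simp only [mul_sum]
    rw [sum_sigma']
    refine id3_sum_le (fun a => ⟨a.2, a.1⟩) (fun a _ b _ q => ?_) (fun a ha => ?_)
      (fun _ _ => (mul_comm _ _).le) fun a ha =>
        mul_nonneg (id3_ms_nonneg h (mem_filter.1 (mem_sigma.1 ha).1).1)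
          (id3_ms_nonneg h (mem_filter.1 (mem_sigma.1 ha).2).1)
    · simp only [Sigma.mk.injEq, heq_eq_eq] at q
      exact Prod.ext q.2 q.1
    · obtain ⟨a0, a1, a2, a3, -, a5⟩ := mem_filter.1 ha
      exact mem_sigma.2 ⟨mem_filter.2 ⟨(mem_product.1 a0).2, a3, hL _⟩,
        mem_filter.2 ⟨(mem_product.1 a0).1, a2, a1, a5⟩⟩

theorem D_GI_init (h : S.WF p k eb) {d : Bool} (sf : Bool) (hW : S.Wt Ω) (hL : S.LD0 d B) :
    (S.D p d sf).GI d (Ω / p.M) := fun x z E => by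
  have h0 : 0 ≤ Ω := (id3_Wg_nonneg h 0 0 0).trans (hW.2 0 0 0)
  have hM := id3_M_pos p
  refine (id3_GG h d sf d x z E).trans ((mul_le_mul_of_nonneg_left
    (id3_GG_init h hW hL.1 _ _ E) (fa_nonneg _ _)).trans ?_)
  rw [← apply_ite S.up, ← mul_assoc, div_right_comm, div_eq_mul_one_div (Ω / _), mul_comm (Ω / _)]
  refine mul_le_mul_of_nonneg_right ?_ (by positivity)
  generalize (if d then z else x) = v
  by_cases h1 : p.fa (S.ck v) (S.ctr d (S.up v)) = 0
  · rw [h1, zero_mul]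
    positivity
  · obtain ⟨a, b⟩ := fa_pos h1
    have a' : (0 : ℝ) < p.cu (S.ck v) := by exact_mod_cast a
    rw [Sys.ctr, hL.1] at b
    simp only [Bool.false_eq_true, if_false] at b
    refine (mul_le_mul (fa_le _ _) (show S.ldC d (S.up v) ≤ p.cu (S.ck v) by linarith)
      (sum_nonneg fun _ ht => id3_ms_nonneg h (mem_filter.1 ht).1) (by positivity)).trans
      (le_of_eq ?_)
    field_simp

theorem D_GI (h : S.WF p k eb) (d sf : Bool) {e : Bool} (hG : S.GI e κ) : (S.D p d sf).GI e κ :=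
  fun x z E => (id3_GG h d sf e x z E).trans
    ((mul_le_of_le_one_left (id3_GG_nonneg h _ _ _ _) (id3_fa_le_one _ _)).trans (hG _ _ _))

theorem D_W2 (h : S.WF p k eb) (d sf : Bool) (hW : S.W2 Γ) : (S.D p d sf).W2 Γ := fun x z V => by
  refine le_trans (id3_sum_le (S.paD p d sf) (fun t ht u hu e => ?_) (fun t ht => ?_)
    (fun t ht => ?_) fun t ht => id3_ms_nonneg h (mem_filter.1 ht).1) (hW (S.up x) (S.up z) V)
  · obtain ⟨a, -, b, c, -⟩ := mem_filter.1 ht
    obtain ⟨a', -, b', c', -⟩ := mem_filter.1 hu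
    exact id3_inj h a a' e (by rw [b, b']) (by rw [c, c'])
  · obtain ⟨a, b, rfl, rfl, c⟩ := mem_filter.1 ht
    exact mem_filter.2 ⟨(id3_par h a).1, b, rfl, rfl, c⟩
  · have a := (mem_filter.1 ht).1
    exact (id3_ms_le h a).trans
      (mul_le_of_le_one_left (id3_ms_nonneg h (id3_par h a).1) (id3_fa_le_one _ _))

theorem D_G2 (h : S.WF p k eb) (hc : p.c ≤ 1024 * p.r1) (d : Bool) {sf : Bool} {b : ℕ}
    (hG : S.G2 p true b) : (S.D p d sf).G2 p true b := fun t ht h0 => by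
  have a := (id3_par h ht).1
  have h1 := hG _ a ((h.om_nonneg _ a).lt_of_ne fun e => by
    simp only [Sys.D, ← e, zero_mul, lt_self_iff_false] at h0)
  have e1 : (S.D p d sf).lam t = S.lam (S.paD p d sf t) := rfl
  have e2 : (S.D p d sf).cr p t = S.cr p (S.paD p d sf t) := by
    simp only [Sys.cr, e1, Par.tp, Shp.paD, ht_up _ h.n0_le]
    rfl
  have e3 : (S.paD p d sf t).k.V = t.k.V := rfl
  rw [e1, e2, id3_idle, id3_E h ht, Par.rs, ← e3]
  generalize S.paD p d sf t = u at a h1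
  cases p.flg sf (S.ck (t.ep d))
  · simpa using h1
  · cases hi : S.idle u
    · have : u.k.V = 0 := by
        rw [((h.tm u a).sing (by
          simp only [Shp.idle, Bool.or_eq_false_iff] at hi
          exact hi.1.1)).2]
        rfl
      simp only [hi, this, Bool.and_false, Bool.toNat_false, Bool.or_true, Bool.and_true,
        Bool.toNat_true, if_true] at h1 ⊢
      omega
    · simp only [hi, Bool.or_true, Bool.and_true, Bool.toNat_true, if_true] at h1 ⊢
      omega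

theorem D_Cnt (h : S.WF p k eb) (d sf : Bool) (hC : S.Cnt n n2 n3) :
    (S.D p d sf).Cnt (p.A * n) n2 (p.A * n3) := by
  refine ⟨fun e v => ?_, fun x z κ hκ => ?_, fun e v y κ hκ => ?_⟩
  · refine le_trans (id3_sum_le (u := (S.T.filter fun t => t.ep e = S.up v) ×ˢ range p.A)
      (g := fun a => 1 / 2 ^ a.1.I) (fun t => (S.paD p d sf t, S.ck (t.ep !e)))
      (fun t ht u hu q => ?_) (fun t ht => ?_) (fun t ht => ?_) fun _ _ => by positivity) ?_
    · obtain ⟨a, b⟩ := mem_filter.1 ht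
      obtain ⟨a', b'⟩ := mem_filter.1 hu
      exact id3_inj' h a a' (congrArg Prod.fst q) (b.trans b'.symm) (congrArg Prod.snd q)
    · obtain ⟨a, rfl⟩ := mem_filter.1 ht
      exact mem_product.2 ⟨mem_filter.2 ⟨(id3_par h a).1, id3_ep _ _⟩,
        mem_range.2 (id3_ck_lt h a _)⟩
    · exact one_div_le_one_div_of_le (by positivity) (pow_le_pow_right₀ one_le_two
        (Nat.add_le_add_right (Nat.sub_le _ _) _))
    · rw [sum_product_right]
      simp only [sum_const, card_range, nsmul_eq_mul]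
      exact mul_le_mul_of_nonneg_left (hC.tot _ _) (Nat.cast_nonneg _)
  · refine le_trans (Nat.cast_le.2 (card_le_card_of_injOn (S.paD p d sf) (fun t ht => ?_)
      fun t ht u hu e => ?_)) (hC.xz (S.up x) (S.up z)
        { κ with E := κ.E - p.rs sf (S.ck (if d then z else x)) } hκ)
    · obtain ⟨a, rfl, rfl, rfl⟩ := mem_filter.1 ht
      exact mem_filter.2 ⟨(id3_par h a).1, rfl, rfl, rfl⟩
    · obtain ⟨a, b, c, -⟩ := mem_filter.1 ht
      obtain ⟨a', b', c', -⟩ := mem_filter.1 hu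
      exact id3_inj h a a' e (by rw [b, b']) (by rw [c, c'])
  · have h3 : 0 ≤ n3 := nonneg_of_mul_nonneg_left
      ((Nat.cast_nonneg _).trans (hC.xy e v y κ hκ)) (by positivity)
    rw [card_eq_sum_card_fiberwise (f := fun t => S.ck (t.ep !e)) (t := range p.A)
      fun t ht => mem_range.2 (id3_ck_lt h (mem_filter.1 ht).1 _), Nat.cast_sum, mul_assoc]
    refine (sum_le_card_nsmul _ _ _ fun χ _ => ?_).trans (by rw [card_range, nsmul_eq_mul])
    refine le_trans (Nat.cast_le.2 (card_le_card_of_injOn (S.paD p d sf) (fun t ht => ?_)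
      fun t ht u hu q => ?_)) ((hC.xy e (S.up v) y
        { κ with E := κ.E - p.rs sf (if d = e then S.ck v else χ) } hκ).trans
          (mul_le_mul_of_nonneg_left (pow_le_pow_right₀ one_le_two ?_) h3))
    · obtain ⟨a, rfl⟩ := mem_filter.1 ht
      obtain ⟨b, rfl, rfl, rfl⟩ := mem_filter.1 a
      refine mem_filter.2 ⟨(id3_par h b).1, id3_ep _ _, rfl, ?_⟩
      cases d <;> cases e <;> rfl
    · obtain ⟨a, b⟩ := mem_filter.1 ht
      obtain ⟨a', b'⟩ := mem_filter.1 hu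
      exact id3_inj' h (mem_filter.1 a).1 (mem_filter.1 a').1 q
        ((mem_filter.1 a).2.1.trans (mem_filter.1 a').2.1.symm) (b.trans b'.symm)
    · dsimp only
      split_ifs <;> omega

end Vale.Agent.P313.NL
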