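import Vale.Agent.P313.NL.IM2b

/-! The operation `M`: potentials. -/

namespace Vale.Agent.P313.NL

open Finset
open scoped Classical

variable {p : Par} {S : Sys} {k eb : ℕ}

namespace IM2

variable {μ : Bool → ℕ → ℝ} {Q : ℕ → ℝ}

theorem cnt_le {ι : Type} (R s : Finset ι) (V : ι → Prop) {_ : DecidablePred V}
    (h : ∀ a, V a → a ∈ s) {x : ℝ} (hx : 0 ≤ x) : (∑ a ∈ R, if V a then x else 0) ≤ s.card * x := by
  rw [← sum_filter, sum_const, nsmul_eq_mul]
  exact mul_le_mul_of_nonneg_right (Nat.cast_le.2 (card_le_card fun a ha =>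
    h a (mem_filter.1 ha).2)) hx

theorem cntT (v : ℕ) : ∃ s : Finset ℕ, s.card ≤ p.K + 1 ∧ ∀ a, vT p S v a → a ∈ s := by
  unfold vT
  split_ifs
  · exact ⟨{0}, by simp, fun a h => by simp [h]⟩
  · exact ⟨{S.lv true v + 1}, by simp, fun a h => by simp [h]⟩
  · exact ⟨range (p.K + 1), by simp, fun a h => mem_range.2 (Nat.lt_succ_of_le h.2)⟩

theorem cntF (v : ℕ) : ∃ s : Finset ℕ, s.card ≤ p.K + 1 ∧ ∀ b c, vF p S v b c → b ∈ s := by
  unfold vF
  split_ifs
  · exact ⟨{0}, by simp, fun a _ h => by simp [h]⟩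
  · exact ⟨{S.lv false v + 1}, by simp, fun a _ h => by simp [h]⟩
  · exact ⟨range (p.K + 1), by simp, fun a _ h => mem_range.2 (Nat.lt_succ_of_le h.2)⟩

theorem fib (I : Finset ℕ) (f : Tm → ℕ) (g : Tm → ℝ) :
    ∑ v ∈ I, ∑ t ∈ S.T with f t = v, g t = ∑ t ∈ S.T, if f t ∈ I then g t else 0 := by
  rw [sum_fiberwise_eq_sum_filter, sum_filter]

theorem div_pow_le {x : ℝ} (hx : 0 ≤ x) {m n : ℕ} (h : m ≤ n) : x / 2 ^ n ≤ x / 2 ^ m :=
  div_le_div_of_nonneg_left hx (by positivity) (pow_le_pow_right₀ one_le_two h)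

/-- the flow through the terms which wait for the previous vertex -/
noncomputable def Ub (p : Par) (S : Sys) (μ : Bool → ℕ → ℝ) (v : ℕ) : ℝ :=
  ∑ t ∈ S.T with t.z = v, if S.idle t = false ∧ ¬ S.en p t then S.ms t * μ true t.x else 0
/-- the value of the terms which wait for the next vertex -/
noncomputable def Vb (p : Par) (S : Sys) (μ : Bool → ℕ → ℝ) (v : ℕ) : ℝ :=
  ∑ t ∈ S.T with t.x = v, if S.idle t = false ∧ ¬ S.prd p t then S.ms t * μ false t.z else 0
/-- the weighted new flow -/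
noncomputable def IN (p : Par) (S : Sys) (μ : Bool → ℕ → ℝ) (Q : ℕ → ℝ) (v : ℕ) (c : Bool) : ℝ :=
  ∑ a ∈ range (2 ^ p.W1), if vT p S v a then 1 / 2 ^ a * fT p S μ Q v c a else 0
/-- the inner names -/
noncomputable def inn (p : Par) (S : Sys) : Finset ℕ :=
  (range (2 ^ S.q)).filter fun v => p.tp true v = false ∧ p.tp false v = false

namespace Ctx
variable (C : Ctx p S μ Q k eb)
include C

theorem vlu_nw : (S.M p).vlu (nw p S μ Q) = S.vlu μ := by
  refine (sum_names S.toShp _).trans (sum_congr rfl fun v hv => ?_)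
  have hv' := mem_range.1 hv
  by_cases h0 : S.al true v = 0
  · simp [Sys.M, Shp.up_dn _ hv', h0]
  have h1 : ∀ a, vT p S v a ↔ a = 0 := fun a => by simp [vT, (C.wf.al_tp _ _ h0).1]
  have e := C.outS hv' (Nat.zero_le _) ((h1 0).2 rfl) fun _ => 1
  simp only [one_mul] at e
  rw [C.potF, ← e, mul_sum]
  refine sum_congr rfl fun χ hχ => ?_
  by_cases h2 : S.vld p v χ
  · simp [Sys.M, Shp.up_dn _ hv', Shp.ck_dn _ hv', h2, Shp.dn_lt _ hv' (mem_range.1 hχ),
      (h1 _).1 ((vld_iff _ _).1 h2).1]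
  · simp [nw_vld hv' _ h2]

theorem totT : (S.M p).tot (nw p S μ Q) true ≤ 2 * (p.K + 1) * S.tot μ true := by
  refine (sum_names S.toShp _).trans_le ?_
  rw [Sys.tot, mul_sum]
  refine sum_le_sum fun v hv => ?_
  obtain ⟨s, h1, h2⟩ := cntF (p := p) (S := S) v
  rw [sum_congr rfl fun χ hχ => by rw [nw_dn (mem_range.1 hv) (mem_range.1 hχ), if_pos rfl],
    chunk (K_lt C.hW).1 fun a b =>
      if vT p S v a ∧ vF p S v b.1 b.2 then fT p S μ Q v b.2 a else 0, sum_comm]
  refine (sum_le_sum (g := fun b => if vF p S v b.1 b.2 then μ true v else 0) fun b _ => ?_).trans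
    ((cnt_le _ (s ×ˢ univ) _ (fun b h => mem_product.2 ⟨h2 _ _ h, mem_univ _⟩) (C.μ0 _ _)).trans
      (mul_le_mul_of_nonneg_right ?_ (C.μ0 _ _)))
  · by_cases h : vF p S v b.1 b.2
    · simp only [h, and_true, if_true, C.sumT1]
      exact (C.FF_bd _ _).2
    · simp [h]
  · rw [card_product, card_univ, Fintype.card_bool]
    exact_mod_cast (by omega : s.card * 2 ≤ 2 * (p.K + 1))

theorem totF : (S.M p).tot (nw p S μ Q) false ≤ 2 * (p.K + 1) * S.tot μ false := by
  refine (sum_names S.toShp _).trans_le ?_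
  rw [Sys.tot, mul_sum]
  refine sum_le_sum fun v hv => ?_
  obtain ⟨s, h1, h2⟩ := cntT (p := p) (S := S) v
  rw [sum_congr rfl fun χ hχ => by
      rw [nw_dn (mem_range.1 hv) (mem_range.1 hχ), if_neg Bool.false_ne_true],
    chunk (K_lt C.hW).1 fun a b => if vT p S v a ∧ vF p S v b.1 b.2 then fF p S μ v b else 0]
  refine (sum_le_sum (g := fun a => if vT p S v a then μ false v else 0) fun a _ => ?_).trans
    ((cnt_le _ s _ h2 (C.μ0 _ _)).trans (mul_le_mul_of_nonneg_right ?_ (C.μ0 _ _)))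
  · have e := C.sumF1 (fun _ => 1) v
    simp only [one_mul] at e
    by_cases h : vT p S v a
    · simp only [h, true_and, if_true, e]
      exact (C.potF v).ge
    · simp [h]
  · exact_mod_cast (by omega : s.card ≤ 2 * (p.K + 1))

theorem al0 {d : Bool} {v : ℕ} (h : p.tp d v = false) : S.al d v = 0 := by
  by_contra h0
  rw [(C.wf.al_tp _ _ h0).1] at h
  exact Bool.noConfusion h

theorem IN0 (v : ℕ) (c : Bool) : 0 ≤ IN p S μ Q v c :=
  sum_nonneg fun _ _ => ite_nonneg (mul_nonneg (by positivity) (C.fT0 _ _ _)) le_rfl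

theorem Ub0 (v : ℕ) : 0 ≤ Ub p S μ v := sum_nonneg fun _ ht =>
  ite_nonneg (mul_nonneg (ms_nonneg C.wf (mem_filter.1 ht).1) (C.μ0 _ _)) le_rfl

theorem IN_le {v : ℕ} (hv : p.tp true v = false) (c : Bool) : IN p S μ Q v c ≤
    1 / 2 ^ S.lv true v * if c then 3 / 4 * μ true v + Ub p S μ v / 4 else μ true v := by
  have e : (if c then 3 / 4 * μ true v + Ub p S μ v / 4 else μ true v) = ∑ t ∈ S.T with t.z = v,
      if c then 3 / 4 * (S.ms t * μ true t.x) +
        (if S.idle t = false ∧ ¬ S.en p t then S.ms t * μ true t.x else 0) / 4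
      else S.ms t * μ true t.x := by
    rw [C.potT v, C.al0 hv, zero_add, Ub]
    cases c
    · rfl
    · simp only [if_true, sum_add_distrib, mul_sum, sum_div]
  rw [IN, C.sumT, C.al0 hv, mul_zero, zero_add, e, mul_sum]
  refine (add_le_add le_rfl (sum_le_sum (g := fun e => 1 / 2 ^ S.lv true v *
    (S.ms e.1 * S.ms e.2 / 2 * FT p S μ Q e.1)) fun e he => ?_)).trans ?_
  · obtain ⟨h1, h2⟩ := mem_filter.1 he
    by_cases h0 : S.ms e.2 = 0
    · simp [h0]
    have h3 := (mem_mp.1 h1).2.1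
    refine mul_le_mul_of_nonneg_right (div_pow_le zero_le_one ?_) (mul_nonneg (C.mm0 h1) (C.FT0 _))
    rw [← h2, C.wf.lv_eq _ h3 (om_pos C.wf h3 h0)]
    exact le_max_right _ _
  rw [← mul_sum, C.mp2, mul_sum, ← sum_add_distrib]
  refine sum_le_sum fun t ht => ?_
  obtain ⟨h1, h2⟩ := mem_filter.1 ht
  by_cases h0 : S.ms t = 0
  · simp [h0, hm]
  have h3 : S.lv true v = S.lam t := h2 ▸ C.wf.lv_eq _ h1 (om_pos C.wf h1 h0)
  have h4 := mul_nonneg (ms_nonneg C.wf h1) (C.μ0 true t.x)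
  have h5 := mul_le_mul_of_nonneg_left (C.Q_bd t.x).2 (ms_nonneg C.wf h1)
  have h6 := mul_nonneg (ms_nonneg C.wf h1) (C.Q_bd t.x).1
  rw [nl, h3, pow_add, ← div_div, div_mul_eq_mul_div, mul_div_assoc, ← mul_add]
  refine mul_le_mul_of_nonneg_left ?_ (by positivity)
  cases hi : S.idle t
  · by_cases h7 : S.en p t <;> by_cases h8 : S.prd p t <;> cases c <;>
      simp [hm, FT, FF, h7, h8] <;> linarith
  · have h7 : ¬ S.en p t := fun h => by simp [h.1] at hi
    have h8 : ¬ S.prd p t := fun h => by simp [h.1] at hi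
    cases c <;> simp [hm, FT, FF, h7, h8] <;> linarith

theorem vtx {v : ℕ} (hv : v ∈ inn p S) : ∑ χ ∈ range p.A, nw p S μ Q true (S.dn v χ) *
    nw p S μ Q false (S.dn v χ) / 2 ^ (p.cl true χ + p.cl false χ) ≤
      (3 / 4 * (μ true v * μ false v) + Ub p S μ v * μ false v / 4 + μ true v * Vb p S μ v / 4) /
        2 ^ (S.lv true v + S.lv false v) := by
  obtain ⟨h1, h2, h3⟩ := mem_filter.1 hv
  have e1 : ∀ χ ∈ range p.A, nw p S μ Q true (S.dn v χ) * nw p S μ Q false (S.dn v χ) /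
      2 ^ (p.cl true χ + p.cl false χ) = if vF p S v (p.cl false χ) (p.cb χ) then
        (if vT p S v (p.cl true χ) then 1 / 2 ^ p.cl true χ * fT p S μ Q v (p.cb χ) (p.cl true χ)
          else 0) / 2 ^ p.cl false χ * fF p S μ v (p.cl false χ, p.cb χ) else 0 := fun χ hχ => by
    rw [nw_dn (mem_range.1 h1) (mem_range.1 hχ), nw_dn (mem_range.1 h1) (mem_range.1 hχ), pow_add]
    by_cases a : vT p S v (p.cl true χ) <;> by_cases b : vF p S v (p.cl false χ) (p.cb χ) <;>
      simp [a, b]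
    ring
  have e2 := C.sumF (fun b => IN p S μ Q v b.2 / 2 ^ b.1) v
  rw [sum_congr rfl e1, chunk (K_lt C.hW).1 fun a b => if vF p S v b.1 b.2 then
    (if vT p S v a then 1 / 2 ^ a * fT p S μ Q v b.2 a else 0) / 2 ^ b.1 * fF p S μ v b else 0,
    sum_comm]
  simp only [sum_ite_irrel', ← sum_mul, ← sum_div]
  refine e2.trans_le ?_
  rw [C.al0 h3, mul_zero, zero_add]
  refine (add_le_add le_rfl (sum_le_sum (g := fun e => IN p S μ Q v (decide (S.prd p e.1)) /
    2 ^ S.lv false v * (S.ms e.1 * S.ms e.2 / 2 * μ false e.2.z)) fun e he => ?_)).trans ?_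
  · obtain ⟨a1, a2⟩ := mem_filter.1 he
    refine mul_le_mul_of_nonneg_right (div_pow_le (C.IN0 _ _) ?_) (mul_nonneg (C.mm0 a1) (C.μ0 _ _))
    rw [← a2]
    exact le_max_left _ _
  rw [mp1 v fun t => IN p S μ Q v (decide (S.prd p t)) / 2 ^ S.lv false v, ← sum_add_distrib,
    C.potF v, C.al0 h3, zero_add, Vb]
  simp only [mul_sum, sum_div, ← sum_add_distrib]
  refine sum_le_sum fun t ht => ?_
  obtain ⟨a1, a2⟩ := mem_filter.1 ht
  have a3 : S.lam t = S.lv false v := a2 ▸ rfl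
  have a4 := mul_nonneg (ms_nonneg C.wf a1) (C.μ0 false t.z)
  have a5 := mul_le_mul_of_nonneg_right (C.IN_le h2 (decide (S.prd p t))) a4
  have a6 := mul_nonneg (C.μ0 true v) a4
  have a7 := mul_nonneg (C.Ub0 v) a4
  have a8 : (0 : ℝ) < 1 / 2 ^ S.lv true v := by positivity
  rw [nl, a3, pow_add, pow_add, GG, mul_comm ((2 : ℝ) ^ S.lv true v), ← div_div, ← div_div,
    div_right_comm, div_mul_eq_mul_div, div_mul_eq_mul_div _ ((2 : ℝ) ^ S.lv false v), ← add_div,
    div_right_comm _ _ ((2 : ℝ) ^ S.lv true v)]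
  refine div_le_div_of_nonneg_right ?_ (by positivity)
  rw [div_eq_mul_one_div _ ((2 : ℝ) ^ S.lv true v)]
  generalize (1 : ℝ) / 2 ^ S.lv true v = w at a5 a8 ⊢
  have b6 := mul_nonneg a6 a8.le
  have b7 := mul_nonneg a7 a8.le
  cases hi : S.idle t
  · by_cases h8 : S.prd p t <;> simp only [h8, decide_true, decide_false, if_true, if_false,
      Bool.false_eq_true, Bool.toNat_false, pow_zero, div_one, not_true, not_false_iff, and_true,
      and_false] at a5 ⊢ <;> linarith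
  · have h7 : ¬ S.en p t := fun h => by simp [h.1] at hi
    have h8 : ¬ S.prd p t := fun h => by simp [h.1] at hi
    simp only [h7, h8, decide_false, if_false, Bool.false_eq_true, Bool.toNat_true, pow_one,
      Bool.true_eq_false, false_and] at a5 ⊢
    linarith

theorem chU : ∑ v ∈ inn p S, Ub p S μ v * μ false v / 2 ^ (S.lv true v + S.lv false v) ≤
    S.Phi p μ / 8 := by
  have e1 : ∀ v ∈ inn p S, Ub p S μ v * μ false v / 2 ^ (S.lv true v + S.lv false v) =
      ∑ t ∈ S.T with t.z = v, (if S.idle t = false ∧ ¬ S.en p t then S.ms t * μ true t.x else 0) *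
        μ false t.z / 2 ^ (S.lv true t.z + S.lv false t.z) := fun v _ => by
    rw [Ub, sum_mul, sum_div]
    exact sum_congr rfl fun t ht => by rw [(mem_filter.1 ht).2]
  have e2 : ∀ v ∈ inn p S, μ true v * μ false v / 2 ^ (S.lv true v + S.lv false v) / 8 =
      ∑ t ∈ S.T with t.x = v, S.ms t * μ true t.x * μ false t.z /
        2 ^ (S.lv true t.x + S.lv false t.x + 3) := fun v hv => by
    rw [C.potF v, C.al0 (mem_filter.1 hv).2.2, zero_add, mul_sum, sum_div, sum_div]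
    exact sum_congr rfl fun t ht => by rw [(mem_filter.1 ht).2]; ring
  rw [sum_congr rfl e1, Sys.Phi, sum_div, ← inn, sum_congr rfl e2, fib, fib]
  refine sum_le_sum fun t ht => ?_
  have a := mul_nonneg (mul_nonneg (ms_nonneg C.wf ht) (C.μ0 true t.x)) (C.μ0 false t.z)
  by_cases h0 : S.ms t = 0
  · simp [h0]
  by_cases h1 : S.idle t = false ∧ ¬ S.en p t
  · have h2 := not_or.1 fun h => h1.2 ⟨h1.1, h⟩
    have h3 := C.wf.lv_eq t ht (om_pos C.wf ht h0)
    rw [if_pos h1, if_pos (show t.x ∈ inn p S from mem_filter.2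
      ⟨mem_range.2 (C.wf.tm t ht).x_lt, by simpa using h2.1, tp_x C.wf ht⟩)]
    split_ifs
    · exact div_pow_le a (by omega)
    · positivity
  · simp only [h1, if_false, zero_mul, zero_div, ite_self]
    positivity

theorem chV : ∑ v ∈ inn p S, μ true v * Vb p S μ v / 2 ^ (S.lv true v + S.lv false v) ≤
    S.Phi p μ / 8 := by
  have e1 : ∀ v ∈ inn p S, μ true v * Vb p S μ v / 2 ^ (S.lv true v + S.lv false v) =
      ∑ t ∈ S.T with t.x = v, μ true t.x *
        (if S.idle t = false ∧ ¬ S.prd p t then S.ms t * μ false t.z else 0) /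
          2 ^ (S.lv true t.x + S.lv false t.x) := fun v _ => by
    rw [Vb, mul_sum, sum_div]
    exact sum_congr rfl fun t ht => by rw [(mem_filter.1 ht).2]
  have e2 : ∀ v ∈ inn p S, μ true v * μ false v / 2 ^ (S.lv true v + S.lv false v) / 8 =
      ∑ t ∈ S.T with t.z = v, μ true t.x * (S.ms t * μ false t.z) /
        2 ^ (S.lv true t.z + S.lv false t.z + 3) := fun v hv => by
    rw [C.potT v, C.al0 (mem_filter.1 hv).2.1, zero_add, sum_mul, sum_div, sum_div]
    exact sum_congr rfl fun t ht => by rw [(mem_filter.1 ht).2]; ring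
  rw [sum_congr rfl e1, Sys.Phi, sum_div, ← inn, sum_congr rfl e2, fib, fib]
  refine sum_le_sum fun t ht => ?_
  have a := mul_nonneg (C.μ0 true t.x) (mul_nonneg (ms_nonneg C.wf ht) (C.μ0 false t.z))
  by_cases h0 : S.ms t = 0
  · simp [h0]
  by_cases h1 : S.idle t = false ∧ ¬ S.prd p t
  · have h2 := not_or.1 fun h => h1.2 ⟨h1.1, h⟩
    have h3 := C.wf.lv_eq t ht (om_pos C.wf ht h0)
    rw [if_pos h1, if_pos (show t.z ∈ inn p S from mem_filter.2
      ⟨mem_range.2 (C.wf.tm t ht).z_lt, tp_z C.wf ht, by simpa using h2.1⟩)]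
    split_ifs
    · exact div_pow_le a (by omega)
    · positivity
  · simp only [h1, if_false, mul_zero, zero_div, ite_self]
    positivity

theorem Phi_nw : (S.M p).Phi p (nw p S μ Q) ≤ 7 / 8 * S.Phi p μ := by
  have e : (S.M p).Phi p (nw p S μ Q) = ∑ v ∈ inn p S, ∑ χ ∈ range p.A,
      nw p S μ Q true (S.dn v χ) * nw p S μ Q false (S.dn v χ) /
        2 ^ (p.cl true χ + p.cl false χ) := by
    rw [Sys.Phi, sum_filter, inn, sum_filter]
    refine (sum_names S.toShp _).trans (sum_congr rfl fun v hv => ?_)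
    simp only [Par.tp, ht_dn _ C.wf.n0_le, sum_ite_irrel', Sys.M, Shp.M,
      Shp.ck_dn _ (mem_range.1 hv)]
  have h0 : 0 ≤ S.Phi p μ := sum_nonneg fun v _ =>
    div_nonneg (mul_nonneg (C.μ0 _ _) (C.μ0 _ _)) (by positivity)
  have h1 := C.chU
  have h2 := C.chV
  rw [e]
  refine (sum_le_sum fun v hv => C.vtx hv).trans ?_
  simp only [add_div, sum_add_distrib, div_right_comm _ (4 : ℝ), mul_div_assoc (3 / 4 : ℝ),
    ← sum_div, ← mul_sum]
  rw [show ∑ v ∈ inn p S, μ true v * μ false v / 2 ^ (S.lv true v + S.lv false v) = S.Phi p μ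
    from rfl]
  linarith

end Ctx

end IM2

/-- Potentials exist. -/
theorem exists_pot (h : S.WF p k eb) : ∃ μ, S.Pot μ := by
  choose μ hμ using fun d => IM2.exists_sol h d S.ms (S.al d)
  refine ⟨μ, fun d v => ⟨IM2.ind h d (P := fun v => 0 ≤ μ d v) (fun v H => ?_) v, hμ d v⟩⟩
  rw [hμ]
  exact add_nonneg (h.al_nonneg d v) (sum_nonneg fun t ht => mul_nonneg
    (IM2.ms_nonneg h (mem_filter.1 ht).1) (H t (mem_filter.1 ht).1 (mem_filter.1 ht).2))

/-- Potentials are unique. -/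
theorem pot_unique (h : S.WF p k eb) (d : Bool) {ν : ℕ → ℝ}
    (hν : ∀ v, ν v = ∑ t ∈ S.T with t.ep d = v, S.ms t * ν (t.ep !d)) (v : ℕ) : ν v = 0 :=
  IM2.ind h d (P := fun v => ν v = 0) (fun v H => (hν v).trans (sum_eq_zero fun t ht => by
    rw [H t (mem_filter.1 ht).1 (mem_filter.1 ht).2, mul_zero])) v

set_option linter.unusedVariables false in
theorem M_pot (h : S.WF p k eb) (hN : 2 ≤ p.N) (hk : k < p.K) (hW : 2 * p.K + 2 ≤ 2 ^ p.W1)
    {μ : Bool → ℕ → ℝ} (hμ : S.Pot μ) : ∃ μ', (S.M p).Pot μ' ∧ (S.M p).vlu μ' = S.vlu μ ∧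
      (S.M p).Phi p μ' ≤ 7 / 8 * S.Phi p μ ∧
      (S.M p).tot μ' true ≤ 2 * (p.K + 1) * S.tot μ true ∧
      (S.M p).tot μ' false ≤ 2 * (p.K + 1) * S.tot μ false := by
  obtain ⟨Q, hQ⟩ := IM2.exists_Q h μ
  have C : IM2.Ctx p S μ Q k eb := ⟨h, hk, hW, hμ, hQ⟩
  exact ⟨_, C.pot_nw, C.vlu_nw, C.Phi_nw, C.totT, C.totF⟩

end Vale.Agent.P313.NL
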