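import Vale.Agent.P313.NL.IM1

/-! The operation `M`: loads, weights, ranks and counts. -/

namespace Vale.Agent.P313.NL

open Finset
open scoped Classical

variable {p : Par} {S : Sys} {k eb : ℕ}

variable {B Ω κ Γ n n2 n3 : ℝ}

/-- the term of a pair at the end `d` -/
def im3Nr (d : Bool) (a : Tm × Tm) : Tm := if d then a.2 else a.1

/-- the term of a pair away from the end `d` -/
def im3Fr (d : Bool) (a : Tm × Tm) : Tm := if d then a.1 else a.2

theorem im3_ms_nonneg (h : S.WF p k eb) {t : Tm} (ht : t ∈ S.T) : 0 ≤ S.ms t :=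
  div_nonneg (h.om_nonneg t ht) (by positivity)

theorem im3_dn (H : Shp) {u : ℕ} (hu : u < 2 ^ H.q) (v : ℕ) {c : ℝ} (hc : 0 ≤ c) :
    ∑ χ ∈ range p.A, (if H.dn u χ = v then c else 0) ≤ if u = H.up v then c else 0 := by
  by_cases h : ∃ χ, H.dn u χ = v
  · obtain ⟨χ, rfl⟩ := h
    rw [if_pos (im1_up_dn H hu χ).symm]
    have h1 : ∀ ψ, (H.dn u ψ = H.dn u χ) = (ψ = χ) := fun ψ => propext
      ⟨fun e => by rw [← im1_ck_dn H hu ψ, e, im1_ck_dn H hu], fun e => e ▸ rfl⟩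
    simp only [h1, sum_ite_eq']
    split_ifs
    exacts [le_rfl, hc]
  · rw [sum_eq_zero fun χ _ => if_neg fun e => h ⟨χ, e⟩]
    split_ifs
    exacts [hc, le_rfl]

theorem im3_dbl (H : Shp) (d : Bool) {u : ℕ} (hu : u < 2 ^ H.q) (v : ℕ) {g : ℕ → ℕ → ℝ}
    {F : ℕ → ℝ} (hF : ∀ χ, 0 ≤ F χ) (hg : ∀ χx χz, g χx χz ≤
      if H.dn u (if d then χz else χx) = v then F (if d then χx else χz) else 0) :
    ∑ χx ∈ range p.A, ∑ χz ∈ range p.A, g χx χz ≤
      if u = H.up v then ∑ χ ∈ range p.A, F χ else 0 := by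
  have key : ∑ χ ∈ range p.A, ∑ ψ ∈ range p.A, (if H.dn u ψ = v then F χ else 0) ≤
      if u = H.up v then ∑ χ ∈ range p.A, F χ else 0 := by
    refine (sum_le_sum fun χ _ => im3_dn H hu v (hF χ)).trans ?_
    split_ifs
    exacts [le_rfl, sum_const_zero.le]
  refine le_trans ?_ key
  cases d
  · rw [sum_comm]
    exact sum_le_sum fun _ _ => sum_le_sum fun _ _ => hg _ _
  · exact sum_le_sum fun _ _ => sum_le_sum fun _ _ => hg _ _

/-- Sums over the terms with one given end. -/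
theorem im3_ep (h : S.WF p k eb) (d : Bool) (v : ℕ) (Q : Tm → Prop) [DecidablePred Q]
    (hQ : ∀ t, Q t → t.ep d = v) (f : Tm → ℝ) (F : Tm → ℕ → ℝ) (G : Tm × Tm → ℕ → ℝ)
    (hF0 : ∀ t ∈ S.T, ∀ χ, 0 ≤ F t χ) (hG0 : ∀ a ∈ pairs S.T S.T, ∀ χ, 0 ≤ G a χ)
    (hF : ∀ t ∈ S.T, ∀ χx χz, Q (S.chU t χx χz) →
      f (S.chU t χx χz) ≤ F t (if d then χx else χz))
    (hG : ∀ a ∈ pairs S.T S.T, ∀ χx χz, Q (S.chM a.1 a.2 χx χz) →
      f (S.chM a.1 a.2 χx χz) ≤ G a (if d then χx else χz)) :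
    ∑ t ∈ (S.M p).T with Q t, f t ≤
      (∑ t ∈ S.T with t.ep d = S.up v, ∑ χ ∈ range p.A, F t χ) +
        ∑ a ∈ pairs S.T S.T with (im3Nr d a).ep d = S.up v, ∑ χ ∈ range p.A, G a χ := by
  rw [sum_filter, sum_filter, sum_filter, sum_M h]
  refine add_le_add (sum_le_sum fun t ht => ?_) (sum_le_sum fun a ha => ?_)
  · refine im3_dbl S.toShp d (u := t.ep d) ?_ v (hF0 t ht) fun χx χz => ?_
    · cases d
      exacts [(h.tm t ht).x_lt, (h.tm t ht).z_lt]
    · by_cases hq : Q (S.chU t χx χz)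
      · rw [if_pos hq, if_pos]
        · exact hF t ht χx χz hq
        · rw [← hQ _ hq]
          cases d <;> rfl
      · rw [if_neg hq]
        exact ite_nonneg (hF0 t ht _) le_rfl
  · obtain ⟨h1, h2, -⟩ := im1_mem_pairs.1 ha
    refine im3_dbl S.toShp d (u := (im3Nr d a).ep d) ?_ v (hG0 a ha) fun χx χz => ?_
    · cases d
      exacts [(h.tm _ h1).x_lt, (h.tm _ h2).z_lt]
    · by_cases hq : Q (S.chM a.1 a.2 χx χz)
      · rw [if_pos hq, if_pos]
        · exact hG a ha χx χz hq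
        · rw [← hQ _ hq]
          cases d <;> rfl
      · rw [if_neg hq]
        exact ite_nonneg (hG0 a ha _) le_rfl

/-- Sums over the terms with two given ends. -/
theorem im3_xz (h : S.WF p k eb) (x z : ℕ) (Q : Tm → Prop) [DecidablePred Q]
    (hQ : ∀ t, Q t → t.x = x ∧ t.z = z) (f : Tm → ℝ) (F : Tm → ℝ) (G : Tm × Tm → ℝ)
    (hF0 : ∀ t ∈ S.T, 0 ≤ F t) (hG0 : ∀ a ∈ pairs S.T S.T, 0 ≤ G a)
    (hF : ∀ t ∈ S.T, ∀ χx χz, Q (S.chU t χx χz) → f (S.chU t χx χz) ≤ F t)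
    (hG : ∀ a ∈ pairs S.T S.T, ∀ χx χz, Q (S.chM a.1 a.2 χx χz) →
      f (S.chM a.1 a.2 χx χz) ≤ G a) :
    ∑ t ∈ (S.M p).T with Q t, f t ≤
      (∑ t ∈ S.T, if t.x = S.up x ∧ t.z = S.up z then F t else 0) +
        ∑ a ∈ pairs S.T S.T, if a.1.x = S.up x ∧ a.2.z = S.up z then G a else 0 := by
  refine (im3_ep h false x Q (fun t ht => (hQ t ht).1) f
    (fun t χ => if S.dn t.z χ = z then F t else 0) (fun a χ => if S.dn a.2.z χ = z then G a else 0)
    (fun t ht χ => ?_) (fun a ha χ => ?_) (fun t ht χx χz hq => ?_)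
    (fun a ha χx χz hq => ?_)).trans ?_
  · split_ifs
    exacts [hF0 t ht, le_rfl]
  · split_ifs
    exacts [hG0 a ha, le_rfl]
  · exact (hF t ht χx χz hq).trans (if_pos (hQ _ hq).2).ge
  · exact (hG a ha χx χz hq).trans (if_pos (hQ _ hq).2).ge
  rw [sum_filter, sum_filter]
  refine add_le_add (sum_le_sum fun t ht => ?_) (sum_le_sum fun a ha => ?_)
  · by_cases h1 : t.x = S.up x
    · rw [if_pos (show t.ep false = S.up x from h1)]
      simpa only [h1, true_and] using im3_dn (p := p) S.toShp (h.tm t ht).z_lt z (hF0 t ht)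
    · rw [if_neg (show ¬ t.ep false = S.up x from h1), if_neg fun e => h1 e.1]
  · by_cases h1 : a.1.x = S.up x
    · rw [if_pos (show (im3Nr false a).ep false = S.up x from h1)]
      simpa only [h1, true_and] using
        im3_dn (p := p) S.toShp (h.tm _ (im1_mem_pairs.1 ha).2.1).z_lt z (hG0 a ha)
    · rw [if_neg (show ¬ (im3Nr false a).ep false = S.up x from h1), if_neg fun e => h1 e.1]

theorem im3_pairs (T : Finset Tm) (d : Bool) (v : ℕ) (f : Tm × Tm → ℝ) (g : Tm → Tm → ℝ)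
    (hg : ∀ t ∈ T, ∀ u ∈ T, 0 ≤ g t u)
    (hf : ∀ a ∈ pairs T T, (im3Nr d a).ep d = v → f a ≤ g (im3Nr d a) (im3Fr d a)) :
    ∑ a ∈ pairs T T with (im3Nr d a).ep d = v, f a ≤
      ∑ t ∈ T with t.ep d = v, ∑ u ∈ T with u.ep d = t.ep !d, g t u := by
  have h1 : ∑ a ∈ pairs T T with (im3Nr d a).ep d = v, f a ≤ ∑ a ∈ T ×ˢ T,
      if (im3Nr d a).ep d = v ∧ (im3Fr d a).ep d = (im3Nr d a).ep !d then
        g (im3Nr d a) (im3Fr d a) else 0 := by
    rw [← sum_filter]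
    refine (sum_le_sum fun a ha => hf a (mem_filter.1 ha).1 (mem_filter.1 ha).2).trans
      (sum_le_sum_of_subset_of_nonneg (fun a ha => ?_) fun a ha _ => ?_)
    · obtain ⟨h1, h2⟩ := mem_filter.1 ha
      obtain ⟨h3, h4, h5, -⟩ := im1_mem_pairs.1 h1
      refine mem_filter.2 ⟨mem_product.2 ⟨h3, h4⟩, h2, ?_⟩
      cases d
      exacts [h5.symm, h5]
    · obtain ⟨h3, h4⟩ := mem_product.1 (mem_filter.1 ha).1
      cases d
      exacts [hg _ h3 _ h4, hg _ h4 _ h3]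
  refine h1.trans (le_of_eq ?_)
  have h2 : ∑ t ∈ T with t.ep d = v, ∑ u ∈ T with u.ep d = t.ep !d, g t u =
      ∑ t ∈ T, ∑ u ∈ T, if t.ep d = v ∧ u.ep d = t.ep !d then g t u else 0 := by
    rw [sum_filter]
    refine sum_congr rfl fun t _ => ?_
    by_cases h3 : t.ep d = v
    · simp only [h3, true_and, if_true, sum_filter]
    · simp only [h3, false_and, if_false, sum_const_zero]
  rw [h2]
  cases d
  · exact sum_product' _ _ fun t u => if t.ep false = v ∧ u.ep false = t.ep true then g t u else 0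
  · exact sum_product_right' _ _
      fun u t => if t.ep true = v ∧ u.ep true = t.ep false then g t u else 0

/-! ### loads -/

theorem im3_chunk {χ ψ : ℕ} (h1 : p.cl true χ = p.cl true ψ) (h2 : p.cl false χ = p.cl false ψ)
    (h3 : p.cb χ = p.cb ψ) : χ = ψ := by
  have e1 : χ / 2 ^ p.W1 = ψ / 2 ^ p.W1 := h1
  have e2 : χ % 2 ^ p.W1 / 2 = ψ % 2 ^ p.W1 / 2 := h2
  have e3 : χ % 2 ^ p.W1 % 2 = 1 ↔ ψ % 2 ^ p.W1 % 2 = 1 := decide_eq_decide.1 h3
  have e4 : χ % 2 ^ p.W1 = ψ % 2 ^ p.W1 := by omega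
  rw [← Nat.div_add_mod χ (2 ^ p.W1), e1, e4, Nat.div_add_mod]

/-- The number of chunks at the far end. -/
theorem im3_far (H : Shp) (d : Bool) (u L : ℕ) (P : Prop) {c : ℝ} (hc : 0 ≤ c) :
    ∑ χ ∈ range p.A, (if H.vs p d u χ ∧ p.cl (!d) χ = L ∧ (d = true → (p.cb χ = true ↔ P)) then c
      else 0) ≤ (if H.fl d u then (1 : ℝ) else 2 * (p.K + 1)) * c := by
  rw [← sum_filter, sum_const, nsmul_eq_mul]
  refine mul_le_mul_of_nonneg_right ?_ hc
  set s := (range p.A).filter fun χ =>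
    H.vs p d u χ ∧ p.cl (!d) χ = L ∧ (d = true → (p.cb χ = true ↔ P)) with hs
  have inj : ∀ χ ∈ s, ∀ ψ ∈ s, p.cl d χ = p.cl d ψ → p.cb χ = p.cb ψ → χ = ψ := by
    intro χ hχ ψ hψ e1 e2
    have e3 := (mem_filter.1 hχ).2.2.1.trans (mem_filter.1 hψ).2.2.1.symm
    cases d
    exacts [im3_chunk e3 e1 e2, im3_chunk e1 e3 e2]
  have one : (∃ l, ∀ χ ∈ s, p.cl d χ = l ∧ (d = false → p.cb χ = false)) → s.card ≤ 1 := by
    rintro ⟨l, hl⟩
    refine card_le_one.2 fun χ hχ ψ hψ => inj χ hχ ψ hψ ((hl χ hχ).1.trans (hl ψ hψ).1.symm) ?_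
    cases d
    · rw [(hl χ hχ).2 rfl, (hl ψ hψ).2 rfl]
    · exact Bool.eq_iff_iff.2
        (((mem_filter.1 hχ).2.2.2 rfl).trans ((mem_filter.1 hψ).2.2.2 rfl).symm)
  have hK : (1 : ℝ) ≤ 2 * (p.K + 1) := by
    have : (0 : ℝ) ≤ p.K := Nat.cast_nonneg _
    linarith
  by_cases h1 : p.tp d u = true
  · have h2 : (s.card : ℝ) ≤ 1 := by
      exact_mod_cast one ⟨0, fun χ hχ => by simpa only [Shp.vs, h1, if_true] using
        (mem_filter.1 hχ).2.1⟩
    split_ifs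
    exacts [h2, h2.trans hK]
  by_cases h2 : H.fl d u = true
  · rw [if_pos h2]
    exact_mod_cast one ⟨H.lv d u + 1, fun χ hχ => by
      have h3 := (mem_filter.1 hχ).2.1
      rwa [Shp.vs, if_neg h1, if_pos h2] at h3⟩
  · rw [if_neg h2]
    have h3 : s.card ≤ (range (p.K + 1) ×ˢ (univ : Finset Bool)).card := by
      refine card_le_card_of_injOn (fun χ => (p.cl d χ, p.cb χ)) (fun χ hχ => ?_)
        fun χ hχ ψ hψ e => inj χ hχ ψ hψ (congrArg Prod.fst e) (congrArg Prod.snd e)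
      have h3 := (mem_filter.1 hχ).2.1
      rw [Shp.vs, if_neg h1, if_neg h2] at h3
      exact mem_coe.2 (mem_product.2 ⟨mem_range.2 (Nat.lt_succ_of_le h3.2), mem_univ _⟩)
    rw [card_product, card_range, card_univ, Fintype.card_bool, mul_comm] at h3
    exact_mod_cast h3

theorem im3_split (d : Bool) (v : ℕ) (c : ℝ) :
    ∑ t ∈ S.T with t.ep d = v, (if S.fl d (t.ep !d) then 1 else c) * S.ms t =
      S.ldF d v + c * S.ldC d v := by
  rw [Sys.ldF, Sys.ldC, mul_sum, sum_filter, sum_filter, sum_filter, ← sum_add_distrib]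
  refine sum_congr rfl fun t _ => ?_
  by_cases h1 : t.ep d = v <;> cases S.fl d (t.ep !d) <;> simp [h1]

theorem im3_idle {H : Shp} {t : Tm} (h : H.idle t = false) (d : Bool) :
    H.fl d (t.ep d) = false := by
  simp only [Shp.idle, Bool.or_eq_false_iff] at h
  cases d
  exacts [h.2, h.1.2]

theorem M_LD0 (h : S.WF p k eb) (hW : 1 ≤ p.W1) {d : Bool} (hL : S.LD2 p d B) :
    (S.M p).LD0 d (B + 2 * (p.K + 1) * (p.R2 + p.R2 ^ 2)) := by
  refine ⟨fun _ => rfl, fun v => ?_⟩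
  have := hW
  have hc : (0 : ℝ) ≤ 2 * (p.K + 1) := by positivity
  have hR : (0 : ℝ) ≤ p.R2 := Nat.cast_nonneg _
  have hm : ∀ a ∈ pairs S.T S.T, 0 ≤ S.ms (im3Nr d a) ∧ 0 ≤ S.ms (im3Fr d a) := fun a ha => by
    obtain ⟨h1, h2, -⟩ := im1_mem_pairs.1 ha
    cases d
    exacts [⟨im3_ms_nonneg h h1, im3_ms_nonneg h h2⟩, ⟨im3_ms_nonneg h h2, im3_ms_nonneg h h1⟩]
  let c : Tm × Tm → ℝ := fun a =>
    if S.fl d (S.up v) = false ∧ S.fl d ((im3Nr d a).ep !d) = false then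
      S.ms (im3Nr d a) * S.ms (im3Fr d a) else 0
  have hc0 : ∀ a ∈ pairs S.T S.T, 0 ≤ c a := fun a ha => by
    simp only [c]
    split_ifs
    exacts [mul_nonneg (hm a ha).1 (hm a ha).2, le_rfl]
  refine (im3_ep h d v _ (fun t ht => ht.1) _
    (fun t χ => if S.vs p d (t.ep !d) χ ∧ p.cl (!d) χ = S.lam t + (S.idle t).toNat ∧
      (d = true → (p.cb χ = true ↔ S.prd p t)) then S.ms t else 0)
    (fun a χ => if S.vs p d ((im3Fr d a).ep !d) χ ∧ p.cl (!d) χ = max (S.lam a.1) (S.lam a.2) ∧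
      (d = true → (p.cb χ = true ↔ S.prd p a.1)) then c a else 0)
    (fun t ht χ => ?_) (fun a ha χ => ?_) (fun t ht χx χz _ => ?_)
    (fun a ha χx χz hq => ?_)).trans ?_
  · split_ifs
    exacts [im3_ms_nonneg h ht, le_rfl]
  · split_ifs
    exacts [hc0 a ha, le_rfl]
  · have h0 := im3_ms_nonneg h ht
    rw [ms_chU h ht]
    by_cases h1 : S.okU p t χx χz
    · rw [if_pos h1, if_pos (c := _ ∧ _ ∧ _)]
      · split_ifs <;> linarith
      · obtain ⟨a1, a2, a3, a4, a5⟩ := h1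
        cases d
        exacts [⟨a2.2, a5, fun e => absurd e (by simp)⟩, ⟨a1.1, a4, fun _ => a3⟩]
    · rw [if_neg h1]
      exact ite_nonneg h0 le_rfl
  · rw [ms_chM h ha]
    by_cases h1 : S.okM p a.1 a.2 χx χz
    · obtain ⟨b1, b2, b3, -⟩ := im1_mem_pairs.1 ha
      have h2 := mul_nonneg (im3_ms_nonneg h b1) (im3_ms_nonneg h b2)
      rw [if_pos h1, if_pos (c := _ ∧ _ ∧ _)]
      · obtain ⟨-, -, -, a4, a5, -⟩ := h1
        have h3 : S.fl d (S.up v) = false ∧ S.fl d ((im3Nr d a).ep !d) = false := by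
          rw [← hq.1]
          cases d
          · exact ⟨(congrArg _ (im1_up_dn _ (h.tm _ b1).x_lt χx)).trans (im3_idle a4.1 false),
              (congrArg _ b3).trans (im3_idle a5.1 false)⟩
          · exact ⟨(congrArg _ (im1_up_dn _ (h.tm _ b2).z_lt χz)).trans (im3_idle a5.1 true),
              (congrArg _ b3.symm).trans (im3_idle a4.1 true)⟩
        have h4 : c a = S.ms a.1 * S.ms a.2 := by
          refine (if_pos h3).trans ?_
          cases d
          exacts [rfl, mul_comm _ _]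
        linarith
      · obtain ⟨a1, a2, a3, -, -, a4, a5⟩ := h1
        cases d
        exacts [⟨a2.2, a5, fun e => absurd e (by simp)⟩, ⟨a1.1, a4, fun _ => a3⟩]
    · rw [if_neg h1]
      exact ite_nonneg (hc0 a ha) le_rfl
  have h1 : ∑ t ∈ S.T with t.ep d = S.up v, ∑ χ ∈ range p.A,
      (if S.vs p d (t.ep !d) χ ∧ p.cl (!d) χ = S.lam t + (S.idle t).toNat ∧
        (d = true → (p.cb χ = true ↔ S.prd p t)) then S.ms t else 0) ≤
      S.ldF d (S.up v) + 2 * (p.K + 1) * p.R2 := by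
    refine (sum_le_sum fun t ht => im3_far S.toShp d _ _ _
      (im3_ms_nonneg h (mem_filter.1 ht).1)).trans ?_
    rw [im3_split]
    exact add_le_add le_rfl (mul_le_mul_of_nonneg_left (hL _).1 hc)
  have h2 : ∑ a ∈ pairs S.T S.T with (im3Nr d a).ep d = S.up v, ∑ χ ∈ range p.A,
      (if S.vs p d ((im3Fr d a).ep !d) χ ∧ p.cl (!d) χ = max (S.lam a.1) (S.lam a.2) ∧
        (d = true → (p.cb χ = true ↔ S.prd p a.1)) then c a else 0) ≤
      (if S.fl d (S.up v) then 0 else S.ld2 d (S.up v)) + 2 * (p.K + 1) * p.R2 ^ 2 := by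
    refine (im3_pairs S.T d _ _ (fun t u => (if S.fl d (S.up v) = false ∧ S.fl d (t.ep !d) = false
      then S.ms t else 0) * ((if S.fl d (u.ep !d) then (1 : ℝ) else 2 * (p.K + 1)) * S.ms u))
      (fun t ht u hu => ?_) fun a ha _ => ?_).trans ?_
    · refine mul_nonneg ?_ (mul_nonneg ?_ (im3_ms_nonneg h hu))
      · split_ifs
        exacts [im3_ms_nonneg h ht, le_rfl]
      · split_ifs
        exacts [zero_le_one, hc]
    · refine (im3_far S.toShp d _ _ _ (hc0 a ha)).trans (le_of_eq ?_)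
      simp only [c]
      split_ifs <;> ring
    simp only [← mul_sum, im3_split]
    cases hf : S.fl d (S.up v)
    · have h3 : ∑ t ∈ S.T with t.ep d = S.up v, (if false = false ∧ S.fl d (t.ep !d) = false
          then S.ms t else 0) * (S.ldF d (t.ep !d) + 2 * (p.K + 1) * S.ldC d (t.ep !d)) ≤
          S.ld2 d (S.up v) + 2 * (p.K + 1) * p.R2 * S.ldC d (S.up v) := by
        rw [Sys.ld2, Sys.ldC, mul_sum, ← sum_add_distrib, sum_filter, sum_filter]
        refine sum_le_sum fun t ht => ?_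
        by_cases e1 : t.ep d = S.up v
        · cases e2 : S.fl d (t.ep !d)
          · have e3 := mul_le_mul_of_nonneg_left
              (mul_le_mul_of_nonneg_left (hL (t.ep !d)).1 hc) (im3_ms_nonneg h ht)
            simp only [e1, and_self, if_true]
            linarith
          · simp [e1]
        · simp [e1]
      have h4 := mul_le_mul_of_nonneg_left (hL (S.up v)).1 (mul_nonneg hc hR)
      refine h3.trans ?_
      simp only [Bool.false_eq_true, if_false]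
      nlinarith
    · simp only [Bool.true_eq_false, false_and, if_false, zero_mul, sum_const_zero, if_true]
      positivity
  have h3 := (hL (S.up v)).2
  linarith

/-! ### weights -/

theorem im3_GG (h : S.WF p k eb) (x z E : ℕ) (P : Tm × Tm → Prop) [DecidablePred P]
    (hP : ∀ a, P a → a.1.k.E = E ∨ a.2.k.E = E) (h1 : S.GI true κ) (h2 : S.GI false κ) :
    ∑ a ∈ pairs S.T S.T, (if a.1.x = x ∧ a.2.z = z then
      (if S.idle a.1 = false ∧ S.idle a.2 = false ∧ P a then S.ms a.1 * S.ms a.2 / 2 else 0)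
      else 0) ≤ κ / 2 ^ E := by
  have h3 := add_le_add (h1 x z E) (h2 x z E)
  rw [Sys.GG, Sys.GG, sum_filter, sum_filter, ← sum_add_distrib] at h3
  refine le_of_mul_le_mul_right (le_trans ?_ (h3.trans (mul_two _).ge)) two_pos
  rw [sum_mul, pairs, sum_filter]
  refine sum_le_sum fun a ha => ?_
  obtain ⟨b1, b2⟩ := mem_product.1 ha
  have h0 := mul_nonneg (im3_ms_nonneg h b1) (im3_ms_nonneg h b2)
  by_cases c1 : (a.1.z = a.2.x ∧ a.1.k.dbl = false ∧ a.2.k.dbl = false) ∧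
      (a.1.x = x ∧ a.2.z = z) ∧ S.idle a.1 = false ∧ S.idle a.2 = false ∧ P a
  · obtain ⟨c1, c2, c3⟩ := c1
    rw [if_pos c1, if_pos c2, if_pos c3, div_mul_cancel₀ _ two_ne_zero]
    rcases hP a c3.2.2 with e | e
    · exact le_add_of_le_of_nonneg (if_pos ⟨c1.1, c2.1, c2.2, c3.1, e⟩).ge (ite_nonneg h0 le_rfl)
    · exact le_add_of_nonneg_of_le (ite_nonneg h0 le_rfl)
        (if_pos ⟨c1.1, c2.1, c2.2, c3.2.1, e⟩).ge
  · refine le_trans (le_of_eq ?_) (add_nonneg ?_ ?_)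
    · split_ifs with e1 e2 e3
      exacts [absurd ⟨e1, e2, e3⟩ c1, zero_mul _, zero_mul _, rfl]
    · exact ite_nonneg h0 le_rfl
    · exact ite_nonneg h0 le_rfl

theorem im3_mass (h : S.WF p k eb) (x z E : ℕ) (Q : Tm → Prop) [DecidablePred Q]
    (hQ : ∀ t, Q t → t.x = x ∧ t.z = z) (Q' : Tm → Prop) [DecidablePred Q']
    (hU : ∀ t χx χz, t.x = S.up x → t.z = S.up z → Q (S.chU t χx χz) → Q' t)
    (hM : ∀ (a : Tm × Tm) χx χz, Q (S.chM a.1 a.2 χx χz) → a.1.k.E = E ∨ a.2.k.E = E)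
    (h1 : S.GI true κ) (h2 : S.GI false κ) :
    ∑ t ∈ (S.M p).T with Q t, (S.M p).ms t ≤ ∑ t ∈ S.T with Q' t, S.ms t + κ / 2 ^ E := by
  refine (im3_xz h x z Q hQ _ (fun t => if ∃ χx χz, Q (S.chU t χx χz) then S.ms t else 0)
    (fun a => if S.idle a.1 = false ∧ S.idle a.2 = false ∧ (a.1.k.E = E ∨ a.2.k.E = E) then
      S.ms a.1 * S.ms a.2 / 2 else 0) (fun t ht => ?_) (fun a ha => ?_) (fun t ht χx χz hq => ?_)
    (fun a ha χx χz hq => ?_)).trans
    (add_le_add ?_ (im3_GG h _ _ E _ (fun _ e => e) h1 h2))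
  · split_ifs
    exacts [im3_ms_nonneg h ht, le_rfl]
  · obtain ⟨b1, b2, -⟩ := im1_mem_pairs.1 ha
    have h0 := mul_nonneg (im3_ms_nonneg h b1) (im3_ms_nonneg h b2)
    split_ifs <;> linarith
  · have h0 := im3_ms_nonneg h ht
    rw [if_pos ⟨χx, χz, hq⟩, ms_chU h ht]
    split_ifs <;> linarith
  · obtain ⟨b1, b2, -⟩ := im1_mem_pairs.1 ha
    have h0 := mul_nonneg (im3_ms_nonneg h b1) (im3_ms_nonneg h b2)
    rw [ms_chM h ha]
    by_cases c : S.okM p a.1 a.2 χx χz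
    · rw [if_pos c, if_pos ⟨c.2.2.2.1.1, c.2.2.2.2.1.1, hM a χx χz hq⟩]
    · rw [if_neg c]
      split_ifs <;> linarith
  · rw [sum_filter]
    refine sum_le_sum fun t ht => ?_
    have h0 := im3_ms_nonneg h ht
    by_cases c : (t.x = S.up x ∧ t.z = S.up z) ∧ ∃ χx χz, Q (S.chU t χx χz)
    · obtain ⟨c1, χx, χz, c2⟩ := c
      rw [if_pos c1, if_pos ⟨χx, χz, c2⟩, if_pos (hU t χx χz c1.1 c1.2 c2)]
    · refine le_trans (le_of_eq ?_) (?_ : (0 : ℝ) ≤ _)
      · split_ifs with e1 e2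
        exacts [absurd ⟨e1, e2⟩ c, rfl, rfl]
      · split_ifs
        exacts [h0, le_rfl]

theorem M_Wt (h : S.WF p k eb) (hW : S.Wt (1 / 3)) (h1 : S.GI true (1 / 3))
    (h2 : S.GI false (1 / 3)) : (S.M p).Wt 1 := by
  refine ⟨fun t ht => ?_, fun x z E => ?_⟩
  · rcases im1_mem_M.1 ht with ⟨u, hu, χx, -, χz, -, rfl⟩ | ⟨a, ha, χx, -, χz, -, rfl⟩
    · have := hW.1 u hu
      rw [im1_om_chU h hu]
      split_ifs <;> linarith
    · obtain ⟨b1, b2, -⟩ := im1_mem_pairs.1 ha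
      have := mul_le_mul (hW.1 _ b1) (hW.1 _ b2) (h.om_nonneg _ b2) (by norm_num)
      rw [im1_om_chM h ha]
      split_ifs <;> linarith
  · have h3 := im3_mass h x z E (fun t => t.x = x ∧ t.z = z ∧ t.k.E = E) (fun _ e => ⟨e.1, e.2.1⟩)
      (fun t => t.x = S.up x ∧ t.z = S.up z ∧ t.k.E = E) (fun t _ _ e1 e2 e => ⟨e1, e2, e.2.2⟩)
      (fun a _ _ e => by
        have e1 : min a.1.k.E a.2.k.E = E := e.2.2
        omega) h1 h2
    have h4 := hW.2 (S.up x) (S.up z) E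
    have h5 : (0 : ℝ) < 2 ^ E := by positivity
    rw [Sys.Wg] at h4 ⊢
    refine (mul_le_mul_of_nonneg_left h3 h5.le).trans ?_
    rw [mul_add, mul_div_cancel₀ _ h5.ne']
    linarith

theorem M_W2 (h : S.WF p k eb) (hW : S.W2 Γ) (h1 : S.GI true (1 / 3)) (h2 : S.GI false (1 / 3)) :
    (S.M p).W2 (Γ + 1) := by
  intro x z V
  have h3 := im3_mass h x z V (fun t => t.k.dbl = true ∧ t.x = x ∧ t.z = z ∧ t.k.V = V)
    (fun _ e => ⟨e.2.1, e.2.2.1⟩)
    (fun t => t.k.dbl = true ∧ t.x = S.up x ∧ t.z = S.up z ∧ t.k.V = V)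
    (fun t _ _ e1 e2 e => ⟨e.1, e1, e2, e.2.2.2⟩) (fun a _ _ e => by
      have e1 : max a.1.k.E a.2.k.E = V := e.2.2.2
      omega) h1 h2
  have h5 : (0 : ℝ) < 2 ^ V := by positivity
  refine h3.trans ?_
  rw [add_div]
  exact add_le_add (hW _ _ _) (div_le_div_of_nonneg_right (by norm_num) h5.le)

/-! ### ranks -/

theorem im3_vs {H : Shp} {d : Bool} {v χ : ℕ} (h : H.vs p d v χ) (ht : ¬ p.tp d v = true) :
    H.lv d v ≤ p.cl d χ := by
  rw [Shp.vs, if_neg ht] at h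
  split_ifs at h
  exacts [h.1 ▸ Nat.le_succ _, h.1]

theorem im3_tp (H : Shp) (h : p.n0 ≤ H.q) (d : Bool) (v χ : ℕ) :
    p.tp d (H.dn v χ) = p.tp d v := by
  rw [Par.tp, Par.tp, im1_ht_dn H h]

theorem im3_cr (h : S.WF p k eb) {x z χx χz y : ℕ} (hx : x < 2 ^ S.q) (hz : z < 2 ^ S.q)
    (κ : Key) : (S.M p).lam ⟨S.dn x χx, S.dn z χz, y, κ⟩ = p.cl false χx ∧
      (S.M p).cr p ⟨S.dn x χx, S.dn z χz, y, κ⟩ =
        (if p.tp true x then p.cl false χx else min (p.cl false χx) (p.cl true χx)) +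
          if p.tp false z then p.cl false χx else min (p.cl false χx) (p.cl false χz) := by
  have e1 : ∀ e, (S.M p).lv e (S.dn x χx) = p.cl e χx := fun e =>
    congrArg (p.cl e) (im1_ck_dn _ hx χx)
  have e2 : ∀ e, (S.M p).lv e (S.dn z χz) = p.cl e χz := fun e =>
    congrArg (p.cl e) (im1_ck_dn _ hz χz)
  refine ⟨e1 false, ?_⟩
  simp only [Sys.cr, Shp.lam, e1, e2, im3_tp _ h.n0_le]

theorem im3_arith {c b l1 l2 E1 E2 A1 B2 A B : ℕ} (hA : A1 ≤ A) (hB : B2 ≤ B) (h1 : l1 ≤ B + 2)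
    (h2 : l2 ≤ A + 2) (g1 : 1023 * (c * l1) ≤ 1023 * 1024 * E1 + c * (A1 + min l1 l2) + b)
    (g2 : 1023 * (c * l2) ≤ 1023 * 1024 * E2 + c * (min l2 l1 + B2) + b) :
    1023 * (c * max l1 l2 + (max E1 E2 - min E1 E2)) ≤
      1023 * 1024 * max E1 E2 + c * (A + B) + (b + 2 * c) := by
  have e1 := Nat.mul_le_mul_left c hA
  have e2 := Nat.mul_le_mul_left c hB
  have e3 := Nat.mul_le_mul_left c h1
  have e4 := Nat.mul_le_mul_left c h2
  rw [mul_add] at e3 e4 g1 g2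
  rw [mul_add c A]
  rcases le_total l1 l2 with e | e
  · have e5 := Nat.mul_le_mul_left c e
    rw [min_eq_left e] at g1
    rw [min_eq_right e] at g2
    rw [max_eq_right e]
    omega
  · have e5 := Nat.mul_le_mul_left c e
    rw [min_eq_right e] at g1
    rw [min_eq_left e] at g2
    rw [max_eq_left e]
    omega

theorem M_G2 (h : S.WF p k eb) (hN : 2 ≤ p.N) {b : ℕ} (hG : S.G2 p true b) :
    (S.M p).G2 p false (b + 2 * p.c) := by
  intro t ht hp
  have := hN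
  rcases im1_mem_M.1 ht with ⟨u, hu, χx, -, χz, -, rfl⟩ | ⟨a, ha, χx, -, χz, -, rfl⟩
  · obtain ⟨⟨a1, a2, -, a4, -⟩, h0⟩ := im1_om_pos_U h hu hp
    obtain ⟨e1, e2⟩ := im3_cr h (χx := χx) (χz := χz) (y := u.y) (h.tm u hu).x_lt
      (h.tm u hu).z_lt u.k
    have g := hG u hu h0
    have e3 : S.cr p u ≤ (S.M p).cr p (S.chU u χx χz) := by
      rw [Shp.chU, e2, Sys.cr, a4]
      refine add_le_add ?_ ?_
      · split_ifs with c
        exacts [Nat.le_add_right _ _, min_le_min (Nat.le_add_right _ _) (im3_vs a1.1 c)]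
      · split_ifs with c
        exacts [Nat.le_add_right _ _, min_le_min (Nat.le_add_right _ _) (im3_vs a2.2 c)]
    have e4 := Nat.mul_le_mul_left p.c e3
    have e5 : (S.M p).lam (S.chU u χx χz) = S.lam u + (S.idle u).toNat := e1.trans a4
    rw [Bool.true_and] at g
    rw [e5, mul_add p.c, Bool.false_and, Bool.toNat_false, mul_zero, add_zero]
    change 1023 * (_ + (u.k.V - u.k.E)) ≤ 1023 * 1024 * max u.k.E u.k.V + _ + _
    omega
  · obtain ⟨⟨a1, a2, -, a3, a4, a5, -⟩, p1, p2⟩ := im1_om_pos_M h ha hp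
    obtain ⟨b1, b2, b3, b4, b5⟩ := im1_mem_pairs.1 ha
    have t1 := h.tm _ b1
    have t2 := h.tm _ b2
    obtain ⟨e1, e2⟩ := im3_cr h (χx := χx) (χz := χz) (y := a.1.z) t1.x_lt t2.z_lt
      (S.chM a.1 a.2 χx χz).k
    have g1 := hG _ b1 p1
    have g2 := hG _ b2 p2
    have v1 : a.1.k.V = 0 := by rw [(t1.sing b4).2]; rfl
    have v2 : a.2.k.V = 0 := by rw [(t2.sing b5).2]; rfl
    have l1 : S.lv true a.2.x = S.lam a.1 := b3 ▸ h.lv_eq _ b1 p1
    have l2 : S.lv false a.1.z = S.lam a.2 := by rw [b3]; rfl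
    have q1 := t1.ht_lt
    have q2 := t2.ht_lt
    have q3 := t2.ht_z
    have n1 : ¬ p.tp false a.1.z = true := by
      rw [b3]
      simp only [Par.tp, Bool.false_eq_true, if_false, decide_eq_true_eq]
      omega
    have n2 : ¬ p.tp true a.2.x = true := by
      rw [← b3]
      simp only [Par.tp, if_true, decide_eq_true_eq]
      omega
    rw [a3.1, v1, Sys.cr, if_neg n1, l2] at g1
    rw [a4.1, v2, Sys.cr, if_neg n2, l1] at g2
    simp only [Bool.and_false, Bool.toNat_false, mul_zero, add_zero, Nat.zero_sub,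
      Nat.max_zero] at g1 g2
    have e3 : (S.M p).lam (S.chM a.1 a.2 χx χz) = max (S.lam a.1) (S.lam a.2) := e1.trans a5
    have e4 : (S.M p).cr p (S.chM a.1 a.2 χx χz) = _ := e2
    rw [e3, e4, a5, Bool.false_and, Bool.toNat_false, mul_zero, add_zero]
    change 1023 * (_ + (max a.1.k.E a.2.k.E - min a.1.k.E a.2.k.E)) ≤
      1023 * 1024 * max (min a.1.k.E a.2.k.E) (max a.1.k.E a.2.k.E) + _ + _
    rw [max_eq_right min_le_max]
    refine im3_arith ?_ ?_ ?_ ?_ g1 g2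
    · split_ifs with c
      exacts [le_max_left _ _, min_le_min (le_max_left _ _) (im3_vs a1.1 c)]
    · split_ifs with c
      exacts [le_max_right _ _, min_le_min (le_max_right _ _) (im3_vs a2.2 c)]
    · split_ifs with c
      · omega
      · have c1 := a4.2.resolve_left c
        have c2 := im3_vs a2.2 c
        omega
    · split_ifs with c
      · omega
      · have c1 := a3.2.resolve_left c
        have c2 := im3_vs a1.1 c
        omega

/-! ### counts -/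

theorem im3_rank (h : S.WF p k eb) (hC : S.Cnt n n2 n3) (d : Bool) (y r : ℕ) :
    (((S.T.filter fun t => t.ep d = y ∧ t.k.dbl = false ∧ t.k.E = r).card : ℕ) : ℝ) ≤
      n * 2 ^ r := by
  have h0 : (0 : ℝ) < 2 ^ r := by positivity
  rw [← div_le_iff₀ h0, div_eq_mul_one_div, ← nsmul_eq_mul, ← sum_const]
  refine le_trans (le_trans (sum_le_sum fun t ht => ?_)
    (sum_le_sum_of_subset_of_nonneg (fun t ht => ?_) fun _ _ _ => by positivity)) (hC.tot d y)
  · obtain ⟨a, -, b, c⟩ := mem_filter.1 ht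
    rw [im1_I_sgl (h.tm t a) b, c]
  · exact mem_filter.2 ⟨(mem_filter.1 ht).1, (mem_filter.1 ht).2.1⟩

theorem im3_sgl (h : S.WF p k eb) {t u : Tm} (ht : t ∈ S.T) (hu : u ∈ S.T) (dt : t.k.dbl = false)
    (du : u.k.dbl = false) (ex : t.x = u.x) (ez : t.z = u.z) (e : t.k.E = u.k.E) : t = u :=
  Tm.ext ex ez (((h.tm t ht).sing dt).1.trans ((h.tm u hu).sing du).1.symm)
    (by rw [((h.tm t ht).sing dt).2, ((h.tm u hu).sing du).2, e])

/-- The key of a merged term. -/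
def im3Key (q : ℕ) (a : Tm × Tm) : Key := ⟨min a.1.k.E a.2.k.E, 0, max a.1.k.E a.2.k.E,
  max a.1.k.E a.2.k.E, q, decide (a.1.k.E < a.2.k.E), true⟩

theorem im3_key {q : ℕ} {a : Tm × Tm} {κ : Key} (h : im3Key q a = κ) (d : Bool) : κ.D = 0 ∧
    (im3Fr d a).k.E = (if κ.hv = d then κ.E else max κ.E κ.h) ∧
      (im3Nr d a).k.E = if κ.hv = d then κ.h else κ.E := by
  subst h
  refine ⟨rfl, ?_⟩
  by_cases c : a.1.k.E < a.2.k.E <;> cases d <;> simp [im3Key, im3Fr, im3Nr, c] <;> omega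

/-- A set of pairs on which one term determines the other one. -/
theorem im3_card (h : S.WF p k eb) (hC : S.Cnt n n2 n3) (P : Tm × Tm → Prop) [DecidablePred P]
    (d e : Bool) (v y r r' : ℕ) (hP : ∀ a ∈ pairs S.T S.T, P a → (im3Nr d a).ep d = v ∧
      (im3Nr d a).k.E = r' ∧ (im3Fr d a).ep e = y ∧ (im3Fr d a).k.E = r) :
    ∑ a ∈ pairs S.T S.T, (if P a then (1 : ℝ) else 0) ≤ n * 2 ^ r := by
  rw [sum_boole]
  refine le_trans (Nat.cast_le.2 (card_le_card_of_injOn (im3Fr d) (fun a ha => ?_)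
    fun a ha b hb c => ?_)) (im3_rank h hC e y r)
  · obtain ⟨a0, a1⟩ := mem_filter.1 ha
    obtain ⟨b1, b2, -, b4, b5⟩ := im1_mem_pairs.1 a0
    obtain ⟨-, -, c3, c4⟩ := hP a a0 a1
    refine mem_coe.2 (mem_filter.2 ⟨?_, c3, ?_, c4⟩) <;> cases d <;> assumption
  · obtain ⟨a0, a1⟩ := mem_filter.1 ha
    obtain ⟨b0, b1⟩ := mem_filter.1 hb
    obtain ⟨a2, a3, a4, a5, a6⟩ := im1_mem_pairs.1 a0
    obtain ⟨b2, b3, b4, b5, b6⟩ := im1_mem_pairs.1 b0
    obtain ⟨c1, c2, -⟩ := hP a a0 a1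
    obtain ⟨c3, c4, -⟩ := hP b b0 b1
    cases d
    · have c5 : a.2 = b.2 := c
      exact Prod.ext (im3_sgl h a2 b2 a5 b5 (c1.trans c3.symm) (by rw [a4, b4, c5])
        (c2.trans c4.symm)) c5
    · have c5 : a.1 = b.1 := c
      exact Prod.ext c5 (im3_sgl h a3 b3 a6 b6 (by rw [← a4, ← b4, c5]) (c1.trans c3.symm)
        (c2.trans c4.symm))

theorem im3_ite (P : Prop) [Decidable P] : (0 : ℝ) ≤ if P then 1 else 0 := by
  split_ifs
  exacts [zero_le_one, le_rfl]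

theorem M_Cnt (h : S.WF p k eb) (hn : 0 ≤ n) (hn2 : 0 ≤ n2) (hn3 : 0 ≤ n3) (hC : S.Cnt n n2 n3) :
    (S.M p).Cnt (p.A * (n + n ^ 2)) (n2 + n) (p.A * (n3 + n)) := by
  have := hn2
  have := hn3
  have hA : (0 : ℝ) ≤ p.A := Nat.cast_nonneg _
  refine ⟨fun d v => ?_, fun x z κ hκ => ?_, fun d v y κ hκ => ?_⟩
  · refine (im3_ep h d v _ (fun _ e => e) _ (fun t _ => 1 / 2 ^ t.I)
      (fun a _ => 1 / 2 ^ (im3Nr d a).I * (1 / 2 ^ (im3Fr d a).I)) (fun _ _ _ => by positivity)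
      (fun _ _ _ => by positivity) (fun _ _ _ _ _ => le_rfl) fun a ha χx χz _ => ?_).trans ?_
    · obtain ⟨b1, b2, -, b4, b5⟩ := im1_mem_pairs.1 ha
      rw [im1_I_chM, ← im1_I_sgl (h.tm _ b1) b4, ← im1_I_sgl (h.tm _ b2) b5, pow_add,
        one_div_mul_one_div]
      cases d
      exacts [le_rfl, le_of_eq (congrArg _ (mul_comm _ _))]
    simp only [sum_const, card_range, nsmul_eq_mul, ← mul_sum]
    rw [← mul_add]
    refine mul_le_mul_of_nonneg_left (add_le_add (hC.tot d _) ?_) hA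
    refine (im3_pairs S.T d _ _ (fun t u => 1 / 2 ^ t.I * (1 / 2 ^ u.I))
      (fun _ _ _ _ => by positivity) fun _ _ _ => le_rfl).trans ?_
    simp only [← mul_sum]
    refine (sum_le_sum fun t _ => mul_le_mul_of_nonneg_left (hC.tot d _) (by positivity)).trans ?_
    rw [← sum_mul, sq]
    exact mul_le_mul_of_nonneg_right (hC.tot d _) hn
  · rw [card_eq_sum_ones, Nat.cast_sum, Nat.cast_one]
    refine (im3_xz h x z _ (fun _ e => ⟨e.1, e.2.1⟩) _ (fun t => if t.k = κ then 1 else 0)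
      (fun a => if im3Key S.q a = κ then 1 else 0) (fun _ _ => im3_ite _) (fun _ _ => im3_ite _)
      (fun _ _ _ _ e => (if_pos e.2.2).ge) fun _ _ _ _ e => (if_pos e.2.2).ge).trans ?_
    simp only [← ite_and, and_assoc]
    rw [add_mul]
    refine add_le_add (by rw [sum_boole]; exact hC.xz _ _ κ hκ) ?_
    by_cases c : κ.D = 0
    · rw [c, Nat.sub_zero]
      refine im3_card h hC _ (!κ.hv) κ.hv (if κ.hv then S.up x else S.up z)
        (if κ.hv then S.up z else S.up x) _ κ.E fun a _ ⟨e1, e2, e3⟩ => ?_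
      obtain ⟨-, e4, e5⟩ := im3_key e3 (!κ.hv)
      have e6 : κ.E ≤ κ.h := e3 ▸ min_le_max
      rw [if_neg (by simp)] at e4 e5
      rw [max_eq_right e6] at e4
      refine ⟨?_, e5, ?_, e4⟩ <;> cases κ.hv <;> assumption
    · rw [sum_eq_zero fun a _ => if_neg fun e => c (im3_key e.2.2 true).1]
      positivity
  · rw [card_eq_sum_ones, Nat.cast_sum, Nat.cast_one]
    refine (im3_ep h d v _ (fun _ e => e.1) _ (fun t _ => if t.y = y ∧ t.k = κ then 1 else 0)
      (fun a _ => if a.1.z = y ∧ im3Key S.q a = κ then 1 else 0) (fun _ _ _ => im3_ite _)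
      (fun _ _ _ => im3_ite _) (fun _ _ _ _ e => (if_pos e.2).ge)
      fun _ _ _ _ e => (if_pos e.2).ge).trans ?_
    simp only [sum_const, card_range, nsmul_eq_mul, ← mul_sum]
    rw [← mul_add, mul_assoc, add_mul, sum_filter, sum_filter]
    simp only [← ite_and]
    refine mul_le_mul_of_nonneg_left
      (add_le_add (by rw [sum_boole]; exact hC.xy d _ y κ hκ) ?_) hA
    refine im3_card h hC _ d d (S.up v) y _ (if κ.hv = d then κ.h else κ.E)
      fun a ha ⟨e1, e2, e3⟩ => ?_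
    obtain ⟨-, e4, e5⟩ := im3_key e3 d
    refine ⟨e1, e5, ?_, e4⟩
    cases d
    exacts [(im1_mem_pairs.1 ha).2.2.1.symm.trans e2, e2]

end Vale.Agent.P313.NL
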