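import Vale.Agent.P313.NL.IR1
import Mathlib.Algebra.BigOperators.Field

/-! The operation `R`: ranks and counts. -/

namespace Vale.Agent.P313.NL

open Finset
open scoped Classical

variable {p : Par} {S : Sys} {k eb : ℕ}

variable {B Γ n n2 n3 : ℝ}

theorem ir2_fib {α : Type} (F : Finset Tm) {Q : Finset α} (g : α → Tm) {w : α → ℝ}
    (hw : ∀ a ∈ Q, 0 ≤ w a) : ∑ t ∈ F, ∑ a ∈ Q with g a = t, w a ≤ ∑ a ∈ Q, w a := by
  rw [sum_fiberwise_eq_sum_filter]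
  exact sum_le_sum_of_subset_of_nonneg (filter_subset _ _) fun a ha _ => hw a ha

theorem ir2_nn {α : Type} {Q : Finset α} (g : α → Tm) {w : α → ℝ} (hw : ∀ a ∈ Q, 0 ≤ w a)
    (t : Tm) : 0 ≤ ∑ a ∈ Q with g a = t, w a := sum_nonneg fun a ha => hw a (mem_filter.1 ha).1

theorem ir2_one {α : Type} {Q : Finset α} (g : α → Tm) {w : α → ℝ} (hw : ∀ a ∈ Q, 0 ≤ w a)
    {a : α} (ha : a ∈ Q) {t : Tm} (e : g a = t) : w a ≤ ∑ a ∈ Q with g a = t, w a :=
  single_le_sum (f := w) (fun a ha => hw a (mem_filter.1 ha).1) (mem_filter.2 ⟨ha, e⟩)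

theorem ir2_ms (h : S.WF p k eb) {t : Tm} (ht : t ∈ S.T) : 0 ≤ S.ms t :=
  div_nonneg (h.om_nonneg t ht) (by positivity)

theorem ir2_mem {t : Tm} (ht : t ∈ (S.R p).T) :
    (∃ a ∈ S.T, ∃ i < p.c, 1 / 8 ≤ 2 ^ i * S.Wg a.x a.z a.k.E ∧ chA a.x a.z (a.k.E + i) = t) ∨
      ∃ a ∈ S.T, ∃ s ≤ p.c, (s = p.c ∨ 1 / 8 ≤ 2 ^ s * S.om a) ∧ p.chP a s = t := by
  rcases mem_union.1 ht with ht | ht
  · obtain ⟨a, ha, e⟩ := mem_image.1 ht
    obtain ⟨ha, h1⟩ := mem_filter.1 ha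
    obtain ⟨h2, h3⟩ := mem_product.1 ha
    exact .inl ⟨a.1, h2, a.2, mem_range.1 h3, h1, e⟩
  · obtain ⟨a, ha, e⟩ := mem_image.1 ht
    obtain ⟨ha, h1⟩ := mem_filter.1 ha
    obtain ⟨h2, h3⟩ := mem_product.1 ha
    exact .inr ⟨a.1, h2, a.2, Nat.lt_succ_iff.1 (mem_range.1 h3), h1, e⟩

theorem ir2_mem_dbl {t : Tm} (ht : t ∈ (S.R p).T) (hd : t.k.dbl = true) :
    ∃ a ∈ S.T, ∃ s ≤ p.c, (s = p.c ∨ 1 / 8 ≤ 2 ^ s * S.om a) ∧ p.chP a s = t := by
  rcases ir2_mem ht with ⟨a, -, i, -, -, rfl⟩ | h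
  · exact absurd hd Bool.false_ne_true
  · exact h

theorem R_W2 (h : S.WF p k eb) (hW : S.Wt 1) (h2 : S.W2 Γ) : (S.R p).W2 Γ := by
  intro x z V
  refine le_trans ?_ (h2 x z V)
  set Q := S.T.filter fun t => t.k.dbl = true ∧ t.x = x ∧ t.z = z ∧ t.k.V = V
  have hw : ∀ a ∈ Q ×ˢ range (p.c + 1), 0 ≤ S.ms a.1 * p.chi a.2 (S.om a.1) := fun a ha =>
    have := (mem_filter.1 (mem_product.1 ha).1).1
    mul_nonneg (ir2_ms h this) (chi_nonneg _ (h.om_nonneg _ this))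
  refine le_trans (sum_le_sum fun t ht => ?_) ((ir2_fib _ (fun a => p.chP a.1 a.2) hw).trans ?_)
  · obtain ⟨-, h3⟩ := mem_filter.1 ht
    show (_ + _) / _ ≤ _
    rw [if_pos h3.1, zero_add, sum_div]
    refine le_trans (sum_le_sum fun a ha => ?_) (sum_le_sum_of_subset_of_nonneg
      (f := fun a : Tm × ℕ => S.ms a.1 * p.chi a.2 (S.om a.1)) (fun a ha => ?_)
      fun a ha _ => hw a (mem_filter.1 ha).1)
    · obtain ⟨hb, rfl⟩ := mem_filter.1 ha
      obtain ⟨h4, h5⟩ := mem_product.1 hb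
      have h6 := mul_nonneg (ir2_ms h h4) (chi_nonneg (p := p) a.2 (h.om_nonneg _ h4))
      rw [I_chP (h.tm _ h4).D_le (Nat.lt_succ_iff.1 (mem_range.1 h5)), pow_add]
      refine le_trans (le_of_eq ?_)
        (mul_le_of_le_one_right h6 (chi_le_one (p := p) p.c (S.Wg a.1.x a.1.z a.1.k.E)))
      rw [Sys.ms]
      field_simp
    · obtain ⟨hb, rfl⟩ := mem_filter.1 ha
      obtain ⟨h4, h5⟩ := mem_product.1 hb
      exact mem_filter.2 ⟨mem_product.2 ⟨mem_filter.2 ⟨h4, h3⟩, h5⟩, rfl⟩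
  · rw [sum_product]
    refine le_of_eq (sum_congr rfl fun a ha => ?_)
    show ∑ s ∈ range (p.c + 1), S.ms a * p.chi s (S.om a) = _
    rw [← mul_sum, sum_chi (hW.1 a (mem_filter.1 ha).1), mul_one]

theorem ir2_geo {Γ : ℝ} (hΓ : 0 ≤ Γ) (m j : ℕ) :
    ∑ V ∈ range j, Γ / 2 ^ (m + 1 + V) ≤ Γ / 2 ^ m := by
  have : ∑ V ∈ range j, Γ / 2 ^ (m + 1 + V) + Γ / 2 ^ (m + j) = Γ / 2 ^ m := by
    induction j with
    | zero => simp
    | succ j ih =>
      rw [sum_range_succ, ← ih, add_assoc, show m + 1 + j = m + j + 1 by omega, ← add_assoc m,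
        pow_succ]
      congr 1
      field_simp
      norm_num
  have h : 0 ≤ Γ / 2 ^ (m + j) := by positivity
  linarith

/-- a heavy group has a member of small rank -/
theorem ir2_rank (h : S.WF p k eb) (h2 : S.W2 Γ) {x z E m : ℕ}
    (hg : Γ / 2 ^ m < ∑ t ∈ S.T with t.x = x ∧ t.z = z ∧ t.k.E = E, S.ms t) :
    ∃ a ∈ S.T, a.x = x ∧ a.z = z ∧ a.k.E = E ∧ 0 < S.om a ∧ a.k.V ≤ m := by
  by_contra! hc
  have hΓ : 0 ≤ Γ := by
    simpa using (sum_nonneg fun t ht => ir2_ms h (mem_filter.1 ht).1).trans (h2 0 0 0)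
  refine hg.not_ge (le_trans ?_ ((sum_le_sum fun V _ => h2 x z (m + 1 + V)).trans
    (ir2_geo hΓ m eb)))
  simp only [sum_filter]
  rw [sum_comm]
  refine sum_le_sum fun t ht => ?_
  have h0 := ir2_ms h ht
  have h1 : ∀ V ∈ range eb, 0 ≤ if t.k.dbl = true ∧ t.x = x ∧ t.z = z ∧ t.k.V = m + 1 + V then
      S.ms t else 0 := fun V _ => by split_ifs <;> simp [h0]
  split_ifs with h3
  · rcases (h.om_nonneg t ht).eq_or_lt with h4 | h4
    · rw [show S.ms t = 0 by rw [Sys.ms, ← h4, zero_div]]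
      simp
    · have h5 := hc t ht h3.1 h3.2.1 h3.2.2 h4
      have h6 := (h.tm t ht).V_le
      have h7 : t.k.dbl = true := by
        by_contra h7
        have := congrArg Key.V ((h.tm t ht).sing (by simpa using h7)).2
        simp only [sgl] at this
        omega
      refine le_trans (le_of_eq ?_) (single_le_sum h1 (a := t.k.V - (m + 1))
        (mem_range.2 (by omega)))
      rw [if_pos ⟨h7, h3.1, h3.2.1, by omega⟩]
  · exact sum_nonneg h1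

theorem R_G2 (h : S.WF p k eb) (hf : ∀ d v, S.fl d v = false) {dr b : ℕ} (h2 : S.W2 Γ)
    (hdr : 2 * Γ ≤ 2 ^ dr) (hG : S.G2 p false b) :
    (S.R p).G2 p true (b + 1023 * 1024 * dr) := by
  intro t ht h0
  have hi : (S.R p).idle t = t.k.dbl := by
    show (t.k.dbl || S.fl true t.z || S.fl false t.x) = _
    rw [hf, hf, Bool.or_false, Bool.or_false]
  rw [hi, Bool.true_and]
  show 1023 * (p.c * S.lam t + _ + _) ≤ _ + p.c * S.cr p t + _
  have h1 := h0.ne'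
  by_cases h3 : ∑ a ∈ S.T ×ˢ range (p.c + 1) with p.chP a.1 a.2 = t, 2 ^ p.sp a.1 a.2 *
      (S.om a.1 * p.chi a.2 (S.om a.1)) * p.chi p.c (S.Wg a.1.x a.1.z a.1.k.E) = 0
  · change (_ + _) ≠ _ at h1
    rw [h3, add_zero] at h1
    have hd : t.k.dbl = false := by
      by_contra hd
      exact h1 (if_pos (by simpa using hd))
    rw [if_neg (by simp [hd])] at h1
    obtain ⟨i, hi, h4⟩ := exists_ne_zero_of_sum_ne_zero h1
    obtain ⟨h5, h6⟩ := mem_filter.1 hi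
    have h7 := (chi_ne_zero (mem_range.1 h5).le (right_ne_zero_of_mul h4)).2 (mem_range.1 h5)
    obtain ⟨a, ha, e1, e2, e3, h8, h9⟩ := ir2_rank h h2 (x := t.x) (z := t.z) (E := t.k.E - i)
      (m := t.k.E + dr) (by
        rw [Sys.Wg, ← mul_assoc, ← pow_add, Nat.add_sub_cancel' h6] at h7
        rw [div_lt_iff₀ (by positivity), pow_add]
        have : (0 : ℝ) < 2 ^ dr := by positivity
        nlinarith)
    have h10 := hG a ha h8
    have e4 : S.lam a = S.lam t := by simp only [Shp.lam, e1]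
    have e5 : S.cr p a = S.cr p t := by simp only [Sys.cr, e1, e2, e4]
    have e6 := congrArg Key.V (((R_wf h).tm t ht).sing hd).2
    simp only [sgl] at e6
    rw [e4, e5, Bool.false_and] at h10
    rw [hd]
    simp only [Bool.toNat_false] at h10 ⊢
    omega
  · obtain ⟨a, ha, h4⟩ := exists_ne_zero_of_sum_ne_zero h3
    obtain ⟨hb, rfl⟩ := mem_filter.1 ha
    obtain ⟨h5, -⟩ := mem_product.1 hb
    have h10 := hG a.1 h5 ((h.om_nonneg _ h5).lt_of_ne'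
      (left_ne_zero_of_mul (right_ne_zero_of_mul (left_ne_zero_of_mul h4))))
    rw [Bool.false_and] at h10
    show 1023 * (p.c * S.lam a.1 + p.c * a.1.k.dbl.toNat + (a.1.k.V - (a.1.k.E + p.c))) ≤
      1023 * 1024 * max (a.1.k.E + p.c) a.1.k.V + p.c * S.cr p a.1 + _
    have h11 : p.c * a.1.k.dbl.toNat ≤ p.c := by cases a.1.k.dbl <;> simp
    simp only [Bool.toNat_false] at h10
    omega

theorem ir2_sp_le (t : Tm) {s : ℕ} (hs : s ≤ p.c) : p.sp t s ≤ p.c := max_le hs (Nat.sub_le _ _)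

theorem ir2_tot (h : S.WF p k eb) (hL : ∀ d, S.LD0 d B) (hC : S.Cnt n n2 n3) (d : Bool) (v : ℕ) :
    ∑ t ∈ (S.R p).T with t.ep d = v, (1 : ℝ) / 2 ^ t.I ≤ 16 * p.c * B + n / 2 ^ p.c := by
  set Q := S.T.filter fun t => t.ep d = v
  have hw : ∀ a ∈ Q ×ˢ range p.c, 0 ≤ 8 * S.ms a.1 := fun a ha =>
    mul_nonneg (by norm_num) (ir2_ms h (mem_filter.1 (mem_product.1 ha).1).1)
  have hw' : ∀ a ∈ Q, (0 : ℝ) ≤ 1 / 2 ^ a.I / 2 ^ p.c := fun a _ => by positivity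
  have hB : ∑ a ∈ Q ×ˢ range p.c, 8 * S.ms a.1 ≤ 8 * p.c * B := by
    have : ∑ a ∈ Q, S.ms a ≤ B := by simpa only [Sys.ldC, (hL d).1, and_true] using (hL d).2 v
    rw [sum_product]
    simp only [sum_const, card_range, nsmul_eq_mul, ← mul_sum]
    have h0 : (0 : ℝ) ≤ p.c := Nat.cast_nonneg _
    nlinarith
  have hn : ∑ a ∈ Q, (1 : ℝ) / 2 ^ a.I / 2 ^ p.c ≤ n / 2 ^ p.c := by
    rw [← sum_div]
    exact div_le_div_of_nonneg_right (hC.tot d v) (by positivity)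
  have k1 := ir2_fib ((S.R p).T.filter fun t => t.ep d = v)
    (fun a : Tm × ℕ => chA a.1.x a.1.z (a.1.k.E + a.2)) hw
  have k2 := ir2_fib ((S.R p).T.filter fun t => t.ep d = v) (fun a : Tm × ℕ => p.chP a.1 a.2) hw
  have k3 := ir2_fib ((S.R p).T.filter fun t => t.ep d = v) (fun a => p.chP a p.c) hw'
  refine le_trans (sum_le_sum fun t ht => ?_)
    (((sum_add_distrib.trans (congrArg (· + _) sum_add_distrib)).trans_le
      (add_le_add (add_le_add k1 k2) k3)).trans (by linarith))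
  obtain ⟨ht, hv⟩ := mem_filter.1 ht
  have n1 := ir2_nn (fun a : Tm × ℕ => chA a.1.x a.1.z (a.1.k.E + a.2)) hw t
  have n2 := ir2_nn (fun a : Tm × ℕ => p.chP a.1 a.2) hw t
  have n3 := ir2_nn (fun a => p.chP a p.c) hw' t
  rcases ir2_mem ht with ⟨a, ha, i, hi, h1, rfl⟩ | ⟨a, ha, s, hs, h1, rfl⟩
  · refine le_add_of_le_of_nonneg (le_add_of_le_of_nonneg ?_ n2) n3
    have h2 : (1 : ℝ) / 2 ^ (chA a.x a.z (a.k.E + i)).I ≤ ∑ b ∈ (S.T.filter fun t =>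
        t.x = a.x ∧ t.z = a.z ∧ t.k.E = a.k.E).map ⟨fun b => (b, i), Prod.mk_left_injective i⟩,
          8 * S.ms b.1 := by
      rw [sum_map, Sys.Wg, ← mul_assoc, ← pow_add] at *
      simp only [Function.Embedding.coeFn_mk, ← mul_sum]
      rw [div_le_iff₀ (by positivity), show (chA a.x a.z (a.k.E + i)).I = i + a.k.E by
        simp [Tm.I, chA, sgl, add_comm]]
      linarith
    refine h2.trans (sum_le_sum_of_subset_of_nonneg (fun b hb => ?_)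
      fun b hb _ => hw b (mem_filter.1 hb).1)
    obtain ⟨b, hb', rfl⟩ := mem_map.1 hb
    obtain ⟨hb, e1, e2, e3⟩ := mem_filter.1 hb'
    refine mem_filter.2 ⟨mem_product.2 ⟨mem_filter.2 ⟨hb, ?_⟩, mem_range.2 hi⟩, ?_⟩
    · rw [← hv]
      cases d
      · exact e1
      · exact e2
    · show chA b.x b.z (b.k.E + i) = _
      rw [e1, e2, e3]
  · have hq : a ∈ Q := mem_filter.2 ⟨ha, hv⟩
    rw [I_chP (h.tm a ha).D_le hs]
    rcases hs.eq_or_lt with rfl | hs'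
    · refine le_add_of_nonneg_of_le (add_nonneg n1 n2) (le_trans (le_of_eq ?_)
        (ir2_one (fun a => p.chP a p.c) hw' hq rfl))
      rw [le_antisymm (ir2_sp_le a le_rfl) (le_max_left _ _), pow_add, div_div]
    · refine le_add_of_le_of_nonneg (le_add_of_nonneg_of_le n1 (le_trans ?_
        (ir2_one (fun a : Tm × ℕ => p.chP a.1 a.2) hw (a := (a, s))
          (mem_product.2 ⟨hq, mem_range.2 hs'⟩) rfl))) n3
      have h2 := h1.resolve_left hs'.ne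
      have h3 : (2 : ℝ) ^ s ≤ 2 ^ p.sp a s := pow_le_pow_right₀ one_le_two (le_max_left _ _)
      have h4 := h.om_nonneg a ha
      show _ ≤ 8 * (S.om a / 2 ^ a.I)
      rw [pow_add, mul_comm, ← div_div, ← mul_div_assoc]
      refine div_le_div_of_nonneg_right ?_ (by positivity)
      rw [div_le_iff₀ (by positivity)]
      nlinarith

/-- the key of a parent -/
def ir2_key (p : Par) (k : Key) (σ : ℕ) : Key :=
  { k with E := k.E - p.c, D := k.D + σ - 2 * p.c, h := k.h - p.c }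

theorem ir2_key_chP {a : Tm} (hd : a.k.dbl = true) {s : ℕ} (hs : s ≤ p.c) :
    a.k = ir2_key p (p.chP a s).k (p.sp a s) := by
  have := ir2_sp_le a hs
  refine Key.ext ?_ ?_ ?_ rfl rfl rfl rfl <;> simp only [ir2_key, Par.chP, hd, if_true] <;> omega

theorem ir2_xz (h : S.WF p k eb) (hW : S.Wt 1) (hn2 : 0 ≤ n2) (hC : S.Cnt n n2 n3) (x z : ℕ)
    (κ : Key) (hd : κ.dbl = true) :
    ((((S.R p).T.filter fun t => t.x = x ∧ t.z = z ∧ t.k = κ).card : ℕ) : ℝ) ≤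
      (n2 + 8 * p.c * 2 ^ p.c) * 2 ^ (κ.h - κ.D) := by
  set F := (S.R p).T.filter fun t => t.x = x ∧ t.z = z ∧ t.k = κ
  set Q := S.T.filter fun t => t.x = x ∧ t.z = z ∧ t.k.E = κ.E - p.c
  set Q' := S.T.filter fun t => t.x = x ∧ t.z = z ∧ t.k = ir2_key p κ p.c
  have hw : ∀ a ∈ Q ×ˢ range p.c,
      0 ≤ 8 * 2 ^ p.c * 2 ^ (κ.h - κ.D) * (2 ^ (κ.E - p.c) * S.ms a.1) := fun a ha =>
    have := ir2_ms h (mem_filter.1 (mem_product.1 ha).1).1
    by positivity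
  have hw' : ∀ a ∈ Q', (0 : ℝ) ≤ 1 := fun _ _ => zero_le_one
  have hB : ∑ a ∈ Q ×ˢ range p.c, 8 * 2 ^ p.c * 2 ^ (κ.h - κ.D) * (2 ^ (κ.E - p.c) * S.ms a.1) ≤
      8 * p.c * 2 ^ p.c * 2 ^ (κ.h - κ.D) := by
    have : 2 ^ (κ.E - p.c) * ∑ a ∈ Q, S.ms a ≤ 1 := hW.2 x z _
    rw [sum_product]
    simp only [sum_const, card_range, nsmul_eq_mul, ← mul_sum]
    refine (mul_le_mul_of_nonneg_left (mul_le_of_le_one_right (by positivity) this)
      (Nat.cast_nonneg _)).trans_eq (by ring)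
  have hn : ∑ a ∈ Q', (1 : ℝ) ≤ n2 * 2 ^ (κ.h - κ.D) := by
    rw [sum_const, nsmul_eq_mul, mul_one]
    refine (hC.xz x z (ir2_key p κ p.c) hd).trans (mul_le_mul_of_nonneg_left
      (pow_le_pow_right₀ one_le_two ?_) hn2)
    simp only [ir2_key]
    omega
  have k2 := ir2_fib F (fun a : Tm × ℕ => p.chP a.1 a.2) hw
  have k3 := ir2_fib F (fun a => p.chP a p.c) hw'
  rw [card_eq_sum_ones, Nat.cast_sum]
  refine le_trans (sum_le_sum fun t ht => ?_)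
    ((sum_add_distrib.trans_le (add_le_add k2 k3)).trans (by linarith))
  obtain ⟨ht', e1, e2, rfl⟩ := mem_filter.1 ht
  have n2 := ir2_nn (fun a : Tm × ℕ => p.chP a.1 a.2) hw t
  have n3 := ir2_nn (fun a => p.chP a p.c) hw' t
  obtain ⟨a, ha, s, hs, h1, rfl⟩ := ir2_mem_dbl ht' hd
  rw [Nat.cast_one]
  rcases hs.eq_or_lt with rfl | hs'
  · refine le_add_of_nonneg_of_le n2 (ir2_one (fun a => p.chP a p.c) hw'
      (mem_filter.2 ⟨ha, e1, e2, ?_⟩) rfl)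
    have := ir2_key_chP (a := a) hd hs
    rwa [le_antisymm (ir2_sp_le a le_rfl) (le_max_left _ _)] at this
  · refine le_add_of_le_of_nonneg (le_trans ?_ (ir2_one (fun a : Tm × ℕ => p.chP a.1 a.2) hw
      (a := (a, s)) (mem_product.2 ⟨mem_filter.2 ⟨ha, e1, e2, (Nat.add_sub_cancel _ _).symm⟩,
        mem_range.2 hs'⟩) rfl)) n3
    have h2 := h1.resolve_left hs'.ne
    have h3 : (2 : ℝ) ^ s ≤ 2 ^ p.sp a s := pow_le_pow_right₀ one_le_two (le_max_left _ _)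
    have h4 := h.om_nonneg a ha
    have h5 : p.c + ((p.chP a s).k.h - (p.chP a s).k.D) + ((p.chP a s).k.E - p.c) =
        a.I + p.sp a s := by
      rw [← I_chP (h.tm a ha).D_le hs, Tm.I]
      have : p.c ≤ (p.chP a s).k.E := Nat.le_add_left _ _
      omega
    show _ ≤ _ * (_ * (S.om a / 2 ^ a.I))
    rw [← mul_assoc, mul_assoc 8, mul_assoc 8, ← pow_add, ← pow_add, h5, pow_add,
      show 8 * ((2 : ℝ) ^ a.I * 2 ^ p.sp a s) * (S.om a / 2 ^ a.I) = 8 * (2 ^ p.sp a s * S.om a) by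
        field_simp]
    nlinarith

theorem ir2_xy (hn3 : 0 ≤ n3) (hC : S.Cnt n n2 n3) (d : Bool) (v y : ℕ) (κ : Key)
    (hd : κ.dbl = true) :
    ((((S.R p).T.filter fun t => t.ep d = v ∧ t.y = y ∧ t.k = κ).card : ℕ) : ℝ) ≤
      (p.c + 1) * n3 / 2 ^ p.c * 2 ^ (if κ.hv = d then κ.E else max κ.E κ.h) := by
  set F := (S.R p).T.filter fun t => t.ep d = v ∧ t.y = y ∧ t.k = κ
  rcases F.eq_empty_or_nonempty with hF | ⟨t0, ht0⟩
  · rw [hF, card_empty, Nat.cast_zero]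
    positivity
  have hc : p.c ≤ κ.E ∧ p.c ≤ κ.h := by
    obtain ⟨ht, -, -, rfl⟩ := mem_filter.1 ht0
    obtain ⟨a, -, s, -, -, rfl⟩ := ir2_mem_dbl ht hd
    have : a.k.dbl = true := hd
    simp [Par.chP, this]
  set Q := (range (p.c + 1) ×ˢ S.T).filter fun a : ℕ × Tm =>
    a.2.ep d = v ∧ a.2.y = y ∧ a.2.k = ir2_key p κ a.1
  have hw : ∀ a ∈ Q, (0 : ℝ) ≤ 1 := fun _ _ => zero_le_one
  have k1 := ir2_fib F (fun a : ℕ × Tm => (⟨a.2.x, a.2.z, a.2.y, κ⟩ : Tm)) hw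
  rw [card_eq_sum_ones, Nat.cast_sum]
  refine le_trans (sum_le_sum fun t ht => ?_) (k1.trans ?_)
  · obtain ⟨ht', e1, e2, rfl⟩ := mem_filter.1 ht
    obtain ⟨a, ha, s, hs, -, rfl⟩ := ir2_mem_dbl ht' hd
    rw [Nat.cast_one]
    exact ir2_one _ hw (a := (p.sp a s, a)) (mem_filter.2 ⟨mem_product.2
      ⟨mem_range.2 (Nat.lt_succ_of_le (ir2_sp_le a hs)), ha⟩, e1, e2, ir2_key_chP (a := a) hd hs⟩) rfl
  · rw [sum_filter, sum_product]
    refine (sum_le_card_nsmul _ _ (n3 / 2 ^ p.c * 2 ^ (if κ.hv = d then κ.E else max κ.E κ.h))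
      fun σ _ => ?_).trans_eq (by rw [card_range, nsmul_eq_mul]; push_cast; ring)
    rw [← sum_filter, sum_const, nsmul_eq_mul, mul_one]
    refine (hC.xy d v y (ir2_key p κ σ) hd).trans_eq ?_
    have : (if κ.hv = d then κ.E else max κ.E κ.h) =
        p.c + if (ir2_key p κ σ).hv = d then (ir2_key p κ σ).E else
          max (ir2_key p κ σ).E (ir2_key p κ σ).h := by
      show _ = p.c + if κ.hv = d then κ.E - p.c else max (κ.E - p.c) (κ.h - p.c)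
      split_ifs <;> omega
    rw [this, pow_add]
    field_simp

theorem R_Cnt (h : S.WF p k eb) (hW : S.Wt 1) (hL : ∀ d, S.LD0 d B) (hn2 : 0 ≤ n2) (hn3 : 0 ≤ n3)
    (hC : S.Cnt n n2 n3) : (S.R p).Cnt (16 * p.c * B + n / 2 ^ p.c) (n2 + 8 * p.c * 2 ^ p.c)
      ((p.c + 1) * n3 / 2 ^ p.c) :=
  ⟨ir2_tot h hL hC, ir2_xz h hW hn2 hC, ir2_xy hn3 hC⟩

end Vale.Agent.P313.NL
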