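import Vale.Agent.P313.NL.ID2
import Vale.Agent.P313.NL.ID3
import Vale.Agent.P313.NL.IM2
import Vale.Agent.P313.NL.IM3
import Vale.Agent.P313.NL.IR2
import Vale.Agent.P313.NL.IB

/-! The hierarchy keeps the value and all invariants. -/

namespace Vale.Agent.P313.NL

open Finset
open scoped Classical

open F43

/-- The choice of the parameters of the hierarchy. -/
structure Par.OK (p : Par) (lk : ℕ) : Prop where
  K_eq : p.K = 16 * (p.n0 + 6)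
  K_lt : p.K + 1 ≤ 2 ^ lk
  mu_eq : p.mu = lk + 30
  r1_eq : p.r1 = 64 * (6 * lk + 140)
  c_eq : p.c = 1024 * p.r1
  W1_eq : p.W1 = p.mu + (4 * p.r1 + 2 * lk + 12) + 2

variable {p : Par} {lk : ℕ} {A0 : ℕ → ℕ → ℕ}

/-- What the estimates need to know about the level `s`. -/
structure LvOK (p : Par) (s : ℕ) (S : Sys) : Prop where
  wf : ∃ k, S.WF p k (s * p.c)
  q_le : S.q ≤ p.n0 + s * p.W
  wt : S.Wt p.Om
  wt1 : s % 6 ≠ 0 → S.Wt 1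
  cnt : S.Cnt (2 ^ (2 * p.c)) (2 ^ (2 * p.c)) (2 ^ (2 * p.c))

section Mono

variable {S : Sys}

theorem ia_Wt {Ω Ω' : ℝ} (h : S.Wt Ω) (l : Ω ≤ Ω') : S.Wt Ω' :=
  ⟨fun t ht => (h.1 t ht).trans l, fun x z E => (h.2 x z E).trans l⟩

theorem ia_GI {e : Bool} {κ κ' : ℝ} (h : S.GI e κ) (l : κ ≤ κ') : S.GI e κ' :=
  fun x z E => (h x z E).trans (div_le_div_of_nonneg_right l (by positivity))

theorem ia_LD0 {d : Bool} {B B' : ℝ} (h : S.LD0 d B) (l : B ≤ B') : S.LD0 d B' :=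
  ⟨h.1, fun v => (h.2 v).trans l⟩

theorem ia_Cnt {n n2 n3 n' n2' n3' : ℝ} (h : S.Cnt n n2 n3) (l1 : n ≤ n') (l2 : n2 ≤ n2')
    (l3 : n3 ≤ n3') : S.Cnt n' n2' n3' :=
  ⟨fun d v => (h.tot d v).trans l1,
    fun x z k hk => (h.xz x z k hk).trans (mul_le_mul_of_nonneg_right l2 (by positivity)),
    fun d v y k hk => (h.xy d v y k hk).trans (mul_le_mul_of_nonneg_right l3 (by positivity))⟩

theorem ia_WF {k eb eb' : ℕ} (h : S.WF p k eb) (e : eb = eb') : S.WF p k eb' := e ▸ h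

end Mono

/-- The inequalities between the parameters; `X = 2 ^ r1` and `Y = 2 ^ lk`. -/
structure ia_Num (p : Par) (X Y : ℝ) : Prop where
  X_eq : (2 : ℝ) ^ p.r1 = X
  Y1 : 1 ≤ Y
  YX : 64 * Y ^ 2 ≤ X
  KY : (p.K : ℝ) + 1 ≤ Y
  M_eq : (p.M : ℝ) = 2 ^ 30 * Y
  W1_eq : (2 : ℝ) ^ p.W1 = 2 ^ 44 * Y ^ 3 * X ^ 4
  A_le : (p.A : ℝ) ≤ X ^ 9
  c_pow : (2 : ℝ) ^ p.c = X ^ 1024
  c_le : 16 * (p.c : ℝ) ≤ X
  Om_le : 3 * (p.Om : ℝ) ≤ p.M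
  M3 : 3 ≤ p.M
  rc : p.r1 ≤ p.c
  cr : p.c ≤ 1024 * p.r1
  c1 : 1 ≤ p.c
  W1 : 1 ≤ p.W1
  KW : 2 * p.K + 2 ≤ 2 ^ p.W1

theorem ia_num (hp : p.OK lk) : ia_Num p (2 ^ p.r1) (2 ^ lk) := by
  have h1 := hp.K_lt
  have h2 := hp.mu_eq
  have h3 := hp.r1_eq
  have h4 := hp.c_eq
  have h5 := hp.W1_eq
  have hl : lk < 2 ^ lk := Nat.lt_two_pow_self
  have hM : p.M = 2 ^ 30 * 2 ^ lk := by rw [Par.M, h2, pow_add, mul_comm]
  refine ⟨rfl, one_le_pow₀ one_le_two, ?_, by exact_mod_cast h1, by exact_mod_cast hM, ?_, ?_, ?_,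
    ?_, ?_, ?_, by omega, by omega, by omega, by omega, ?_⟩
  · rw [← pow_mul, show (64 : ℝ) = 2 ^ 6 by norm_num, ← pow_add]
    exact pow_le_pow_right₀ one_le_two (by omega)
  · rw [← pow_mul, ← pow_mul, ← pow_add, ← pow_add]
    congr 1
    omega
  · rw [Par.A, Par.W, ← pow_mul]
    push_cast
    exact pow_le_pow_right₀ one_le_two (by omega)
  · rw [← pow_mul, h4, mul_comm]
  · have e : p.r1 - 15 < 2 ^ (p.r1 - 15) := Nat.lt_two_pow_self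
    have e2 : 2 ^ p.r1 = 2 ^ 15 * 2 ^ (p.r1 - 15) := by
      rw [← pow_add]
      congr 1
      omega
    have : 16 * p.c ≤ 2 ^ p.r1 := by omega
    exact_mod_cast this
  · have : 3 * p.Om ≤ p.M := by
      rw [Par.Om]
      omega
    exact_mod_cast this
  · omega
  · calc 2 * p.K + 2 ≤ 2 ^ (lk + 1) := by
          rw [pow_succ]
          omega
      _ ≤ 2 ^ p.W1 := Nat.pow_le_pow_right two_pos (by omega)

namespace ia_Num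

variable {X Y : ℝ} (n : ia_Num p X Y)
include n

theorem X64 : 64 ≤ X := by
  have h1 := n.Y1
  have h2 := n.YX
  nlinarith

theorem YleX : Y ≤ X := by
  have h1 := n.Y1
  have h2 := n.YX
  nlinarith

theorem U64 : 4 * X ≤ 64 * Y * X ^ 4 := by
  have h1 := n.Y1
  have h2 := n.X64
  have h3 : X ^ 1 ≤ X ^ 4 := pow_le_pow_right₀ (by linarith) (by norm_num)
  nlinarith

theorem M1 : (1 : ℝ) ≤ p.M := by
  have : 1 ≤ p.M := le_trans (by norm_num) n.M3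
  exact_mod_cast this

theorem third : (1 / 3 : ℝ) / p.M ≤ 1 / 3 := div_le_self (by norm_num) n.M1

theorem Om_div : (p.Om : ℝ) / p.M ≤ 1 / 3 := by
  have h1 := n.M1
  have h2 := n.Om_le
  rw [div_le_iff₀ (by linarith)]
  linarith

theorem fit {S : Sys} {d : Bool} (h : ∀ v, S.ldC d v ≤ Y * (64 * Y * X ^ 4)) : S.Fit p d := by
  intro v
  have h1 := n.Y1
  have h2 := n.X64
  have h3 := n.U64
  have h4 : 64 * Y * X ^ 4 ≤ Y * (64 * Y * X ^ 4) := le_mul_of_one_le_left (by linarith) h1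
  have h5 : S.ctr d v + 2 ≤ 2 * (Y * (64 * Y * X ^ 4)) := by
    have := h v
    rw [Sys.ctr]
    split_ifs <;> linarith
  have h6 : 0 ≤ Y ^ 3 * X ^ 4 := by positivity
  rw [n.M_eq, n.W1_eq]
  calc 2 ^ 30 * Y * (S.ctr d v + 2) ≤ 2 ^ 30 * Y * (2 * (Y * (64 * Y * X ^ 4))) :=
        mul_le_mul_of_nonneg_left h5 (by positivity)
    _ = 2 ^ 37 * (Y ^ 3 * X ^ 4) := by ring
    _ ≤ 2 ^ 44 * (Y ^ 3 * X ^ 4) := mul_le_mul_of_nonneg_right (by norm_num) h6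
    _ = 2 ^ 44 * Y ^ 3 * X ^ 4 := by ring

theorem load {B : ℝ} (hB : B ≤ Y * (64 * Y * X ^ 4)) :
    (B + 3) * (1 + 3 / p.M) + 2 * (p.K + 1) * (p.R2 + p.R2 ^ 2) ≤ B + 64 * Y * X ^ 4 := by
  have h1 := n.Y1
  have h2 := n.X64
  have h3 := n.U64
  have hR : (p.R2 : ℝ) = (X + 4) ^ 2 := by
    rw [Par.R2, ← n.X_eq]
    push_cast
    rfl
  have hR0 : (0 : ℝ) ≤ p.R2 := Nat.cast_nonneg _
  have hR1 : (p.R2 : ℝ) ≤ 2 * X ^ 2 := by
    rw [hR]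
    nlinarith
  have hR2 : (p.R2 : ℝ) ^ 2 ≤ (2 * X ^ 2) ^ 2 := pow_le_pow_left₀ hR0 hR1 2
  have hX : X ^ 2 ≤ X ^ 4 := pow_le_pow_right₀ (by linarith) (by norm_num)
  have hX0 : 0 ≤ X ^ 4 := by positivity
  have hR3 : (p.R2 : ℝ) + p.R2 ^ 2 ≤ 8 * X ^ 4 := by nlinarith
  have h4 : 2 * ((p.K : ℝ) + 1) * (p.R2 + p.R2 ^ 2) ≤ 2 * Y * (8 * X ^ 4) :=
    mul_le_mul (by linarith [n.KY]) hR3 (by positivity) (by linarith)
  have h5 : 64 * Y * X ^ 4 ≤ Y * (64 * Y * X ^ 4) := le_mul_of_one_le_left (by linarith) h1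
  have h6 : (B + 3) * (3 / p.M) ≤ 16 * Y * X ^ 4 := by
    rw [← mul_div_assoc, div_le_iff₀ (by linarith [n.M1]), n.M_eq]
    have : 0 ≤ Y * (64 * Y * X ^ 4) := by positivity
    calc (B + 3) * 3 ≤ 2 ^ 28 * (Y * (64 * Y * X ^ 4)) := by linarith
      _ = 16 * Y * X ^ 4 * (2 ^ 30 * Y) := by ring
  nlinarith

theorem pw {a b : ℕ} (h : a ≤ b) : X ^ a ≤ X ^ b :=
  pow_le_pow_right₀ (by linarith [n.X64]) h

theorem two {a : ℕ} : X ^ a + X ^ a ≤ X ^ (a + 1) := by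
  have h1 := n.X64
  have h2 : 0 ≤ X ^ a := by positivity
  rw [pow_succ]
  nlinarith

theorem mulA (a : ℕ) : p.A * X ^ a ≤ X ^ (9 + a) := by
  have h1 := n.X64
  rw [pow_add]
  exact mul_le_mul_of_nonneg_right n.A_le (by positivity)

theorem cntD {S : Sys} {k eb a : ℕ} {n2 : ℝ} (h : S.WF p k eb) (d sf : Bool)
    (hC : S.Cnt (X ^ a) n2 (X ^ a)) : (S.D p d sf).Cnt (X ^ (9 + a)) n2 (X ^ (9 + a)) :=
  ia_Cnt (D_Cnt h d sf hC) (n.mulA a) le_rfl (n.mulA a)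

theorem cntM {S : Sys} {k eb : ℕ} {n2 : ℝ} (h : S.WF p k eb) (h2 : 0 ≤ n2)
    (hC : S.Cnt (X ^ 43) n2 (X ^ 43)) : (S.M p).Cnt (X ^ 96) (n2 + X ^ 43) (X ^ 96) := by
  have h1 := n.X64
  have hA : (0 : ℝ) ≤ p.A := Nat.cast_nonneg _
  have e1 : X ^ 43 ≤ X ^ 86 := n.pw (by norm_num)
  have e2 : X ^ 86 + X ^ 86 ≤ X ^ 87 := n.two
  have e3 : p.A * X ^ 87 ≤ X ^ 96 := n.mulA 87
  refine ia_Cnt (M_Cnt h (by positivity) h2 (by positivity) hC) ?_ le_rfl ?_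
  · have e4 : (X ^ 43) ^ 2 = X ^ 86 := (pow_mul X 43 2).symm
    exact le_trans (mul_le_mul_of_nonneg_left (by linarith) hA) e3
  · exact le_trans (mul_le_mul_of_nonneg_left (by linarith) hA) e3

theorem cntR {S : Sys} {k eb : ℕ} {n2 B : ℝ} (h : S.WF p k eb) (hW : S.Wt 1)
    (hL : ∀ d, S.LD0 d B) (hB : B ≤ Y * (64 * Y * X ^ 4)) (h2 : 0 ≤ n2)
    (hC : S.Cnt (X ^ 96) (n2 + X ^ 43) (X ^ 96)) :
    (S.R p).Cnt (X ^ 7) (n2 + X ^ 1026) (X ^ 7) := by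
  have h1 := n.X64
  have hc := n.c_le
  have hc0 : (0 : ℝ) ≤ p.c := Nat.cast_nonneg _
  have hP : 0 < X ^ 1024 := by positivity
  have hB' : B ≤ X ^ 5 :=
    calc B ≤ 64 * Y ^ 2 * X ^ 4 := hB.trans_eq (by ring)
      _ ≤ X * X ^ 4 := mul_le_mul_of_nonneg_right n.YX (by positivity)
      _ = X ^ 5 := by ring
  have e0 : (1 : ℝ) ≤ X ^ 6 := one_le_pow₀ (by linarith)
  have e1 : X ^ 6 + X ^ 6 ≤ X ^ 7 := n.two
  refine ia_Cnt (R_Cnt h hW hL (by positivity) (by positivity) hC) ?_ ?_ ?_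
  · have e2 : 16 * p.c * B ≤ X ^ 6 :=
      calc 16 * p.c * B ≤ 16 * p.c * X ^ 5 := mul_le_mul_of_nonneg_left hB' (by positivity)
        _ ≤ X * X ^ 5 := mul_le_mul_of_nonneg_right hc (by positivity)
        _ = X ^ 6 := by ring
    have e3 : X ^ 96 / 2 ^ p.c ≤ 1 := by
      rw [n.c_pow, div_le_one hP]
      exact n.pw (by norm_num)
    linarith
  · have e2 : 8 * p.c * 2 ^ p.c ≤ X ^ 1025 := by
      rw [n.c_pow, pow_succ' X 1024]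
      exact mul_le_mul_of_nonneg_right (by linarith) hP.le
    have e3 : X ^ 43 ≤ X ^ 1025 := n.pw (by norm_num)
    have e4 : X ^ 1025 + X ^ 1025 ≤ X ^ 1026 := n.two
    linarith
  · have e2 : (p.c + 1) * X ^ 96 / 2 ^ p.c ≤ 1 := by
      rw [n.c_pow, div_le_one hP]
      calc (p.c + 1) * X ^ 96 ≤ X * X ^ 96 :=
            mul_le_mul_of_nonneg_right (by linarith) (by positivity)
        _ = X ^ 97 := (pow_succ' X 96).symm
        _ ≤ X ^ 1024 := n.pw (by norm_num)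
    linarith

theorem cnt {S : Sys} {a j : ℕ} {n2 : ℝ} (ha : a ≤ 2048) (hj : j ≤ p.K)
    (h2 : n2 ≤ j * X ^ 1026 + X ^ 43) (hC : S.Cnt (X ^ a) n2 (X ^ a)) :
    S.Cnt (2 ^ (2 * p.c)) (2 ^ (2 * p.c)) (2 ^ (2 * p.c)) := by
  have h1 := n.X64
  have e : (2 : ℝ) ^ (2 * p.c) = X ^ 2048 := by rw [mul_comm, pow_mul, n.c_pow, ← pow_mul]
  rw [e]
  refine ia_Cnt hC (n.pw ha) (h2.trans ?_) (n.pw ha)
  have e1 : X ^ 43 ≤ X ^ 1026 := n.pw (by norm_num)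
  have e2 : (j : ℝ) + 1 ≤ X := by
    have : (j : ℝ) ≤ p.K := by exact_mod_cast hj
    linarith [n.KY, n.YleX]
  calc j * X ^ 1026 + X ^ 43 ≤ (j + 1) * X ^ 1026 := by linarith
    _ ≤ X * X ^ 1026 := mul_le_mul_of_nonneg_right e2 (by positivity)
    _ = X ^ 1027 := (pow_succ' X 1026).symm
    _ ≤ X ^ 2048 := n.pw (by norm_num)

end ia_Num

/-- Potentials with the value `v` and with bounds. -/
def ia_Pot (p : Par) (S : Sys) (v φ a b : ℝ) : Prop :=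
  ∃ μ, S.Pot μ ∧ S.vlu μ = v ∧ S.Phi p μ ≤ φ ∧ S.tot μ true ≤ a ∧ S.tot μ false ≤ b

section Pot

variable {S : Sys} {k eb : ℕ} {v φ a b : ℝ}

theorem ia_potT (h : S.WF p k eb) (hM : 3 ≤ p.M) (sf : Bool) (hF : S.Fit p true)
    (hP : ia_Pot p S v φ a b) : ia_Pot p (S.D p true sf) v φ a (4 * p.M * b) := by
  obtain ⟨μ, h1, h2, h3, h4, h5⟩ := hP
  obtain ⟨ν, g1, g2, g3, g4, g5⟩ := D_pot h hM true sf hF h1
  exact ⟨ν, g1, g2.trans h2, g3.trans_le h3, g4.trans_le h4,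
    g5.trans (mul_le_mul_of_nonneg_left h5 (by positivity))⟩

theorem ia_potF (h : S.WF p k eb) (hM : 3 ≤ p.M) (sf : Bool) (hF : S.Fit p false)
    (hP : ia_Pot p S v φ a b) : ia_Pot p (S.D p false sf) v φ (4 * p.M * a) b := by
  obtain ⟨μ, h1, h2, h3, h4, h5⟩ := hP
  obtain ⟨ν, g1, g2, g3, g4, g5⟩ := D_pot h hM false sf hF h1
  exact ⟨ν, g1, g2.trans h2, g3.trans_le h3,
    g5.trans (mul_le_mul_of_nonneg_left h4 (by positivity)), g4.trans_le h5⟩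

theorem ia_potM (h : S.WF p k eb) (hN : 2 ≤ p.N) (hk : k < p.K) (hW : 2 * p.K + 2 ≤ 2 ^ p.W1)
    (hP : ia_Pot p S v φ a b) :
    ia_Pot p (S.M p) v (7 / 8 * φ) (2 * (p.K + 1) * a) (2 * (p.K + 1) * b) := by
  obtain ⟨μ, h1, h2, h3, h4, h5⟩ := hP
  obtain ⟨ν, g1, g2, g3, g4, g5⟩ := M_pot h hN hk hW h1
  exact ⟨ν, g1, g2.trans h2, g3.trans (mul_le_mul_of_nonneg_left h3 (by norm_num)),
    g4.trans (mul_le_mul_of_nonneg_left h4 (by positivity)),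
    g5.trans (mul_le_mul_of_nonneg_left h5 (by positivity))⟩

theorem ia_potR (h : S.WF p k eb) (hW : S.Wt 1) (hP : ia_Pot p S v φ a b) :
    ia_Pot p (S.R p) v φ a b := by
  obtain ⟨μ, h1, h2, h3, h4, h5⟩ := hP
  exact ⟨μ, R_pot h hW h1, h2, h3, h4, h5⟩

theorem ia_pot_le {a' b' : ℝ} (hP : ia_Pot p S v φ a b) (ha : a ≤ a') (hb : b ≤ b') :
    ia_Pot p S v φ a' b' := by
  obtain ⟨μ, h1, h2, h3, h4, h5⟩ := hP
  exact ⟨μ, h1, h2, h3, h4.trans ha, h5.trans hb⟩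

end Pot

/-- The invariant at the start of the stage `j`. -/
structure ia_Inv (p : Par) (X Y : ℝ) (dr j : ℕ) (v : ℝ) (S : Sys) : Prop where
  wf : S.WF p j (6 * j * p.c)
  wt : S.Wt p.Om
  ld : ∀ d, S.LD0 d ((j + 1) * (64 * Y * X ^ 4))
  w2 : S.W2 j
  g2 : S.G2 p true (j * (2 * p.c + 1023 * 1024 * dr))
  cnt : S.Cnt (X ^ 7) (j * X ^ 1026) (X ^ 7)
  pot : ia_Pot p S v ((7 / 8) ^ j * p.N) ((2 ^ 65 * Y ^ 3) ^ j * p.N) ((2 ^ 65 * Y ^ 3) ^ j * p.N)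

/-- The facts about a level inside a stage. -/
structure ia_Lv (p : Par) (s : ℕ) (S : Sys) : Prop where
  wf : ∃ k, S.WF p k (s * p.c)
  wt : S.Wt 1
  cnt : S.Cnt (2 ^ (2 * p.c)) (2 ^ (2 * p.c)) (2 ^ (2 * p.c))

theorem ia_stage {X Y : ℝ} (n : ia_Num p X Y) {dr : ℕ} (hdr : 2 * Y ≤ 2 ^ dr) (hN : 2 ≤ p.N)
    {j : ℕ} (hj : j < p.K) {v : ℝ} {S0 : Sys} (h : ia_Inv p X Y dr j v S0)
    {S1 S2 S3 S4 S5 S6 : Sys} (e1 : S1 = S0.D p true true)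
    (e2 : S2 = S1.D p true false) (e3 : S3 = S2.D p false true) (e4 : S4 = S3.D p false false)
    (e5 : S5 = S4.M p) (e6 : S6 = S5.R p) :
    ia_Lv p (6 * j + 1) S1 ∧ ia_Lv p (6 * j + 2) S2 ∧ ia_Lv p (6 * j + 3) S3 ∧
      ia_Lv p (6 * j + 4) S4 ∧ ia_Lv p (6 * j + 5) S5 ∧ ia_Inv p X Y dr (j + 1) v S6 := by
  obtain ⟨f0, t0, l0, w0, g0, c0, p0⟩ := h
  have hX := n.X64
  have hY := n.Y1
  have hU := n.U64
  have hjY : (j : ℝ) + 2 ≤ Y := by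
    have : (j : ℝ) + 1 ≤ p.K := by exact_mod_cast hj
    linarith [n.KY]
  have hj0 : (0 : ℝ) ≤ j := Nat.cast_nonneg _
  have hB : (j + 1) * (64 * Y * X ^ 4) ≤ Y * (64 * Y * X ^ 4) :=
    mul_le_mul_of_nonneg_right (by linarith) (by linarith)
  have hB' : ((j + 1 : ℕ) + 1) * (64 * Y * X ^ 4) ≤ Y * (64 * Y * X ^ 4) :=
    mul_le_mul_of_nonneg_right (by push_cast; linarith) (by linarith)
  have hr : 2 ^ p.r1 + 1 ≤ Y * (64 * Y * X ^ 4) := by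
    have : 64 * Y * X ^ 4 ≤ Y * (64 * Y * X ^ 4) := le_mul_of_one_le_left (by linarith) hY
    rw [n.X_eq]
    linarith
  -- well-formed systems
  have f1 : S1.WF p j ((6 * j + 1) * p.c) := e1 ▸ ia_WF (D_wf f0 n.rc _ _) (by ring)
  have f2 : S2.WF p j ((6 * j + 2) * p.c) := e2 ▸ ia_WF (D_wf f1 n.rc _ _) (by ring)
  have f3 : S3.WF p j ((6 * j + 3) * p.c) := e3 ▸ ia_WF (D_wf f2 n.rc _ _) (by ring)
  have f4 : S4.WF p j ((6 * j + 4) * p.c) := e4 ▸ ia_WF (D_wf f3 n.rc _ _) (by ring)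
  have f5 : S5.WF p (j + 1) ((6 * j + 5) * p.c) := e5 ▸ ia_WF (M_wf f4 n.W1) (by ring)
  have f6 : S6.WF p (j + 1) (6 * (j + 1) * p.c) := e6 ▸ ia_WF (R_wf f5) (by ring)
  -- loads
  have a1 : S1.LD1 p true _ := e1 ▸ D_LD1 f0 n.M3 (l0 true)
  have b1 : S1.LD0 false _ := e1 ▸ D_LD0_other f0 true (l0 false)
  have a2 : S2.LD2 p true _ := e2 ▸ D_LD2 f1 n.M3 a1
  have b2 : S2.LD0 false _ := e2 ▸ D_LD0_other f1 false b1
  have a3 : S3.LD2 p true _ := e3 ▸ D_LD2_other f2 true a2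
  have b3 : S3.LD1 p false _ := e3 ▸ D_LD1 f2 n.M3 b2
  have a4 : S4.LD2 p true _ := e4 ▸ D_LD2_other f3 false a3
  have b4 : S4.LD2 p false _ := e4 ▸ D_LD2 f3 n.M3 b3
  have hl := (n.load hB).trans_eq (show (j + 1) * (64 * Y * X ^ 4) + 64 * Y * X ^ 4 =
    ((j + 1 : ℕ) + 1) * (64 * Y * X ^ 4) by push_cast; ring)
  have l5 : ∀ d, S5.LD0 d (((j + 1 : ℕ) + 1) * (64 * Y * X ^ 4)) := fun d => by
    rw [e5]
    cases d
    · exact ia_LD0 (M_LD0 f4 n.W1 b4) hl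
    · exact ia_LD0 (M_LD0 f4 n.W1 a4) hl
  -- weights
  have t1 : S1.Wt (1 / 3) := e1 ▸ ia_Wt (D_Wt f0 _ _ t0) n.Om_div
  have t2 : S2.Wt (1 / 3) := e2 ▸ ia_Wt (D_Wt f1 _ _ t1) n.third
  have t3 : S3.Wt (1 / 3) := e3 ▸ ia_Wt (D_Wt f2 _ _ t2) n.third
  have t4 : S4.Wt (1 / 3) := e4 ▸ ia_Wt (D_Wt f3 _ _ t3) n.third
  have i1 : S1.GI true (1 / 3) := e1 ▸ ia_GI (D_GI_init f0 _ t0 (l0 true)) n.Om_div
  have i2 : S2.GI true (1 / 3) := e2 ▸ D_GI f1 _ _ i1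
  have i3 : S3.GI true (1 / 3) := e3 ▸ D_GI f2 _ _ i2
  have i4 : S4.GI true (1 / 3) := e4 ▸ D_GI f3 _ _ i3
  have k3 : S3.GI false (1 / 3) := e3 ▸ ia_GI (D_GI_init f2 _ t2 b2) n.third
  have k4 : S4.GI false (1 / 3) := e4 ▸ D_GI f3 _ _ k3
  have t5 : S5.Wt 1 := e5 ▸ M_Wt f4 t4 i4 k4
  have t6 : S6.Wt p.Om := e6 ▸ R_Wt f5 n.c1 t5
  -- terms with midpoints
  have w1 : S1.W2 j := e1 ▸ D_W2 f0 _ _ w0
  have w2 : S2.W2 j := e2 ▸ D_W2 f1 _ _ w1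
  have w3 : S3.W2 j := e3 ▸ D_W2 f2 _ _ w2
  have w4 : S4.W2 j := e4 ▸ D_W2 f3 _ _ w3
  have w5 : S5.W2 (j + 1) := e5 ▸ M_W2 f4 w4 i4 k4
  have w6 : S6.W2 (j + 1) := e6 ▸ R_W2 f5 t5 w5
  -- ranks
  have g1 : S1.G2 p true _ := e1 ▸ D_G2 f0 n.cr _ g0
  have g2 : S2.G2 p true _ := e2 ▸ D_G2 f1 n.cr _ g1
  have g3 : S3.G2 p true _ := e3 ▸ D_G2 f2 n.cr _ g2
  have g4 : S4.G2 p true _ := e4 ▸ D_G2 f3 n.cr _ g3
  have g5 : S5.G2 p false _ := e5 ▸ M_G2 f4 hN g4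
  have g6 : S6.G2 p true _ := e6 ▸ R_G2 (dr := dr) f5 (fun d v => by rw [e5]; rfl) w5
    (by linarith) g5
  -- counts
  have h2 : 0 ≤ j * X ^ 1026 := by positivity
  have h3 : j * X ^ 1026 ≤ j * X ^ 1026 + X ^ 43 := le_add_of_nonneg_right (by positivity)
  have c1 : S1.Cnt _ _ _ := e1 ▸ n.cntD f0 _ _ c0
  have c2 : S2.Cnt _ _ _ := e2 ▸ n.cntD f1 _ _ c1
  have c3 : S3.Cnt _ _ _ := e3 ▸ n.cntD f2 _ _ c2
  have c4 : S4.Cnt _ _ _ := e4 ▸ n.cntD f3 _ _ c3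
  have c5 : S5.Cnt _ _ _ := e5 ▸ n.cntM f4 h2 c4
  have c6 : S6.Cnt _ _ _ := e6 ▸ n.cntR f5 t5 l5 hB' h2 c5
  -- potentials
  have p1 : ia_Pot p S1 _ _ _ _ :=
    e1 ▸ ia_potT f0 n.M3 _ (n.fit fun v => ((l0 true).2 v).trans hB) p0
  have p2 : ia_Pot p S2 _ _ _ _ := e2 ▸ ia_potT f1 n.M3 _ (n.fit fun v => (a1 v).2.trans hr) p1
  have p3 : ia_Pot p S3 _ _ _ _ := e3 ▸ ia_potF f2 n.M3 _ (n.fit fun v => (b2.2 v).trans hB) p2
  have p4 : ia_Pot p S4 _ _ _ _ := e4 ▸ ia_potF f3 n.M3 _ (n.fit fun v => (b3 v).2.trans hr) p3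
  have p5 : ia_Pot p S5 _ _ _ _ := e5 ▸ ia_potM f4 hN hj n.KW p4
  have p6 : ia_Pot p S6 _ _ _ _ := e6 ▸ ia_potR f5 t5 p5
  have hT : 2 * (p.K + 1) * (4 * p.M * (4 * p.M * ((2 ^ 65 * Y ^ 3) ^ j * p.N))) ≤
      (2 ^ 65 * Y ^ 3) ^ (j + 1) * p.N := by
    have h0 : 0 ≤ 4 * p.M * (4 * p.M * ((2 ^ 65 * Y ^ 3) ^ j * p.N)) := by positivity
    refine (mul_le_mul_of_nonneg_right (show 2 * ((p.K : ℝ) + 1) ≤ 2 * Y by linarith [n.KY])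
      h0).trans_eq ?_
    rw [n.M_eq, pow_succ (2 ^ 65 * Y ^ 3)]
    generalize (2 ^ 65 * Y ^ 3) ^ j = T
    ring
  have o : (1 / 3 : ℝ) ≤ 1 := by norm_num
  refine ⟨⟨⟨_, f1⟩, ia_Wt t1 o, n.cnt (by norm_num) hj.le h3 c1⟩,
    ⟨⟨_, f2⟩, ia_Wt t2 o, n.cnt (by norm_num) hj.le h3 c2⟩,
    ⟨⟨_, f3⟩, ia_Wt t3 o, n.cnt (by norm_num) hj.le h3 c3⟩,
    ⟨⟨_, f4⟩, ia_Wt t4 o, n.cnt (by norm_num) hj.le h3 c4⟩,
    ⟨⟨_, f5⟩, t5, n.cnt (by norm_num) hj.le le_rfl c5⟩,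
    f6, t6, fun d => e6 ▸ R_LD0 f5 t5 (l5 d), by exact_mod_cast w6, ?_, ?_, ?_⟩
  · rw [show (j + 1) * (2 * p.c + 1023 * 1024 * dr) =
      j * (2 * p.c + 1023 * 1024 * dr) + 2 * p.c + 1023 * 1024 * dr by ring]
    exact g6
  · exact ia_Cnt c6 le_rfl (le_of_eq (by push_cast; ring)) le_rfl
  · rw [show (7 / 8 : ℝ) ^ (j + 1) * p.N = 7 / 8 * ((7 / 8) ^ j * p.N) by ring]
    exact ia_pot_le p6 hT hT

theorem ia_base {X Y : ℝ} (n : ia_Num p X Y) (dr : ℕ) (h : Gr p A0) (h0 : 0 < p.N)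
    (h1 : p.N - 1 < p.N) :
    ia_Inv p X Y dr 0 (gr (mat p.N A0 2) ⟨0, h0⟩ ⟨p.N - 1, h1⟩) (base p A0) := by
  have hX := n.X64
  have hU := n.U64
  have h7 : X ^ 1 ≤ X ^ 7 := n.pw (by norm_num)
  obtain ⟨μ, m1, m2, m3, m4⟩ := base_pot h h0 h1
  refine ⟨ia_WF (base_wf h) (by ring), ia_Wt (base_Wt h) ?_,
    fun d => ia_LD0 (base_LD0 h d) (by push_cast; linarith), by exact_mod_cast base_W2,
    by rw [zero_mul]; exact base_G2,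
    ia_Cnt (base_Cnt h) (by linarith) (by simp) (by linarith),
    μ, m1, m2, by simpa using m3, by simpa using m4 true, by simpa using m4 false⟩
  have : 1 ≤ p.Om := by
    rw [Par.Om]
    omega
  exact_mod_cast this

theorem ia_sysD (s : ℕ) (d sf : Bool) (h : s % 6 < 4) (hd : decide (s % 6 < 2) = d)
    (hs : decide (s % 2 = 0) = sf) : sys p A0 (s + 1) = (sys p A0 s).D p d sf := by
  rw [sys, if_pos h, hd, hs]

theorem ia_step {X Y : ℝ} (n : ia_Num p X Y) {dr : ℕ} (hdr : 2 * Y ≤ 2 ^ dr) (hN : 2 ≤ p.N)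
    {j : ℕ} (hj : j < p.K) {v : ℝ} (h : ia_Inv p X Y dr j v (sys p A0 (6 * j))) :
    ia_Lv p (6 * j + 1) (sys p A0 (6 * j + 1)) ∧ ia_Lv p (6 * j + 2) (sys p A0 (6 * j + 2)) ∧
      ia_Lv p (6 * j + 3) (sys p A0 (6 * j + 3)) ∧ ia_Lv p (6 * j + 4) (sys p A0 (6 * j + 4)) ∧
      ia_Lv p (6 * j + 5) (sys p A0 (6 * j + 5)) ∧
      ia_Inv p X Y dr (j + 1) v (sys p A0 (6 * (j + 1))) :=
  ia_stage n hdr hN hj h
    (ia_sysD (6 * j) _ _ (by omega) (decide_eq_true (by omega)) (decide_eq_true (by omega)))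
    (ia_sysD (6 * j + 1) _ _ (by omega) (decide_eq_true (by omega)) (decide_eq_false (by omega)))
    (ia_sysD (6 * j + 2) _ _ (by omega) (decide_eq_false (by omega)) (decide_eq_true (by omega)))
    (ia_sysD (6 * j + 3) _ _ (by omega) (decide_eq_false (by omega)) (decide_eq_false (by omega)))
    (by rw [show 6 * j + 5 = 6 * j + 4 + 1 from rfl, sys, if_neg (by omega), if_pos (by omega)])
    (by rw [show 6 * (j + 1) = 6 * j + 5 + 1 from rfl, sys, if_neg (by omega), if_neg (by omega)])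

theorem ia_inv {X Y : ℝ} (n : ia_Num p X Y) {dr : ℕ} (hdr : 2 * Y ≤ 2 ^ dr) (h : Gr p A0)
    (h0 : 0 < p.N) (h1 : p.N - 1 < p.N) {j : ℕ} (hj : j ≤ p.K) :
    ia_Inv p X Y dr j (gr (mat p.N A0 2) ⟨0, h0⟩ ⟨p.N - 1, h1⟩) (sys p A0 (6 * j)) := by
  induction j with
  | zero => exact ia_base n dr h h0 h1
  | succ j ih => exact (ia_step n hdr h.two_le hj (ih (by omega))).2.2.2.2.2

theorem ia_q (s : ℕ) : (sys p A0 s).q ≤ p.n0 + s * p.W := by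
  induction s with
  | zero => exact Nat.le_add_right _ _
  | succ s ih =>
    have e : (sys p A0 (s + 1)).q ≤ (sys p A0 s).q + p.W := by
      rw [sys]
      split_ifs
      · exact le_rfl
      · exact le_rfl
      · exact Nat.le_add_right _ _
    rw [add_one_mul]
    omega

theorem ia_lv {s : ℕ} (h : ia_Lv p s (sys p A0 s)) : LvOK p s (sys p A0 s) := by
  refine ⟨h.wf, ia_q s, ia_Wt h.wt ?_, fun _ => h.wt, h.cnt⟩
  have : 1 ≤ p.Om := by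
    rw [Par.Om]
    omega
  exact_mod_cast this

theorem sys_ok (hp : p.OK lk) (h : Gr p A0) {s : ℕ} (hs : s ≤ 6 * p.K) : LvOK p s (sys p A0 s) := by
  have n := ia_num hp
  have hN := h.two_le
  have hdr : (2 : ℝ) * 2 ^ lk ≤ 2 ^ (lk + 1) := (pow_succ' _ _).ge
  obtain ⟨j, r, hr, rfl⟩ : ∃ j r, r < 6 ∧ s = 6 * j + r :=
    ⟨s / 6, s % 6, Nat.mod_lt _ (by norm_num), (Nat.div_add_mod s 6).symm⟩
  have i := ia_inv n hdr h (by omega) (by omega) (show j ≤ p.K by omega)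
  rcases Nat.eq_zero_or_pos r with rfl | hr0
  · have hX := n.X64
    exact ⟨⟨_, i.wf⟩, ia_q _, i.wt, fun e => absurd (by omega) e,
      n.cnt (by norm_num) (show j ≤ p.K by omega) (le_add_of_nonneg_right (by positivity)) i.cnt⟩
  · obtain ⟨a1, a2, a3, a4, a5, -⟩ := ia_step n hdr hN (show j < p.K by omega) i
    obtain rfl | rfl | rfl | rfl | rfl : r = 1 ∨ r = 2 ∨ r = 3 ∨ r = 4 ∨ r = 5 := by omega
    exacts [ia_lv a1, ia_lv a2, ia_lv a3, ia_lv a4, ia_lv a5]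

theorem sys_direct (hp : p.OK lk) (h : Gr p A0) (h0 : 0 < p.N) (h1 : p.N - 1 < p.N) :
    |gr (mat p.N A0 2) ⟨0, h0⟩ ⟨p.N - 1, h1⟩ - (sys p A0 (6 * p.K)).direct| ≤ 1 / 32 := by
  have n := ia_num hp
  have hdr : (2 : ℝ) * 2 ^ lk ≤ 2 ^ (lk + 1) := (pow_succ' _ _).ge
  obtain ⟨f, t, -, w, g, -, μ, m1, m2, m3, m4, m5⟩ := ia_inv n hdr h h0 h1 le_rfl
  have hK := hp.K_eq
  have hJ : p.K * (2 * p.c + 1023 * 1024 * (lk + 1)) +
      1023 * 1024 * ((6 * lk + 130) * p.K + 2 * p.n0 + lk + 38) ≤ 1021 * p.c * (p.n0 + 6) := by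
    rw [hK, hp.c_eq, hp.r1_eq]
    exact Nat.le.intro (k := 1024 * (265200 * lk * p.n0 + 6715186 * p.n0 + 1590177 * lk + 40264518))
      (by ring)
  obtain ⟨d1, d2⟩ := vlu_direct f h.two_le m1 t w g hJ n.c1
  have hN : (p.N : ℝ) ≤ 2 ^ p.n0 := by exact_mod_cast h.N_le
  have hP : (4 : ℝ) ^ (p.n0 + 6) * (sys p A0 (6 * p.K)).Phi p μ ≤ 1 / 64 := by
    have e1 : (7 / 8 : ℝ) ^ p.K ≤ (1 / 8) ^ (p.n0 + 6) := by
      rw [hK, pow_mul]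
      exact pow_le_pow_left₀ (by positivity) (by norm_num) _
    calc (4 : ℝ) ^ (p.n0 + 6) * (sys p A0 (6 * p.K)).Phi p μ
        ≤ 4 ^ (p.n0 + 6) * ((1 / 8) ^ (p.n0 + 6) * 2 ^ p.n0) :=
          mul_le_mul_of_nonneg_left (m3.trans (mul_le_mul e1 hN (by positivity) (by positivity)))
            (by positivity)
      _ = (4 * (1 / 8) * 2) ^ p.n0 * (4 * (1 / 8)) ^ 6 := by
          rw [mul_pow, mul_pow, mul_pow, pow_add, pow_add]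
          ring
      _ = 1 / 64 := by norm_num
  have hT : ((2 : ℝ) ^ 65 * (2 ^ lk) ^ 3) ^ p.K * p.N ≤ 2 ^ ((3 * lk + 65) * p.K + p.n0) := by
    rw [pow_add, pow_mul, pow_add, mul_comm 3, pow_mul, mul_comm ((2 : ℝ) ^ 65)]
    exact mul_le_mul_of_nonneg_left hN (by positivity)
  have h0' : ∀ d, 0 ≤ (sys p A0 (6 * p.K)).tot μ d := fun d => sum_nonneg fun v _ => (m1 d v).1
  have hO : 4 * ((p.Om : ℝ) + p.K) ≤ 2 ^ (lk + 32) := by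
    have e1 := n.Om_le
    have e2 := n.KY
    have e3 := n.Y1
    rw [n.M_eq] at e1
    rw [pow_add]
    linarith
  have hQ : 4 * ((p.Om : ℝ) + p.K) / 2 ^ ((6 * lk + 130) * p.K + 2 * p.n0 + lk + 38) *
      ((sys p A0 (6 * p.K)).tot μ true * (sys p A0 (6 * p.K)).tot μ false) ≤ 1 / 64 := by
    rw [div_mul_eq_mul_div, div_le_iff₀ (by positivity)]
    refine (mul_le_mul hO (mul_le_mul (m4.trans hT) (m5.trans hT) (h0' _) (by positivity))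
      (mul_nonneg (h0' _) (h0' _)) (by positivity)).trans_eq ?_
    rw [← pow_add, ← pow_add, show (6 * lk + 130) * p.K + 2 * p.n0 + lk + 38 =
      6 + (lk + 32 + ((3 * lk + 65) * p.K + p.n0 + ((3 * lk + 65) * p.K + p.n0))) by ring,
      pow_add _ 6, ← mul_assoc]
    norm_num
  rw [← m2, abs_le]
  constructor <;> linarith

end Vale.Agent.P313.NL
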