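import Vale.Agent.P313.NL.E3
import Vale.Agent.P313.NL.E4
import Vale.Agent.P313.NL.E6
import Vale.Agent.P313.NL.IA

/-! The estimate for the answer is good. -/

namespace Vale.Agent.P313.NL

open Finset
open scoped Classical

open F43

variable {p : Par} {F : ℕ → ℕ → ℕ} {lk lg : ℕ} {A0 : ℕ → ℕ → ℕ}

/-- The lengths of the registers and the budget suffice. -/
structure Par.Long (p : Par) (lg : ℕ) : Prop where
  q_le : p.n0 + 6 * p.K * p.W ≤ p.m
  e_le : 6 * p.K * p.c + p.wb ≤ p.m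
  j0_ge : 2 * p.m + 6 * p.K * (62 * lg) + 10 * lg + 40 ≤ p.j0

/-- The hash functions are good for all levels. -/
def Good (p : Par) (F : ℕ → ℕ → ℕ) (A0 : ℕ → ℕ → ℕ) : Prop :=
  ∀ s ≤ 6 * p.K, Few p F (sys p A0 s) ∧ (s % 6 = 5 → Wit p F (sys p A0 s))

theorem e7_shp_D {s : ℕ} (h : s % 6 < 4) : shp p (s + 1) =
    (shp p s).D p (decide (s % 6 < 2)) (decide (s % 2 = 0)) := by rw [shp, if_pos h]
theorem e7_shp_M {s : ℕ} (h : s % 6 = 4) : shp p (s + 1) = (shp p s).M p := by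
  rw [shp, if_neg (by omega), if_pos h]
theorem e7_shp_R {s : ℕ} (h : s % 6 = 5) : shp p (s + 1) = shp p s := by
  rw [shp, if_neg (by omega), if_neg (by omega)]
theorem e7_sys_D {s : ℕ} (h : s % 6 < 4) : sys p A0 (s + 1) =
    (sys p A0 s).D p (decide (s % 6 < 2)) (decide (s % 2 = 0)) := by rw [sys, if_pos h]
theorem e7_sys_M {s : ℕ} (h : s % 6 = 4) : sys p A0 (s + 1) = (sys p A0 s).M p := by
  rw [sys, if_neg (by omega), if_pos h]
theorem e7_sys_R {s : ℕ} (h : s % 6 = 5) : sys p A0 (s + 1) = (sys p A0 s).R p := by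
  rw [sys, if_neg (by omega), if_neg (by omega)]
theorem e7_est_D {s : ℕ} (h : s % 6 < 4) : est p F A0 (s + 1) =
    (est p F A0 s).D p F (shp p s) (decide (s % 6 < 2)) (decide (s % 2 = 0)) := by
  rw [est, if_pos h]
theorem e7_est_M {s : ℕ} (h : s % 6 = 4) :
    est p F A0 (s + 1) = (est p F A0 s).M p (shp p s) := by
  rw [est, if_neg (by omega), if_pos h]
theorem e7_est_R {s : ℕ} (h : s % 6 = 5) :
    est p F A0 (s + 1) = (est p F A0 s).R p F (shp p s) := by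
  rw [est, if_neg (by omega), if_neg (by omega)]

theorem shp_q_le (s : ℕ) : p.n0 ≤ (shp p s).q ∧ (shp p s).q ≤ p.n0 + s * p.W := by
  induction s with
  | zero => exact ⟨le_rfl, Nat.le_add_right _ _⟩
  | succ s ih =>
    rw [Nat.succ_mul]
    rcases (by omega : s % 6 < 4 ∨ s % 6 = 4 ∨ s % 6 = 5) with h | h | h
    · rw [e7_shp_D h]
      show p.n0 ≤ (shp p s).q + p.W ∧ (shp p s).q + p.W ≤ _
      omega
    · rw [e7_shp_M h]
      show p.n0 ≤ (shp p s).q + p.W ∧ (shp p s).q + p.W ≤ _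
      omega
    · rw [e7_shp_R h]
      omega

theorem e7_le_Om (n : ℕ) : n ≤ p.Om * n := Nat.le_mul_of_pos_left _ (by unfold Par.Om; omega)

theorem e7_wm_le (s : ℕ) : (if s % 6 = 0 then p.Om * 2 ^ p.P else 2 ^ p.P) ≤ p.Om * 2 ^ p.P := by
  split_ifs
  · exact le_rfl
  · exact e7_le_Om _

theorem e7_base_act {t : Tm} (ht : t ∈ (base p A0).T) (q : ℕ) (e : Env) : act F q e t := by
  obtain ⟨a, -, rfl⟩ := mem_image.1 ht
  exact ⟨fun i hi => absurd hi (Nat.not_lt_zero _), fun i hi => absurd hi (Nat.not_lt_zero _)⟩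

theorem est_wf (hp : p.OK lk) (hs : p.Small lg) (h : Gr p A0) (s : ℕ) :
    (est p F A0 s).WF p F (shp p s).q (s * p.c)
      (if s % 6 = 0 then p.Om * 2 ^ p.P else 2 ^ p.P) := by
  induction s with
  | zero =>
    rw [Nat.zero_mul, if_pos rfl]
    refine ⟨fun _ _ t ht => (base_wf h).tm t ht, fun _ e t ht => e7_base_act ht _ e,
      fun _ _ t ht => ?_, fun _ _ d v => ?_⟩
    · have h1 : (A0 t.x t.z : ℝ) / 2 ≤ 1 := (base_Wt h).1 t ht
      have h2 : A0 t.x t.z ≤ 2 := by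
        have : (A0 t.x t.z : ℝ) ≤ (2 : ℕ) := by push_cast; linarith
        exact_mod_cast this
      show A0 t.x t.z * 2 ^ (p.P - 1) ≤ p.Om * 2 ^ p.P
      exact Nat.mul_le_mul (h2.trans (by unfold Par.Om; omega))
        (Nat.pow_le_pow_right two_pos (Nat.sub_le _ _))
    · show (if v = (if d then 0 else p.N - 1) then 2 ^ p.P else 0) ≤ 2 ^ p.P
      split_ifs <;> simp
  | succ s ih =>
    have hq := (shp_q_le (p := p) s).1
    rw [Nat.succ_mul]
    rcases (by omega : s % 6 < 4 ∨ s % 6 = 4 ∨ s % 6 = 5) with h6 | h6 | h6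
    · rw [e7_shp_D h6, e7_est_D h6, if_neg (by omega)]
      exact (ih.mono (e7_wm_le s)).D hq (by rw [hp.c_eq]; omega)
        (by have := hs.Om_le; omega) _ _
    · rw [e7_shp_M h6, e7_est_M h6, if_neg (by omega)]
      rw [if_neg (by omega)] at ih
      exact ih.M hq hs.W1_pos
    · rw [e7_shp_R h6, e7_est_R h6, if_pos (by omega)]
      exact ih.R

theorem e7_err_mono {S : Sys} {L : Lv} {X Y : ℝ} (h : Err p F S L X) (hXY : X ≤ Y) :
    Err p F S L Y := fun j hj e he =>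
  (h j hj e he).trans (div_le_div_of_nonneg_right hXY (by positivity))

theorem e7_errV_base (hs : p.Small lg) : ErrV p F (base p A0) (est p F A0 0) 0 := by
  intro j _ e _
  have hP : 1 ≤ p.P := by have := hs.c_le; have := hs.lg_le; omega
  have h2 : (2 : ℝ) ^ p.P = 2 ^ (p.P - 1) * 2 := by rw [← pow_succ, Nat.sub_add_cancel hP]
  have h0 : (fun e' => badT p F (base p A0) (est p F A0 0) j e' ((est p F A0 0).V j e') +
      badA p (base p A0) (est p F A0 0) j e') = fun _ => (0 : ℝ) := by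
    funext e'
    have hT : badT p F (base p A0) (est p F A0 0) j e' ((est p F A0 0).V j e') = 0 := by
      show badT p F (base p A0) (est p F A0 0) j e' (base p A0).T = 0
      unfold badT
      rw [filter_eq_empty_iff.2 fun t ht hh => hh.2.2 ht, card_empty, Nat.cast_zero, add_zero]
      refine sum_eq_zero fun t ht => ?_
      rw [if_pos ht]
      show (((A0 t.x t.z * 2 ^ (p.P - 1) : ℕ) : ℝ) / 2 ^ p.P - (A0 t.x t.z : ℝ) / 2) ^ 2 = 0
      rw [h2]
      push_cast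
      field_simp
      ring
    have hA : badA p (base p A0) (est p F A0 0) j e' = 0 := by
      unfold badA
      refine sum_eq_zero fun d _ => sum_eq_zero fun v _ => ?_
      show (((if v = (if d then 0 else p.N - 1) then 2 ^ p.P else 0 : ℕ) : ℝ) / 2 ^ p.P -
        (if v = (if d then 0 else p.N - 1) then 1 else 0)) ^ 2 = 0
      by_cases hv : v = (if d then 0 else p.N - 1)
      · rw [if_pos hv, if_pos hv]
        push_cast
        rw [div_self (by positivity)]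
        ring
      · rw [if_neg hv, if_neg hv]
        simp
    rw [hT, hA, add_zero]
  rw [h0, avg_const, zero_div]

theorem est_err (hp : p.OK lk) (hs : p.Small lg) (hl : p.Long lg) (h : Gr p A0) (hG : Good p F A0)
    {s : ℕ} (hs : s ≤ 6 * p.K) :
    Err p F (sys p A0 s) (est p F A0 s) (2 ^ (p.m + s * (62 * lg))) := by
  rename_i hsm
  have hwf : ∀ s, (est p F A0 s).WF p F (sys p A0 s).q (s * p.c)
      (if s % 6 = 0 then p.Om * 2 ^ p.P else 2 ^ p.P) := fun s => by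
    have := est_wf (F := F) hp hsm h s
    rwa [← sys_shp p A0 s] at this
  induction s with
  | zero =>
    refine e7_err_mono (err_of_errV hsm (hwf 0) (hG 0 hs).1 (e7_errV_base hsm)) ?_
    rw [mul_zero]
    positivity
  | succ s ih =>
    have hs' : s ≤ 6 * p.K := by omega
    have ih' := ih hs'
    have ok := sys_ok hp h hs'
    obtain ⟨k, hS⟩ := ok.wf
    have hW : (s + 1) * p.W ≤ 6 * p.K * p.W := Nat.mul_le_mul_right _ hs
    have hc : s * p.c ≤ 6 * p.K * p.c := Nat.mul_le_mul_right _ hs'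
    have hq : (sys p A0 s).q + p.W ≤ p.m := by
      have h1 := ok.q_le
      have h2 := hl.q_le
      rw [Nat.succ_mul] at hW
      omega
    have he : s * p.c + p.wb ≤ p.m := by have := hl.e_le; omega
    have hX : (2 : ℝ) ^ p.m ≤ 2 ^ (p.m + s * (62 * lg)) :=
      pow_le_pow_right₀ one_le_two (Nat.le_add_right _ _)
    have hV : ErrV p F (sys p A0 (s + 1)) (est p F A0 (s + 1))
        (2 ^ (60 * lg) * 2 ^ (p.m + s * (62 * lg))) := by
      rcases (by omega : s % 6 < 4 ∨ s % 6 = 4 ∨ s % 6 = 5) with h6 | h6 | h6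
      · rw [e7_sys_D h6, e7_est_D h6, ← sys_shp p A0 s]
        exact D_err hsm hS ok.wt ((hwf s).mono (e7_wm_le s)) hq (by omega) (hG s hs').1 hX ih' _ _
      · rw [e7_sys_M h6, e7_est_M h6, ← sys_shp p A0 s]
        have hL := hwf s
        rw [if_neg (by omega)] at hL
        exact M_err hsm hS (ok.wt1 (by omega)) hL hq (hG s hs').1 hX ih'
      · rw [e7_sys_R h6, e7_est_R h6, ← sys_shp p A0 s]
        have hL := hwf s
        rw [if_neg (by omega)] at hL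
        exact R_err hsm hS (ok.wt1 (by omega)) hL (by omega) he (hG s hs').1 ((hG s hs').2 h6) hX
          ih'
    refine e7_err_mono (err_of_errV hsm (hwf (s + 1)) (hG _ hs).1 hV) ?_
    rw [← pow_add, ← pow_add]
    refine pow_le_pow_right₀ one_le_two ?_
    have := hsm.c_le
    rw [Nat.add_mul s 1, one_mul]
    omega

theorem e7_abs_le {δ : ℝ} (hδ : 0 < δ) (x : ℝ) : |x| ≤ δ + x ^ 2 / δ := by
  rcases le_total |x| δ with h | h
  · exact h.trans (le_add_of_nonneg_right (by positivity))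
  · have : |x| ≤ x ^ 2 / δ := by
      rw [le_div_iff₀ hδ, ← sq_abs, sq]
      exact mul_le_mul_of_nonneg_left h (abs_nonneg x)
    linarith

theorem e7_fmul_le (x y : ℕ) :
    (p.fmul x y : ℝ) / 2 ^ p.P ≤ (x : ℝ) / 2 ^ p.P * ((y : ℝ) / 2 ^ p.P) := by
  have h : (p.fmul x y : ℝ) ≤ (x * y : ℕ) / (2 ^ p.P : ℕ) := Nat.cast_div_le
  push_cast at h
  calc (p.fmul x y : ℝ) / 2 ^ p.P ≤ (x * y / 2 ^ p.P) / 2 ^ p.P :=
        div_le_div_of_nonneg_right h (by positivity)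
    _ = _ := by ring

theorem e7_le_fmul (x y : ℕ) :
    (x : ℝ) / 2 ^ p.P * ((y : ℝ) / 2 ^ p.P) ≤ (p.fmul x y : ℝ) / 2 ^ p.P + 1 / 2 ^ p.P := by
  have h : x * y ≤ 2 ^ p.P * (p.fmul x y + 1) := (Nat.lt_mul_div_succ _ (Nat.two_pow_pos _)).le
  have h' : (x : ℝ) * y ≤ 2 ^ p.P * (p.fmul x y + 1) := by exact_mod_cast h
  have hZ : (0 : ℝ) < 2 ^ p.P := by positivity
  calc (x : ℝ) / 2 ^ p.P * ((y : ℝ) / 2 ^ p.P) = (x * y) / (2 ^ p.P * 2 ^ p.P) := by ring
    _ ≤ (2 ^ p.P * (p.fmul x y + 1)) / (2 ^ p.P * 2 ^ p.P) :=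
        div_le_div_of_nonneg_right h' (by positivity)
    _ = _ := by field_simp

theorem e7_unit {a n : ℕ} (ha : a ≤ n * 2 ^ p.P) : (a : ℝ) / 2 ^ p.P ≤ n := by
  rw [div_le_iff₀ (by positivity)]
  exact_mod_cast ha

theorem e7_round (a w : ℕ) {b : ℕ} (hb : b ≤ 2 ^ p.P) :
    (p.fmul (p.fmul a w) b : ℝ) / 2 ^ p.P ≤
        (a : ℝ) / 2 ^ p.P * ((w : ℝ) / 2 ^ p.P) * ((b : ℝ) / 2 ^ p.P) ∧
      (a : ℝ) / 2 ^ p.P * ((w : ℝ) / 2 ^ p.P) * ((b : ℝ) / 2 ^ p.P) ≤
        (p.fmul (p.fmul a w) b : ℝ) / 2 ^ p.P + 2 / 2 ^ p.P := by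
  have hb0 : 0 ≤ (b : ℝ) / 2 ^ p.P := by positivity
  have hb1 : (b : ℝ) / 2 ^ p.P ≤ 1 := by
    simpa using e7_unit (p := p) (a := b) (n := 1) (by omega)
  refine ⟨(e7_fmul_le _ _).trans (mul_le_mul_of_nonneg_right (e7_fmul_le _ _) hb0), ?_⟩
  have h1 := mul_le_mul_of_nonneg_right (e7_le_fmul (p := p) a w) hb0
  have h2 := e7_le_fmul (p := p) (p.fmul a w) b
  have h3 : 1 / 2 ^ p.P * ((b : ℝ) / 2 ^ p.P) ≤ 1 / 2 ^ p.P :=
    mul_le_of_le_one_right (by positivity) hb1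
  have h4 : (2 : ℝ) / 2 ^ p.P = 1 / 2 ^ p.P + 1 / 2 ^ p.P := by ring
  rw [add_mul] at h1
  linarith

theorem e7_prod {a w b α ω β Ω : ℝ} (hw0 : 0 ≤ w) (hw : w ≤ Ω) (hb0 : 0 ≤ b) (hb : b ≤ 1)
    (hα0 : 0 ≤ α) (hα : α ≤ 1) (hω0 : 0 ≤ ω) (hω : ω ≤ Ω) (hΩ : 1 ≤ Ω) :
    |a * w * b - α * ω * β| ≤ Ω * (|a - α| + |b - β| + |w - ω|) := by
  have e : a * w * b - α * ω * β = (a - α) * (w * b) + (b - β) * (α * ω) + (w - ω) * (α * b) := by
    ring
  have h1 : w * b ≤ Ω := (mul_le_of_le_one_right hw0 hb).trans hw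
  have h2 : α * ω ≤ Ω := (mul_le_of_le_one_left hω0 hα).trans hω
  have h3 : α * b ≤ Ω := ((mul_le_of_le_one_right hα0 hb).trans hα).trans hΩ
  rw [e]
  refine (abs_add_three _ _ _).trans ?_
  rw [abs_mul (a - α), abs_mul (b - β), abs_mul (w - ω), abs_of_nonneg (mul_nonneg hw0 hb0),
    abs_of_nonneg (mul_nonneg hα0 hω0), abs_of_nonneg (mul_nonneg hα0 hb0)]
  have k1 := mul_le_mul_of_nonneg_left h1 (abs_nonneg (a - α))
  have k2 := mul_le_mul_of_nonneg_left h2 (abs_nonneg (b - β))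
  have k3 := mul_le_mul_of_nonneg_left h3 (abs_nonneg (w - ω))
  linarith

theorem e7_sum_ep {L : Lv} {q eb wm : ℕ} (hL : L.WF p F q eb wm) (j : ℕ) (e : Env) (d : Bool)
    {f : ℕ → ℝ} (hf : ∀ v, 0 ≤ f v) :
    ∑ t ∈ L.N p j e, f (t.ep d) ≤ p.Kp * ∑ v ∈ range (2 ^ q), f v := by
  have hm : ∀ t ∈ L.N p j e, t.ep d ∈ range (2 ^ q) := fun t ht => by
    have := hL.tm j e t (Lv.N_subset j e ht)
    rw [mem_range]
    cases d
    · exact this.x_lt
    · exact this.z_lt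
  rw [← sum_fiberwise_of_maps_to hm, mul_sum]
  refine sum_le_sum fun v _ => ?_
  rw [sum_congr rfl fun t ht => congrArg f (mem_filter.1 ht).2, sum_const, nsmul_eq_mul]
  exact mul_le_mul_of_nonneg_right (by exact_mod_cast Lv.card_N_le j e d v) (hf v)

theorem e7_top {L : Lv} {q eb wm : ℕ} (hL : L.WF p F q eb wm) (e : Env) :
    ∑ v ∈ range (2 ^ q), ∑ r ∈ range p.Kp, L.top p e v r = ∑ t ∈ L.N p p.j0 e,
      p.fmul (p.fmul (L.al p.j0 e true t.x) (L.w p.j0 e t)) (L.al p.j0 e false t.z) := by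
  have hm : ∀ t ∈ L.N p p.j0 e, t.ep false ∈ range (2 ^ q) := fun t ht =>
    mem_range.2 (hL.tm _ e t (Lv.N_subset _ e ht)).x_lt
  rw [← sum_fiberwise_of_maps_to hm]
  refine sum_congr rfl fun v _ => ?_
  rw [Lv.sum_nb]
  refine sum_congr rfl fun r _ => ?_
  unfold Lv.top
  rcases hn : L.nb p p.j0 e false v r with _ | t
  · rfl
  · have hv : t.x = v := (Lv.nb_eq_some.1 hn).2.1
    rw [← hv]
    rfl

theorem e7_point {S : Sys} {L : Lv} {k eb eb' : ℕ} (hS : S.WF p k eb) (hW : S.Wt p.Om)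
    (hL : L.WF p F S.q eb' (p.Om * 2 ^ p.P)) (hK : 1 ≤ p.Kp) {δ : ℝ} (hδ : 0 < δ) (hδ1 : δ ≤ 1)
    (e : Env) :
    |((∑ v ∈ range (2 ^ S.q), ∑ r ∈ range p.Kp, L.top p e v r : ℕ) : ℝ) / 2 ^ p.P -
        ∑ t ∈ S.T, S.al true t.x * S.om t * S.al false t.z * (if act F S.q e t then 1 else 0)| ≤
      p.Kp * 2 ^ S.q * (2 / 2 ^ p.P + 3 * p.Om * δ) +
        p.Om * p.Kp / δ * (badT p F S L p.j0 e (L.N p p.j0 e) + badA p S L p.j0 e) := by
  have hΩ : (1 : ℝ) ≤ p.Om := by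
    have : 1 ≤ p.Om := by unfold Par.Om; omega
    exact_mod_cast this
  have hK' : (1 : ℝ) ≤ p.Kp := by exact_mod_cast hK
  set N := L.N p p.j0 e with hN
  set a : Tm → ℝ := fun t => S.al true t.x * S.om t * S.al false t.z with ha
  set g : Tm → ℝ := fun t => (p.fmul (p.fmul (L.al p.j0 e true t.x) (L.w p.j0 e t))
    (L.al p.j0 e false t.z) : ℝ) / 2 ^ p.P with hg
  set dA : Bool → ℕ → ℝ := fun d v => ((L.al p.j0 e d v : ℝ) / 2 ^ p.P - S.al d v) ^ 2 with hdA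
  set bad : Tm → ℝ := fun t =>
    if t ∈ S.T then ((L.w p.j0 e t : ℝ) / 2 ^ p.P - S.om t) ^ 2 else 1 with hbad
  set Ms := S.T.filter fun t => 0 < S.om t ∧ act F S.q e t ∧ t ∉ N with hMs
  have hdA0 : ∀ d v, 0 ≤ dA d v := fun d v => sq_nonneg _
  have hbad0 : ∀ t, 0 ≤ bad t := fun t => by
    simp only [hbad]
    split_ifs
    · exact sq_nonneg _
    · exact zero_le_one
  have h1 : ((∑ v ∈ range (2 ^ S.q), ∑ r ∈ range p.Kp, L.top p e v r : ℕ) : ℝ) / 2 ^ p.P =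
      ∑ t ∈ N, g t := by
    rw [e7_top hL, Nat.cast_sum, sum_div]
  have h2 : ∑ t ∈ S.T, a t * (if act F S.q e t then 1 else 0) =
      (∑ t ∈ N, if t ∈ S.T then a t else 0) + ∑ t ∈ Ms, a t := by
    rw [sum_ite_mem, inter_comm, ← sum_ite_mem, hMs, sum_filter, ← sum_add_distrib]
    refine sum_congr rfl fun t ht => ?_
    by_cases hn : t ∈ N
    · rw [if_pos (hL.act _ e t (Lv.N_subset _ e hn)), if_pos hn, if_neg fun hh => hh.2.2 hn,
        mul_one, add_zero]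
    · rw [if_neg hn, zero_add]
      by_cases hac : act F S.q e t
      · rw [if_pos hac, mul_one]
        by_cases hp : 0 < S.om t
        · rw [if_pos ⟨hp, hac, hn⟩]
        · rw [if_neg fun hh => hp hh.1]
          have : S.om t = 0 := le_antisymm (not_lt.1 hp) (hS.om_nonneg t ht)
          simp only [ha, this, mul_zero, zero_mul]
      · rw [if_neg hac, if_neg fun hh => hac hh.2.1, mul_zero]
  have h3 : ∀ t ∈ N, |g t - if t ∈ S.T then a t else 0| ≤ (2 / 2 ^ p.P + 3 * p.Om * δ) +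
      p.Om / δ * (dA true (t.ep false) + dA false (t.ep true) + bad t) := by
    intro t ht
    have hw := e7_unit (hL.w_le _ e t (Lv.N_subset _ e ht))
    have hw0 : 0 ≤ (L.w p.j0 e t : ℝ) / 2 ^ p.P := by positivity
    have hal : ∀ d v, (L.al p.j0 e d v : ℝ) / 2 ^ p.P ≤ 1 := fun d v => by
      simpa using e7_unit (p := p) (n := 1) ((hL.al_le p.j0 e d v).trans (one_mul _).ge)
    have hal0 : ∀ d v, 0 ≤ (L.al p.j0 e d v : ℝ) / 2 ^ p.P := fun d v => by positivity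
    obtain ⟨r1, r2⟩ := e7_round (p := p) (L.al p.j0 e true t.x) (L.w p.j0 e t)
      (hL.al_le p.j0 e false t.z)
    by_cases hT : t ∈ S.T
    · rw [if_pos hT]
      have k0 := e7_prod (a := (L.al p.j0 e true t.x : ℝ) / 2 ^ p.P) (β := S.al false t.z) hw0 hw
        (hal0 false t.z) (hal false t.z) (hS.al_nonneg true t.x) (hS.al_le true t.x)
        (hS.om_nonneg t hT) (hW.1 t hT) hΩ
      have k1 := e7_abs_le hδ ((L.al p.j0 e true t.x : ℝ) / 2 ^ p.P - S.al true t.x)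
      have k2 := e7_abs_le hδ ((L.al p.j0 e false t.z : ℝ) / 2 ^ p.P - S.al false t.z)
      have k3 := e7_abs_le hδ ((L.w p.j0 e t : ℝ) / 2 ^ p.P - S.om t)
      have k4 := mul_le_mul_of_nonneg_left (add_le_add (add_le_add k1 k2) k3) (zero_le_one.trans hΩ)
      have k5 : (p.Om : ℝ) * (δ + ((L.al p.j0 e true t.x : ℝ) / 2 ^ p.P - S.al true t.x) ^ 2 / δ +
          (δ + ((L.al p.j0 e false t.z : ℝ) / 2 ^ p.P - S.al false t.z) ^ 2 / δ) +
          (δ + ((L.w p.j0 e t : ℝ) / 2 ^ p.P - S.om t) ^ 2 / δ)) = 3 * p.Om * δ +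
          p.Om / δ * (dA true (t.ep false) + dA false (t.ep true) + bad t) := by
        simp only [hdA, hbad, if_pos hT, Tm.ep, Bool.false_eq_true, if_false, if_true]
        ring
      obtain ⟨k6, k7⟩ := abs_le.1 (k0.trans (k4.trans k5.le))
      have k8 : (0 : ℝ) ≤ 2 / 2 ^ p.P := by positivity
      simp only [hg, ha]
      rw [abs_le]
      constructor <;> linarith
    · rw [if_neg hT, sub_zero, abs_of_nonneg (by simp only [hg]; positivity)]
      have k1 : g t ≤ p.Om := r1.trans ((mul_le_of_le_one_right (mul_nonneg (hal0 _ _) hw0)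
        (hal _ _)).trans ((mul_le_of_le_one_left hw0 (hal _ _)).trans hw))
      have k2 : (p.Om : ℝ) ≤ p.Om / δ := le_div_self (by positivity) hδ hδ1
      have k3 : (1 : ℝ) ≤ dA true (t.ep false) + dA false (t.ep true) + bad t := by
        have := hdA0 true (t.ep false)
        have := hdA0 false (t.ep true)
        have : bad t = 1 := if_neg hT
        linarith
      have k4 := mul_le_mul_of_nonneg_left k3 (by positivity : (0 : ℝ) ≤ p.Om / δ)
      have k5 : (0 : ℝ) ≤ 2 / 2 ^ p.P + 3 * p.Om * δ := by positivity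
      linarith
  have h4 : |∑ t ∈ Ms, a t| ≤ p.Om / δ * (Ms.card : ℕ) := by
    refine (abs_sum_le_sum_abs _ _).trans ?_
    rw [mul_comm, ← nsmul_eq_mul]
    refine sum_le_card_nsmul _ _ _ fun t ht => ?_
    have hT := (mem_filter.1 ht).1
    have k0 := hS.om_nonneg t hT
    have k1 : 0 ≤ S.al true t.x * S.om t := mul_nonneg (hS.al_nonneg _ _) k0
    rw [abs_of_nonneg (mul_nonneg k1 (hS.al_nonneg _ _))]
    exact ((mul_le_of_le_one_right k1 (hS.al_le _ _)).trans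
      ((mul_le_of_le_one_left k0 (hS.al_le _ _)).trans (hW.1 t hT))).trans
      (le_div_self (by positivity) hδ hδ1)
  have h5 : (N.card : ℝ) ≤ p.Kp * 2 ^ S.q := by
    simpa using e7_sum_ep hL p.j0 e false (f := fun _ => 1) fun _ => zero_le_one
  have h6 := e7_sum_ep hL p.j0 e false (hdA0 true)
  have h7 := e7_sum_ep hL p.j0 e true (hdA0 false)
  have h8 : badA p S L p.j0 e =
      ∑ v ∈ range (2 ^ S.q), dA true v + ∑ v ∈ range (2 ^ S.q), dA false v := by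
    unfold badA
    rw [Fintype.sum_bool]
  have h9 : badT p F S L p.j0 e N = ∑ t ∈ N, bad t + (Ms.card : ℕ) := rfl
  have h10 := (abs_sum_le_sum_abs _ _).trans (sum_le_sum h3)
  rw [sum_sub_distrib, sum_add_distrib, sum_const, nsmul_eq_mul, ← mul_sum, sum_add_distrib,
    sum_add_distrib] at h10
  have h11 : (N.card : ℝ) * (2 / 2 ^ p.P + 3 * p.Om * δ) ≤
      p.Kp * 2 ^ S.q * (2 / 2 ^ p.P + 3 * p.Om * δ) :=
    mul_le_mul_of_nonneg_right h5 (by positivity)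
  have h12 : ∑ t ∈ N, bad t + (Ms.card : ℕ) ≤ p.Kp * (∑ t ∈ N, bad t + (Ms.card : ℕ)) :=
    le_mul_of_one_le_left (add_nonneg (sum_nonneg fun t _ => hbad0 t) (Nat.cast_nonneg _)) hK'
  have h13 : p.Om / δ * (∑ t ∈ N, dA true (t.ep false) + ∑ t ∈ N, dA false (t.ep true) +
      ∑ t ∈ N, bad t + (Ms.card : ℕ)) ≤ p.Om / δ * (p.Kp * (badT p F S L p.j0 e N +
      badA p S L p.j0 e)) := by
    refine mul_le_mul_of_nonneg_left ?_ (by positivity)
    rw [h8, h9, mul_add, mul_add (p.Kp : ℝ) (∑ v ∈ range (2 ^ S.q), dA true v)]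
    linarith
  rw [h1, h2, ← sub_sub]
  refine (abs_sub _ _).trans ?_
  have h14 : p.Om * p.Kp / δ * (badT p F S L p.j0 e N + badA p S L p.j0 e) =
      p.Om / δ * (p.Kp * (badT p F S L p.j0 e N + badA p S L p.j0 e)) := by ring
  rw [h14]
  rw [mul_add] at h13
  linarith

theorem e7_env0 (m : ℕ) : env0.Ok m := by
  constructor <;> simp [env0]

theorem e7_avg_abs {m : ℕ} {e : Env} (he : e.Ok m) {f g h : Env → ℝ}
    (hh : ∀ e', |f e' - g e'| ≤ h e') : |avg m e f - avg m e g| ≤ avg m e h := by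
  have h1 : avg m e f ≤ avg m e fun e' => g e' + h e' :=
    avg_mono he fun e' _ => by linarith [(abs_le.1 (hh e')).2]
  have h2 : avg m e g ≤ avg m e fun e' => f e' + h e' :=
    avg_mono he fun e' _ => by linarith [(abs_le.1 (hh e')).1]
  rw [avg_add] at h1 h2
  rw [abs_le]
  constructor <;> linarith

theorem total_close (hp : p.OK lk) (hs : p.Small lg) (hl : p.Long lg) (h : Gr p A0)
    (hG : Good p F A0) (h0 : 0 < p.N) (h1 : p.N - 1 < p.N) :
    |(total p F A0 : ℝ) / 2 ^ (p.P + 3 * p.m) - gr (mat p.N A0 2) ⟨0, h0⟩ ⟨p.N - 1, h1⟩| ≤ 1 / 16 := by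
  have ok := sys_ok hp h (le_refl (6 * p.K))
  obtain ⟨k, hS⟩ := ok.wf
  have hL := est_wf (F := F) hp hs h (6 * p.K)
  rw [if_pos (Nat.mul_mod_right _ _), ← sys_shp p A0] at hL
  have hE := est_err hp hs hl h hG (le_refl (6 * p.K)) p.j0 hs.j0_le env0 (e7_env0 _)
  have hd := sys_direct hp h h0 h1
  have hq : (sys p A0 (6 * p.K)).q ≤ p.m := ok.q_le.trans hl.q_le
  have he : 6 * p.K * p.c ≤ p.m := (Nat.le_add_right _ _).trans hl.e_le
  have ht : (total p F A0 : ℝ) / 2 ^ (p.P + 3 * p.m) = avg p.m env0 fun e =>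
      ((∑ v ∈ range (2 ^ (sys p A0 (6 * p.K)).q), ∑ r ∈ range p.Kp,
        (est p F A0 (6 * p.K)).top p e v r : ℕ) : ℝ) / 2 ^ p.P := by
    unfold total avg
    rw [← sys_shp p A0, pow_add, ← div_div]
    simp only [Nat.cast_sum, sum_div]
  set S := sys p A0 (6 * p.K)
  set L := est p F A0 (6 * p.K)
  have hdir : S.direct = avg p.m env0 fun e =>
      ∑ t ∈ S.T, S.al true t.x * S.om t * S.al false t.z * (if act F S.q e t then 1 else 0) := by
    rw [avg_sum]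
    refine sum_congr rfl fun t ht => ?_
    rw [avg_mul, avg_act (hS.tm t ht) he]
    unfold Sys.ms
    ring
  have hδ : (0 : ℝ) < 1 / 2 ^ (p.m + 2 * lg + 10) := by positivity
  have hδ1 : (1 : ℝ) / 2 ^ (p.m + 2 * lg + 10) ≤ 1 :=
    (div_le_one (by positivity)).2 (one_le_pow₀ one_le_two)
  have hm := e7_avg_abs (e7_env0 p.m) (e7_point (F := F) hS ok.wt hL
    (one_le_two.trans hs.Kp_ge) hδ hδ1)
  rw [← ht, ← hdir, avg_add, avg_const, avg_mul] at hm
  have hK : (p.Kp : ℝ) ≤ 2 ^ lg := by exact_mod_cast hs.Kp_le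
  have hO : (p.Om : ℝ) ≤ 2 ^ lg := by
    have h2 : p.M ≤ 2 ^ lg := Nat.pow_le_pow_right two_pos ((Nat.le_add_right _ _).trans hs.mu_le)
    have h3 : p.Om ≤ 2 ^ lg := by have := hs.Om_le; omega
    exact_mod_cast h3
  have hQ : (2 : ℝ) ^ S.q ≤ 2 ^ p.m := pow_le_pow_right₀ one_le_two hq
  have hj := hl.j0_ge
  have hP : (2 : ℝ) ^ (p.m + lg + 11) ≤ 2 ^ p.P :=
    pow_le_pow_right₀ one_le_two (by have := hs.j0_le; omega)
  have hJ : (2 : ℝ) ^ (p.m + 6 * p.K * (62 * lg) + (p.m + 4 * lg + 20)) ≤ 2 ^ p.j0 :=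
    pow_le_pow_right₀ one_le_two (by omega)
  have b1 : (p.Kp : ℝ) * 2 ^ S.q * (2 / 2 ^ p.P + 3 * p.Om * (1 / 2 ^ (p.m + 2 * lg + 10))) ≤
      2 ^ lg * 2 ^ p.m * (2 / 2 ^ (p.m + lg + 11) + 3 * 2 ^ lg * (1 / 2 ^ (p.m + 2 * lg + 10))) := by
    gcongr
  have b2 : (2 : ℝ) ^ lg * 2 ^ p.m *
      (2 / 2 ^ (p.m + lg + 11) + 3 * 2 ^ lg * (1 / 2 ^ (p.m + 2 * lg + 10))) = 4 / 1024 := by
    rw [two_mul lg]
    simp only [pow_add]
    field_simp
    norm_num
  have b3 : (p.Om : ℝ) * p.Kp / (1 / 2 ^ (p.m + 2 * lg + 10)) * avg p.m env0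
      (fun e' => badT p F S L p.j0 e' (L.N p p.j0 e') + badA p S L p.j0 e') ≤
      2 ^ lg * 2 ^ lg / (1 / 2 ^ (p.m + 2 * lg + 10)) * (2 ^ (p.m + 6 * p.K * (62 * lg)) /
        2 ^ (p.m + 6 * p.K * (62 * lg) + (p.m + 4 * lg + 20))) := by
    refine (mul_le_mul_of_nonneg_left hE (by positivity)).trans ?_
    gcongr
  have b4 : (2 : ℝ) ^ lg * 2 ^ lg / (1 / 2 ^ (p.m + 2 * lg + 10)) *
      (2 ^ (p.m + 6 * p.K * (62 * lg)) / 2 ^ (p.m + 6 * p.K * (62 * lg) + (p.m + 4 * lg + 20))) =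
      1 / 1024 := by
    generalize 6 * p.K * (62 * lg) = u
    rw [show 4 * lg = lg + lg + lg + lg by ring, two_mul lg]
    simp only [pow_add]
    field_simp
    norm_num
  obtain ⟨c1, c2⟩ := abs_le.1 hm
  obtain ⟨c3, c4⟩ := abs_le.1 hd
  rw [abs_le]
  constructor <;> linarith

end Vale.Agent.P313.NL
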