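import Vale.Agent.P313.NL.IDef
import Vale.Agent.P313.Mix

/-!
The estimates: for every level, budget `j` and environment `e` a finite set of valid terms with
approximate weights (fixed point numbers with `P` fractional bits).
-/

namespace Vale.Agent.P313.NL

open Finset
open scoped Classical

/-- A track: number of the hash function, shift, suffix. -/
abbrev Trk : Type := ℕ × ℕ × ℕ

/-- An environment: the tracks of the source, of the target and of the midpoint. -/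
abbrev Env : Type := Trk × Trk × Trk

/-- The track of an end. -/
def Env.tr (e : Env) (d : Bool) : Trk := if d then e.2.1 else e.1

/-- Replace the three shifts. -/
def Env.sh (e : Env) (a b c : ℕ) : Env :=
  ((e.1.1, a, e.1.2.2), (e.2.1.1, b, e.2.1.2.2), (e.2.2.1, c, e.2.2.2.2))

/-- The numbers of the hash functions are `0, 1, 2` in some order, the registers have `m` bits. -/
structure Env.Ok (m : ℕ) (e : Env) : Prop where
  i1 : e.1.1 < 3
  i2 : e.2.1.1 < 3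
  i3 : e.2.2.1 < 3
  n12 : e.1.1 ≠ e.2.1.1
  n13 : e.1.1 ≠ e.2.2.1
  n23 : e.2.1.1 ≠ e.2.2.1
  a : e.1.2.1 < 2 ^ m
  b : e.2.1.2.1 < 2 ^ m
  c : e.2.2.2.1 < 2 ^ m
  u1 : e.1.2.2 < 2 ^ m
  u2 : e.2.1.2.2 < 2 ^ m
  u3 : e.2.2.2.2 < 2 ^ m

/-- The average over the three shifts. -/
noncomputable def avg (m : ℕ) (e : Env) (f : Env → ℝ) : ℝ :=
  (∑ a ∈ range (2 ^ m), ∑ b ∈ range (2 ^ m), ∑ c ∈ range (2 ^ m), f (e.sh a b c)) / 2 ^ (3 * m)

/-- The name `v` of `q` bits, extended by the suffix `U`. -/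
def ext (q v U : ℕ) : ℕ := v + 2 ^ q * (U / 2 ^ q)

/-- The value of the name `v` of `q` bits on a track. -/
def vl (F : ℕ → ℕ → ℕ) (q : ℕ) (r : Trk) (v : ℕ) : ℕ := F r.1 (ext q v r.2.2) ^^^ r.2.1

/-- Two numbers have the same bits at the positions in `[lo, hi)`. -/
def agree (u v lo hi : ℕ) : Prop := ∀ i < hi, lo ≤ i → u.testBit i = v.testBit i

/-- The term is active. -/
def act (F : ℕ → ℕ → ℕ) (q : ℕ) (e : Env) (t : Tm) : Prop :=
  agree (vl F q e.1 t.x) (vl F q e.2.1 t.z) 0 t.k.E ∧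
    agree (vl F t.k.s0 e.2.2 t.y) (vl F q (e.tr t.k.hv) (t.ep t.k.hv)) t.k.D t.k.h

/-- The code of a key. -/
def Key.code (k : Key) : ℕ :=
  Nat.pair (Nat.pair k.E k.D) (Nat.pair (Nat.pair k.h k.V)
    (Nat.pair k.s0 (2 * k.hv.toNat + k.dbl.toNat)))

/-- The key with a given code. -/
def Key.dec (n : ℕ) : Key :=
  ⟨n.unpair.1.unpair.1, n.unpair.1.unpair.2, n.unpair.2.unpair.1.unpair.1,
    n.unpair.2.unpair.1.unpair.2, n.unpair.2.unpair.2.unpair.1,
    decide (n.unpair.2.unpair.2.unpair.2 / 2 = 1), decide (n.unpair.2.unpair.2.unpair.2 % 2 = 1)⟩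

/-- The order of the terms with the same end `d`. -/
def tlt (d : Bool) (t t' : Tm) : Prop :=
  t.ep (!d) < t'.ep (!d) ∨ (t.ep (!d) = t'.ep (!d) ∧
    (t.k.code < t'.k.code ∨ (t.k.code = t'.k.code ∧ t.y < t'.y)))

/-- The rank of a term at its end `d`. -/
noncomputable def rank (V : Finset Tm) (d : Bool) (t : Tm) : ℕ :=
  (V.filter fun t' => t'.ep d = t.ep d ∧ tlt d t' t).card

/-- A level of estimates. -/
structure Lv where
  /-- the valid terms -/
  V : ℕ → Env → Finset Tm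
  /-- their weights -/
  w : ℕ → Env → Tm → ℕ
  /-- the boundary vectors -/
  al : ℕ → Env → Bool → ℕ → ℕ

/-- The terms which can be used. -/
noncomputable def Lv.N (L : Lv) (p : Par) (j : ℕ) (e : Env) : Finset Tm :=
  (L.V j e).filter fun t => ∀ d, rank (L.V j e) d t < p.Kp

/-- The term with the end `v` and the rank `r`. -/
noncomputable def Lv.nb (L : Lv) (p : Par) (j : ℕ) (e : Env) (d : Bool) (v r : ℕ) : Option Tm :=
  if h : ∃ t ∈ L.N p j e, t.ep d = v ∧ rank (L.V j e) d t = r then some h.choose else none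

/-! ### Averages -/

/-- The average over the words of `l` blocks, rounded down. -/
def Hn (wk : ℕ → ℕ → Env → Env) (l : ℕ) (g : Env → ℕ) (e : Env) : ℕ :=
  (∑ w ∈ range (4 ^ (Mix.t0 * l)), g (wk (Mix.t0 * l) w e)) / 4 ^ (Mix.t0 * l)

/-- The telescoping estimate for the average of `f`; only the lengths with `gd` are used. -/
noncomputable def tel (wk : ℕ → ℕ → Env → Env) (gd : ℕ → Prop) (f : ℕ → Env → ℕ) (j : ℕ)
    (e : Env) : ℕ :=
  (f j e + ∑ l ∈ range j with gd l, Hn wk (l + 1) (f (j - l - 1)) e) -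
    ∑ l ∈ range j with gd l, Hn wk l (f (j - l - 1)) e

namespace Par

variable (p : Par)

/-- The product of fixed point numbers. -/
def fmul (x y : ℕ) : ℕ := x * y / 2 ^ p.P

/-- The walk on the pair of the first and the third shift. -/
def wk2 (t w : ℕ) (e : Env) : Env :=
  e.sh (Mix.walk (2 ^ p.m) t w (e.1.2.1 * 2 ^ p.m + e.2.2.2.1) / 2 ^ p.m) e.2.1.2.1
    (Mix.walk (2 ^ p.m) t w (e.1.2.1 * 2 ^ p.m + e.2.2.2.1) % 2 ^ p.m)

/-- The walk on the first shift which keeps the difference to the second shift. -/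
def wkAB (t w : ℕ) (e : Env) : Env :=
  e.sh (Mix.walk (2 ^ p.mh) t w e.1.2.1)
    (e.2.1.2.1 ^^^ e.1.2.1 ^^^ Mix.walk (2 ^ p.mh) t w e.1.2.1) e.2.2.2.1

/-- The walk on the first shift which keeps all differences. -/
def wkG (t w : ℕ) (e : Env) : Env :=
  e.sh (Mix.walk (2 ^ p.mh) t w e.1.2.1)
    (e.2.1.2.1 ^^^ e.1.2.1 ^^^ Mix.walk (2 ^ p.mh) t w e.1.2.1)
    (e.2.2.2.1 ^^^ e.1.2.1 ^^^ Mix.walk (2 ^ p.mh) t w e.1.2.1)

/-- Write a chunk at the position `q`. -/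
def setc (q U χ : ℕ) : ℕ := U % 2 ^ q + 2 ^ q * χ + 2 ^ (q + p.W) * (U / 2 ^ (q + p.W))

/-- The environment of the parent of a term with the chunks `χx`, `χz`. -/
def sub (q : ℕ) (e : Env) (χx χz : ℕ) : Env :=
  ((e.1.1, e.1.2.1, p.setc q e.1.2.2 χx), (e.2.1.1, e.2.1.2.1, p.setc q e.2.1.2.2 χz), e.2.2)

/-- Change the third shift at the position `D`. -/
def xc (e : Env) (D τ : ℕ) : Env :=
  e.sh e.1.2.1 e.2.1.2.1 (e.2.2.2.1 ^^^ τ * 2 ^ D % 2 ^ p.m)

/-- fixed point form of `nst` -/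
def nstN (χ x : ℕ) : ℕ :=
  p.M * p.cu χ * (2 ^ p.P - ((p.cu χ * 2 ^ p.P - x) + (x - p.cu χ * 2 ^ p.P)))
/-- fixed point form of the numerator of `fa` -/
def faN (χ x : ℕ) : ℕ := min (2 ^ p.P) (p.nstN χ x - p.cj χ * 2 ^ p.P)
/-- fixed point form of `fb` -/
def fbN (χ x : ℕ) : ℕ :=
  p.fmul (min (2 ^ p.P) (p.nstN χ x + 2 ^ p.P - p.cj χ * 2 ^ p.P))
    (min (2 ^ p.P) (2 * 2 ^ p.P - ((p.cu χ * 2 ^ p.P - x) + (x - p.cu χ * 2 ^ p.P))))
/-- fixed point form of `2 ^ r / (cu χ * M)` -/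
def cst (r χ : ℕ) : ℕ := 2 ^ (p.P + r) / (p.cu χ * p.M)
/-- fixed point form of `psi` -/
def psiN (i x : ℕ) : ℕ := min (2 ^ p.P) (2 * 2 ^ p.P - 2 ^ i * x)
/-- fixed point form of `chi` -/
def chiN (i x : ℕ) : ℕ := if i < p.c then p.psiN i x - p.psiN (i + 1) x else p.psiN p.c x

end Par

/-- The roles for the first term of a merge. -/
def Env.r1 (e : Env) : Env := (e.1, e.2.2, e.2.1)
/-- The roles for the second term of a merge. -/
def Env.r2 (e : Env) : Env := (e.2.2, e.2.1, e.1)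
/-- Add the first shift to the third shift. -/
def Env.v0 (e : Env) : Env := e.sh e.1.2.1 e.2.1.2.1 (e.2.2.2.1 ^^^ e.1.2.1)

namespace Lv

variable (p : Par) (F : ℕ → ℕ → ℕ) (H : Shp) (L : Lv)

/-- The load in one environment. -/
noncomputable def fL (d : Bool) (v j : ℕ) (e : Env) : ℕ :=
  ∑ t ∈ L.N p j e with t.ep d = v ∧ H.fl d (t.ep !d) = false, L.w j e t

/-- The estimate for the centre. -/
noncomputable def ctrE (d : Bool) (j : ℕ) (e : Env) (v : ℕ) : ℕ :=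
  if H.fl d v then 2 ^ p.P else tel p.wk2 (fun _ => True) (L.fL p H d v) j e + 2 * 2 ^ p.P

/-- The estimates after `D`. -/
noncomputable def D (d sf : Bool) : Lv where
  V j e := (range p.A ×ˢ range p.A).biUnion fun a =>
    ((L.N p j (p.sub H.q e a.1 a.2)).image fun t => H.chD p d sf t a.1 a.2).filter
      (act F (H.q + p.W) e)
  w j e t := p.fmul (p.fmul (p.fmul
      (L.w j (p.sub H.q e (H.ck t.x) (H.ck t.z)) (H.paD p d sf t))
      (p.cst (p.rs sf (H.ck (t.ep d))) (H.ck (t.ep d))))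
      (p.faN (H.ck (t.ep d)) (L.ctrE p H d j e (H.up (t.ep d)))))
      (p.fbN (H.ck (t.ep !d)) (L.ctrE p H d j e (H.up (t.ep !d))))
  al j e d' v := p.fmul (L.al j e d' (H.up v))
    (if d' = d then p.fmul (p.cst 0 (H.ck v)) (p.faN (H.ck v) (L.ctrE p H d j e (H.up v)))
      else p.fbN (H.ck v) (L.ctrE p H d j e (H.up v)))

/-- The estimates after `M`. -/
noncomputable def M : Lv where
  V j e := (range p.A ×ˢ range p.A).biUnion fun a =>
    ((L.N p j (p.sub H.q e a.1 a.2)).image fun t => H.chU t a.1 a.2) ∪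
      (pairs (L.N p j (p.sub H.q e a.1 a.2).r1) (L.N p j (p.sub H.q e a.1 a.2).r2)).image
        fun b => H.chM b.1 b.2 a.1 a.2
  w j e t := if H.isM t then
      (if H.okM p (H.pa1 t) (H.pa2 t) (H.ck t.x) (H.ck t.z) then
        p.fmul (L.w j (p.sub H.q e (H.ck t.x) (H.ck t.z)).r1 (H.pa1 t))
          (L.w j (p.sub H.q e (H.ck t.x) (H.ck t.z)).r2 (H.pa2 t)) / 2 else 0)
    else if H.okU p (H.paU t) (H.ck t.x) (H.ck t.z) then
      (if H.en p (H.paU t) ∧ p.cb (H.ck t.z) = true then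
        L.w j (p.sub H.q e (H.ck t.x) (H.ck t.z)) (H.paU t) / 2
      else L.w j (p.sub H.q e (H.ck t.x) (H.ck t.z)) (H.paU t))
    else 0
  al j e d v := if H.vld p (H.up v) (H.ck v) then L.al j e d (H.up v) else 0

/-- The weight of a group in one environment. -/
noncomputable def fW (x z E j : ℕ) (e : Env) : ℕ :=
  ∑ t ∈ L.N p j e with t.x = x ∧ t.z = z ∧ t.k.E = E, L.w j e t

/-- There is a handle for `z` at the distance `l`. -/
def hd (x z j : ℕ) (e : Env) (l : ℕ) : Prop :=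
  ∃ w < 4 ^ (Mix.t0 * l), ∃ t ∈ L.N p (j - l) (p.wkG (Mix.t0 * l) w e), t.x = x ∧ t.z = z

/-- The estimate for the weight of a group. -/
noncomputable def WE (j : ℕ) (e : Env) (x z E : ℕ) : ℕ :=
  tel p.wkAB (fun l => ∀ l' ≤ l, 1 ≤ l' → L.hd p x z j e l') (L.fW p x z E) j e.v0

/-- The witnesses: a change of the third shift and a term which can be used. -/
noncomputable def wit (j : ℕ) (e : Env) : Finset (ℕ × Tm) :=
  (range (p.m + 1) ×ˢ range (2 ^ p.wb)).biUnion fun a =>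
    ((L.N p j (p.xc e a.1 a.2)).filter fun t => t.k.D = a.1).image fun t => (a.2, t)

/-- A witness for an accepted group. -/
def okA (j : ℕ) (e : Env) (a : ℕ × Tm) (i : ℕ) : Prop :=
  2 ^ (p.P - p.tw) ≤ L.w j (p.xc e a.2.k.D a.1) a.2 ∧
    2 ^ p.P ≤ 4 * 2 ^ i * L.WE p j (p.xc e a.2.k.D a.1) a.2.x a.2.z a.2.k.E ∧
    act F H.q e (chA a.2.x a.2.z (a.2.k.E + i))

/-- A witness for a term which is passed on. -/
def okP (j : ℕ) (e : Env) (a : ℕ × Tm) (s : ℕ) : Prop :=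
  a.1 < 2 ^ (min (p.chP a.2 s).k.D a.2.k.h - a.2.k.D) ∧
    (s = p.c ∨ 2 ^ p.P ≤ 4 * 2 ^ s * L.w j (p.xc e a.2.k.D a.1) a.2) ∧ act F H.q e (p.chP a.2 s)

/-- The codes `D * 2 ^ wb + τ` of the changes with a witness for the group `(x, z, E)` in the class
`i`. -/
noncomputable def codesA (j : ℕ) (e : Env) (x z E i : ℕ) : Finset ℕ :=
  ((L.wit p j e).filter fun a => a.2.x = x ∧ a.2.z = z ∧ a.2.k.E = E ∧ L.okA p F H j e a i).image
    fun a => a.2.k.D * 2 ^ p.wb + a.1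

/-- The estimate for the weight of a group with the first witness, or zero. -/
noncomputable def WA (j : ℕ) (e : Env) (x z E i : ℕ) : ℕ :=
  if h : (L.codesA p F H j e x z E i).Nonempty then
    L.WE p j (p.xc e ((L.codesA p F H j e x z E i).min' h / 2 ^ p.wb)
      ((L.codesA p F H j e x z E i).min' h % 2 ^ p.wb)) x z E
  else 0

/-- The estimates after `R`. -/
noncomputable def R : Lv where
  V j e := (((L.wit p j e ×ˢ range p.c).filter fun a => L.okA p F H j e a.1 a.2).image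
      fun a => chA a.1.2.x a.1.2.z (a.1.2.k.E + a.2)) ∪
    ((L.wit p j e ×ˢ range (p.c + 1)).filter fun a => L.okP p F H j e a.1 a.2).image
      fun a => p.chP a.1.2 a.2
  w j e t := min (p.Om * 2 ^ p.P)
    ((if t.k.dbl then 0 else ∑ i ∈ range p.c with i ≤ t.k.E,
      2 ^ i * p.fmul (L.WA p F H j e t.x t.z (t.k.E - i) i)
        (p.chiN i (L.WA p F H j e t.x t.z (t.k.E - i) i))) +
    ∑ a ∈ L.wit p j e ×ˢ range (p.c + 1) with L.okP p F H j e a.1 a.2 ∧ p.chP a.1.2 a.2 = t,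
      2 ^ p.sp a.1.2 a.2 * p.fmul (p.fmul (L.w j (p.xc e a.1.2.k.D a.1.1) a.1.2)
        (p.chiN a.2 (L.w j (p.xc e a.1.2.k.D a.1.1) a.1.2)))
        (p.chiN p.c (L.WE p j (p.xc e a.1.2.k.D a.1.1) a.1.2.x a.1.2.z a.1.2.k.E)))
  al := L.al

end Lv

/-- The estimates at the level `s`. -/
noncomputable def est (p : Par) (F : ℕ → ℕ → ℕ) (A0 : ℕ → ℕ → ℕ) : ℕ → Lv
  | 0 => ⟨fun _ _ => (base p A0).T, fun _ _ t => A0 t.x t.z * 2 ^ (p.P - 1),
      fun _ _ d v => if v = (if d then 0 else p.N - 1) then 2 ^ p.P else 0⟩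
  | s + 1 =>
      if s % 6 < 4 then (est p F A0 s).D p F (shp p s) (decide (s % 6 < 2)) (decide (s % 2 = 0))
      else if s % 6 = 4 then (est p F A0 s).M p (shp p s) else (est p F A0 s).R p F (shp p s)

/-- The contribution of the term with the source `v` and the rank `r` to the answer. -/
noncomputable def Lv.top (L : Lv) (p : Par) (e : Env) (v r : ℕ) : ℕ :=
  match L.nb p p.j0 e false v r with
  | none => 0
  | some t => p.fmul (p.fmul (L.al p.j0 e true v) (L.w p.j0 e t)) (L.al p.j0 e false t.z)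

/-- The first environment. -/
def env0 : Env := ((0, 0, 0), (1, 0, 0), (2, 0, 0))

/-- The estimate for the answer, times `2 ^ (P + 3 m)`. -/
noncomputable def total (p : Par) (F : ℕ → ℕ → ℕ) (A0 : ℕ → ℕ → ℕ) : ℕ :=
  ∑ a ∈ range (2 ^ p.m), ∑ b ∈ range (2 ^ p.m), ∑ c ∈ range (2 ^ p.m),
    ∑ v ∈ range (2 ^ (shp p (6 * p.K)).q), ∑ r ∈ range p.Kp,
      (est p F A0 (6 * p.K)).top p (env0.sh a b c) v r

/-! ### Errors -/

/-- The estimates are well formed. -/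
structure Lv.WF (L : Lv) (p : Par) (F : ℕ → ℕ → ℕ) (q eb wm : ℕ) : Prop where
  tm : ∀ j e, ∀ t ∈ L.V j e, TmOk p q eb t
  act : ∀ j e, ∀ t ∈ L.V j e, act F q e t
  w_le : ∀ j e, ∀ t ∈ L.V j e, L.w j e t ≤ wm
  al_le : ∀ j e d v, L.al j e d v ≤ 2 ^ p.P

/-- The error of the terms in the set `X` (`L.V j e` or `L.N p j e`). -/
noncomputable def badT (p : Par) (F : ℕ → ℕ → ℕ) (S : Sys) (L : Lv) (j : ℕ) (e : Env)
    (X : Finset Tm) : ℝ :=
  (∑ t ∈ X, if t ∈ S.T then ((L.w j e t : ℝ) / 2 ^ p.P - S.om t) ^ 2 else 1) +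
    ((S.T.filter fun t => 0 < S.om t ∧ act F S.q e t ∧ t ∉ X).card : ℕ)

/-- The error of the boundary vectors. -/
noncomputable def badA (p : Par) (S : Sys) (L : Lv) (j : ℕ) (e : Env) : ℝ :=
  ∑ d : Bool, ∑ v ∈ range (2 ^ S.q), ((L.al j e d v : ℝ) / 2 ^ p.P - S.al d v) ^ 2

/-- The average error is at most `X / 2 ^ j`. -/
def Err (p : Par) (F : ℕ → ℕ → ℕ) (S : Sys) (L : Lv) (X : ℝ) : Prop :=
  ∀ j ≤ p.P, ∀ e : Env, e.Ok p.m →
    avg p.m e (fun e' => badT p F S L j e' (L.N p j e') + badA p S L j e') ≤ X / 2 ^ j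

/-- The same before the ranks are tested. -/
def ErrV (p : Par) (F : ℕ → ℕ → ℕ) (S : Sys) (L : Lv) (X : ℝ) : Prop :=
  ∀ j ≤ p.P, ∀ e : Env, e.Ok p.m →
    avg p.m e (fun e' => badT p F S L j e' (L.V j e') + badA p S L j e') ≤ X / 2 ^ j

/-- Few listed terms are active at every name. -/
def Few (p : Par) (F : ℕ → ℕ → ℕ) (S : Sys) : Prop :=
  ∀ e : Env, e.Ok p.m → ∀ d v, (S.T.filter fun t => t.ep d = v ∧ act F S.q e t).card ≤ p.Kp

/-- Every heavy group has an active witness. -/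
def Wit (p : Par) (F : ℕ → ℕ → ℕ) (S : Sys) : Prop :=
  ∀ e : Env, e.Ok p.m → ∀ x z E, agree (vl F S.q e.1 x) (vl F S.q e.2.1 z) 0 E →
    1 ≤ 2 ^ p.c * S.Wg x z E → ∃ τ < 2 ^ p.wb, ∃ t ∈ S.T, t.x = x ∧ t.z = z ∧ t.k.E = E ∧
      2 ≤ 2 ^ p.tw * S.om t ∧ act F S.q (p.xc e t.k.D τ) t

/-- All small quantities have at most `lg` bits. -/
structure Par.Small (p : Par) (lg : ℕ) : Prop where
  Kp_le : p.Kp ≤ 2 ^ lg
  Kp_ge : 2 ≤ p.Kp
  W_le : p.W ≤ lg
  W1_pos : 1 ≤ p.W1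
  c_le : p.c + 3 ≤ lg
  c_pos : 1 ≤ p.c
  tw_le : p.tw ≤ lg
  wb_le : p.wb ≤ lg
  wb_ge : 2 * p.c ≤ p.wb
  mu_le : p.mu + p.r1 ≤ lg
  Om_le : 3 * p.Om ≤ p.M
  m_le : p.m + 1 ≤ 2 ^ lg
  K_le : 6 * p.K + 1 ≤ 2 ^ lg
  P_le : p.P + 1 ≤ 2 ^ lg
  lg_le : lg ≤ p.P
  j0_le : p.j0 ≤ p.P

end Vale.Agent.P313.NL
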