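import Vale.Agent.P313.NL.PDef
import Vale.Agent.P313.RedDeg

/-! Randomized logarithmic space is contained in deterministic space `log * (log log) ^ 2`. -/

namespace Vale.Agent.P313.NL

open Finset Vale.Agent.Lib.Space F43

/-- The decision: the majority of the votes of the seeds. -/
noncomputable def decNL (N : ℕ) (A0 : ℕ → ℕ → ℕ) : Bool :=
  decide (2 ^ (3 * (par N).cl1) < 2 * ∑ σ ∈ range (2 ^ (3 * (par N).cl1)),
    if 5 * 2 ^ ((par N).P + 3 * (par N).m) ≤ 12 * total (par N) ((par N).hash σ) A0 then 1 else 0)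

theorem fin_major {S : ℕ} {G V : ℕ → Prop} [DecidablePred G] [DecidablePred V]
    (hG : S < 2 * ((range S).filter G).card) :
    ((∀ σ, G σ → V σ) → S < 2 * ∑ σ ∈ range S, if V σ then 1 else 0) ∧
      ((∀ σ, G σ → ¬V σ) → ¬S < 2 * ∑ σ ∈ range S, if V σ then 1 else 0) := by
  rw [← card_filter]
  refine ⟨fun h => hG.trans_le (Nat.mul_le_mul_left 2 (card_le_card fun σ hσ =>
    mem_filter.2 ⟨(mem_filter.1 hσ).1, h σ (mem_filter.1 hσ).2⟩)), fun h => ?_⟩
  have h1 : ((range S).filter fun σ => V σ).card ≤ ((range S).filter fun σ => ¬G σ).card :=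
    card_le_card fun σ hσ => mem_filter.2 ⟨(mem_filter.1 hσ).1, fun a => h σ a (mem_filter.1 hσ).2⟩
  have h2 := card_filter_add_card_filter_not (s := range S) G
  rw [card_range] at h2
  omega

theorem fin_gr {N : ℕ} {A0 : ℕ → ℕ → ℕ} (h2 : 2 ≤ N) (hA : Sub (mat N A0 2))
    (hc : ∀ v, #{u ∈ range N | A0 u v ≠ 0} ≤ 2) : Gr (par N) A0 :=
  ⟨h2, (Nat.lt_size_self N).le, hA, hc⟩

theorem decNL_spec {N : ℕ} {A0 : ℕ → ℕ → ℕ} (h : Gr (par N) A0) (h0 : 0 < N) (h1 : N - 1 < N) :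
    (1 / 2 ≤ gr (mat N A0 2) ⟨0, h0⟩ ⟨N - 1, h1⟩ → decNL N A0 = true) ∧
      (gr (mat N A0 2) ⟨0, h0⟩ ⟨N - 1, h1⟩ ≤ 1 / 3 → decNL N A0 = false) := by
  classical
  obtain ⟨a1, a2⟩ := fin_major (V := fun σ => 5 * 2 ^ ((par N).P + 3 * (par N).m) ≤
    12 * total (par N) ((par N).hash σ) A0) (good_many (par_ok N) (par_long N) (par_tab N) h)
  have key : ∀ σ, Good (par N) ((par N).hash σ) A0 →
      |(total (par N) ((par N).hash σ) A0 : ℝ) / 2 ^ ((par N).P + 3 * (par N).m) -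
        gr (mat N A0 2) ⟨0, h0⟩ ⟨N - 1, h1⟩| ≤ 1 / 16 := fun σ hσ =>
    total_close (par_ok N) (par_small N) (par_long N) h hσ h0 h1
  have hv : ∀ t e : ℕ, 5 * 2 ^ e ≤ 12 * t ↔ (5 / 12 : ℝ) ≤ t / 2 ^ e := fun t e => by
    rw [div_le_div_iff₀ (by norm_num) (by positivity), mul_comm (t : ℝ)]
    exact_mod_cast Iff.rfl
  refine ⟨fun a => decide_eq_true (a1 fun σ hσ => (hv _ _).2 ?_),
    fun a => decide_eq_false (a2 fun σ hσ b => ?_)⟩
  · linarith [(abs_le.1 (key σ hσ)).1]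
  · linarith [(abs_le.1 (key σ hσ)).2, (hv _ _).1 b]

section sp

variable {A α : Type} [Enc A α] {B : Bud A} {N : α → ℕ}

theorem fin_pK (hN : SP B N) : SP B fun a => pK (N a) :=
  (SP.const 16).mul ((Full.sp_size hN).add (SP.const 6))

theorem fin_plk (hN : SP B N) : SP B fun a => plk (N a) := Full.sp_size (fin_pK hN)

theorem fin_pr1 (hN : SP B N) : SP B fun a => pr1 (N a) :=
  (SP.const 64).mul (((SP.const 6).mul (fin_plk hN)).add (SP.const 140))

theorem fin_pc (hN : SP B N) : SP B fun a => pc (N a) := (SP.const 1024).mul (fin_pr1 hN)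

theorem fin_pW1 (hN : SP B N) : SP B fun a => pW1 (N a) :=
  (((fin_plk hN).add (SP.const 30)).add ((((SP.const 4).mul (fin_pr1 hN)).add
    ((SP.const 2).mul (fin_plk hN))).add (SP.const 12))).add (SP.const 2)

theorem fin_pmh (hN : SP B N) : SP B fun a => pmh (N a) :=
  (Full.sp_size hN).add (((SP.const 6).mul (fin_pK hN)).mul
    (((SP.const 2).mul (fin_pW1 hN)).add (fin_pc hN)))

theorem fin_plm (hN : SP B N) : SP B fun a => plm (N a) :=
  Full.sp_size ((SP.const 2).mul (fin_pmh hN))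

theorem fin_plc (hN : SP B N) : SP B fun a => plc (N a) :=
  ((SP.const 52).mul ((fin_plm hN).add (SP.const 5))).add (SP.const 49)

theorem fin_plg (hN : SP B N) : SP B fun a => plg (N a) :=
  ((((SP.const 3).mul (fin_pc hN)).add ((SP.const 5).mul (fin_plm hN))).add (fin_plc hN)).add
    (SP.const 100)

theorem fin_pj (hN : SP B N) : SP B fun a => pj (N a) :=
  ((((SP.const 4).mul (fin_pmh hN)).add (((SP.const 6).mul (fin_pK hN)).mul
    ((SP.const 62).mul (fin_plg hN)))).add ((SP.const 10).mul (fin_plg hN))).add (SP.const 40)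

theorem fin_pPm (hN : SP B N) : SP B fun a => pPm (N a) :=
  ((((SP.const 3).mul (fin_pj hN)).add ((SP.const (2 * Mix.t0)).mul
    ((fin_pj hN).add (SP.const 2)))).add ((SP.const 6).mul (fin_pmh hN))).add
      ((SP.const 10).mul (fin_plg hN))

theorem fin_m (hN : SP B N) : SP B fun a => (par (N a)).m := (SP.const 2).mul (fin_pmh hN)

theorem fin_ce (hN : SP B N) : SP B fun a => (par (N a)).ce :=
  ((SP.const 12).mul (fin_m hN)).add (SP.const 20)

theorem fin_cl1 (hN : SP B N) : SP B fun a => (par (N a)).cl1 :=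
  sp_clen (fin_m hN) (fin_m hN) (fin_ce hN)

theorem fin_pbd (hB : PBd B fun a => bud (N a)) {e : α → ℕ}
    (h : ∀ a, e a ≤ (pK (N a) + 1) * plg (N a) + pPm (N a) + 3 * (par (N a)).cl1) :
    PBd B fun a => 2 ^ e a := hB.mono fun a => Nat.pow_le_pow_right (by norm_num) (h a)

theorem fin_m_pos (N : ℕ) : 1 ≤ (par N).m := by
  have h := (par_long N).q_le
  have h1 := (par_small N).W1_pos
  have h2 : 1 ≤ 6 * (par N).K * (par N).W :=
    Nat.mul_pos (by rw [(par_ok N).K_eq]; omega) (by rw [Par.W]; omega)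
  omega

theorem fin_hash (hN : SP B N) (hB : PBd B fun a => bud (N a)) {σ i v : α → ℕ} (hσ : SP B σ)
    (hi : SP B i) (hv : SP B v) : SP B fun a => (par (N a)).hash (σ a) (i a) (v a) :=
  sp_cF (fin_m hN) (fin_m hN) (fin_ce hN) (sp_mod_pow
    (hσ.div_pow (SP.const 2) ((fin_cl1 hN).mul hi)) (SP.const 2) (fin_cl1 hN)) hv
    (fun _ => fin_m_pos _) (fin_pbd hB fun a => show (par (N a)).cl1 ≤ _ by omega)

/-- the instance for a seed -/
def finCx (N : α → ℕ) (A0 : α → ℕ → ℕ → ℕ) (σ : α → ℕ) : Cx α :=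
  ⟨fun a => par (N a), fun a => (par (N a)).hash (σ a), A0, fun a => pPm (N a),
    fun a => 2 ^ pPm (N a)⟩

theorem fin_isSP (hN : SP B N) (hB : PBd B fun a => bud (N a)) {A0 : α → ℕ → ℕ → ℕ}
    (hA : SP B fun z : α × ℕ × ℕ => A0 z.1 z.2.1 z.2.2) {σ : α → ℕ} (hσ : SP B σ) :
    (finCx N A0 σ).IsSP B where
  N := hN
  n0 := Full.sp_size hN
  K := fin_pK hN
  mu := (fin_plk hN).add (SP.const 30)
  r1 := fin_pr1 hN
  c := fin_pc hN
  W1 := fin_pW1 hN
  mh := fin_pmh hN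
  Kp := sp_two_pow (((((SP.const 2).mul (fin_pc hN)).add ((SP.const 5).mul (fin_plm hN))).add
    (SP.const 2)).add (fin_plc hN)) (fin_pbd hB fun a => by
      have h1 : plg (N a) = 3 * pc (N a) + 5 * plm (N a) + plc (N a) + 100 := rfl
      have h2 : plg (N a) ≤ (pK (N a) + 1) * plg (N a) := Nat.le_mul_of_pos_left _ (by omega)
      omega)
  wb := ((((SP.const 2).mul (fin_pc hN)).add ((SP.const 5).mul (fin_plm hN))).add
    (SP.const 4)).add (fin_plc hN)
  tw := (((SP.const 3).mul (fin_pc hN)).add ((SP.const 5).mul (fin_plm hN))).add (SP.const 6)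
  P := fin_pj hN
  F := fin_hash (N := fun z : α × ℕ × ℕ => N z.1) (hN.comp SP.fst') (hB.comp SP.fst')
    (hσ.comp SP.fst') SP.snd'.fst SP.snd'.snd
  A0 := hA
  Pm := fin_pPm hN
  cap := sp_two_pow (fin_pPm hN) (fin_pbd hB fun a => by omega)

theorem fin_Pm (N : ℕ) : pPm N = 3 * (par N).P + 2 * Mix.t0 * ((par N).P + 2) + 3 * (par N).m +
    10 * plg N := by
  have h1 : (par N).m = 2 * pmh N := rfl
  have h2 : (par N).P = pj N := rfl
  rw [h1, h2, pPm, ← mul_assoc 3 2]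
  rfl

omit [Enc A α] in
theorem fin_inst {A0 : α → ℕ → ℕ → ℕ} (σ : α → ℕ) {a : α} (h : Gr (par (N a)) (A0 a)) :
    (finCx N A0 σ).Inst a (plk (N a)) (plg (N a)) :=
  ⟨par_ok _, ⟨par_small _, rfl, pPm_lt _, (fin_Pm _).ge, fun _ _ => cF_lt _ _ _ _ _⟩, par_long _, h⟩

theorem sp_decNL (hN : SP B N) (hB : PBd B fun a => bud (N a)) {A0 : α → ℕ → ℕ → ℕ}
    (hA : SP B fun z : α × ℕ × ℕ => A0 z.1 z.2.1 z.2.2) (h : ∀ a, Gr (par (N a)) (A0 a)) :
    SP B fun a => decNL (N a) (A0 a) := by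
  have h1 : SP B fun a => 2 ^ (3 * (par (N a)).cl1) :=
    sp_two_pow ((SP.const 3).mul (fin_cl1 hN)) (fin_pbd hB fun a => by omega)
  have h2 : SP B fun a => 2 ^ ((par (N a)).P + 3 * (par (N a)).m) :=
    sp_two_pow ((fin_pj hN).add ((SP.const 3).mul (fin_m hN))) (fin_pbd hB fun a => by
      have := fin_Pm (N a)
      omega)
  have hN' : SP B fun z : α × ℕ => N z.1 := hN.comp SP.fst'
  have hB' : PBd B fun z : α × ℕ => bud (N z.1) := hB.comp SP.fst'
  have h3 : SP B fun z : α × ℕ => total (par (N z.1)) ((par (N z.1)).hash z.2) (A0 z.1) :=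
    sp_total (C := finCx (fun z : α × ℕ => N z.1) (fun z => A0 z.1) fun z => z.2)
      (fin_isSP hN' hB' (hA.comp (SP.fst'.fst.pair SP.snd')) SP.snd') (fin_pj hN')
      (fun _ z _ => fin_inst _ (h z.1)) (fin_pbd hB' fun z => Nat.le_add_right _ _)
  exact h1.decide_lt ((SP.const 2).mul (SP.sum_range h1 (SP.ite
    (((SP.const 5).mul (h2.comp SP.fst')).decide_le ((SP.const 12).mul h3)) (SP.const 1)
    (SP.const 0))))

end sp

theorem randLog_subset (A : Type) [Finite A] {a b : ℝ} (ha : a ≤ 1 / 3) (hb : 1 / 2 ≤ b) :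
    RandLog A a b ⊆ SPACE A fun n => Real.log n * Real.log (Real.log n) ^ 2 := by
  rintro L ⟨M, hS, k, hk⟩
  obtain ⟨N, A0, c, hN, hA, hd, hg, hB⟩ := Red.reduce2 M hS k
  obtain ⟨h1, h2⟩ := hB ⟨fun x => bud (N x) + x.length⟩ fun x => Nat.le_add_left _ _
  have hG : ∀ x, Gr (par (N x)) (A0 x) := fun x => fin_gr (hN x).1 (hA x) (hd x)
  refine SP.mem_SPACE (sp_decNL h1 ((PBd.budget SP.id).mono fun x => Nat.le_add_right _ _) h2 hG)
    (fun x => ?_) ?_
  · have h3 := (hN x).1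
    obtain ⟨d1, d2⟩ := decNL_spec (hG x) (by omega) (by omega)
    rw [hg] at d1 d2
    by_cases hx : x ∈ L
    · exact ⟨fun _ => hx, fun _ => d1 (hb.trans ((hk x).2.2 hx))⟩
    · rw [d2 (((hk x).2.1 hx).trans ha)]
      exact ⟨fun h => absurd h Bool.false_ne_true, fun h => absurd h hx⟩
  · obtain ⟨C, n0, hC⟩ := bud_bound c
    exact ⟨C, n0, fun x hx => hC _ _ hx (hN x).2⟩

end Vale.Agent.P313.NL
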