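import Vale.Agent.P313.NL.E7
import Vale.Agent.P313.NL.CP

/-! Most seeds give good hash functions. -/

namespace Vale.Agent.P313.NL

open Finset
open scoped Classical

/-- The exponent of the failure probability. -/
def Par.ce (p : Par) : ℕ := 12 * p.m + 20

/-- The length of one seed. -/
def Par.cl1 (p : Par) : ℕ := clen p.m p.m p.ce

/-- The three hash functions for the seed `σ < 2 ^ (3 * cl1)`. -/
def Par.hash (p : Par) (σ i v : ℕ) : ℕ := cF p.m p.m p.ce (σ / 2 ^ (p.cl1 * i) % 2 ^ p.cl1) v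

/-- The parameters of the tables; `m + 1 ≤ 2 ^ lm`. -/
structure Par.Tab (p : Par) (lm : ℕ) : Prop where
  m_lt : p.m + 1 ≤ 2 ^ lm
  K_le : 6 * p.K ≤ p.m
  Kp_ge : 2 ^ (2 * p.c + 5 * lm + 2) * kap2 p.m p.m p.ce ≤ p.Kp
  tw_ge : 3 * p.c + 5 * lm + 6 ≤ p.tw
  wb_ge : 2 ^ (p.c + 5 * lm + 4) * kap p.m p.m p.ce ≤ 2 ^ p.wb

namespace Gd

open KH

theorem ag_iff (lo hi u v : ℕ) : Ag (Ico lo hi) u v ↔ agree u v lo hi := by
  refine ⟨fun h i h1 h2 => ?_, fun h i hi => ?_⟩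
  · have h3 := h i (mem_Ico.2 ⟨h2, h1⟩)
    rw [bt_eq, bt_eq] at h3
    revert h3
    cases u.testBit i <;> cases v.testBit i <;> simp
  · rw [bt_eq, bt_eq, h i (mem_Ico.1 hi).2 (mem_Ico.1 hi).1]

theorem ext_lt {q m v U : ℕ} (hq : q ≤ m) (hv : v < 2 ^ q) (hU : U < 2 ^ m) : ext q v U < 2 ^ m := by
  obtain ⟨r, rfl⟩ := Nat.exists_eq_add_of_le hq
  have h1 : U / 2 ^ q + 1 ≤ 2 ^ r := by
    rw [pow_add] at hU
    exact Nat.div_lt_of_lt_mul hU
  have h2 := Nat.mul_le_mul_left (2 ^ q) h1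
  rw [ext, pow_add]
  rw [mul_add, mul_one] at h2
  omega

theorem ext_inj {q v v' U : ℕ} (h : ext q v U = ext q v' U) : v = v' := Nat.add_right_cancel h

/-- The keys with small entries. -/
noncomputable def keys (m : ℕ) : Finset Key :=
  ((range (m + 1) ×ˢ range (m + 1) ×ˢ range (m + 1) ×ˢ range (m + 1) ×ˢ range (m + 1)) ×ˢ
    (univ : Finset (Bool × Bool))).image fun a =>
      ⟨a.1.1, a.1.2.1, a.1.2.2.1, a.1.2.2.2.1, a.1.2.2.2.2, a.2.1, a.2.2⟩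

theorem card_keys {m l : ℕ} (h : m + 1 ≤ 2 ^ l) : #(keys m) ≤ 2 ^ (5 * l + 2) := by
  refine card_image_le.trans ?_
  simp only [card_product, card_range, card_univ, Fintype.card_prod, Fintype.card_bool]
  calc _ = (m + 1) ^ 5 * 4 := by ring
    _ ≤ (2 ^ l) ^ 5 * 4 := Nat.mul_le_mul_right _ (Nat.pow_le_pow_left h 5)
    _ = _ := by ring

variable {p : Par} {S : Sys} {q eb m : ℕ} {t : Tm}

theorem y_lt (h : TmOk p q eb t) : t.y < 2 ^ t.k.s0 ∧ t.k.s0 ≤ q := by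
  cases hd : t.k.dbl
  · obtain ⟨h1, h2⟩ := h.sing hd
    rw [h1, h2]
    exact ⟨by positivity, Nat.zero_le _⟩
  · exact ⟨(h.mid hd).1, (h.mid hd).2.le⟩

theorem ep_lt (h : TmOk p q eb t) (d : Bool) : t.ep d < 2 ^ q := by
  cases d
  · exact h.x_lt
  · exact h.z_lt

theorem mem_keys (h : TmOk p q eb t) (hq : q ≤ m) (he : eb ≤ m) : t.k ∈ keys m := by
  have h1 := h.D_le
  have h2 := h.E_le
  have h3 := h.h_le
  have h4 := h.V_le
  have h5 := (y_lt h).2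
  refine mem_image.2 ⟨⟨⟨t.k.E, t.k.D, t.k.h, t.k.V, t.k.s0⟩, t.k.hv, t.k.dbl⟩, ?_, rfl⟩
  simp only [mem_product, mem_range, mem_univ, and_true]
  omega

theorem tm_eq {t t' : Tm} (d : Bool) (h1 : t.ep d = t'.ep d) (h2 : t.ep (!d) = t'.ep (!d))
    (h3 : t.y = t'.y) (h4 : t.k = t'.k) : t = t' := by
  cases d
  · exact Tm.ext h1 h2 h3 h4
  · exact Tm.ext h2 h1 h3 h4

/-- What is used about a level. -/
structure Ok (p : Par) (S : Sys) (eb : ℕ) : Prop where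
  tm : ∀ t ∈ S.T, TmOk p S.q eb t
  nn : ∀ t ∈ S.T, 0 ≤ S.om t
  q_le : S.q ≤ p.m
  e_le : eb ≤ p.m
  cnt : S.Cnt (2 ^ (2 * p.c)) (2 ^ (2 * p.c)) (2 ^ (2 * p.c))

/-- The terms with a given end and key. -/
noncomputable def TK (S : Sys) (d : Bool) (v : ℕ) (k : Key) : Finset Tm :=
  S.T.filter fun t => t.ep d = v ∧ t.k = k

/-- The positions where the value of the midpoint is known. -/
def Qy (d : Bool) (k : Key) : Finset ℕ := Ico k.D (if k.hv = d then k.h else min k.h k.E)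

/-- The positions where the midpoint is compared with the far end. -/
def Qj (d : Bool) (k : Key) : Finset ℕ := Ico (if k.hv = d then k.h else max k.D k.E) k.h

/-- Too many active terms. -/
def Bad1 (p : Par) (S : Sys) (d : Bool) (v : ℕ) (k : Key) (U U' σ τ : ℕ) : Prop :=
  ∃ α β β', (kap2 p.m p.m p.ce : ℝ) * 2 ^ (2 * p.c) <
    #{t ∈ TK S d v k | Ag (Ico 0 k.E) (cF p.m p.m p.ce σ (ext S.q (t.ep !d) U)) α ∧
      Ag (Qy d k) (cF p.m p.m p.ce τ (ext k.s0 t.y U')) β ∧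
      Ag (Qj d k) (cF p.m p.m p.ce τ (ext k.s0 t.y U') ^^^
        cF p.m p.m p.ce σ (ext S.q (t.ep !d) U)) β'}

theorem card_TK (h : Ok p S eb) (d : Bool) (v : ℕ) (k : Key) :
    (#(TK S d v k) : ℝ) ≤ 2 ^ (2 * p.c) * 2 ^ (k.E + (k.h - k.D)) := by
  rw [← div_le_iff₀ (by positivity)]
  refine le_trans ?_ (h.cnt.tot d v)
  have h1 : (#(TK S d v k) : ℝ) / 2 ^ (k.E + (k.h - k.D)) = ∑ t ∈ TK S d v k, (1 : ℝ) / 2 ^ t.I := by
    rw [sum_congr rfl (g := fun _ => (1 : ℝ) / 2 ^ (k.E + (k.h - k.D))) fun t ht => by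
      rw [Tm.I, (mem_filter.1 ht).2.2], sum_const, nsmul_eq_mul, mul_one_div]
  rw [h1]
  refine sum_le_sum_of_subset_of_nonneg (fun t ht => ?_) fun _ _ _ => by positivity
  exact mem_filter.2 ⟨(mem_filter.1 ht).1, (mem_filter.1 ht).2.1⟩

theorem pow_mono (c : ℕ) {a b : ℕ} (h : a ≤ b) : (2 : ℝ) ^ c * 2 ^ a ≤ 2 ^ c * 2 ^ b :=
  mul_le_mul_of_nonneg_left (pow_le_pow_right₀ (by norm_num) h) (by positivity)

theorem card_Bad1 (h : Ok p S eb) (d : Bool) (v : ℕ) (k : Key) {U U' : ℕ} (hU : U < 2 ^ p.m)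
    (hU' : U' < 2 ^ p.m) :
    (#{s ∈ range (2 ^ p.cl1) ×ˢ range (2 ^ p.cl1) | Bad1 p S d v k U U' s.1 s.2} : ℝ) ≤
      2 ^ p.cl1 * 2 ^ p.cl1 / 2 ^ p.ce := by
  rcases (TK S d v k).eq_empty_or_nonempty with h0 | ⟨t0, ht0⟩
  · rw [filter_false_of_mem fun s _ => ?_, card_empty, Nat.cast_zero]
    · positivity
    · rintro ⟨α, β, β', hb⟩
      rw [h0, filter_empty, card_empty, Nat.cast_zero] at hb
      exact absurd hb (not_lt.2 (by positivity))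
  have hm : ∀ t ∈ TK S d v k, TmOk p S.q eb t ∧ t.ep d = v ∧ t.k = k := fun t ht =>
    ⟨h.tm t (mem_filter.1 ht).1, (mem_filter.1 ht).2⟩
  obtain ⟨h1, -, h2⟩ := hm t0 ht0
  have hD : k.D ≤ k.h := h2 ▸ h1.D_le
  have hE : k.E ≤ p.m := h2 ▸ h1.E_le.trans h.e_le
  have hh : k.h ≤ p.m := h2 ▸ h1.h_le.trans h.e_le
  have hT := card_TK h d v k
  have hc : #(Qy d k) + #(Qj d k) = k.h - k.D := by
    rw [Qy, Qj, Nat.card_Ico, Nat.card_Ico]
    split_ifs <;> omega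
  have hI : ∀ a b, b ≤ p.m → Ico a b ⊆ range p.m := fun a b hb i hi =>
    mem_range.2 ((mem_Ico.1 hi).2.trans_le hb)
  refine cp_bil (T := TK S d v k) (z := fun t => ext S.q (t.ep !d) U)
    (y := fun t => ext k.s0 t.y U') (Qz := Ico 0 k.E) (Qy := Qy d k) (Qj := Qj d k) p.ce
    (hI _ _ hE) (hI _ _ (by split_ifs <;> omega)) (hI _ _ hh) (lay_Ico _ _) (lay_Ico _ _)
    (lay_Ico _ _) ?_ ?_ (fun t ht => ?_) (fun t ht => ?_) (fun t ht t' ht' h3 h4 => ?_)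
    (one_le_pow₀ (by norm_num)) ?_ (fun t ht => ?_) fun t ht => ?_
  · rw [Qj, disjoint_left]
    intro i h3 h4
    rw [mem_Ico] at h3 h4
    split_ifs at h4 <;> omega
  · rw [Qj, Qy, disjoint_left]
    intro i h3 h4
    rw [mem_Ico] at h3 h4
    split_ifs at h3 h4 <;> omega
  · obtain ⟨h3, -, h4⟩ := hm t ht
    exact ext_lt (h4 ▸ (y_lt h3).2.trans h.q_le) (h4 ▸ (y_lt h3).1) hU'
  · exact ext_lt h.q_le (ep_lt (hm t ht).1 _) hU
  · exact tm_eq d ((hm t ht).2.1.trans (hm t' ht').2.1.symm) (ext_inj h4) (ext_inj h3)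
      ((hm t ht).2.2.trans (hm t' ht').2.2.symm)
  · rw [Nat.card_Ico]
    exact hT.trans (pow_mono _ (by omega))
  · rw [Nat.card_Ico, Qj, Nat.card_Ico]
    have hs := (Nat.cast_le (α := ℝ)).2 (card_filter_le (TK S d v k)
      fun t' => ext k.s0 t'.y U' = ext k.s0 t.y U')
    by_cases hk : k.dbl = true
    · by_cases hDE : k.hv = d ∨ k.D ≤ k.E
      · refine le_trans (Nat.cast_le.2 (card_le_card fun t' ht' => ?_))
          ((h.cnt.xy d v t.y k hk).trans (pow_mono _ (by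
            split_ifs with c
            · omega
            · have := hDE.resolve_left c
              omega)))
        obtain ⟨h3, h4⟩ := mem_filter.1 ht'
        exact mem_filter.2 ⟨(mem_filter.1 h3).1, (hm t' h3).2.1, ext_inj h4, (hm t' h3).2.2⟩
      · rw [not_or] at hDE
        rw [if_neg hDE.1]
        exact (hs.trans hT).trans (pow_mono _ (by omega))
    · have h3 := (h1.sing (by rw [h2]; simpa using hk)).2
      rw [h2] at h3
      have h4 : k.h = 0 := by rw [h3]; rfl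
      exact (hs.trans hT).trans (pow_mono _ (by omega))
  · rw [hc]
    by_cases hk : k.dbl = true
    · refine le_trans (Nat.cast_le.2 (card_le_card fun t' ht' => ?_)) (h.cnt.xz t.x t.z k hk)
      obtain ⟨h3, h4⟩ := mem_filter.1 ht'
      have h5 := (hm t' h3).2.1.trans (hm t ht).2.1.symm
      have h6 := ext_inj h4
      refine mem_filter.2 ⟨(mem_filter.1 h3).1, ?_, ?_, (hm t' h3).2.2⟩
      · cases d
        · exact h5
        · exact h6
      · cases d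
        · exact h6
        · exact h5
    · refine le_trans (b := 1) ?_ (one_le_mul_of_one_le_of_one_le (one_le_pow₀ (by norm_num))
        (one_le_pow₀ (by norm_num)))
      rw [← Nat.cast_one, Nat.cast_le, card_le_one]
      have h7 : ∀ t ∈ TK S d v k, t.y = 0 := fun t ht =>
        ((hm t ht).1.sing (by rw [(hm t ht).2.2]; simpa using hk)).1
      intro t1 h3 t2 h4
      obtain ⟨h3, h5⟩ := mem_filter.1 h3
      obtain ⟨h4, h6⟩ := mem_filter.1 h4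
      exact tm_eq d ((hm t1 h3).2.1.trans (hm t2 h4).2.1.symm) (ext_inj (h5.trans h6.symm))
        ((h7 t1 h3).trans (h7 t2 h4).symm) ((hm t1 h3).2.2.trans (hm t2 h4).2.2.symm)

/-- The heavy terms with given ends and key. -/
noncomputable def Hv (p : Par) (S : Sys) (x z : ℕ) (k : Key) : Finset Tm :=
  S.T.filter fun t => (t.x = x ∧ t.z = z ∧ t.k = k) ∧ 2 ≤ 2 ^ p.tw * S.om t

/-- No witness. -/
def Bad2 (p : Par) (S : Sys) (x z : ℕ) (k : Key) (U τ : ℕ) : Prop :=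
  (kap p.m p.m p.ce : ℝ) * 1 * 2 ^ #(Ico (k.D + p.wb) k.h) ≤ #(Hv p S x z k) ∧
    ¬∀ α, ∃ t ∈ Hv p S x z k, Ag (Ico (k.D + p.wb) k.h) (cF p.m p.m p.ce τ (ext k.s0 t.y U)) α

theorem card_Bad2 (h : Ok p S eb) (x z : ℕ) {k : Key} (hk : k.h ≤ p.m) {U : ℕ} (hU : U < 2 ^ p.m) :
    (#{τ ∈ range (2 ^ p.cl1) | Bad2 p S x z k U τ} : ℝ) ≤ 2 ^ p.cl1 / 2 ^ p.ce := by
  by_cases h0 : (kap p.m p.m p.ce : ℝ) * 1 * 2 ^ #(Ico (k.D + p.wb) k.h) ≤ #(Hv p S x z k)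
  · refine le_trans (filter_mono' fun τ _ hb => hb.2) (cp_low (T := Hv p S x z k)
      (y := fun t => ext k.s0 t.y U) p.ce (fun i hi => mem_range.2 ((mem_Ico.1 hi).2.trans_le hk))
      (lay_Ico _ _) (fun t ht => ?_) one_pos (fun t ht => ?_) h0)
    · obtain ⟨h1, ⟨-, -, h2⟩, -⟩ := mem_filter.1 ht
      have h3 := y_lt (h.tm t h1)
      exact ext_lt (h2 ▸ h3.2.trans h.q_le) (h2 ▸ h3.1) hU
    · rw [← Nat.cast_one, Nat.cast_le, card_le_one]
      intro t1 h3 t2 h4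
      obtain ⟨h3, h5⟩ := mem_filter.1 h3
      obtain ⟨h4, h6⟩ := mem_filter.1 h4
      obtain ⟨-, ⟨a1, a2, a3⟩, -⟩ := mem_filter.1 h3
      obtain ⟨-, ⟨b1, b2, b3⟩, -⟩ := mem_filter.1 h4
      exact Tm.ext (a1.trans b1.symm) (a2.trans b2.symm) (ext_inj (h5.trans h6.symm))
        (a3.trans b3.symm)
  · rw [filter_false_of_mem fun τ _ hb => h0 hb.1, card_empty, Nat.cast_zero]
    positivity

variable {F : ℕ → ℕ → ℕ} {lm : ℕ} {g : ℕ → ℕ}

theorem few (h : Ok p S eb) (ht : p.Tab lm) (hF : ∀ i v, F i v = cF p.m p.m p.ce (g i) v)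
    (hb : ∀ i < 3, ∀ j < 3, i ≠ j → ∀ d, ∀ v < 2 ^ p.m, ∀ k ∈ keys p.m, ∀ U < 2 ^ p.m,
      ∀ U' < 2 ^ p.m, ¬Bad1 p S d v k U U' (g i) (g j)) : Few p F S := by
  intro e he d v
  by_cases hv : v < 2 ^ p.m
  swap
  · rw [filter_false_of_mem, card_empty]
    · exact Nat.zero_le _
    · exact fun t h1 h2 => hv (h2.1 ▸ (ep_lt (h.tm t h1) d).trans_le
        (Nat.pow_le_pow_right (by norm_num) h.q_le))
  have hi : (e.tr !d).1 < 3 ∧ (e.tr !d).1 ≠ e.2.2.1 ∧ (e.tr !d).2.2 < 2 ^ p.m := by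
    cases d
    · exact ⟨he.i2, he.n23, he.u2⟩
    · exact ⟨he.i1, he.n13, he.u1⟩
  have h1 : ∀ k ∈ keys p.m, (#{t ∈ TK S d v k | act F S.q e t} : ℝ) ≤
      kap2 p.m p.m p.ce * 2 ^ (2 * p.c) := by
    intro k hk
    have h2 := hb _ hi.1 _ he.i3 hi.2.1 d v hv k hk _ hi.2.2 _ he.u3
    simp only [Bad1, not_exists, not_lt] at h2
    refine le_trans (filter_mono' fun t h3 h4 => ?_) (h2 (vl F S.q (e.tr d) v ^^^ (e.tr !d).2.1)
      (vl F S.q (e.tr d) v ^^^ e.2.2.2.1) (e.2.2.2.1 ^^^ (e.tr !d).2.1))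
    obtain ⟨-, h5, h6⟩ := mem_filter.1 h3
    obtain ⟨a1, a2⟩ := h4
    rw [h6] at a1 a2
    have a3 : agree (vl F S.q (e.tr !d) (t.ep !d)) (vl F S.q (e.tr d) v) 0 k.E := by
      rw [← h5]
      cases d
      · exact fun i b1 b2 => (a1 i b1 b2).symm
      · exact a1
    rw [← hF, ← hF, Qy, Qj, ag_iff, ag_iff, ag_iff]
    have hd : ¬k.hv = d → k.hv = !d := fun hd => by
      revert hd
      cases k.hv <;> cases d <;> simp
    refine ⟨fun i b1 b2 => ?_, fun i b1 b2 => ?_, fun i b1 b2 => ?_⟩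
    · have a4 := a3 i b1 b2
      rw [Nat.testBit_xor, ← a4, vl, Nat.testBit_xor]
      simp
    · have a4 : (vl F k.s0 e.2.2 t.y).testBit i = (vl F S.q (e.tr d) v).testBit i := by
        split_ifs at b1 with c1
        · rw [a2 i b1 b2, c1, h5]
        · rw [a2 i (b1.trans_le (min_le_left _ _)) b2, hd c1,
            a3 i (b1.trans_le (min_le_right _ _)) (Nat.zero_le _)]
      rw [Nat.testBit_xor, ← a4, vl, Nat.testBit_xor]
      simp
    · split_ifs at b2 with c1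
      · omega
      · have a4 := a2 i b1 ((le_max_left _ _).trans b2)
        rw [hd c1, vl, vl, Nat.testBit_xor, Nat.testBit_xor] at a4
        rw [Nat.testBit_xor, Nat.testBit_xor]
        revert a4
        generalize Nat.testBit (F _ _) i = u1
        generalize Nat.testBit (F _ _) i = u2
        generalize Nat.testBit e.2.2.2.1 i = u3
        generalize Nat.testBit (e.tr !d).2.1 i = u4
        cases u1 <;> cases u2 <;> cases u3 <;> cases u4 <;> simp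
  have h2 : #{t ∈ S.T | t.ep d = v ∧ act F S.q e t} ≤
      ∑ k ∈ keys p.m, #{t ∈ TK S d v k | act F S.q e t} := by
    refine le_trans (card_le_card fun t h3 => ?_) card_biUnion_le
    obtain ⟨h4, h5, h6⟩ := mem_filter.1 h3
    exact mem_biUnion.2 ⟨t.k, mem_keys (h.tm t h4) h.q_le h.e_le,
      mem_filter.2 ⟨mem_filter.2 ⟨h4, h5, rfl⟩, h6⟩⟩
  have h3 : ∑ k ∈ keys p.m, #{t ∈ TK S d v k | act F S.q e t} ≤
      #(keys p.m) • (kap2 p.m p.m p.ce * 2 ^ (2 * p.c)) :=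
    sum_le_card_nsmul _ _ _ fun k hk => by exact_mod_cast h1 k hk
  refine (h2.trans h3).trans (le_trans ?_ ht.Kp_ge)
  calc _ ≤ 2 ^ (5 * lm + 2) * (kap2 p.m p.m p.ce * 2 ^ (2 * p.c)) :=
        Nat.mul_le_mul_right _ (card_keys ht.m_lt)
    _ = _ := by ring

/-- A heavy group has a heavy key. -/
theorem exists_key (h : Ok p S eb) (ht : p.Tab lm) {x z E : ℕ} (hw : 1 ≤ 2 ^ p.c * S.Wg x z E) :
    ∃ k ∈ keys p.m, k.E = E ∧ (2 : ℝ) ^ (k.h - k.D) ≤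
      2 ^ (p.c + 5 * lm + 2) * ∑ t ∈ S.T with t.x = x ∧ t.z = z ∧ t.k = k, S.om t := by
  by_contra hn
  simp only [not_exists, not_and, not_le] at hn
  have h1 : S.Wg x z E = ∑ k ∈ keys p.m with k.E = E,
      (∑ t ∈ S.T with t.x = x ∧ t.z = z ∧ t.k = k, S.om t) / 2 ^ (k.h - k.D) := by
    rw [Sys.Wg, ← sum_fiberwise_of_maps_to (g := fun t : Tm => t.k)
      (t := {k ∈ keys p.m | k.E = E}) fun t h1 => mem_filter.2
        ⟨mem_keys (h.tm t (mem_filter.1 h1).1) h.q_le h.e_le, (mem_filter.1 h1).2.2.2⟩, mul_sum]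
    refine sum_congr rfl fun k hk => ?_
    rw [filter_filter, mul_sum, sum_div]
    refine sum_congr (filter_congr fun t _ => ⟨fun a => ⟨a.1.1, a.1.2.1, a.2⟩, fun a =>
      ⟨⟨a.1, a.2.1, a.2.2 ▸ (mem_filter.1 hk).2⟩, a.2.2⟩⟩) fun t h1 => ?_
    rw [Sys.ms, Tm.I, (mem_filter.1 h1).2.2.2, (mem_filter.1 hk).2, pow_add]
    field_simp
  have h2 : ∀ k ∈ {k ∈ keys p.m | k.E = E},
      (∑ t ∈ S.T with t.x = x ∧ t.z = z ∧ t.k = k, S.om t) / 2 ^ (k.h - k.D) <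
        1 / 2 ^ (p.c + 5 * lm + 2) := fun k hk => by
    rw [div_lt_div_iff₀ (by positivity) (by positivity), one_mul, mul_comm]
    exact hn k (mem_filter.1 hk).1 (mem_filter.1 hk).2
  have h3 : (#{k ∈ keys p.m | k.E = E} : ℝ) ≤ 2 ^ (5 * lm + 2) := by
    exact_mod_cast (card_filter_le _ _).trans (card_keys ht.m_lt)
  rcases ({k ∈ keys p.m | k.E = E}).eq_empty_or_nonempty with h0 | h0
  · rw [h1, h0, sum_empty, mul_zero] at hw
    linarith
  · have h4 := sum_lt_sum_of_nonempty h0 h2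
    rw [← h1, sum_const, nsmul_eq_mul] at h4
    have h5 : (2 : ℝ) ^ p.c * (2 ^ (5 * lm + 2) * (1 / 2 ^ (p.c + 5 * lm + 2))) = 1 := by
      rw [add_assoc, pow_add 2 p.c]
      field_simp
    have h6 : (2 : ℝ) ^ p.c * S.Wg x z E <
        2 ^ p.c * (2 ^ (5 * lm + 2) * (1 / 2 ^ (p.c + 5 * lm + 2))) :=
      mul_lt_mul_of_pos_left (h4.trans_le (by gcongr)) (by positivity)
    linarith

/-- A heavy key has many heavy terms. -/
theorem card_Hv (h : Ok p S eb) (ht : p.Tab lm) (hw : S.Wt 1) {x z : ℕ} {k : Key}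
    (hk : (2 : ℝ) ^ (k.h - k.D) ≤
      2 ^ (p.c + 5 * lm + 2) * ∑ t ∈ S.T with t.x = x ∧ t.z = z ∧ t.k = k, S.om t) :
    (2 : ℝ) ^ (k.h - k.D) ≤ 2 ^ (p.c + 5 * lm + 3) * #(Hv p S x z k) := by
  have h1 : (#{t ∈ S.T | t.x = x ∧ t.z = z ∧ t.k = k} : ℝ) ≤ 2 ^ (2 * p.c) * 2 ^ (k.h - k.D) := by
    by_cases hd : k.dbl = true
    · exact h.cnt.xz x z k hd
    · refine le_trans (b := 1) ?_ (one_le_mul_of_one_le_of_one_le (one_le_pow₀ (by norm_num))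
        (one_le_pow₀ (by norm_num)))
      rw [← Nat.cast_one, Nat.cast_le, card_le_one]
      intro t1 h3 t2 h4
      obtain ⟨a0, a1, a2, a3⟩ := mem_filter.1 h3
      obtain ⟨b0, b1, b2, b3⟩ := mem_filter.1 h4
      exact Tm.ext (a1.trans b1.symm) (a2.trans b2.symm)
        (((h.tm t1 a0).sing (by rw [a3]; simpa using hd)).1.trans
          ((h.tm t2 b0).sing (by rw [b3]; simpa using hd)).1.symm) (a3.trans b3.symm)
  have h2 : ∑ t ∈ S.T with t.x = x ∧ t.z = z ∧ t.k = k, S.om t ≤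
      #(Hv p S x z k) + #{t ∈ S.T | t.x = x ∧ t.z = z ∧ t.k = k} * (2 / 2 ^ p.tw : ℝ) := by
    rw [Hv, ← filter_filter (fun t : Tm => t.x = x ∧ t.z = z ∧ t.k = k), card_filter,
      ← nsmul_eq_mul, ← sum_const]
    push_cast
    rw [← sum_add_distrib]
    refine sum_le_sum fun t h3 => ?_
    split_ifs with h4
    · exact (hw.1 t (mem_filter.1 h3).1).trans (le_add_of_nonneg_right (by positivity))
    · rw [zero_add, le_div_iff₀ (by positivity), mul_comm]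
      exact (not_le.1 h4).le
  have h3 : (2 : ℝ) ^ (p.c + 5 * lm + 2) * (2 ^ (2 * p.c) * (2 / 2 ^ p.tw)) ≤ 1 / 2 := by
    have h4 : (2 : ℝ) ^ (3 * p.c + 5 * lm + 6) ≤ 2 ^ p.tw :=
      pow_le_pow_right₀ (by norm_num) ht.tw_ge
    rw [← mul_div_assoc, ← mul_div_assoc, div_le_div_iff₀ (by positivity) (by positivity)]
    refine le_trans ?_ (mul_le_mul_of_nonneg_left h4 zero_le_one)
    have h5 : (2 : ℝ) ^ (3 * p.c + 5 * lm + 6) =
        2 ^ (p.c + 5 * lm + 2) * (2 ^ (2 * p.c) * 2) * 2 * 4 := by ring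
    rw [h5]
    nlinarith [show (0 : ℝ) ≤ 2 ^ (p.c + 5 * lm + 2) * (2 ^ (2 * p.c) * 2) * 2 by positivity]
  have h4 : (2 : ℝ) ^ (p.c + 5 * lm + 2) *
      (#{t ∈ S.T | t.x = x ∧ t.z = z ∧ t.k = k} * (2 / 2 ^ p.tw : ℝ)) ≤
      1 / 2 * 2 ^ (k.h - k.D) :=
    calc _ ≤ (2 : ℝ) ^ (p.c + 5 * lm + 2) *
          (2 ^ (2 * p.c) * 2 ^ (k.h - k.D) * (2 / 2 ^ p.tw : ℝ)) := by gcongr
      _ = 2 ^ (p.c + 5 * lm + 2) * (2 ^ (2 * p.c) * (2 / 2 ^ p.tw)) * 2 ^ (k.h - k.D) := by ring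
      _ ≤ _ := by gcongr
  have h5 := hk.trans (mul_le_mul_of_nonneg_left h2 (by positivity))
  rw [mul_add] at h5
  rw [pow_succ]
  linarith

theorem wit (h : Ok p S eb) (ht : p.Tab lm) (hw : S.Wt 1)
    (hF : ∀ i v, F i v = cF p.m p.m p.ce (g i) v)
    (hb : ∀ j < 3, ∀ x < 2 ^ p.m, ∀ z < 2 ^ p.m, ∀ k ∈ keys p.m, ∀ U < 2 ^ p.m,
      ¬Bad2 p S x z k U (g j)) : Wit p F S := by
  intro e he x z E ha hW
  obtain ⟨k, hk, rfl, h1⟩ := exists_key h ht hW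
  have h2 := card_Hv h ht hw h1
  have hne : (Hv p S x z k).Nonempty := by
    rw [nonempty_iff_ne_empty]
    intro h0
    rw [h0, card_empty, Nat.cast_zero, mul_zero] at h2
    exact absurd h2 (not_le.2 (by positivity))
  have hq : ∀ v, v < 2 ^ S.q → v < 2 ^ p.m := fun v hv =>
    hv.trans_le (Nat.pow_le_pow_right (by norm_num) h.q_le)
  have h3 : ∀ α, ∃ t ∈ Hv p S x z k,
      Ag (Ico (k.D + p.wb) k.h) (cF p.m p.m p.ce (g e.2.2.1) (ext k.s0 t.y e.2.2.2.2)) α := by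
    obtain ⟨t0, ht0⟩ := hne
    by_cases hc : k.h ≤ k.D + p.wb
    · exact fun α => ⟨t0, ht0, fun i hi => absurd (mem_Ico.1 hi) (by omega)⟩
    obtain ⟨a0, ⟨a1, a2, -⟩, -⟩ := mem_filter.1 ht0
    by_contra hn
    refine hb _ he.i3 x (hq x (a1 ▸ (h.tm t0 a0).x_lt)) z (hq z (a2 ▸ (h.tm t0 a0).z_lt)) k hk _
      he.u3 ⟨?_, hn⟩
    have h4 : (2 : ℝ) ^ (p.c + 5 * lm + 4) * kap p.m p.m p.ce ≤ 2 ^ p.wb := by
      exact_mod_cast ht.wb_ge
    rw [Nat.card_Ico, mul_one]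
    rw [show k.h - k.D = p.wb + (k.h - (k.D + p.wb)) by omega, pow_add] at h2
    refine le_of_mul_le_mul_left (le_trans ?_ h2) (by positivity)
    rw [← mul_assoc]
    refine mul_le_mul_of_nonneg_right (le_trans ?_ h4) (by positivity)
    exact mul_le_mul_of_nonneg_right (pow_le_pow_right₀ (by norm_num) (by omega)) (by positivity)
  obtain ⟨t, h4, h5⟩ := h3 (vl F S.q (e.tr k.hv) (if k.hv then z else x) ^^^ e.2.2.2.1)
  obtain ⟨a0, ⟨a1, a2, a3⟩, a4⟩ := mem_filter.1 h4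
  have a5 : t.ep k.hv = if k.hv then z else x := by rw [Tm.ep, a1, a2]
  rw [← a5, ← hF, ag_iff] at h5
  have hh : k.h ≤ p.m := a3 ▸ (h.tm t a0).h_le.trans h.e_le
  refine ⟨(vl F k.s0 e.2.2 t.y ^^^ vl F S.q (e.tr k.hv) (t.ep k.hv)) / 2 ^ k.D % 2 ^ p.wb,
    Nat.mod_lt _ (by positivity), t, a0, a1, a2, by rw [a3], a4, ?_, ?_⟩
  · rw [a3, a1, a2]
    exact ha
  · rw [a3]
    intro i b1 b2
    have b3 : ∀ τ, (p.xc e k.D τ).tr k.hv = e.tr k.hv := fun τ => rfl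
    have b4 : ∀ τ, vl F k.s0 (p.xc e k.D τ).2.2 t.y =
        vl F k.s0 e.2.2 t.y ^^^ τ * 2 ^ k.D % 2 ^ p.m := fun τ => (Nat.xor_assoc _ _ _).symm
    rw [b3, b4, Nat.testBit_xor, Nat.testBit_mod_two_pow, Nat.testBit_mul_two_pow,
      Nat.testBit_mod_two_pow, Nat.testBit_div_two_pow, Nat.testBit_xor,
      show i - k.D + k.D = i by omega]
    by_cases b5 : i - k.D < p.wb
    · simp [b5, b2, b1.trans_le hh]
    · have b6 := h5 i b1 (by omega)
      rw [Nat.testBit_xor] at b6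
      rw [vl, Nat.testBit_xor, b6]
      simp [b5]

theorem dig3 {S σ σ' : ℕ} (h : σ < S ^ 3) (h' : σ' < S ^ 3)
    (hd : ∀ i < 3, σ / S ^ i % S = σ' / S ^ i % S) : σ = σ' := by
  have h0 := hd 0 (by norm_num)
  have h1 := hd 1 (by norm_num)
  have h2 := hd 2 (by norm_num)
  have h3 : ∀ u < S ^ 3, u / S ^ 2 % S = u / S / S := fun u hu => by
    rw [Nat.mod_eq_of_lt (Nat.div_lt_of_lt_mul (by rwa [← pow_succ])), Nat.div_div_eq_div_mul,
      pow_two]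
  rw [h3 σ h, h3 σ' h'] at h2
  rw [pow_zero, Nat.div_one, Nat.div_one] at h0
  rw [pow_one] at h1
  rw [← Nat.div_add_mod σ S, ← Nat.div_add_mod σ' S, ← Nat.div_add_mod (σ / S) S,
    ← Nat.div_add_mod (σ' / S) S, h0, h1, h2]

theorem card_rp {α : Type} (S : ℕ) (X : Finset α) : #(range S ×ˢ X) = S * #X := by
  rw [card_product, card_range]

theorem card_pair {S i j : ℕ} (hS : 0 < S) (hi : i < 3) (hj : j < 3) (hij : i ≠ j)
    (P : ℕ → ℕ → Prop) [DecidablePred fun σ => P (σ / S ^ i % S) (σ / S ^ j % S)]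
    [DecidablePred fun s : ℕ × ℕ => P s.1 s.2] :
    #{σ ∈ range (S ^ 3) | P (σ / S ^ i % S) (σ / S ^ j % S)} ≤
      S * #{s ∈ range S ×ˢ range S | P s.1 s.2} := by
  rw [← card_rp]
  refine card_le_card_of_injOn (fun σ => (σ / S ^ (3 - i - j) % S, σ / S ^ i % S, σ / S ^ j % S))
    (fun σ hσ => ?_) fun σ hσ σ' hσ' h => ?_
  · have hm : ∀ u, u % S ∈ range S := fun u => mem_range.2 (Nat.mod_lt _ hS)
    exact mem_product.2 ⟨hm _, mem_filter.2 ⟨mem_product.2 ⟨hm _, hm _⟩, (mem_filter.1 hσ).2⟩⟩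
  · simp only [Prod.mk.injEq] at h
    refine dig3 (mem_range.1 (mem_filter.1 hσ).1) (mem_range.1 (mem_filter.1 hσ').1) fun l hl => ?_
    obtain rfl | rfl | rfl : l = 3 - i - j ∨ l = i ∨ l = j := by omega
    · exact h.1
    · exact h.2.1
    · exact h.2.2

/-- The indices of the bad events. -/
noncomputable def idx (m : ℕ) : Finset (((ℕ × ℕ) × ℕ × Bool × Key) × (ℕ × ℕ) × ℕ × ℕ) :=
  (((range 3).offDiag ×ˢ range (m + 1) ×ˢ univ ×ˢ keys m) ×ˢ
    (range (2 ^ m) ×ˢ range (2 ^ m)) ×ˢ range (2 ^ m) ×ˢ range (2 ^ m))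

theorem card_idx (m : ℕ) : #(idx m) ≤ 2 ^ (10 * m + 6) := by
  have h1 : m + 1 ≤ 2 ^ m := Nat.lt_two_pow_self
  have h2 := card_keys h1
  simp only [idx, card_product, offDiag_card, card_range, card_univ, Fintype.card_bool]
  calc _ ≤ 8 * (2 ^ m * (2 * 2 ^ (5 * m + 2))) * (2 ^ m * 2 ^ m * (2 ^ m * 2 ^ m)) := by
        gcongr
        norm_num
    _ = _ := by ring

end Gd

variable {p : Par} {lk lg lm : ℕ} {A0 : ℕ → ℕ → ℕ}

open Gd in
theorem good_many (hp : p.OK lk) (hl : p.Long lg) (ht : p.Tab lm) (h : Gr p A0) :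
    2 ^ (3 * p.cl1) < 2 * ((range (2 ^ (3 * p.cl1))).filter fun σ => Good p (p.hash σ) A0).card := by
  have hok : ∀ s ≤ 6 * p.K, Ok p (sys p A0 s) (s * p.c) := fun s hs => by
    have h1 := sys_ok hp h hs
    obtain ⟨k, h2⟩ := h1.wf
    have h3 := Nat.mul_le_mul_right p.W hs
    have h4 := Nat.mul_le_mul_right p.c hs
    have h5 := hl.q_le
    have h6 := hl.e_le
    have h7 := h1.q_le
    exact ⟨h2.tm, h2.om_nonneg, by omega, by omega, h1.cnt⟩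
  set Z := 2 ^ p.cl1 with hZ
  have hZ0 : 0 < Z := by positivity
  let B : (((ℕ × ℕ) × ℕ × Bool × Key) × (ℕ × ℕ) × ℕ × ℕ) → ℕ → ℕ → Prop := fun a σ τ =>
    a.1.2.1 ≤ 6 * p.K ∧
      (Bad1 p (sys p A0 a.1.2.1) a.1.2.2.1 a.2.1.1 a.1.2.2.2 a.2.2.1 a.2.2.2 σ τ ∨
        Bad2 p (sys p A0 a.1.2.1) a.2.1.1 a.2.1.2 a.1.2.2.2 a.2.2.2 τ)
  have h1 : ∀ a ∈ idx p.m, (#{σ ∈ range (Z ^ 3) |
      B a (σ / Z ^ a.1.1.1 % Z) (σ / Z ^ a.1.1.2 % Z)} : ℝ) ≤ 2 * Z ^ 3 / 2 ^ p.ce := by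
    intro a ha
    simp only [idx, mem_product, mem_offDiag, mem_range] at ha
    obtain ⟨⟨⟨hi, hj, hij⟩, -, -, hk⟩, -, hU, hU'⟩ := ha
    refine ((Nat.cast_le (α := ℝ)).2 (card_pair hZ0 hi hj hij (B a))).trans ?_
    by_cases hs : a.1.2.1 ≤ 6 * p.K
    · have h2 := card_Bad1 (hok _ hs) a.1.2.2.1 a.2.1.1 a.1.2.2.2 hU hU'
      have hh : a.1.2.2.2.h ≤ p.m := by
        obtain ⟨b, hb, hb'⟩ := mem_image.1 hk
        simp only [mem_product, mem_range] at hb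
        rw [← hb']
        exact Nat.lt_succ_iff.1 hb.1.2.2.1
      have h3 := card_Bad2 (hok _ hs) a.2.1.1 a.2.1.2 hh hU'
      have h4 : #{s ∈ range Z ×ˢ range Z | B a s.1 s.2} ≤ #{s ∈ range Z ×ˢ range Z |
          Bad1 p (sys p A0 a.1.2.1) a.1.2.2.1 a.2.1.1 a.1.2.2.2 a.2.2.1 a.2.2.2 s.1 s.2} +
          Z * #{τ ∈ range Z | Bad2 p (sys p A0 a.1.2.1) a.2.1.1 a.2.1.2 a.1.2.2.2 a.2.2.2 τ} := by
        rw [← card_rp]
        refine le_trans (card_le_card fun s hs => ?_) (card_union_le _ _)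
        obtain ⟨h5, -, h6 | h6⟩ := mem_filter.1 hs
        · exact mem_union_left _ (mem_filter.2 ⟨h5, h6⟩)
        · exact mem_union_right _ (mem_product.2 ⟨(mem_product.1 h5).1,
            mem_filter.2 ⟨(mem_product.1 h5).2, h6⟩⟩)
      have h5 := (Nat.cast_le (α := ℝ)).2 h4
      have h6 : (Z : ℝ) = 2 ^ p.cl1 := by rw [hZ]; push_cast; rfl
      push_cast at h5 ⊢
      rw [← h6] at h2 h3
      calc _ ≤ (Z : ℝ) * (Z * Z / 2 ^ p.ce + Z * (Z / 2 ^ p.ce)) := by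
            gcongr
            exact h5.trans (by gcongr)
        _ = _ := by ring
    · rw [filter_false_of_mem fun s _ hb => hs hb.1, card_empty, mul_zero, Nat.cast_zero]
      positivity
  have h2 : (#{σ ∈ range (Z ^ 3) | ¬Good p (p.hash σ) A0} : ℝ) ≤
      #(idx p.m) * (2 * Z ^ 3 / 2 ^ p.ce) := by
    refine union_le _ _ _ (fun σ _ hn => ?_) h1
    by_contra hc
    simp only [not_exists, not_and] at hc
    have hF : ∀ i v, p.hash σ i v = cF p.m p.m p.ce (σ / Z ^ i % Z) v := fun i v => by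
      rw [Par.hash, pow_mul]
    refine hn fun s hs => ⟨few (g := fun i => σ / Z ^ i % Z) (hok s hs) ht hF
      fun i hi j hj hij d v hv k hk U hU U' hU' hb => ?_, fun h5 =>
      wit (g := fun i => σ / Z ^ i % Z) (hok s hs) ht ((sys_ok hp h hs).wt1 (by omega)) hF
      fun j hj x hx z hz k hk U hU hb => ?_⟩
    · refine hc (((i, j), s, d, k), (v, v), U, U') ?_ ⟨hs, Or.inl hb⟩
      have := ht.K_le
      simp only [idx, mem_product, mem_offDiag, mem_range, mem_univ, true_and]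
      exact ⟨⟨⟨hi, hj, hij⟩, by omega, hk⟩, ⟨hv, hv⟩, hU, hU'⟩
    · refine hc ((((j + 1) % 3, j), s, true, k), (x, z), U, U) ?_ ⟨hs, Or.inr hb⟩
      have := ht.K_le
      simp only [idx, mem_product, mem_offDiag, mem_range, mem_univ, true_and]
      exact ⟨⟨⟨by omega, hj, by omega⟩, by omega, hk⟩, ⟨hx, hz⟩, hU, hU⟩
  have h3 : (#(idx p.m) : ℝ) * (2 * Z ^ 3 / 2 ^ p.ce) ≤ Z ^ 3 / 4 := by
    have h4 : (#(idx p.m) : ℝ) ≤ 2 ^ (10 * p.m + 6) := by exact_mod_cast card_idx p.m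
    have h5 : (2 : ℝ) ^ (10 * p.m + 6) * 8 ≤ 2 ^ p.ce := by
      rw [show (8 : ℝ) = 2 ^ 3 by norm_num, ← pow_add]
      exact pow_le_pow_right₀ (by norm_num) (by rw [Par.ce]; omega)
    calc _ ≤ (2 : ℝ) ^ (10 * p.m + 6) * (2 * Z ^ 3 / (2 ^ (10 * p.m + 6) * 8)) := by gcongr
      _ = _ := by field_simp; norm_num
  have h4 := card_filter_add_card_filter_not (s := range (Z ^ 3)) fun σ => Good p (p.hash σ) A0
  rw [card_range] at h4
  have h5 : ((4 * #{σ ∈ range (Z ^ 3) | ¬Good p (p.hash σ) A0} : ℕ) : ℝ) ≤ (Z ^ 3 : ℕ) := by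
    push_cast
    linarith
  have h6 := (Nat.cast_le (α := ℝ)).1 h5
  have h7 : 0 < Z ^ 3 := by positivity
  rw [mul_comm 3, pow_mul, ← hZ]
  omega

end Vale.Agent.P313.NL
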