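import Vale.Agent.P313.NL.ID1

/-! The loads under the operation `D`. -/

namespace Vale.Agent.P313.NL

open Finset
open scoped Classical

variable {p : Par} {S : Sys} {k eb : ℕ}

variable {B : ℝ}

/-- the load with a weight on the far end -/
noncomputable def id2_ld (S : Sys) (e : Bool) (F : ℕ → ℝ) (v : ℕ) : ℝ :=
  ∑ t ∈ S.T with t.ep e = v, S.ms t * F (t.ep !e)

/-- the factor of a clone -/
noncomputable def id2_f (p : Par) (S : Sys) (d e : Bool) (χ v : ℕ) : ℝ :=
  if e = d then p.fa χ (S.ctr d v) else p.fb χ (S.ctr d v)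

theorem id2_flt (S : Sys) (e b : Bool) (g : ℕ → ℝ) (v : ℕ) :
    ∑ t ∈ S.T with t.ep e = v ∧ S.fl e (t.ep !e) = b, S.ms t * g (t.ep !e) =
      id2_ld S e (fun u => if S.fl e u = b then g u else 0) v := by
  rw [id2_ld, ← filter_filter, sum_filter]
  exact sum_congr rfl fun t _ => by split_ifs <;> simp

theorem id2_ldC (S : Sys) (e : Bool) (v : ℕ) :
    S.ldC e v = id2_ld S e (fun u => if S.fl e u = false then 1 else 0) v := by
  simpa [Sys.ldC] using id2_flt S e false (fun _ => 1) v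

theorem id2_ldF (S : Sys) (e : Bool) (v : ℕ) :
    S.ldF e v = id2_ld S e (fun u => if S.fl e u = true then 1 else 0) v := by
  simpa [Sys.ldF] using id2_flt S e true (fun _ => 1) v

theorem id2_ld2 (S : Sys) (e : Bool) (v : ℕ) :
    S.ld2 e v = id2_ld S e (fun u => if S.fl e u = false then S.ldF e u else 0) v :=
  id2_flt S e false (S.ldF e) v

theorem id2_add (S : Sys) (e : Bool) (F G : ℕ → ℝ) (v : ℕ) :
    id2_ld S e F v + id2_ld S e G v = id2_ld S e (fun u => F u + G u) v := by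
  simp only [id2_ld, mul_add, sum_add_distrib]

theorem id2_smul (S : Sys) (e : Bool) (F : ℕ → ℝ) (c : ℝ) (v : ℕ) :
    id2_ld S e (fun u => F u * c) v = id2_ld S e F v * c := by
  simp only [id2_ld, sum_mul, mul_assoc]

theorem id2_ms (h : S.WF p k eb) {t : Tm} (ht : t ∈ S.T) : 0 ≤ S.ms t :=
  div_nonneg (h.om_nonneg t ht) (by positivity)

theorem id2_C0 (h : S.WF p k eb) (e : Bool) (v : ℕ) : 0 ≤ S.ldC e v :=
  sum_nonneg fun _ ht => id2_ms h (mem_filter.1 ht).1

theorem id2_F0 (h : S.WF p k eb) (e : Bool) (v : ℕ) : 0 ≤ S.ldF e v :=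
  sum_nonneg fun _ ht => id2_ms h (mem_filter.1 ht).1

theorem id2_F0' (h : S.WF p k eb) (d sf e : Bool) (v : ℕ) : 0 ≤ (S.D p d sf).ldF e v := by
  refine sum_nonneg fun t ht => ?_
  obtain ⟨a, ha, rfl⟩ := mem_image.1 (mem_filter.1 ht).1
  rw [ms_chD h d sf (mem_product.1 ha).1]
  exact mul_nonneg (mul_nonneg (id2_ms h (mem_product.1 ha).1) (fa_nonneg _ _)) (fb_nonneg _ _)

theorem id2_f0 (d e : Bool) (χ v : ℕ) : 0 ≤ id2_f p S d e χ v := by
  unfold id2_f
  split_ifs
  exacts [fa_nonneg _ _, fb_nonneg _ _]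

theorem id2_ep (h : S.WF p k eb) {t : Tm} (ht : t ∈ S.T) (e : Bool) : t.ep e < 2 ^ S.q := by
  cases e
  exacts [(h.tm t ht).x_lt, (h.tm t ht).z_lt]

theorem id2_sum (f : ℕ → ℕ → ℝ) (e : Bool) : ∑ a ∈ range p.A, ∑ b ∈ range p.A,
    f (if e then b else a) (if e then a else b) = ∑ a ∈ range p.A, ∑ b ∈ range p.A, f a b := by
  cases e
  exacts [rfl, sum_comm]

/-- The loads of the clones in terms of the loads of the parents. -/
theorem id2_main (h : S.WF p k eb) (d sf e : Bool) {F G : ℕ → ℝ} (hF : ∀ u, 0 ≤ F u)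
    (hG : ∀ u < 2 ^ S.q, ∑ χ ∈ range p.A, id2_f p S d (!e) χ u * F (S.dn u χ) ≤ G u) (v : ℕ) :
    id2_ld (S.D p d sf) e F v ≤ id2_f p S d e (S.ck v) (S.up v) * id2_ld S e G (S.up v) := by
  rw [id2_ld, id2_ld, sum_filter, sum_D h, mul_sum, sum_filter]
  refine sum_le_sum fun t ht => ?_
  let f : ℕ → ℕ → ℝ := fun x y => if S.dn (t.ep e) x = v then id2_f p S d e x (t.ep e) *
    (S.ms t * (id2_f p S d (!e) y (t.ep !e) * F (S.dn (t.ep !e) y))) else 0
  have h1 : ∀ a b, (if (S.chD p d sf t a b).ep e = v then (S.D p d sf).ms (S.chD p d sf t a b) *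
      F ((S.chD p d sf t a b).ep !e) else 0) = f (if e then b else a) (if e then a else b) :=
    fun a b => by
      rw [ms_chD h d sf ht]
      cases d <;> cases e <;> simp [f, id2_f, Shp.chD, Tm.ep, mul_assoc, mul_left_comm]
  rw [sum_congr rfl fun a _ => sum_congr rfl fun b _ => h1 a b, id2_sum f]
  have h0 : 0 ≤ S.ms t * G (t.ep !e) := mul_nonneg (id2_ms h ht) (le_trans (sum_nonneg
    fun _ _ => mul_nonneg (id2_f0 _ _ _ _) (hF _)) (hG _ (id2_ep h ht _)))
  have h2 : ∀ x, S.dn (t.ep e) x = v ↔ t.ep e = S.up v ∧ S.ck v = x := fun x =>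
    ⟨fun hx => by rw [← hx, S.up_dn (id2_ep h ht e), S.ck_dn (id2_ep h ht e)]; exact ⟨rfl, rfl⟩,
      fun hx => by rw [hx.1, ← hx.2, S.dn_up_ck]⟩
  simp only [f, h2]
  by_cases h3 : t.ep e = S.up v
  · simp only [h3, true_and, if_true, sum_ite_irrel, sum_const_zero, sum_ite_eq]
    split_ifs
    · rw [← mul_sum, ← mul_sum]
      exact mul_le_mul_of_nonneg_left (mul_le_mul_of_nonneg_left (hG _ (id2_ep h ht _))
        (id2_ms h ht)) (id2_f0 _ _ _ _)
    · exact mul_nonneg (id2_f0 _ _ _ _) h0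
  · simp [h3]

theorem id2_fl (d sf e : Bool) (v : ℕ) : (S.D p d sf).fl e v =
    (S.fl e (S.up v) || (decide (e = d) && p.flg sf (S.ck v))) := rfl

theorem id2_fl_false (d e : Bool) (v : ℕ) : (S.D p d false).fl e v = S.fl e (S.up v) := by
  simp [id2_fl, Par.flg]

theorem id2_fl_not (d sf : Bool) (v : ℕ) : (S.D p (!d) sf).fl d v = S.fl d (S.up v) := by
  simp [id2_fl]

theorem id2_same (d : Bool) (χ v : ℕ) : id2_f p S d d χ v = p.fa χ (S.ctr d v) := if_pos rfl

theorem id2_not (d : Bool) (χ v : ℕ) : id2_f p S d (!d) χ v = p.fb χ (S.ctr d v) :=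
  if_neg (by simp)

theorem id2_not' (d : Bool) (χ v : ℕ) : id2_f p S (!d) d χ v = p.fb χ (S.ctr (!d) v) :=
  if_neg (by simp)

theorem id2_fa {χ : ℕ} {x y : ℝ} (hy : 0 ≤ y) (h : y ≤ 1 ∨ y ≤ x - 1) : p.fa χ x * y ≤ 1 / p.M := by
  by_cases h0 : p.fa χ x = 0
  · rw [h0, zero_mul]
    positivity
  obtain ⟨h1, h2⟩ := fa_pos h0
  have h3 : (1 : ℝ) ≤ p.cu χ := by exact_mod_cast h1
  have h4 : y ≤ p.cu χ := h.elim (fun h => h.trans h3) fun h => h.trans h2.le
  refine (mul_le_mul (fa_le χ x) h4 hy (by positivity)).trans_eq ?_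
  field_simp

theorem id2_M (p : Par) : (0 : ℝ) < p.M := by
  unfold Par.M
  positivity

theorem D_LD1 (h : S.WF p k eb) (hM : 3 ≤ p.M) {d : Bool} (hL : S.LD0 d B) :
    (S.D p d true).LD1 p d (B + 3) := by
  have hM' : (3 : ℝ) ≤ p.M := by exact_mod_cast hM
  have hB : 0 ≤ B := (id2_C0 h d 0).trans (hL.2 0)
  have hc : ∀ u, S.ctr d u = S.ldC d u + 2 := fun u => by simp [Sys.ctr, hL.1]
  have key : ∀ (F : ℕ → ℝ) (c : ℝ), 0 ≤ c → (∀ u, 0 ≤ F u) →
      (∀ u < 2 ^ S.q, ∑ χ ∈ range p.A, p.fb χ (S.ctr d u) * F (S.dn u χ) ≤ p.M * c + 3) →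
      ∀ v, id2_ld (S.D p d true) d F v ≤ c + 1 := fun F c h0 hF hG v => by
    refine (id2_main h d true d (G := fun u => (if S.fl d u = false then 1 else 0) * (p.M * c + 3))
      hF (fun u hu => by simpa [id2_not, hL.1] using hG u hu) v).trans ?_
    rw [id2_smul, ← id2_ldC, id2_same, ← mul_assoc]
    refine (mul_le_mul_of_nonneg_right (id2_fa (id2_C0 h d _) (.inr (by rw [hc]; linarith)))
      (by positivity)).trans ?_
    rw [one_div, inv_mul_le_iff₀ (id2_M p)]
    linarith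
  refine fun v => ⟨?_, ?_⟩
  · rw [id2_ldF, id2_ldC, id2_add]
    refine (key _ (B + 2) (by linarith) (fun u => by positivity) (fun u _ => ?_) v).trans_eq
      (by ring)
    have h1 : ∀ b : Bool, (if b = true then 1 else 0 : ℝ) + (if b = false then 1 else 0) = 1 := by
      simp
    simp only [h1, mul_one]
    refine (sum_fb (one_le_ctr h d u)).trans ?_
    rw [hc]
    gcongr
    exact hL.2 u
  · rw [id2_ldC]
    refine key _ _ (by positivity) (fun u => by positivity) (fun u hu => ?_) v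
    refine le_trans (le_of_eq ?_) (sum_fb_calm (one_le_ctr h d u))
    rw [sum_filter]
    exact sum_congr rfl fun χ _ => by simp [id2_fl, hL.1, Par.flg, S.ck_dn hu]

theorem D_LD2 (h : S.WF p k eb) (hM : 3 ≤ p.M) {d : Bool} (hL : S.LD1 p d B) :
    (S.D p d false).LD2 p d (B * (1 + 3 / p.M)) := by
  have hM' : (3 : ℝ) ≤ p.M := by exact_mod_cast hM
  have hM0 := id2_M p
  have hF : ∀ u, S.ldF d u ≤ B := fun u => by linarith [(hL u).1, id2_C0 h d u]
  have hB : 0 ≤ B := (id2_F0 h d 0).trans (hF 0)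
  have key : ∀ (b : Bool) (g : ℕ → ℝ) (c : ℝ), (∀ u, 0 ≤ g u) →
      (∀ u < 2 ^ S.q, S.fl d u = b → ∑ χ ∈ range p.A, p.fb χ (S.ctr d u) * g (S.dn u χ) ≤ c) →
      ∀ v, id2_ld (S.D p d false) d (fun u => if (S.D p d false).fl d u = b then g u else 0) v ≤
        p.fa (S.ck v) (S.ctr d (S.up v)) *
          (id2_ld S d (fun u => if S.fl d u = b then 1 else 0) (S.up v) * c) :=
    fun b g c hg hG v => by
      rw [← id2_smul, ← id2_same]
      refine id2_main h d false d (fun u => by split_ifs; exacts [hg u, le_rfl]) (fun u hu => ?_) v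
      simp only [id2_fl_false, S.up_dn hu, id2_not]
      split_ifs with h1
      · simpa using hG u hu h1
      · simp
  have h1 : ∀ v, (S.D p d false).ldF d v ≤ p.fa (S.ck v) (S.ctr d (S.up v)) * (B * (p.M + 3)) :=
    fun v => by
      rw [id2_ldF]
      refine (key true _ (p.M + 3) (fun _ => zero_le_one) (fun u _ hu => ?_) v).trans ?_
      · simpa [Sys.ctr, hu] using sum_fb (p := p) (x := 1) le_rfl
      · rw [← id2_ldF]
        gcongr
        exacts [fa_nonneg _ _, hF _]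
  have h2 : ∀ χ x y, 0 ≤ y → (y ≤ 1 ∨ y ≤ x - 1) →
      p.fa χ x * y * (B * (p.M + 3)) ≤ B * (1 + 3 / p.M) := fun χ x y hy h' =>
    (mul_le_mul_of_nonneg_right (id2_fa hy h') (by positivity)).trans_eq (by field_simp)
  refine fun v => ⟨?_, ?_⟩
  · rw [id2_ldC]
    refine (key false _ (p.M * (2 ^ p.r1 + 4)) (fun _ => zero_le_one) (fun u _ hu => ?_) v).trans ?_
    · simp only [mul_one]
      refine (sum_fb (one_le_ctr h d u)).trans ?_
      simp only [Sys.ctr, hu, Bool.false_eq_true, if_false]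
      nlinarith [(hL u).2]
    · have h3 := id2_fa (p := p) (χ := S.ck v) (x := S.ctr d (S.up v)) zero_le_one (.inl le_rfl)
      rw [← id2_ldC]
      calc _ ≤ 1 / (p.M : ℝ) * ((2 ^ p.r1 + 4) * (p.M * (2 ^ p.r1 + 4))) := by
            gcongr
            · exact mul_nonneg (id2_C0 h d _) (by positivity)
            · rwa [mul_one] at h3
            · linarith [(hL (S.up v)).2]
        _ = _ := by
            simp only [Par.R2]
            push_cast
            field_simp
  · rw [id2_fl_false]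
    split_ifs with h3
    · simpa using (h1 v).trans (by simpa using h2 _ _ 1 zero_le_one (.inl le_rfl))
    · have h4 := key false ((S.D p d false).ldF d) (B * (p.M + 3)) (fun u => ?_) (fun u hu _ => ?_) v
      · rw [← id2_ld2, ← id2_ldC] at h4
        have h5 := h2 (S.ck v) (S.ctr d (S.up v)) (S.ldC d (S.up v) + 1)
          (by linarith [id2_C0 h d (S.up v)]) (.inr (by simp only [Sys.ctr, h3]; simp; linarith))
        linarith [h1 v]
      · exact id2_F0' h d false d u
      · calc _ ≤ ∑ χ ∈ range p.A, p.fa χ (S.ctr d u) * (B * (p.M + 3)) :=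
              sum_le_sum fun χ _ => (mul_le_of_le_one_left (id2_F0' h d false d _)
                (fb_le_one _ _)).trans (by simpa [S.up_dn hu, S.ck_dn hu] using h1 (S.dn u χ))
          _ ≤ _ := by
              rw [← sum_mul]
              exact mul_le_of_le_one_left (by positivity) (sum_fa_le (one_le_ctr h d u))

theorem id2_other (h : S.WF p k eb) (d sf b : Bool) {g g' : ℕ → ℝ} (h0 : ∀ u, 0 ≤ g' u)
    (hg : ∀ u, g' u ≤ g (S.up u)) (v : ℕ) :
    id2_ld (S.D p (!d) sf) d (fun u => if (S.D p (!d) sf).fl d u = b then g' u else 0) v ≤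
      id2_ld S d (fun u => if S.fl d u = b then g u else 0) (S.up v) := by
  have h1 : ∀ u < 2 ^ S.q, 0 ≤ g u := fun u hu => (h0 _).trans (by
    simpa [S.up_dn hu] using hg (S.dn u 0))
  refine (id2_main h (!d) sf d (fun u => by split_ifs; exacts [h0 u, le_rfl]) (fun u hu => ?_) v).trans
    (mul_le_of_le_one_left (sum_nonneg fun t ht => mul_nonneg (id2_ms h (mem_filter.1 ht).1) ?_)
      (by rw [id2_not']; exact fb_le_one _ _))
  · simp only [id2_fl_not, S.up_dn hu, id2_same]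
    split_ifs
    · calc _ ≤ ∑ χ ∈ range p.A, p.fa χ (S.ctr (!d) u) * g u := sum_le_sum fun χ _ =>
            mul_le_mul_of_nonneg_left (by simpa [S.up_dn hu] using hg (S.dn u χ)) (fa_nonneg _ _)
        _ ≤ _ := by
            rw [← sum_mul]
            exact mul_le_of_le_one_left (h1 u hu) (sum_fa_le (one_le_ctr h _ u))
    · simp
  · dsimp only
    split_ifs
    exacts [h1 _ (id2_ep h (mem_filter.1 ht).1 _), le_rfl]

theorem id2_otherC (h : S.WF p k eb) (d sf : Bool) (v : ℕ) :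
    (S.D p (!d) sf).ldC d v ≤ S.ldC d (S.up v) := by
  rw [id2_ldC, id2_ldC]
  exact id2_other h d sf false (g := fun _ => 1) (fun _ => zero_le_one) (fun _ => le_rfl) v

theorem id2_otherF (h : S.WF p k eb) (d sf : Bool) (v : ℕ) :
    (S.D p (!d) sf).ldF d v ≤ S.ldF d (S.up v) := by
  rw [id2_ldF, id2_ldF]
  exact id2_other h d sf true (g := fun _ => 1) (fun _ => zero_le_one) (fun _ => le_rfl) v

theorem D_LD0_other (h : S.WF p k eb) {d : Bool} (sf : Bool) (hL : S.LD0 d B) :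
    (S.D p (!d) sf).LD0 d B :=
  ⟨fun v => (id2_fl_not d sf v).trans (hL.1 _), fun v => (id2_otherC h d sf v).trans (hL.2 _)⟩

theorem D_LD2_other (h : S.WF p k eb) {d : Bool} (sf : Bool) (hL : S.LD2 p d B) :
    (S.D p (!d) sf).LD2 p d B := by
  refine fun v => ⟨(id2_otherC h d sf v).trans (hL _).1, le_trans ?_ (hL (S.up v)).2⟩
  refine add_le_add (id2_otherF h d sf v) ?_
  rw [id2_fl_not]
  split_ifs
  · rfl
  · rw [id2_ld2, id2_ld2]
    exact id2_other h d sf false (id2_F0' h _ sf d) (id2_otherF h d sf) v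

end Vale.Agent.P313.NL
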