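import Mathlib.Analysis.SpecialFunctions.Pow.Real
import Mathlib.Algebra.BigOperators.Intervals
import Mathlib.Algebra.Order.BigOperators.Group.Finset

/-!
The ideal hierarchy of weighted multigraphs: terms, the operations `D` (normalise loads by
cloning), `M` (merge consecutive terms) and `R` (regroup), and the invariants.
A direction `d : Bool` names an end of a term: `false` is the source, `true` is the target.
-/

namespace Vale.Agent.P313.NL

open Finset
open scoped Classical

/-- Parameters. -/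
structure Par where
  /-- number of vertices of the first graph -/
  N : ℕ
  /-- bits of the first names -/
  n0 : ℕ
  /-- number of stages -/
  K : ℕ
  /-- `M = 2 ^ mu` -/
  mu : ℕ
  /-- `R1 = 2 ^ r1` is the threshold for the flags -/
  r1 : ℕ
  /-- bits per stage in `R` -/
  c : ℕ
  /-- half of the bits of a chunk -/
  W1 : ℕ
  /-- half of the length of the registers -/
  mh : ℕ
  /-- bound for the ranks -/
  Kp : ℕ
  /-- number of wildcard bits -/
  wb : ℕ
  /-- `2 ^ (-tw)` is the threshold for witnesses -/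
  tw : ℕ
  /-- fractional bits -/
  P : ℕ
  /-- first budget -/
  j0 : ℕ

namespace Par

variable (p : Par)

/-- length of the registers -/
def m : ℕ := 2 * p.mh
/-- bits of a chunk -/
def W : ℕ := 2 * p.W1
/-- number of chunks -/
def A : ℕ := 2 ^ p.W
/-- the factor of the clones -/
def M : ℕ := 2 ^ p.mu
/-- bound for the weights after `R` -/
def Om : ℕ := 2 * p.c + 2
/-- bound for the loads from ends without flag -/
def R2 : ℕ := (2 ^ p.r1 + 4) ^ 2
/-- the vertex of the first graph -/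
def ht (v : ℕ) : ℕ := v % 2 ^ p.n0
/-- `tp true`: clones of the first vertex; `tp false`: clones of the last vertex -/
def tp (d : Bool) (v : ℕ) : Bool := if d then decide (p.ht v = 0) else decide (p.ht v = p.N - 1)

end Par

/-- Keys of terms. -/
@[ext] structure Key where
  /-- the ends agree on `[0, E)` -/
  E : ℕ
  /-- the midpoint and the heavy end agree on `[D, h)` -/
  D : ℕ
  /-- see `D` -/
  h : ℕ
  /-- the rank of the heavy parent -/
  V : ℕ
  /-- bits of the name of the midpoint -/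
  s0 : ℕ
  /-- the heavy end -/
  hv : Bool
  /-- is there a midpoint -/
  dbl : Bool
  deriving DecidableEq

/-- The key of a term without midpoint. -/
def sgl (E : ℕ) : Key := ⟨E, 0, 0, 0, 0, false, false⟩

/-- Terms. -/
@[ext] structure Tm where
  /-- source -/
  x : ℕ
  /-- target -/
  z : ℕ
  /-- midpoint -/
  y : ℕ
  /-- key -/
  k : Key
  deriving DecidableEq

/-- The ends. -/
def Tm.ep (t : Tm) (d : Bool) : ℕ := if d then t.z else t.x

/-- The number of conditions. -/
def Tm.I (t : Tm) : ℕ := t.k.E + (t.k.h - t.k.D)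

/-- The attributes of names. -/
structure Shp where
  /-- bits of the names -/
  q : ℕ
  /-- flags: `true` column, `false` row -/
  fl : Bool → ℕ → Bool
  /-- levels: `true` of the incoming terms, `false` of the outgoing terms -/
  lv : Bool → ℕ → ℕ

/-- Systems. -/
structure Sys extends Shp where
  /-- the listed terms -/
  T : Finset Tm
  /-- weights -/
  om : Tm → ℝ
  /-- boundary vectors: `true` initial, `false` final -/
  al : Bool → ℕ → ℝ

/-- Cut to the unit interval. -/
noncomputable def clamp (x : ℝ) : ℝ := min 1 (max 0 x)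

namespace Shp

variable (p : Par) (H : Shp)

/-- the parent name -/
def up (v : ℕ) : ℕ := v % 2 ^ H.q
/-- the last chunk -/
def ck (v : ℕ) : ℕ := v / 2 ^ H.q
/-- the child name -/
def dn (v χ : ℕ) : ℕ := v + 2 ^ H.q * χ

/-- A term which does not take part in a merge. -/
def idle (t : Tm) : Bool := t.k.dbl || H.fl true t.z || H.fl false t.x
/-- The level of a term. -/
def lam (t : Tm) : ℕ := H.lv false t.x

end Shp

/-! ### The operation `D` -/

namespace Par

variable (p : Par)

/-- first half of a chunk -/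
def cu (χ : ℕ) : ℕ := χ / 2 ^ p.W1
/-- second half of a chunk -/
def cj (χ : ℕ) : ℕ := χ % 2 ^ p.W1
/-- is the flag set -/
def flg (sf : Bool) (χ : ℕ) : Bool := sf && decide (2 ^ p.r1 < p.cu χ)
/-- the raise of the rank -/
def rs (sf : Bool) (χ : ℕ) : ℕ := if p.flg sf χ then p.r1 else 0
/-- the number of clones of the class `cu χ` -/
noncomputable def nst (χ : ℕ) (x : ℝ) : ℝ := p.M * p.cu χ * max 0 (1 - |p.cu χ - x|)
/-- the factor on the normalised side -/
noncomputable def fa (χ : ℕ) (x : ℝ) : ℝ := clamp (p.nst χ x - p.cj χ) / (p.cu χ * p.M)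
/-- the factor on the other side -/
noncomputable def fb (χ : ℕ) (x : ℝ) : ℝ :=
  clamp (p.nst χ x - p.cj χ + 1) * clamp (2 - |p.cu χ - x|)

end Par

/-- The names after `D`. -/
def Shp.D (p : Par) (d sf : Bool) (H : Shp) : Shp :=
  ⟨H.q + p.W, fun e v => H.fl e (H.up v) || (decide (e = d) && p.flg sf (H.ck v)),
    fun e v => H.lv e (H.up v)⟩

/-- The child of a term under `D`. -/
def Shp.chD (p : Par) (d sf : Bool) (H : Shp) (t : Tm) (χx χz : ℕ) : Tm :=
  ⟨H.dn t.x χx, H.dn t.z χz, t.y, { t.k with E := t.k.E + p.rs sf (if d then χz else χx) }⟩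

/-- The parent of a term under `D`. -/
def Shp.paD (p : Par) (d sf : Bool) (H : Shp) (t : Tm) : Tm :=
  ⟨H.up t.x, H.up t.z, t.y, { t.k with E := t.k.E - p.rs sf (H.ck (t.ep d)) }⟩

namespace Sys

variable (p : Par) (S : Sys)

/-- The mass of a term. -/
noncomputable def ms (t : Tm) : ℝ := S.om t / 2 ^ t.I

/-- The load from the ends without flag. -/
noncomputable def ldC (d : Bool) (v : ℕ) : ℝ :=
  ∑ t ∈ S.T with t.ep d = v ∧ S.fl d (t.ep !d) = false, S.ms t

/-- The load from the ends with flag. -/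
noncomputable def ldF (d : Bool) (v : ℕ) : ℝ :=
  ∑ t ∈ S.T with t.ep d = v ∧ S.fl d (t.ep !d) = true, S.ms t

/-- The load of two steps from an end with flag through an end without flag. -/
noncomputable def ld2 (d : Bool) (v : ℕ) : ℝ :=
  ∑ t ∈ S.T with t.ep d = v ∧ S.fl d (t.ep !d) = false, S.ms t * S.ldF d (t.ep !d)

/-- The centre of the classes. -/
noncomputable def ctr (d : Bool) (v : ℕ) : ℝ := if S.fl d v then 1 else S.ldC d v + 2

/-- The operation `D`. -/
noncomputable def D (d sf : Bool) : Sys where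
  toShp := S.toShp.D p d sf
  T := (S.T ×ˢ range p.A ×ˢ range p.A).image fun a => S.toShp.chD p d sf a.1 a.2.1 a.2.2
  om t := S.om (S.toShp.paD p d sf t) * 2 ^ p.rs sf (S.ck (t.ep d)) *
    p.fa (S.ck (t.ep d)) (S.ctr d (S.up (t.ep d))) *
    p.fb (S.ck (t.ep !d)) (S.ctr d (S.up (t.ep !d)))
  al e v := if v < 2 ^ (S.q + p.W) then S.al e (S.up v) *
    (if e = d then p.fa (S.ck v) (S.ctr d (S.up v)) else p.fb (S.ck v) (S.ctr d (S.up v))) else 0

end Sys

/-! ### The operation `M` -/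

/-- the new level of a side in a chunk of `M` -/
def Par.cl (p : Par) (d : Bool) (χ : ℕ) : ℕ := if d then p.cu χ else p.cj χ / 2
/-- the bit in a chunk of `M` -/
def Par.cb (p : Par) (χ : ℕ) : Bool := decide (p.cj χ % 2 = 1)

namespace Shp

variable (p : Par) (H : Shp)

/-- The names after `M`. -/
def M : Shp := ⟨H.q + p.W, fun _ _ => false, fun e v => p.cl e (H.ck v)⟩

/-- The label of one side is allowed. -/
def vs (d : Bool) (v χ : ℕ) : Prop :=
  if p.tp d v then p.cl d χ = 0 ∧ (d = false → p.cb χ = false)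
  else if H.fl d v then p.cl d χ = H.lv d v + 1 ∧ (d = false → p.cb χ = false)
  else H.lv d v ≤ p.cl d χ ∧ p.cl d χ ≤ p.K

/-- The chunk is allowed for the name `v`. -/
def vld (v χ : ℕ) : Prop := H.vs p true v χ ∧ H.vs p false v χ

/-- The term may be the second term of a merge. -/
def prd (t : Tm) : Prop :=
  H.idle t = false ∧ (p.tp false t.z = true ∨ H.lv true t.x ≤ H.lv false t.z + 2)

/-- The term may be the first term of a merge. -/
def en (t : Tm) : Prop :=
  H.idle t = false ∧ (p.tp true t.x = true ∨ H.lv false t.z ≤ H.lv true t.x + 2)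

/-- The condition for a child of a term which is not merged. -/
def okU (t : Tm) (χx χz : ℕ) : Prop :=
  H.vld p t.x χx ∧ H.vld p t.z χz ∧ (p.cb χx = true ↔ H.prd p t) ∧
    p.cl false χx = H.lam t + (H.idle t).toNat ∧ p.cl true χz = H.lam t + (H.idle t).toNat

/-- The condition for a merged term. -/
def okM (t1 t2 : Tm) (χx χz : ℕ) : Prop :=
  H.vld p t1.x χx ∧ H.vld p t2.z χz ∧ (p.cb χx = true ↔ H.prd p t1) ∧ H.en p t1 ∧ H.prd p t2 ∧
    p.cl false χx = max (H.lam t1) (H.lam t2) ∧ p.cl true χz = max (H.lam t1) (H.lam t2)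

/-- The child of a term which is not merged. -/
def chU (t : Tm) (χx χz : ℕ) : Tm := ⟨H.dn t.x χx, H.dn t.z χz, t.y, t.k⟩

/-- The merged term. -/
def chM (t1 t2 : Tm) (χx χz : ℕ) : Tm :=
  ⟨H.dn t1.x χx, H.dn t2.z χz, t1.z, min t1.k.E t2.k.E, 0, max t1.k.E t2.k.E,
    max t1.k.E t2.k.E, H.q, decide (t1.k.E < t2.k.E), true⟩

/-- The term has been merged just now. -/
def isM (t : Tm) : Prop := t.k.dbl = true ∧ t.k.s0 = H.q

/-- The parent of a term which is not merged. -/
def paU (t : Tm) : Tm := ⟨H.up t.x, H.up t.z, t.y, t.k⟩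
/-- The first parent of a merged term. -/
def pa1 (t : Tm) : Tm := ⟨H.up t.x, t.y, 0, sgl (if t.k.hv then t.k.E else t.k.h)⟩
/-- The second parent of a merged term. -/
def pa2 (t : Tm) : Tm := ⟨t.y, H.up t.z, 0, sgl (if t.k.hv then t.k.h else t.k.E)⟩

end Shp

/-- The pairs of consecutive terms without midpoints. -/
def pairs (T1 T2 : Finset Tm) : Finset (Tm × Tm) :=
  (T1 ×ˢ T2).filter fun a => a.1.z = a.2.x ∧ a.1.k.dbl = false ∧ a.2.k.dbl = false

/-- The operation `M`. -/
noncomputable def Sys.M (p : Par) (S : Sys) : Sys where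
  toShp := S.toShp.M p
  T := ((S.T ×ˢ range p.A ×ˢ range p.A).image fun a => S.chU a.1 a.2.1 a.2.2) ∪
    (pairs S.T S.T ×ˢ range p.A ×ˢ range p.A).image fun a => S.chM a.1.1 a.1.2 a.2.1 a.2.2
  om t := if S.isM t then
      (if S.okM p (S.pa1 t) (S.pa2 t) (S.ck t.x) (S.ck t.z) then
        S.om (S.pa1 t) * S.om (S.pa2 t) / 2 else 0)
    else if S.okU p (S.paU t) (S.ck t.x) (S.ck t.z) then
      (if S.en p (S.paU t) ∧ p.cb (S.ck t.z) = true then S.om (S.paU t) / 2 else S.om (S.paU t))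
    else 0
  al e v := if v < 2 ^ (S.q + p.W) ∧ S.vld p (S.up v) (S.ck v) then S.al e (S.up v) else 0

/-! ### The operation `R` -/

/-- one for `x ≤ 2 ^ (-i)`, zero for `x ≥ 2 ^ (1 - i)` -/
noncomputable def psi (i : ℕ) (x : ℝ) : ℝ := clamp (2 - 2 ^ i * x)

namespace Par

variable (p : Par)

/-- the partition of unity into the classes `0, …, c` -/
noncomputable def chi (i : ℕ) (x : ℝ) : ℝ := if i < p.c then psi i x - psi (i + 1) x else psi p.c x

/-- the exponent of a term which is passed on -/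
def sp (t : Tm) (s : ℕ) : ℕ := max s (p.c - (t.k.h - t.k.D))

/-- The child of a term which is passed on. -/
def chP (t : Tm) (s : ℕ) : Tm :=
  ⟨t.x, t.z, t.y, { t.k with
    E := t.k.E + p.c
    D := t.k.D + (if t.k.dbl then p.c else 0) + p.c - p.sp t s
    h := t.k.h + if t.k.dbl then p.c else 0 }⟩

end Par

/-- The term for an accepted group. -/
def chA (x z l : ℕ) : Tm := ⟨x, z, 0, sgl l⟩

namespace Sys

variable (p : Par) (S : Sys)

/-- The weight of a group. -/
noncomputable def Wg (x z E : ℕ) : ℝ :=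
  2 ^ E * ∑ t ∈ S.T with t.x = x ∧ t.z = z ∧ t.k.E = E, S.ms t

/-- The operation `R`. -/
noncomputable def R : Sys where
  toShp := S.toShp
  T := (((S.T ×ˢ range p.c).filter fun a => 1 / 8 ≤ 2 ^ a.2 * S.Wg a.1.x a.1.z a.1.k.E).image
      fun a => chA a.1.x a.1.z (a.1.k.E + a.2)) ∪
    ((S.T ×ˢ range (p.c + 1)).filter fun a => a.2 = p.c ∨ 1 / 8 ≤ 2 ^ a.2 * S.om a.1).image
      fun a => p.chP a.1 a.2
  om t := (if t.k.dbl then 0 else ∑ i ∈ range p.c with i ≤ t.k.E,
      2 ^ i * S.Wg t.x t.z (t.k.E - i) * p.chi i (S.Wg t.x t.z (t.k.E - i))) +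
    ∑ a ∈ S.T ×ˢ range (p.c + 1) with p.chP a.1 a.2 = t,
      2 ^ p.sp a.1 a.2 * (S.om a.1 * p.chi a.2 (S.om a.1)) * p.chi p.c (S.Wg a.1.x a.1.z a.1.k.E)
  al := S.al

end Sys

/-! ### The hierarchy -/

/-- The first system. -/
noncomputable def base (p : Par) (A0 : ℕ → ℕ → ℕ) : Sys where
  q := p.n0
  fl _ _ := false
  lv _ _ := 0
  T := ((range p.N ×ˢ range p.N).filter fun a => A0 a.1 a.2 ≠ 0).image fun a => chA a.1 a.2 0
  om t := (A0 t.x t.z : ℝ) / 2
  al d v := if v = (if d then 0 else p.N - 1) then 1 else 0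

/-- The names at the level `s`. -/
def shp (p : Par) : ℕ → Shp
  | 0 => ⟨p.n0, fun _ _ => false, fun _ _ => 0⟩
  | s + 1 => if s % 6 < 4 then (shp p s).D p (decide (s % 6 < 2)) (decide (s % 2 = 0))
      else if s % 6 = 4 then (shp p s).M p else shp p s

/-- The system at the level `s`. -/
noncomputable def sys (p : Par) (A0 : ℕ → ℕ → ℕ) : ℕ → Sys
  | 0 => base p A0
  | s + 1 => if s % 6 < 4 then (sys p A0 s).D p (decide (s % 6 < 2)) (decide (s % 2 = 0))
      else if s % 6 = 4 then (sys p A0 s).M p else (sys p A0 s).R p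

theorem sys_shp (p : Par) (A0 : ℕ → ℕ → ℕ) (s : ℕ) : (sys p A0 s).toShp = shp p s := by
  induction s with
  | zero => rfl
  | succ s ih =>
    rw [sys, shp, ← ih]
    split_ifs <;> rfl

/-! ### Invariants -/

/-- The form of a term; `eb` bounds the positions. -/
structure TmOk (p : Par) (q eb : ℕ) (t : Tm) : Prop where
  x_lt : t.x < 2 ^ q
  z_lt : t.z < 2 ^ q
  ht_lt : p.ht t.x < p.ht t.z
  ht_z : p.ht t.z < p.N
  sing : t.k.dbl = false → t.y = 0 ∧ t.k = sgl t.k.E
  mid : t.k.dbl = true → t.y < 2 ^ t.k.s0 ∧ t.k.s0 < q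
  D_le : t.k.D ≤ t.k.h
  E_le : t.k.E ≤ eb
  h_le : t.k.h ≤ eb
  V_le : t.k.V ≤ eb

namespace Sys

variable (p : Par) (S : Sys)

/-- Well-formed systems; `k` bounds the levels and `eb` the positions. -/
structure WF (k eb : ℕ) : Prop where
  n0_le : p.n0 ≤ S.q
  tm : ∀ t ∈ S.T, TmOk p S.q eb t
  om_nonneg : ∀ t ∈ S.T, 0 ≤ S.om t
  al_nonneg : ∀ d v, 0 ≤ S.al d v
  al_le : ∀ d v, S.al d v ≤ 1
  al_tp : ∀ d v, S.al d v ≠ 0 → p.tp d v = true ∧ v < 2 ^ S.q
  lv_eq : ∀ t ∈ S.T, 0 < S.om t → S.lv true t.z = S.lv false t.x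
  lam_le : ∀ t ∈ S.T, 0 < S.om t → S.lam t ≤ k

/-- Bound for the weights of the terms and of the groups. -/
def Wt (Ω : ℝ) : Prop := (∀ t ∈ S.T, S.om t ≤ Ω) ∧ ∀ x z E, S.Wg x z E ≤ Ω

/-- The potentials: `μ true` is the flow which enters, `μ false` the value which is to come. -/
def Pot (μ : Bool → ℕ → ℝ) : Prop :=
  ∀ d v, 0 ≤ μ d v ∧ μ d v = S.al d v + ∑ t ∈ S.T with t.ep d = v, S.ms t * μ d (t.ep !d)

/-- The value of the system. -/
noncomputable def vlu (μ : Bool → ℕ → ℝ) : ℝ := ∑ v ∈ range (2 ^ S.q), S.al true v * μ false v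

/-- The total potential. -/
noncomputable def tot (μ : Bool → ℕ → ℝ) (d : Bool) : ℝ := ∑ v ∈ range (2 ^ S.q), μ d v

/-- The weighted number of inner vertices on a path. -/
noncomputable def Phi (μ : Bool → ℕ → ℝ) : ℝ :=
  ∑ v ∈ range (2 ^ S.q) with p.tp true v = false ∧ p.tp false v = false,
    μ true v * μ false v / 2 ^ (S.lv true v + S.lv false v)

/-- The value of the paths of length one. -/
noncomputable def direct : ℝ := ∑ t ∈ S.T, S.al true t.x * S.ms t * S.al false t.z

/-- Loads when no flag is set. -/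
def LD0 (d : Bool) (B : ℝ) : Prop := (∀ v, S.fl d v = false) ∧ ∀ v, S.ldC d v ≤ B
/-- Loads after the first normalisation. -/
def LD1 (d : Bool) (B : ℝ) : Prop :=
  ∀ v, S.ldF d v + S.ldC d v ≤ B ∧ S.ldC d v ≤ 2 ^ p.r1 + 1
/-- Loads after the second normalisation. -/
def LD2 (d : Bool) (B : ℝ) : Prop :=
  ∀ v, S.ldC d v ≤ p.R2 ∧ S.ldF d v + (if S.fl d v then 0 else S.ld2 d v) ≤ B

/-- The chunks are large enough for the operation `D`. -/
def Fit (d : Bool) : Prop := ∀ v, p.M * (S.ctr d v + 2) ≤ 2 ^ p.W1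

/-- The mass of the pairs from `x` to `z` whose term away from the end `e` is not idle and has the
rank `E`. -/
noncomputable def GG (e : Bool) (x z E : ℕ) : ℝ :=
  ∑ a ∈ S.T ×ˢ S.T with a.1.z = a.2.x ∧ a.1.x = x ∧ a.2.z = z ∧
    S.idle (if e then a.1 else a.2) = false ∧ (if e then a.1 else a.2).k.E = E,
    S.ms a.1 * S.ms a.2

/-- Bound for the pairs. -/
def GI (e : Bool) (κ : ℝ) : Prop := ∀ x z E, S.GG e x z E ≤ κ / 2 ^ E

/-- Bound for the terms with midpoints. -/
def W2 (Γ : ℝ) : Prop :=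
  ∀ x z V, ∑ t ∈ S.T with t.k.dbl = true ∧ t.x = x ∧ t.z = z ∧ t.k.V = V, S.ms t ≤ Γ / 2 ^ V

/-- The credit of a term. -/
def cr (t : Tm) : ℕ :=
  (if p.tp true t.x then S.lam t else min (S.lam t) (S.lv true t.x)) +
    if p.tp false t.z then S.lam t else min (S.lam t) (S.lv false t.z)

/-- Levels are paid by ranks. -/
def G2 (pre : Bool) (b : ℕ) : Prop :=
  ∀ t ∈ S.T, 0 < S.om t →
    1023 * (p.c * S.lam t + p.c * (pre && S.idle t).toNat + (t.k.V - t.k.E)) ≤
      1023 * 1024 * max t.k.E t.k.V + p.c * S.cr p t + b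

/-- Bounds for the numbers of listed terms. -/
structure Cnt (n n2 n3 : ℝ) : Prop where
  tot : ∀ d v, ∑ t ∈ S.T with t.ep d = v, (1 : ℝ) / 2 ^ t.I ≤ n
  xz : ∀ x z (k : Key), k.dbl = true →
    (((S.T.filter fun t => t.x = x ∧ t.z = z ∧ t.k = k).card : ℕ) : ℝ) ≤ n2 * 2 ^ (k.h - k.D)
  xy : ∀ d v y (k : Key), k.dbl = true →
    (((S.T.filter fun t => t.ep d = v ∧ t.y = y ∧ t.k = k).card : ℕ) : ℝ) ≤
      n3 * 2 ^ (if k.hv = d then k.E else max k.E k.h)

end Sys

end Vale.Agent.P313.NL
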