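import Vale.Agent.P313.NL.IM1
import Mathlib.Algebra.BigOperators.Field

/-! The operation `M`: recursion along the terms, the explicit new potentials. -/

namespace Vale.Agent.P313.NL.IM2

open Finset
open scoped Classical

variable {p : Par} {S : Sys} {k eb : ℕ}

/-- the rank of a name -/
def rk (p : Par) (d : Bool) (v : ℕ) : ℕ := if d then p.ht v else p.N - p.ht v

theorem rk_lt (h : S.WF p k eb) (d : Bool) {t : Tm} (ht : t ∈ S.T) :
    rk p d (t.ep !d) < rk p d (t.ep d) := by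
  have h1 := (h.tm t ht).ht_lt
  have h2 := (h.tm t ht).ht_z
  cases d <;> simp [rk, Tm.ep] <;> omega

theorem ind (h : S.WF p k eb) (d : Bool) {P : ℕ → Prop}
    (H : ∀ v, (∀ t ∈ S.T, t.ep d = v → P (t.ep !d)) → P v) (v : ℕ) : P v := by
  induction hn : rk p d v using Nat.strong_induction_on generalizing v with
  | _ n ih => exact H v fun t ht e => ih _ (by rw [← hn, ← e]; exact rk_lt h d ht) _ rfl

/-- the iteration -/
noncomputable def itr (S : Sys) (d : Bool) (w : Tm → ℝ) (s : ℕ → ℝ) : ℕ → ℕ → ℝ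
  | 0, _ => 0
  | n + 1, v => s v + ∑ t ∈ S.T with t.ep d = v, w t * itr S d w s n (t.ep !d)

theorem itr_stab (h : S.WF p k eb) (d : Bool) (w : Tm → ℝ) (s : ℕ → ℝ) (v : ℕ) :
    ∀ n m, rk p d v < n → rk p d v < m → itr S d w s n v = itr S d w s m v := by
  refine ind h d (P := fun v => ∀ n m, rk p d v < n → rk p d v < m →
    itr S d w s n v = itr S d w s m v) (fun v H n m hn hm => ?_) v
  obtain ⟨n, rfl⟩ := Nat.exists_eq_add_one_of_ne_zero (Nat.ne_zero_of_lt hn)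
  obtain ⟨m, rfl⟩ := Nat.exists_eq_add_one_of_ne_zero (Nat.ne_zero_of_lt hm)
  rw [itr, itr]
  refine congrArg _ (sum_congr rfl fun t ht => ?_)
  obtain ⟨h1, h2⟩ := mem_filter.1 ht
  have := rk_lt h d h1
  rw [H t h1 h2 n m (by rw [h2] at this; omega) (by rw [h2] at this; omega)]

theorem exists_sol (h : S.WF p k eb) (d : Bool) (w : Tm → ℝ) (s : ℕ → ℝ) :
    ∃ ν : ℕ → ℝ, ∀ v, ν v = s v + ∑ t ∈ S.T with t.ep d = v, w t * ν (t.ep !d) := by
  refine ⟨fun v => itr S d w s (rk p d v + 1) v, fun v => ?_⟩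
  beta_reduce
  rw [itr]
  refine congrArg _ (sum_congr rfl fun t ht => ?_)
  obtain ⟨h1, h2⟩ := mem_filter.1 ht
  rw [itr_stab h d w s _ _ _ (h2 ▸ rk_lt h d h1) (Nat.lt_succ_self _)]

theorem ms_nonneg (h : S.WF p k eb) {t : Tm} (ht : t ∈ S.T) : 0 ≤ S.ms t :=
  div_nonneg (h.om_nonneg t ht) (by positivity)

theorem om_pos (h : S.WF p k eb) {t : Tm} (ht : t ∈ S.T) (h0 : S.ms t ≠ 0) : 0 < S.om t :=
  (h.om_nonneg t ht).lt_of_ne fun e => h0 (by rw [Sys.ms, ← e, zero_div])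

theorem tp_z (h : S.WF p k eb) {t : Tm} (ht : t ∈ S.T) : p.tp true t.z = false := by
  have := (h.tm t ht).ht_lt
  simp only [Par.tp, if_true, decide_eq_false_iff_not]
  omega

theorem tp_x (h : S.WF p k eb) {t : Tm} (ht : t ∈ S.T) : p.tp false t.x = false := by
  have := (h.tm t ht).ht_lt
  have := (h.tm t ht).ht_z
  simp only [Par.tp, Bool.false_eq_true, if_false, decide_eq_false_iff_not]
  omega

theorem half_nonneg' {x : ℝ} (h : 0 ≤ x) : 0 ≤ x / 2 := by positivity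

/-! ### Labels -/

/-- the allowed levels of the incoming terms -/
def vT (p : Par) (S : Sys) (v a : ℕ) : Prop :=
  if p.tp true v then a = 0 else if S.fl true v then a = S.lv true v + 1
  else S.lv true v ≤ a ∧ a ≤ p.K

/-- the allowed levels of the outgoing terms and bits -/
def vF (p : Par) (S : Sys) (v b : ℕ) (c : Bool) : Prop :=
  if p.tp false v then b = 0 ∧ c = false else if S.fl false v then b = S.lv false v + 1 ∧ c = false
  else S.lv false v ≤ b ∧ b ≤ p.K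

theorem vld_iff (v χ : ℕ) :
    S.vld p v χ ↔ vT p S v (p.cl true χ) ∧ vF p S v (p.cl false χ) (p.cb χ) := by
  simp [Shp.vld, Shp.vs, vT, vF]

/-- the new level of a term which is not merged -/
def nl (S : Sys) (t : Tm) : ℕ := S.lam t + (S.idle t).toNat
/-- the level of a merged term -/
def ml (S : Sys) (a : Tm × Tm) : ℕ := max (S.lam a.1) (S.lam a.2)

theorem nl_le (h : S.WF p k eb) (hk : k < p.K) {t : Tm} (ht : t ∈ S.T) (h0 : S.ms t ≠ 0) :
    nl S t ≤ p.K := by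
  have := h.lam_le t ht (om_pos h ht h0)
  have := (S.idle t).toNat_le
  unfold nl
  omega

theorem vT_nl (h : S.WF p k eb) (hk : k < p.K) {t : Tm} (ht : t ∈ S.T) (h0 : S.ms t ≠ 0) :
    vT p S t.z (nl S t) := by
  have h1 := h.lv_eq t ht (om_pos h ht h0)
  have h2 := nl_le h hk ht h0
  rw [vT, tp_z h ht, if_neg Bool.false_ne_true, h1]
  split_ifs with h3
  · simp [nl, Shp.idle, h3, Shp.lam]
  · exact ⟨Nat.le_add_right _ _, h2⟩

theorem vF_nl (h : S.WF p k eb) (hk : k < p.K) {t : Tm} (ht : t ∈ S.T) (h0 : S.ms t ≠ 0) :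
    vF p S t.x (nl S t) (decide (S.prd p t)) := by
  have h2 := nl_le h hk ht h0
  rw [vF, tp_x h ht, if_neg Bool.false_ne_true]
  split_ifs with h3
  · simp [nl, Shp.idle, h3, Shp.lam, Shp.prd]
  · exact ⟨Nat.le_add_right _ _, h2⟩

theorem not_idle {t : Tm} (h : S.idle t = false) :
    t.k.dbl = false ∧ S.fl true t.z = false ∧ S.fl false t.x = false := by
  simpa [Shp.idle, and_assoc] using h

theorem ml_le (h : S.WF p k eb) (hk : k < p.K) {a : Tm × Tm} (h1 : a.1 ∈ S.T) (h2 : a.2 ∈ S.T)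
    (h0 : S.ms a.1 * S.ms a.2 ≠ 0) : ml S a ≤ p.K :=
  (max_le (h.lam_le _ h1 (om_pos h h1 (left_ne_zero_of_mul h0)))
    (h.lam_le _ h2 (om_pos h h2 (right_ne_zero_of_mul h0)))).trans hk.le

theorem vT_ml (h : S.WF p k eb) (hk : k < p.K) {a : Tm × Tm} (h1 : a.1 ∈ S.T) (h2 : a.2 ∈ S.T)
    (h0 : S.ms a.1 * S.ms a.2 ≠ 0) (hp : S.prd p a.2) : vT p S a.2.z (ml S a) := by
  rw [vT, tp_z h h2, if_neg Bool.false_ne_true, (not_idle hp.1).2.1, if_neg Bool.false_ne_true,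
    h.lv_eq _ h2 (om_pos h h2 (right_ne_zero_of_mul h0))]
  exact ⟨le_max_right _ _, ml_le h hk h1 h2 h0⟩

theorem vF_ml (h : S.WF p k eb) (hk : k < p.K) {a : Tm × Tm} (h1 : a.1 ∈ S.T) (h2 : a.2 ∈ S.T)
    (h0 : S.ms a.1 * S.ms a.2 ≠ 0) (he : S.en p a.1) (c : Bool) : vF p S a.1.x (ml S a) c := by
  rw [vF, tp_x h h1, if_neg Bool.false_ne_true, (not_idle he.1).2.2, if_neg Bool.false_ne_true]
  exact ⟨le_max_left _ _, ml_le h hk h1 h2 h0⟩

theorem K_lt (hW : 2 * p.K + 2 ≤ 2 ^ p.W1) : 1 ≤ p.W1 ∧ p.K < 2 ^ (p.W1 - 1) ∧ p.K < 2 ^ p.W1 := by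
  obtain h | h := Nat.eq_zero_or_pos p.W1
  · rw [h] at hW; omega
  obtain ⟨n, hn⟩ := Nat.exists_eq_add_one_of_ne_zero h.ne'
  rw [hn, pow_succ] at hW
  rw [hn, Nat.add_sub_cancel, pow_succ]
  omega

/-! ### Pairs -/

/-- the pairs which may be merged -/
noncomputable def mp (p : Par) (S : Sys) : Finset (Tm × Tm) :=
  (pairs S.T S.T).filter fun a => S.en p a.1 ∧ S.prd p a.2

theorem mem_mp {a : Tm × Tm} : a ∈ mp p S ↔
    a.1 ∈ S.T ∧ a.2 ∈ S.T ∧ a.1.z = a.2.x ∧ S.en p a.1 ∧ S.prd p a.2 := by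
  simp only [mp, pairs, mem_filter, mem_product]
  exact ⟨fun ⟨⟨⟨a, b⟩, c, _⟩, d, e⟩ => ⟨a, b, c, d, e⟩, fun ⟨a, b, c, d, e⟩ =>
    ⟨⟨⟨a, b⟩, c, (not_idle d.1).1, (not_idle e.1).1⟩, d, e⟩⟩

theorem sum_mp1 (g : Tm × Tm → ℝ) : ∑ a ∈ mp p S, g a =
    ∑ t ∈ S.T, if S.en p t then ∑ u ∈ S.T with u.x = t.z ∧ S.prd p u, g (t, u) else 0 := by
  have e : mp p S = (S.T ×ˢ S.T).filter fun a => S.en p a.1 ∧ a.2.x = a.1.z ∧ S.prd p a.2 := by
    ext a
    simp only [mem_mp, mem_filter, mem_product]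
    exact ⟨fun ⟨a, b, c, d, e⟩ => ⟨⟨a, b⟩, d, c.symm, e⟩, fun ⟨⟨a, b⟩, d, c, e⟩ =>
      ⟨a, b, c.symm, d, e⟩⟩
  rw [e, sum_filter, sum_product]
  refine sum_congr rfl fun t _ => ?_
  split_ifs with h
  · simp only [h, true_and, sum_filter]
  · simp [h]

theorem sum_mp2 (g : Tm × Tm → ℝ) : ∑ a ∈ mp p S, g a =
    ∑ u ∈ S.T, if S.prd p u then ∑ t ∈ S.T with t.z = u.x ∧ S.en p t, g (t, u) else 0 := by
  have e : mp p S = (S.T ×ˢ S.T).filter fun a => S.prd p a.2 ∧ a.1.z = a.2.x ∧ S.en p a.1 := by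
    ext a
    simp only [mem_mp, mem_filter, mem_product]
    exact ⟨fun ⟨a, b, c, d, e⟩ => ⟨⟨a, b⟩, e, c, d⟩, fun ⟨⟨a, b⟩, e, c, d⟩ => ⟨a, b, c, d, e⟩⟩
  rw [e, sum_filter, sum_product_right]
  refine sum_congr rfl fun t _ => ?_
  split_ifs with h
  · simp only [h, true_and, sum_filter]
  · simp [h]

/-- every term is counted for its own label -/
theorem pick {ι τ : Type} (R : Finset ι) (T : Finset τ) (V : ι → Prop) (φ : ι → ℝ) (c : τ → Prop)
    (l : τ → ι) (g : τ → ℝ) {_ : DecidablePred V} {_ : ∀ a t, Decidable (c t ∧ a = l t)}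
    [DecidablePred c] (H : ∀ t ∈ T, c t → g t ≠ 0 → V (l t) ∧ l t ∈ R) :
    (∑ a ∈ R, if V a then φ a * ∑ t ∈ T, (if c t ∧ a = l t then g t else 0) else 0) =
      ∑ t ∈ T with c t, φ (l t) * g t := by
  have e : ∀ a ∈ R, (if V a then φ a * ∑ t ∈ T, (if c t ∧ a = l t then g t else 0) else 0) =
      ∑ t ∈ T, if a = l t then (if V a ∧ c t then φ a * g t else 0) else 0 := fun a _ => by
    split_ifs with h
    · rw [mul_sum]
      refine sum_congr rfl fun t _ => ?_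
      by_cases h2 : a = l t
      · subst h2
        by_cases h1 : c t <;> simp [h, h1]
      · simp [h2]
    · simp [h]
  rw [sum_congr rfl e, sum_comm, sum_filter]
  refine sum_congr rfl fun t ht => ?_
  rw [sum_ite_eq']
  by_cases h1 : c t
  · by_cases h2 : g t = 0
    · simp [h2]
    · simp [h1, H t ht h1 h2]
  · simp [h1]

/-! ### The new potentials -/

section defs
variable (p S) (μ : Bool → ℕ → ℝ) (Q : ℕ → ℝ)

/-- the flow which enters the children with the bit `c` -/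
noncomputable def FF (x : ℕ) (c : Bool) : ℝ := μ true x - if c then Q x else 0
/-- the flow which enters the source of a term which is treated first -/
noncomputable def FT (t : Tm) : ℝ := FF μ Q t.x (decide (S.prd p t))
/-- the value which starts with a possible second term -/
noncomputable def PP (z : ℕ) : ℝ := ∑ t ∈ S.T with t.x = z ∧ S.prd p t, S.ms t * μ false t.z
/-- the value after a term which is not merged -/
noncomputable def GG (t : Tm) : ℝ := μ false t.z - if S.en p t then PP p S μ t.z / 2 else 0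
/-- the mass of a term which is not merged -/
noncomputable def hm (t : Tm) (c : Bool) : ℝ := if S.en p t ∧ c = true then S.ms t / 2 else S.ms t
/-- the new flow -/
noncomputable def fT (z : ℕ) (c : Bool) (a : ℕ) : ℝ := S.al true z +
  (∑ t ∈ S.T, if t.z = z ∧ a = nl S t then hm p S t c * FT p S μ Q t else 0) +
  ∑ e ∈ mp p S, if e.2.z = z ∧ a = ml S e then S.ms e.1 * S.ms e.2 / 2 * FT p S μ Q e.1 else 0
/-- the new value -/
noncomputable def fF (x : ℕ) (b : ℕ × Bool) : ℝ := S.al false x +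
  (∑ t ∈ S.T, if t.x = x ∧ b = (nl S t, decide (S.prd p t)) then S.ms t * GG p S μ t else 0) +
  ∑ e ∈ mp p S, if e.1.x = x ∧ b = (ml S e, decide (S.prd p e.1)) then
    S.ms e.1 * S.ms e.2 / 2 * μ false e.2.z else 0

/-- the hypotheses -/
structure Ctx (k eb : ℕ) : Prop where
  wf : S.WF p k eb
  hk : k < p.K
  hW : 2 * p.K + 2 ≤ 2 ^ p.W1
  pot : S.Pot μ
  hQ : ∀ z, Q z = ∑ t ∈ S.T with t.z = z ∧ S.en p t, S.ms t / 2 * FT p S μ Q t

end defs

variable {μ : Bool → ℕ → ℝ} {Q : ℕ → ℝ}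

theorem exists_Q (h : S.WF p k eb) (μ : Bool → ℕ → ℝ) : ∃ Q : ℕ → ℝ,
    ∀ z, Q z = ∑ t ∈ S.T with t.z = z ∧ S.en p t, S.ms t / 2 * FT p S μ Q t := by
  obtain ⟨Q, hQ⟩ := exists_sol h true
    (fun t => if S.en p t ∧ S.prd p t then -(S.ms t / 2) else 0)
    fun z => ∑ t ∈ S.T with t.z = z ∧ S.en p t, S.ms t / 2 * μ true t.x
  refine ⟨Q, fun z => ?_⟩
  rw [hQ, sum_filter, sum_filter, sum_filter, ← sum_add_distrib]
  refine sum_congr rfl fun t _ => ?_
  by_cases h1 : t.z = z <;> by_cases h2 : S.en p t <;> by_cases h3 : S.prd p t <;>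
    simp [Tm.ep, FT, FF, h1, h2, h3]
  ring

namespace Ctx
variable (C : Ctx p S μ Q k eb)
include C

theorem μ0 (d : Bool) (v : ℕ) : 0 ≤ μ d v := (C.pot d v).1

theorem potT (v : ℕ) : μ true v = S.al true v + ∑ t ∈ S.T with t.z = v, S.ms t * μ true t.x :=
  (C.pot true v).2

theorem potF (v : ℕ) : μ false v = S.al false v + ∑ t ∈ S.T with t.x = v, S.ms t * μ false t.z :=
  (C.pot false v).2

theorem Q_bd (v : ℕ) : 0 ≤ Q v ∧ Q v ≤ μ true v / 2 := by
  refine ind C.wf true (P := fun v => 0 ≤ Q v ∧ Q v ≤ μ true v / 2) (fun v H => ?_) v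
  have b : ∀ t ∈ S.T, t.z = v → 0 ≤ FT p S μ Q t ∧ FT p S μ Q t ≤ μ true t.x := fun t ht e => by
    have h1 : 0 ≤ Q t.x ∧ Q t.x ≤ μ true t.x / 2 := H t ht e
    unfold FT FF
    split_ifs <;> constructor <;> linarith [h1.1, h1.2]
  rw [C.hQ]
  refine ⟨sum_nonneg fun t ht => mul_nonneg (half_nonneg' (ms_nonneg C.wf (mem_filter.1 ht).1))
    (b t (mem_filter.1 ht).1 (mem_filter.1 ht).2.1).1, ?_⟩
  rw [C.potT, add_div, sum_div]
  refine le_add_of_nonneg_of_le (half_nonneg' (C.wf.al_nonneg _ _)) ((sum_le_sum fun t ht => ?_).trans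
    (sum_le_sum_of_subset_of_nonneg (monotone_filter_right _ fun t _ h => h.1) fun t ht _ =>
      half_nonneg' (mul_nonneg (ms_nonneg C.wf (mem_filter.1 ht).1) (C.μ0 _ _))))
  have := mul_le_mul_of_nonneg_left (b t (mem_filter.1 ht).1 (mem_filter.1 ht).2.1).2
    (ms_nonneg C.wf (mem_filter.1 ht).1)
  linarith

theorem FF_bd (x : ℕ) (c : Bool) : μ true x / 2 ≤ FF μ Q x c ∧ FF μ Q x c ≤ μ true x := by
  have := C.Q_bd x
  unfold FF
  split_ifs <;> constructor <;> linarith [this.1, this.2]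

theorem FT0 (t : Tm) : 0 ≤ FT p S μ Q t := (half_nonneg' (C.μ0 _ _)).trans (C.FF_bd _ _).1

theorem PP_bd (z : ℕ) : 0 ≤ PP p S μ z ∧ PP p S μ z ≤ μ false z := by
  have n := fun t (ht : t ∈ S.T) => mul_nonneg (ms_nonneg C.wf ht) (C.μ0 false t.z)
  refine ⟨sum_nonneg fun t ht => n t (mem_filter.1 ht).1, ?_⟩
  rw [C.potF]
  exact le_add_of_nonneg_of_le (C.wf.al_nonneg _ _) (sum_le_sum_of_subset_of_nonneg
    (monotone_filter_right _ fun t _ h => h.1) fun t ht _ => n t (mem_filter.1 ht).1)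

theorem GG0 (t : Tm) : 0 ≤ GG p S μ t := by
  have := C.PP_bd t.z
  unfold GG
  split_ifs <;> linarith [this.1, this.2]

theorem hm0 {t : Tm} (ht : t ∈ S.T) (c : Bool) : 0 ≤ hm p S t c := by
  have := ms_nonneg C.wf ht
  unfold hm
  split_ifs <;> linarith

theorem mm0 {e : Tm × Tm} (he : e ∈ mp p S) : 0 ≤ S.ms e.1 * S.ms e.2 / 2 :=
  half_nonneg' (mul_nonneg (ms_nonneg C.wf (mem_mp.1 he).1) (ms_nonneg C.wf (mem_mp.1 he).2.1))

theorem fT0 (z : ℕ) (c : Bool) (a : ℕ) : 0 ≤ fT p S μ Q z c a :=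
  add_nonneg (add_nonneg (C.wf.al_nonneg _ _) (sum_nonneg fun t ht => ite_nonneg
    (mul_nonneg (C.hm0 ht c) (C.FT0 t)) le_rfl))
    (sum_nonneg fun _ he => ite_nonneg (mul_nonneg (C.mm0 he) (C.FT0 _)) le_rfl)

theorem fF0 (x : ℕ) (b : ℕ × Bool) : 0 ≤ fF p S μ x b :=
  add_nonneg (add_nonneg (C.wf.al_nonneg _ _) (sum_nonneg fun t ht => ite_nonneg
    (mul_nonneg (ms_nonneg C.wf ht) (C.GG0 t)) le_rfl))
    (sum_nonneg fun _ he => ite_nonneg (mul_nonneg (C.mm0 he) (C.μ0 _ _)) le_rfl)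

theorem sumT (φ : ℕ → ℝ) (z : ℕ) (c : Bool) :
    (∑ a ∈ range (2 ^ p.W1), if vT p S z a then φ a * fT p S μ Q z c a else 0) =
      φ 0 * S.al true z + ∑ t ∈ S.T with t.z = z, φ (nl S t) * (hm p S t c * FT p S μ Q t) +
        ∑ e ∈ mp p S with e.2.z = z, φ (ml S e) * (S.ms e.1 * S.ms e.2 / 2 * FT p S μ Q e.1) := by
  have K := (K_lt C.hW).2.2
  simp only [fT, mul_add, ite_add_zero, sum_add_distrib]
  rw [pick _ _ _ _ _ (nl S) _ fun t ht e h0 => ?_, pick _ _ _ _ _ (ml S) _ fun t ht e h0 => ?_]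
  · congr 2
    by_cases h0 : S.al true z = 0
    · simp [h0]
    · simp [vT, (C.wf.al_tp _ _ h0).1]
  · obtain ⟨h1, h2, -, -, h3⟩ := mem_mp.1 ht
    have h4 : S.ms t.1 * S.ms t.2 ≠ 0 := fun h => h0 (by rw [h]; ring)
    exact ⟨e ▸ vT_ml C.wf C.hk h1 h2 h4 h3, mem_range.2 ((ml_le C.wf C.hk h1 h2 h4).trans_lt K)⟩
  · have h4 : S.ms t ≠ 0 := fun h => h0 (by simp [hm, h])
    exact ⟨e ▸ vT_nl C.wf C.hk ht h4, mem_range.2 ((nl_le C.wf C.hk ht h4).trans_lt K)⟩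

theorem sumF (φ : ℕ × Bool → ℝ) (x : ℕ) :
    (∑ b ∈ range (2 ^ (p.W1 - 1)) ×ˢ univ, if vF p S x b.1 b.2 then φ b * fF p S μ x b else 0) =
      φ (0, false) * S.al false x +
        ∑ t ∈ S.T with t.x = x, φ (nl S t, decide (S.prd p t)) * (S.ms t * GG p S μ t) +
        ∑ e ∈ mp p S with e.1.x = x, φ (ml S e, decide (S.prd p e.1)) *
          (S.ms e.1 * S.ms e.2 / 2 * μ false e.2.z) := by
  have K := (K_lt C.hW).2.1
  simp only [fF, mul_add, ite_add_zero, sum_add_distrib]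
  rw [pick _ _ (fun b : ℕ × Bool => vF p S x b.1 b.2) _ _
      (fun t => (nl S t, decide (S.prd p t))) _ fun t ht e h0 => ?_,
    pick _ _ (fun b : ℕ × Bool => vF p S x b.1 b.2) _ _
      (fun e => (ml S e, decide (S.prd p e.1))) _ fun t ht e h0 => ?_]
  · congr 2
    by_cases h0 : S.al false x = 0
    · simp [h0]
    · simp [vF, (C.wf.al_tp _ _ h0).1, sum_product]
  · obtain ⟨h1, h2, -, h3, -⟩ := mem_mp.1 ht
    have h4 : S.ms t.1 * S.ms t.2 ≠ 0 := fun h => h0 (by rw [h]; ring)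
    exact ⟨e ▸ vF_ml C.wf C.hk h1 h2 h4 h3 _, mem_product.2
      ⟨mem_range.2 ((ml_le C.wf C.hk h1 h2 h4).trans_lt K), mem_univ _⟩⟩
  · have h4 : S.ms t ≠ 0 := left_ne_zero_of_mul h0
    exact ⟨e ▸ vF_nl C.wf C.hk ht h4, mem_product.2
      ⟨mem_range.2 ((nl_le C.wf C.hk ht h4).trans_lt K), mem_univ _⟩⟩

end Ctx

end Vale.Agent.P313.NL.IM2
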