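import Vale.Agent.P313.NL.IM2a

/-! The operation `M`: the explicit new potentials solve the equations. -/

namespace Vale.Agent.P313.NL.IM2

open Finset
open scoped Classical

variable {p : Par} {S : Sys} {k eb : ℕ} {μ : Bool → ℕ → ℝ} {Q : ℕ → ℝ}

/-- the new potentials -/
noncomputable def nw (p : Par) (S : Sys) (μ : Bool → ℕ → ℝ) (Q : ℕ → ℝ) (d : Bool) (v : ℕ) : ℝ :=
  if S.ck v < p.A ∧ S.vld p (S.up v) (S.ck v) then
    (if d then fT p S μ Q (S.up v) (p.cb (S.ck v)) (p.cl true (S.ck v))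
      else fF p S μ (S.up v) (p.cl false (S.ck v), p.cb (S.ck v))) else 0

theorem nw_dn {v χ : ℕ} (hv : v < 2 ^ S.q) (hχ : χ < p.A) (d : Bool) :
    nw p S μ Q d (S.dn v χ) = if vT p S v (p.cl true χ) ∧ vF p S v (p.cl false χ) (p.cb χ) then
      (if d then fT p S μ Q v (p.cb χ) (p.cl true χ) else fF p S μ v (p.cl false χ, p.cb χ))
      else 0 := by
  simp only [nw, Shp.up_dn _ hv, Shp.ck_dn _ hv, hχ, true_and, vld_iff]

theorem ck_lt (v : ℕ) : v < 2 ^ (S.q + p.W) ↔ S.ck v < p.A := by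
  rw [Shp.ck, Nat.div_lt_iff_lt_mul (Nat.two_pow_pos _), Par.A, ← pow_add, add_comm]

theorem sum_dn {x : ℕ} (hx : x < 2 ^ S.q) (v : ℕ) (g : ℕ → ℝ) :
    (∑ χ ∈ range p.A, if S.dn x χ = v then g χ else 0) =
      if S.ck v < p.A ∧ x = S.up v then g (S.ck v) else 0 := by
  have e : ∀ χ, S.dn x χ = v ↔ χ = S.ck v ∧ x = S.up v := fun χ =>
    ⟨fun h => by rw [← h, Shp.up_dn _ hx, Shp.ck_dn _ hx]; exact ⟨rfl, rfl⟩,
      fun h => by rw [h.1, h.2, Shp.dn_up_ck]⟩
  simp only [e, ite_and, sum_ite_eq', mem_range]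

theorem chunk (hW : 1 ≤ p.W1) (f : ℕ → ℕ × Bool → ℝ) :
    ∑ χ ∈ range p.A, f (p.cl true χ) (p.cl false χ, p.cb χ) =
      ∑ a ∈ range (2 ^ p.W1), ∑ b ∈ range (2 ^ (p.W1 - 1)) ×ˢ univ, f a b := by
  simp only [sum_product]
  exact sum_chunk (fun a b c => f a (b, c)) hW

theorem sum_ite_irrel' {ι : Type} (s : Finset ι) (c : Prop) {_ : Decidable c} (g : ι → ℝ) :
    (∑ i ∈ s, if c then g i else 0) = if c then ∑ i ∈ s, g i else 0 := by
  split_ifs <;> simp

namespace Ctx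
variable (C : Ctx p S μ Q k eb)
include C

/-- the merged terms, sorted by the second term -/
theorem mp2 (z : ℕ) : ∑ e ∈ mp p S with e.2.z = z, S.ms e.1 * S.ms e.2 / 2 * FT p S μ Q e.1 =
    ∑ t ∈ S.T with t.z = z, if S.prd p t then S.ms t * Q t.x else 0 := by
  rw [sum_filter, sum_filter, sum_mp2]
  refine sum_congr rfl fun t _ => ?_
  by_cases h1 : t.z = z <;> by_cases h2 : S.prd p t <;> simp only [h1, h2, if_true, if_false,
    sum_const_zero]
  rw [C.hQ, mul_sum]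
  exact sum_congr rfl fun u _ => by ring

omit C in
/-- the merged terms, sorted by the first term -/
theorem mp1 (x : ℕ) (φ : Tm → ℝ) :
    ∑ e ∈ mp p S with e.1.x = x, φ e.1 * (S.ms e.1 * S.ms e.2 / 2 * μ false e.2.z) =
    ∑ t ∈ S.T with t.x = x, φ t * (S.ms t * if S.en p t then PP p S μ t.z / 2 else 0) := by
  rw [sum_filter, sum_filter, sum_mp1]
  refine sum_congr rfl fun t _ => ?_
  by_cases h1 : t.x = x <;> by_cases h2 : S.en p t <;> simp only [h1, h2, if_true, if_false,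
    sum_const_zero, mul_zero]
  rw [PP, sum_div, mul_sum, mul_sum]
  exact sum_congr rfl fun u _ => by ring

theorem sumT1 (z : ℕ) (c : Bool) :
    (∑ a ∈ range (2 ^ p.W1), if vT p S z a then fT p S μ Q z c a else 0) = FF μ Q z c := by
  have := C.sumT (fun _ => 1) z c
  simp only [one_mul] at this
  rw [this, C.mp2, FF, C.potT, C.hQ z, add_assoc, ← sum_add_distrib, add_sub_assoc, sum_filter,
    sum_filter, sum_filter]
  congr 1
  cases c <;> simp only [Bool.false_eq_true, if_true, if_false, sub_zero, ← sum_sub_distrib] <;>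
    refine sum_congr rfl fun t _ => ?_ <;> by_cases h1 : t.z = z <;> by_cases h2 : S.en p t <;>
    by_cases h3 : S.prd p t <;> simp [hm, FT, FF, h1, h2, h3] <;> ring

theorem sumF1 (φ : Bool → ℝ) (x : ℕ) :
    (∑ b ∈ range (2 ^ (p.W1 - 1)) ×ˢ univ, if vF p S x b.1 b.2 then φ b.2 * fF p S μ x b else 0) =
      φ false * S.al false x +
        ∑ t ∈ S.T with t.x = x, φ (decide (S.prd p t)) * (S.ms t * μ false t.z) := by
  rw [C.sumF (fun b => φ b.2), mp1 x fun t => φ (decide (S.prd p t)), add_assoc, ← sum_add_distrib]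
  exact congrArg _ (sum_congr rfl fun t _ => by rw [GG]; ring)

theorem inS {x l : ℕ} {c : Bool} (hx : x < 2 ^ S.q) (hl : l ≤ p.K) (hv : vF p S x l c) :
    (∑ χ ∈ range p.A, if (p.cl false χ, p.cb χ) = (l, c) then nw p S μ Q true (S.dn x χ) else 0) =
      FF μ Q x c := by
  rw [sum_congr rfl fun χ hχ => by rw [nw_dn hx (mem_range.1 hχ), if_pos rfl],
    chunk (K_lt C.hW).1 fun a b => if b = (l, c) then
      (if vT p S x a ∧ vF p S x b.1 b.2 then fT p S μ Q x b.2 a else 0) else 0, ← C.sumT1]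
  refine sum_congr rfl fun a _ => ?_
  rw [sum_ite_eq', if_pos (mem_product.2 ⟨mem_range.2 (hl.trans_lt (K_lt C.hW).2.1), mem_univ _⟩)]
  simp only [hv, and_true]

theorem outS {z l : ℕ} (hz : z < 2 ^ S.q) (hl : l ≤ p.K) (hv : vT p S z l) (φ : Bool → ℝ) :
    (∑ χ ∈ range p.A, if p.cl true χ = l then φ (p.cb χ) * nw p S μ Q false (S.dn z χ) else 0) =
      φ false * S.al false z +
        ∑ t ∈ S.T with t.x = z, φ (decide (S.prd p t)) * (S.ms t * μ false t.z) := by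
  rw [sum_congr rfl fun χ hχ => by rw [nw_dn hz (mem_range.1 hχ), if_neg Bool.false_ne_true],
    chunk (K_lt C.hW).1 fun a b => if a = l then φ b.2 *
      (if vT p S z a ∧ vF p S z b.1 b.2 then fF p S μ z b else 0) else 0, ← C.sumF1, sum_comm]
  refine sum_congr rfl fun b _ => ?_
  rw [sum_ite_eq', if_pos (mem_range.2 (hl.trans_lt (K_lt C.hW).2.2))]
  simp only [hv, true_and, mul_ite, mul_zero]

omit C in
theorem nw_vld {v χ : ℕ} (hv : v < 2 ^ S.q) (d : Bool) (h : ¬ S.vld p v χ) :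
    nw p S μ Q d (S.dn v χ) = 0 := by
  rw [nw, Shp.up_dn _ hv, Shp.ck_dn _ hv, if_neg fun h' => h h'.2]

theorem inU {t : Tm} (ht : t ∈ S.T) (χz : ℕ) :
    ∑ χx ∈ range p.A, (S.M p).ms (S.chU t χx χz) * nw p S μ Q true (S.dn t.x χx) =
      if S.vld p t.z χz ∧ p.cl true χz = nl S t then hm p S t (p.cb χz) * FT p S μ Q t else 0 := by
  simp only [ms_chU C.wf ht]
  by_cases h0 : S.ms t = 0
  · simp [h0, hm]
  have hx := (C.wf.tm t ht).x_lt
  rw [FT, ← C.inS hx (nl_le C.wf C.hk ht h0) (vF_nl C.wf C.hk ht h0), mul_sum, ← sum_ite_irrel']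
  refine sum_congr rfl fun χ _ => ?_
  by_cases h1 : S.vld p t.x χ
  · by_cases h2 : S.prd p t <;> simp [Shp.okU, h1, h2, hm, nl, ite_and] <;> split_ifs <;> rfl
  · simp [nw_vld hx _ h1]

theorem inM {e : Tm × Tm} (he : e ∈ pairs S.T S.T) (χz : ℕ) :
    ∑ χx ∈ range p.A, (S.M p).ms (S.chM e.1 e.2 χx χz) * nw p S μ Q true (S.dn e.1.x χx) =
      if (S.en p e.1 ∧ S.prd p e.2) ∧ S.vld p e.2.z χz ∧ p.cl true χz = ml S e then
        S.ms e.1 * S.ms e.2 / 2 * FT p S μ Q e.1 else 0 := by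
  simp only [ms_chM C.wf he]
  by_cases h0 : S.ms e.1 * S.ms e.2 = 0
  · simp [h0]
  by_cases hp : S.en p e.1 ∧ S.prd p e.2
  swap
  · rw [if_neg fun h => hp h.1]
    exact sum_eq_zero fun χ _ => by rw [if_neg fun h => hp ⟨h.2.2.2.1, h.2.2.2.2.1⟩, zero_mul]
  obtain ⟨h1, h2⟩ := mem_product.1 (mem_filter.1 he).1
  have hx := (C.wf.tm _ h1).x_lt
  rw [FT, ← C.inS hx (ml_le C.wf C.hk h1 h2 h0) (vF_ml C.wf C.hk h1 h2 h0 hp.1 _), mul_sum,
    ← sum_ite_irrel']
  refine sum_congr rfl fun χ _ => ?_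
  by_cases h1 : S.vld p e.1.x χ
  · by_cases h2 : S.prd p e.1 <;> simp [Shp.okM, h1, h2, hp, ml, ite_and] <;> split_ifs <;> rfl
  · simp [nw_vld hx _ h1]

theorem outU {t : Tm} (ht : t ∈ S.T) (χx : ℕ) :
    ∑ χz ∈ range p.A, (S.M p).ms (S.chU t χx χz) * nw p S μ Q false (S.dn t.z χz) =
      if S.vld p t.x χx ∧ (p.cl false χx, p.cb χx) = (nl S t, decide (S.prd p t)) then
        S.ms t * GG p S μ t else 0 := by
  simp only [ms_chU C.wf ht]
  by_cases h0 : S.ms t = 0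
  · simp [h0]
  have hz := (C.wf.tm t ht).z_lt
  have e := C.outS hz (nl_le C.wf C.hk ht h0) (vT_nl C.wf C.hk ht h0) (hm p S t)
  have e2 : hm p S t false * S.al false t.z + ∑ u ∈ S.T with u.x = t.z,
      hm p S t (decide (S.prd p u)) * (S.ms u * μ false u.z) = S.ms t * GG p S μ t := by
    rw [GG, C.potF t.z, PP, sum_div, mul_sub, mul_add, mul_sum, add_sub_assoc, sum_filter,
      sum_filter, sum_filter]
    by_cases h2 : S.en p t
    · simp only [h2, if_true, mul_sum, ← sum_sub_distrib]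
      refine congrArg₂ _ (by simp [hm]) (sum_congr rfl fun u _ => ?_)
      by_cases h3 : u.x = t.z <;> by_cases h4 : S.prd p u <;> simp [hm, h2, h3, h4]
      ring
    · simp [hm, h2]
  rw [← e2, ← e, ← sum_ite_irrel']
  refine sum_congr rfl fun χ _ => ?_
  by_cases h1 : S.vld p t.z χ
  · by_cases h2 : S.prd p t <;> simp [Shp.okU, h1, h2, hm, nl, ite_and] <;> split_ifs <;> rfl
  · simp [nw_vld hz _ h1]

theorem outM {e : Tm × Tm} (he : e ∈ pairs S.T S.T) (χx : ℕ) :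
    ∑ χz ∈ range p.A, (S.M p).ms (S.chM e.1 e.2 χx χz) * nw p S μ Q false (S.dn e.2.z χz) =
      if (S.en p e.1 ∧ S.prd p e.2) ∧ S.vld p e.1.x χx ∧
        (p.cl false χx, p.cb χx) = (ml S e, decide (S.prd p e.1)) then
        S.ms e.1 * S.ms e.2 / 2 * μ false e.2.z else 0 := by
  simp only [ms_chM C.wf he]
  by_cases h0 : S.ms e.1 * S.ms e.2 = 0
  · simp [h0]
  by_cases hp : S.en p e.1 ∧ S.prd p e.2
  swap
  · rw [if_neg fun h => hp h.1]
    exact sum_eq_zero fun χ _ => by rw [if_neg fun h => hp ⟨h.2.2.2.1, h.2.2.2.2.1⟩, zero_mul]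
  obtain ⟨h1, h2⟩ := mem_product.1 (mem_filter.1 he).1
  have hz := (C.wf.tm _ h2).z_lt
  have e1 := C.outS hz (ml_le C.wf C.hk h1 h2 h0) (vT_ml C.wf C.hk h1 h2 h0 hp.2) fun _ => 1
  simp only [one_mul] at e1
  rw [C.potF e.2.z, ← e1, mul_sum, ← sum_ite_irrel']
  refine sum_congr rfl fun χ _ => ?_
  by_cases h1 : S.vld p e.2.z χ
  · by_cases h3 : p.cl true χ = max (S.lam e.1) (S.lam e.2) <;> by_cases h2 : S.prd p e.1 <;>
      simp [Shp.okM, h1, h2, h3, hp, ml, ite_and] <;> split_ifs <;> rfl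
  · simp [nw_vld hz _ h1]

theorem nw0 (d : Bool) (v : ℕ) : 0 ≤ nw p S μ Q d v := by
  unfold nw
  split_ifs
  exacts [C.fT0 _ _ _, C.fF0 _ _, le_rfl]

theorem eqT (v : ℕ) : nw p S μ Q true v = (S.M p).al true v +
    ∑ t ∈ (S.M p).T with t.z = v, (S.M p).ms t * nw p S μ Q true t.x := by
  rw [sum_filter, sum_M C.wf]
  have e1 : ∀ t ∈ S.T, (∑ χx ∈ range p.A, ∑ χz ∈ range p.A, if S.dn t.z χz = v then
      (S.M p).ms (S.chU t χx χz) * nw p S μ Q true (S.dn t.x χx) else 0) =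
      if S.ck v < p.A ∧ S.vld p (S.up v) (S.ck v) then (if t.z = S.up v ∧ p.cl true (S.ck v) = nl S t
        then hm p S t (p.cb (S.ck v)) * FT p S μ Q t else 0) else 0 := fun t ht => by
    rw [sum_comm]
    simp only [sum_ite_irrel', C.inU ht]
    rw [sum_dn (C.wf.tm t ht).z_lt]
    by_cases h1 : t.z = S.up v <;> simp [h1, ite_and]
  have e2 : ∀ e ∈ pairs S.T S.T, (∑ χx ∈ range p.A, ∑ χz ∈ range p.A, if S.dn e.2.z χz = v then
      (S.M p).ms (S.chM e.1 e.2 χx χz) * nw p S μ Q true (S.dn e.1.x χx) else 0) =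
      if S.ck v < p.A ∧ S.vld p (S.up v) (S.ck v) then (if S.en p e.1 ∧ S.prd p e.2 then
        (if e.2.z = S.up v ∧ p.cl true (S.ck v) = ml S e then
          S.ms e.1 * S.ms e.2 / 2 * FT p S μ Q e.1 else 0) else 0) else 0 := fun e he => by
    rw [sum_comm]
    simp only [sum_ite_irrel', C.inM he]
    rw [sum_dn (C.wf.tm _ (mem_product.1 (mem_filter.1 he).1).2).z_lt]
    by_cases h1 : e.2.z = S.up v <;> by_cases h2 : S.en p e.1 ∧ S.prd p e.2 <;>
      simp [h1, h2, ite_and]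
  refine Eq.trans ?_ (congrArg _ (congrArg₂ _ (sum_congr rfl e1) (sum_congr rfl e2)).symm)
  rw [sum_ite_irrel', sum_ite_irrel', ← sum_filter (s := pairs S.T S.T), nw]
  simp only [Sys.M, ck_lt]
  split_ifs
  · rw [fT, add_assoc, mp]
  · simp

theorem eqF (v : ℕ) : nw p S μ Q false v = (S.M p).al false v +
    ∑ t ∈ (S.M p).T with t.x = v, (S.M p).ms t * nw p S μ Q false t.z := by
  rw [sum_filter, sum_M C.wf]
  have e1 : ∀ t ∈ S.T, (∑ χx ∈ range p.A, ∑ χz ∈ range p.A, if S.dn t.x χx = v then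
      (S.M p).ms (S.chU t χx χz) * nw p S μ Q false (S.dn t.z χz) else 0) =
      if S.ck v < p.A ∧ S.vld p (S.up v) (S.ck v) then (if t.x = S.up v ∧
        (p.cl false (S.ck v), p.cb (S.ck v)) = (nl S t, decide (S.prd p t))
        then S.ms t * GG p S μ t else 0) else 0 := fun t ht => by
    simp only [sum_ite_irrel', C.outU ht]
    rw [sum_dn (C.wf.tm t ht).x_lt]
    by_cases h1 : t.x = S.up v <;> simp [h1, ite_and]
  have e2 : ∀ e ∈ pairs S.T S.T, (∑ χx ∈ range p.A, ∑ χz ∈ range p.A, if S.dn e.1.x χx = v then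
      (S.M p).ms (S.chM e.1 e.2 χx χz) * nw p S μ Q false (S.dn e.2.z χz) else 0) =
      if S.ck v < p.A ∧ S.vld p (S.up v) (S.ck v) then (if S.en p e.1 ∧ S.prd p e.2 then
        (if e.1.x = S.up v ∧ (p.cl false (S.ck v), p.cb (S.ck v)) = (ml S e, decide (S.prd p e.1))
          then S.ms e.1 * S.ms e.2 / 2 * μ false e.2.z else 0) else 0) else 0 := fun e he => by
    simp only [sum_ite_irrel', C.outM he]
    rw [sum_dn (C.wf.tm _ (mem_product.1 (mem_filter.1 he).1).1).x_lt]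
    by_cases h1 : e.1.x = S.up v <;> by_cases h2 : S.en p e.1 ∧ S.prd p e.2 <;>
      simp [h1, h2, ite_and]
  refine Eq.trans ?_ (congrArg _ (congrArg₂ _ (sum_congr rfl e1) (sum_congr rfl e2)).symm)
  rw [sum_ite_irrel', sum_ite_irrel', ← sum_filter (s := pairs S.T S.T), nw]
  simp only [Sys.M, ck_lt, Bool.false_eq_true, if_false, fF, mp]
  split_ifs
  · rw [add_assoc]
  · simp

theorem pot_nw : (S.M p).Pot (nw p S μ Q) := fun d v => ⟨C.nw0 d v, by
  cases d
  exacts [C.eqF v, C.eqT v]⟩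

end Ctx

end Vale.Agent.P313.NL.IM2
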