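import Vale.Agent.P313.NL.MDef
import Vale.Agent.P313.NL.E2

/-! The atomic functions of the machine. -/

namespace Vale.Agent.P313.NL

open Finset Vale.Agent.Lib.Space
open scoped Classical

variable {α : Type} {C : Cx α} {body : PN → Pg α Arg} {a : α} {s lg eb X : ℕ} {L : Lv}
  {A : Type} [Enc A α] {B : Bud A}

theorem Cx.pw_eq (h : C.Fits a lg) {e : ℕ} (he : e ≤ C.Pm a) : C.pw a e = 2 ^ e :=
  Full.cpow_eq (h.cap_eq ▸ Nat.pow_le_pow_right (by norm_num) he)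

theorem Cx.Fits.m_le (h : C.Fits a lg) : (C.p a).m ≤ C.Pm a := by
  have := h.Pm_ge
  omega

theorem Cx.Fits.lg_le (h : C.Fits a lg) : lg ≤ C.Pm a := by
  have := h.Pm_ge
  omega

theorem Cx.Fits.P_le (h : C.Fits a lg) : (C.p a).P ≤ C.Pm a := by
  have := h.Pm_ge
  omega

theorem Cx.pw_m (h : C.Fits a lg) : C.pw a (C.p a).m = 2 ^ (C.p a).m := Cx.pw_eq h h.m_le

theorem Cx.pw_mh (h : C.Fits a lg) : C.pw a (C.p a).mh = 2 ^ (C.p a).mh :=
  Cx.pw_eq h (le_trans (by unfold Par.m; omega) h.m_le)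

theorem Cx.pw_P (h : C.Fits a lg) : C.pw a (C.p a).P = 2 ^ (C.p a).P := Cx.pw_eq h h.P_le

theorem Cx.pw_A (h : C.Fits a lg) : C.pw a (C.p a).W = (C.p a).A :=
  Cx.pw_eq h (h.small.W_le.trans h.lg_le)

theorem Cx.pw_M (h : C.Fits a lg) : C.pw a (C.p a).mu = (C.p a).M :=
  Cx.pw_eq h (le_trans (by have := h.small.mu_le; omega) h.lg_le)

theorem Cx.pw_wb (h : C.Fits a lg) : C.pw a (C.p a).wb = 2 ^ (C.p a).wb :=
  Cx.pw_eq h (h.small.wb_le.trans h.lg_le)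

theorem leaf_shp_q (p : Par) (s : ℕ) : (shp p s).q = p.n0 + p.W * (s - s / 6) := by
  induction s with
  | zero => simp [shp]
  | succ s ih =>
    rw [shp]
    split_ifs with h1 h2
    · rw [show s + 1 - (s + 1) / 6 = s - s / 6 + 1 by omega, mul_add, mul_one, ← add_assoc, ← ih]
      rfl
    · rw [show s + 1 - (s + 1) / 6 = s - s / 6 + 1 by omega, mul_add, mul_one, ← add_assoc, ← ih]
      rfl
    · rw [show s + 1 - (s + 1) / 6 = s - s / 6 by omega, ih]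

theorem Cx.q_eq (s : ℕ) : C.q a s = (shp (C.p a) s).q := (leaf_shp_q _ s).symm

theorem Cx.dn_eq (h : C.Fits a lg) {H : Shp} (hq : H.q ≤ (C.p a).m) (v χ : ℕ) :
    C.dn a H.q v χ = H.dn v χ := by
  rw [Cx.dn, Cx.pw_eq h (hq.trans h.m_le), Shp.dn]

theorem Cx.setc_eq (h : C.Fits a lg) {q : ℕ} (hq : q + (C.p a).W ≤ (C.p a).m) (U χ : ℕ) :
    C.setc a q U χ = (C.p a).setc q U χ := by
  rw [Cx.setc, Cx.pw_eq h (hq.trans h.m_le), Cx.pw_eq h (le_trans (by omega) h.m_le)]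
  rfl

theorem Cx.sub_eq (h : C.Fits a lg) {q : ℕ} (hq : q + (C.p a).W ≤ (C.p a).m) (e : Env)
    (χx χz : ℕ) : C.sub a q e χx χz = (C.p a).sub q e χx χz := by
  rw [Cx.sub, Cx.setc_eq h hq, Cx.setc_eq h hq, Par.sub]

theorem Cx.getc_lt (q U : ℕ) : C.getc a q U < (C.p a).A := Nat.mod_lt _ (by positivity)

theorem leaf_setc_back (p : Par) (q U : ℕ) {χ : ℕ} (h : χ < p.A) :
    p.setc q (p.setc q U χ) (U / 2 ^ q % 2 ^ p.W) = U := by
  have h1 : U % 2 ^ q < 2 ^ q := Nat.mod_lt _ (by positivity)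
  have h2 : U % 2 ^ q + 2 ^ q * χ < 2 ^ (q + p.W) := by
    have h3 : 2 ^ q * (χ + 1) ≤ 2 ^ q * 2 ^ p.W := Nat.mul_le_mul_left _ h
    rw [pow_add]
    rw [mul_add, mul_one] at h3
    omega
  have e1 : p.setc q U χ % 2 ^ q = U % 2 ^ q := by
    rw [Par.setc, pow_add, mul_assoc, Nat.add_mul_mod_self_left, Nat.add_mul_mod_self_left,
      Nat.mod_mod]
  have e2 : p.setc q U χ / 2 ^ (q + p.W) = U / 2 ^ (q + p.W) := by
    rw [Par.setc, Nat.add_mul_div_left _ _ (by positivity), Nat.div_eq_of_lt h2, zero_add]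
  rw [Par.setc, e1, e2, ← Nat.mod_mul, ← pow_add, Nat.mod_add_div]

theorem Cx.sub_back {q : ℕ} (e : Env) {χx χz : ℕ} (hx : χx < (C.p a).A) (hz : χz < (C.p a).A) :
    (C.p a).sub q ((C.p a).sub q e χx χz) (C.getc a q e.1.2.2) (C.getc a q e.2.1.2.2) = e := by
  simp only [Par.sub, Cx.getc, Full.low, Full.shr, leaf_setc_back _ _ _ hx, leaf_setc_back _ _ _ hz]

theorem Cx.xc_eq (h : C.Fits a lg) (e : Env) {D : ℕ} (hD : D ≤ (C.p a).m) (τ : ℕ) :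
    C.xc a e D τ = (C.p a).xc e D τ := by
  rw [Cx.xc, Cx.pw_eq h (hD.trans h.m_le)]
  rfl

theorem xc_xc (p : Par) (e : Env) (D τ : ℕ) : p.xc (p.xc e D τ) D τ = e := by
  simp only [Par.xc, Env.sh, Nat.xor_xor_cancel_right]

theorem v0_v0 (e : Env) : e.v0.v0 = e := by
  simp only [Env.v0, Env.sh, Nat.xor_xor_cancel_right]

theorem r1_r1 (e : Env) : e.r1.r1 = e := rfl

theorem r2_r2 (e : Env) : e.r2.r2 = e := rfl

theorem Cx.wk2_eq (h : C.Fits a lg) (t w : ℕ) (e : Env) :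
    C.wk2 a Mix.walk t w e = (C.p a).wk2 t w e := by
  rw [Cx.wk2, Cx.pw_m h]
  rfl

theorem Cx.wkAB_eq (h : C.Fits a lg) (t w : ℕ) (e : Env) :
    C.wkAB a Mix.walk t w e = (C.p a).wkAB t w e := by
  rw [Cx.wkAB, Cx.pw_mh h]
  rfl

theorem Cx.wkG_eq (h : C.Fits a lg) (t w : ℕ) (e : Env) :
    C.wkG a Mix.walk t w e = (C.p a).wkG t w e := by
  rw [Cx.wkG, Cx.pw_mh h]
  rfl

theorem Cx.wk2_back (h : C.Fits a lg) (t w : ℕ) {e : Env} (he : e.Ok (C.p a).m) :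
    C.wk2 a Mix.unwalk t w ((C.p a).wk2 t w e) = e := by
  have h1 : e.1.2.1 * 2 ^ (C.p a).m + e.2.2.2.1 < 2 ^ (C.p a).m * 2 ^ (C.p a).m := by
    have h2 : (e.1.2.1 + 1) * 2 ^ (C.p a).m ≤ 2 ^ (C.p a).m * 2 ^ (C.p a).m :=
      Nat.mul_le_mul_right _ he.a
    have h3 := he.c
    rw [add_mul, one_mul] at h2
    omega
  have h4 : (e.1.2.1 * 2 ^ (C.p a).m + e.2.2.2.1) / 2 ^ (C.p a).m = e.1.2.1 := by
    rw [add_comm, Nat.add_mul_div_right _ _ (by positivity), Nat.div_eq_of_lt he.c, zero_add]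
  have h5 : (e.1.2.1 * 2 ^ (C.p a).m + e.2.2.2.1) % 2 ^ (C.p a).m = e.2.2.2.1 := by
    rw [add_comm, Nat.add_mul_mod_self_right, Nat.mod_eq_of_lt he.c]
  simp only [Cx.wk2, Cx.pw_m h, Par.wk2, Env.sh, Nat.div_add_mod', Mix.unwalk_walk t w h1,
    Full.shr, Full.low, h4, h5]

theorem leaf_lt_mh {p : Par} {e : Env} (he : e.Ok p.m) : e.1.2.1 < 2 ^ p.mh * 2 ^ p.mh := by
  rw [← pow_add, ← two_mul]
  exact he.a

theorem leaf_xor (b a c : ℕ) : b ^^^ a ^^^ c ^^^ c ^^^ a = b := by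
  rw [Nat.xor_xor_cancel_right, Nat.xor_xor_cancel_right]

theorem Cx.wkAB_back (h : C.Fits a lg) (t w : ℕ) {e : Env} (he : e.Ok (C.p a).m) :
    C.wkAB a Mix.unwalk t w ((C.p a).wkAB t w e) = e := by
  simp only [Cx.wkAB, Cx.pw_mh h, Par.wkAB, Env.sh, Mix.unwalk_walk t w (leaf_lt_mh he), leaf_xor]

theorem Cx.wkG_back (h : C.Fits a lg) (t w : ℕ) {e : Env} (he : e.Ok (C.p a).m) :
    C.wkG a Mix.unwalk t w ((C.p a).wkG t w e) = e := by
  simp only [Cx.wkG, Cx.pw_mh h, Par.wkG, Env.sh, Mix.unwalk_walk t w (leaf_lt_mh he), leaf_xor]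

theorem Cx.vb_eq (h : C.Fits a lg) {q : ℕ} (hq : q ≤ (C.p a).m) (r : Trk) (v i : ℕ) :
    C.vb a q r v i = KH.bt (vl (C.F a) q r v) i := by
  rw [Cx.vb, Cx.pw_eq h (hq.trans h.m_le)]
  rfl

theorem agree_iff_bt {u v lo hi : ℕ} :
    agree u v lo hi ↔ ∀ i < hi, lo ≤ i → KH.bt u i = KH.bt v i := by
  refine forall_congr' fun i => forall_congr' fun _ => forall_congr' fun _ => ?_
  rw [KH.bt_eq, KH.bt_eq]
  cases u.testBit i <;> cases v.testBit i <;> simp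

end Vale.Agent.P313.NL
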