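import Vale.Agent.P313.NL.Leaf

/-! The atomic functions of the machine are computed in small space. -/

namespace Vale.Agent.P313.NL

open Finset Vale.Agent.Lib.Space
open scoped Classical

variable {α : Type} {C : Cx α} {body : PN → Pg α Arg} {a : α} {s lg eb X : ℕ} {L : Lv}
  {A : Type} [Enc A α] {B : Bud A}

/-! ### The fields of the key with a given code (irreducible, so that `fun_prop` is fast) -/

/-- the field `E` -/
@[irreducible] def kE (n : ℕ) : ℕ := (Key.dec n).E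

theorem kE_eq (n : ℕ) : kE n = (Key.dec n).E := by unfold kE; rfl

@[simp] theorem kE_code (k : Key) : kE k.code = k.E := by rw [kE_eq, Key.dec_code]

/-- the field `D` -/
@[irreducible] def kD (n : ℕ) : ℕ := (Key.dec n).D

theorem kD_eq (n : ℕ) : kD n = (Key.dec n).D := by unfold kD; rfl

@[simp] theorem kD_code (k : Key) : kD k.code = k.D := by rw [kD_eq, Key.dec_code]

/-- the field `h` -/
@[irreducible] def kh (n : ℕ) : ℕ := (Key.dec n).h

theorem kh_eq (n : ℕ) : kh n = (Key.dec n).h := by unfold kh; rfl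

@[simp] theorem kh_code (k : Key) : kh k.code = k.h := by rw [kh_eq, Key.dec_code]

/-- the field `V` -/
@[irreducible] def kV (n : ℕ) : ℕ := (Key.dec n).V

theorem kV_eq (n : ℕ) : kV n = (Key.dec n).V := by unfold kV; rfl

@[simp] theorem kV_code (k : Key) : kV k.code = k.V := by rw [kV_eq, Key.dec_code]

/-- the field `s0` -/
@[irreducible] def ks0 (n : ℕ) : ℕ := (Key.dec n).s0

theorem ks0_eq (n : ℕ) : ks0 n = (Key.dec n).s0 := by unfold ks0; rfl

@[simp] theorem ks0_code (k : Key) : ks0 k.code = k.s0 := by rw [ks0_eq, Key.dec_code]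

/-- the field `hv` -/
@[irreducible] def khv (n : ℕ) : Bool := (Key.dec n).hv

theorem khv_eq (n : ℕ) : khv n = (Key.dec n).hv := by unfold khv; rfl

@[simp] theorem khv_code (k : Key) : khv k.code = k.hv := by rw [khv_eq, Key.dec_code]

/-- the field `dbl` -/
@[irreducible] def kdbl (n : ℕ) : Bool := (Key.dec n).dbl

theorem kdbl_eq (n : ℕ) : kdbl n = (Key.dec n).dbl := by unfold kdbl; rfl

@[simp] theorem kdbl_code (k : Key) : kdbl k.code = k.dbl := by rw [kdbl_eq, Key.dec_code]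

/-! ### Small space

The lemmas have the attribute `fun_prop`; the hypothesis `hC : C.IsSP B` is found by assumption.
In programs use `kE n`, …, `kdbl n` for the fields of `Key.dec n`; with `Key.dec n` itself make
`Nat.unpair` locally irreducible, else `fun_prop` is very slow. -/

section sp

variable {β : Type} [Enc A β]

attribute [fun_prop] KH.sp_xor Mix.sp_walk Mix.sp_unwalk

section logic

variable {p q : β → Prop}

@[fun_prop]
theorem sp_decide_iff [DecidablePred p] [DecidablePred q] {i : ∀ z, Decidable (p z ↔ q z)}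
    (hp : SP B fun z => decide (p z)) (hq : SP B fun z => decide (q z)) :
    SP B fun z => @decide (p z ↔ q z) (i z) :=
  ((hp.and hq).or (hp.not.and hq.not)).congr fun z => by
    by_cases h1 : p z <;> by_cases h2 : q z <;> simp [h1, h2]

@[fun_prop]
theorem sp_decide_imp [DecidablePred p] [DecidablePred q] {i : ∀ z, Decidable (p z → q z)}
    (hp : SP B fun z => decide (p z)) (hq : SP B fun z => decide (q z)) :
    SP B fun z => @decide (p z → q z) (i z) :=
  (hp.not.or hq).congr fun z => by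
    by_cases h1 : p z <;> by_cases h2 : q z <;> simp [h1, h2]

@[fun_prop]
theorem sp_decide_beq {f g : β → Bool} {i : ∀ z, Decidable (f z = g z)} (hf : SP B f)
    (hg : SP B g) : SP B fun z => @decide (f z = g z) (i z) :=
  ((hf.and hg).or (hf.not.and hg.not)).congr fun z => by
    rw [Subsingleton.elim (i z) (instDecidableEqBool _ _)]
    cases f z <;> cases g z <;> rfl

/-- `2 ^ e < x` -/
@[fun_prop]
theorem sp_decide_pow_lt {e x : β → ℕ} (he : SP B e) (hx : SP B x) :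
    SP B fun z => decide (2 ^ e z < x z) :=
  ((SP.min_pow hx (SP.const 2) he).decide_lt hx).congr fun z => by simp

/-- `x < 2 ^ e` -/
@[fun_prop]
theorem sp_decide_lt_pow {e x : β → ℕ} (he : SP B e) (hx : SP B x) :
    SP B fun z => decide (x z < 2 ^ e z) :=
  (hx.decide_lt (SP.min_pow (hx.add (SP.const 1)) (SP.const 2) he)).congr fun z => by simp

end logic

variable {f : β → α} {x y z' u v w t i χ n : β → ℕ} {d sf : β → Bool} {e : β → Env} {r : β → Trk}

@[fun_prop]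
theorem Cx.sp_N (hC : C.IsSP B) (hf : SP B f) : SP B fun z => (C.p (f z)).N := hC.N.comp hf

@[fun_prop]
theorem Cx.sp_n0 (hC : C.IsSP B) (hf : SP B f) : SP B fun z => (C.p (f z)).n0 := hC.n0.comp hf

@[fun_prop]
theorem Cx.sp_K (hC : C.IsSP B) (hf : SP B f) : SP B fun z => (C.p (f z)).K := hC.K.comp hf

@[fun_prop]
theorem Cx.sp_mu (hC : C.IsSP B) (hf : SP B f) : SP B fun z => (C.p (f z)).mu := hC.mu.comp hf

@[fun_prop]
theorem Cx.sp_r1 (hC : C.IsSP B) (hf : SP B f) : SP B fun z => (C.p (f z)).r1 := hC.r1.comp hf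

@[fun_prop]
theorem Cx.sp_c (hC : C.IsSP B) (hf : SP B f) : SP B fun z => (C.p (f z)).c := hC.c.comp hf

@[fun_prop]
theorem Cx.sp_W1 (hC : C.IsSP B) (hf : SP B f) : SP B fun z => (C.p (f z)).W1 := hC.W1.comp hf

@[fun_prop]
theorem Cx.sp_mh (hC : C.IsSP B) (hf : SP B f) : SP B fun z => (C.p (f z)).mh := hC.mh.comp hf

@[fun_prop]
theorem Cx.sp_Kp (hC : C.IsSP B) (hf : SP B f) : SP B fun z => (C.p (f z)).Kp := hC.Kp.comp hf

@[fun_prop]
theorem Cx.sp_wb (hC : C.IsSP B) (hf : SP B f) : SP B fun z => (C.p (f z)).wb := hC.wb.comp hf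

@[fun_prop]
theorem Cx.sp_tw (hC : C.IsSP B) (hf : SP B f) : SP B fun z => (C.p (f z)).tw := hC.tw.comp hf

@[fun_prop]
theorem Cx.sp_P (hC : C.IsSP B) (hf : SP B f) : SP B fun z => (C.p (f z)).P := hC.P.comp hf

@[fun_prop]
theorem Cx.sp_m (hC : C.IsSP B) (hf : SP B f) : SP B fun z => (C.p (f z)).m := by
  unfold Par.m
  fun_prop

@[fun_prop]
theorem Cx.sp_W (hC : C.IsSP B) (hf : SP B f) : SP B fun z => (C.p (f z)).W := by
  unfold Par.W
  fun_prop

@[fun_prop]
theorem Cx.sp_Om (hC : C.IsSP B) (hf : SP B f) : SP B fun z => (C.p (f z)).Om := by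
  unfold Par.Om
  fun_prop

@[fun_prop]
theorem Cx.sp_F (hC : C.IsSP B) (hf : SP B f) (hi : SP B i) (hv : SP B v) :
    SP B fun z => C.F (f z) (i z) (v z) := hC.F.comp (hf.pair (hi.pair hv))

@[fun_prop]
theorem Cx.sp_A0 (hC : C.IsSP B) (hf : SP B f) (hu : SP B u) (hv : SP B v) :
    SP B fun z => C.A0 (f z) (u z) (v z) := hC.A0.comp (hf.pair (hu.pair hv))

@[fun_prop]
theorem Cx.sp_Pm (hC : C.IsSP B) (hf : SP B f) : SP B fun z => C.Pm (f z) := hC.Pm.comp hf

@[fun_prop]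
theorem Cx.sp_cap (hC : C.IsSP B) (hf : SP B f) : SP B fun z => C.cap (f z) := hC.cap.comp hf

@[fun_prop]
theorem Cx.sp_pw (hC : C.IsSP B) (hf : SP B f) (hx : SP B x) : SP B fun z => C.pw (f z) (x z) := by
  unfold Cx.pw
  fun_prop

@[fun_prop]
theorem Cx.sp_q (hC : C.IsSP B) (hf : SP B f) (hx : SP B x) : SP B fun z => C.q (f z) (x z) := by
  unfold Cx.q
  fun_prop

@[fun_prop]
theorem Cx.sp_shp_q (hC : C.IsSP B) (hf : SP B f) (hx : SP B x) :
    SP B fun z => (shp (C.p (f z)) (x z)).q := (Cx.sp_q hC hf hx).congr fun _ => Cx.q_eq _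

@[fun_prop]
theorem Cx.sp_dn (hC : C.IsSP B) (hf : SP B f) (hx : SP B x) (hv : SP B v) (hχ : SP B χ) :
    SP B fun z => C.dn (f z) (x z) (v z) (χ z) := by
  unfold Cx.dn
  fun_prop

@[fun_prop]
theorem Cx.sp_setc (hC : C.IsSP B) (hf : SP B f) (hx : SP B x) (hv : SP B v) (hχ : SP B χ) :
    SP B fun z => C.setc (f z) (x z) (v z) (χ z) := by
  unfold Cx.setc
  fun_prop

@[fun_prop]
theorem Cx.sp_sub (hC : C.IsSP B) (hf : SP B f) (hx : SP B x) (he : SP B e) (hu : SP B u)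
    (hv : SP B v) : SP B fun z => C.sub (f z) (x z) (e z) (u z) (v z) := by
  unfold Cx.sub
  fun_prop

@[fun_prop]
theorem Cx.sp_getc (hC : C.IsSP B) (hf : SP B f) (hx : SP B x) (hv : SP B v) :
    SP B fun z => C.getc (f z) (x z) (v z) := by
  unfold Cx.getc
  fun_prop

@[fun_prop]
theorem Env.sp_sh (he : SP B e) (hx : SP B x) (hy : SP B y) (hz : SP B z') :
    SP B fun z => (e z).sh (x z) (y z) (z' z) := by
  unfold Env.sh
  fun_prop

@[fun_prop]
theorem Env.sp_tr (he : SP B e) (hd : SP B d) : SP B fun z => (e z).tr (d z) := by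
  unfold Env.tr
  fun_prop

@[fun_prop]
theorem Env.sp_r1 (he : SP B e) : SP B fun z => (e z).r1 := by
  unfold Env.r1
  fun_prop

@[fun_prop]
theorem Env.sp_r2 (he : SP B e) : SP B fun z => (e z).r2 := by
  unfold Env.r2
  fun_prop

@[fun_prop]
theorem Env.sp_v0 (he : SP B e) : SP B fun z => (e z).v0 := by
  unfold Env.v0
  fun_prop

@[fun_prop]
theorem Cx.sp_xc (hC : C.IsSP B) (hf : SP B f) (he : SP B e) (hx : SP B x) (hy : SP B y) :
    SP B fun z => C.xc (f z) (e z) (x z) (y z) := by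
  unfold Cx.xc
  fun_prop

@[fun_prop]
theorem Cx.sp_vb (hC : C.IsSP B) (hf : SP B f) (hx : SP B x) (hr : SP B r) (hv : SP B v)
    (hi : SP B i) : SP B fun z => C.vb (f z) (x z) (r z) (v z) (i z) := by
  unfold Cx.vb
  fun_prop

@[fun_prop]
theorem Cx.sp_wk2_walk (hC : C.IsSP B) (hf : SP B f) (ht : SP B t) (hw : SP B w) (he : SP B e) :
    SP B fun z => C.wk2 (f z) Mix.walk (t z) (w z) (e z) := by
  unfold Cx.wk2
  fun_prop

@[fun_prop]
theorem Cx.sp_wk2_unwalk (hC : C.IsSP B) (hf : SP B f) (ht : SP B t) (hw : SP B w) (he : SP B e) :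
    SP B fun z => C.wk2 (f z) Mix.unwalk (t z) (w z) (e z) := by
  unfold Cx.wk2
  fun_prop

@[fun_prop]
theorem Cx.sp_wkAB_walk (hC : C.IsSP B) (hf : SP B f) (ht : SP B t) (hw : SP B w) (he : SP B e) :
    SP B fun z => C.wkAB (f z) Mix.walk (t z) (w z) (e z) := by
  unfold Cx.wkAB
  fun_prop

@[fun_prop]
theorem Cx.sp_wkAB_unwalk (hC : C.IsSP B) (hf : SP B f) (ht : SP B t) (hw : SP B w) (he : SP B e) :
    SP B fun z => C.wkAB (f z) Mix.unwalk (t z) (w z) (e z) := by
  unfold Cx.wkAB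
  fun_prop

@[fun_prop]
theorem Cx.sp_wkG_walk (hC : C.IsSP B) (hf : SP B f) (ht : SP B t) (hw : SP B w) (he : SP B e) :
    SP B fun z => C.wkG (f z) Mix.walk (t z) (w z) (e z) := by
  unfold Cx.wkG
  fun_prop

@[fun_prop]
theorem Cx.sp_wkG_unwalk (hC : C.IsSP B) (hf : SP B f) (ht : SP B t) (hw : SP B w) (he : SP B e) :
    SP B fun z => C.wkG (f z) Mix.unwalk (t z) (w z) (e z) := by
  unfold Cx.wkG
  fun_prop

section dec

attribute [local irreducible] Nat.unpair

theorem Key.sp_dec_E (hn : SP B n) : SP B fun z => (Key.dec (n z)).E :=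
  Full.sp_unpair1 (Full.sp_unpair1 hn)

theorem Key.sp_dec_D (hn : SP B n) : SP B fun z => (Key.dec (n z)).D :=
  Full.sp_unpair2 (Full.sp_unpair1 hn)

theorem Key.sp_dec_h (hn : SP B n) : SP B fun z => (Key.dec (n z)).h :=
  Full.sp_unpair1 (Full.sp_unpair1 (Full.sp_unpair2 hn))

theorem Key.sp_dec_V (hn : SP B n) : SP B fun z => (Key.dec (n z)).V :=
  Full.sp_unpair2 (Full.sp_unpair1 (Full.sp_unpair2 hn))

theorem Key.sp_dec_s0 (hn : SP B n) : SP B fun z => (Key.dec (n z)).s0 :=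
  Full.sp_unpair1 (Full.sp_unpair2 (Full.sp_unpair2 hn))

theorem Key.sp_dec_hv (hn : SP B n) : SP B fun z => (Key.dec (n z)).hv :=
  ((Full.sp_unpair2 (Full.sp_unpair2 (Full.sp_unpair2 hn))).div (SP.const 2)).decide_eq (SP.const 1)

theorem Key.sp_dec_dbl (hn : SP B n) : SP B fun z => (Key.dec (n z)).dbl :=
  ((Full.sp_unpair2 (Full.sp_unpair2 (Full.sp_unpair2 hn))).mod (SP.const 2)).decide_eq (SP.const 1)

end dec

@[fun_prop]
theorem sp_kE (hn : SP B n) : SP B fun z => kE (n z) :=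
  (Key.sp_dec_E hn).congr fun _ => (kE_eq _).symm

@[fun_prop]
theorem sp_kD (hn : SP B n) : SP B fun z => kD (n z) :=
  (Key.sp_dec_D hn).congr fun _ => (kD_eq _).symm

@[fun_prop]
theorem sp_kh (hn : SP B n) : SP B fun z => kh (n z) :=
  (Key.sp_dec_h hn).congr fun _ => (kh_eq _).symm

@[fun_prop]
theorem sp_kV (hn : SP B n) : SP B fun z => kV (n z) :=
  (Key.sp_dec_V hn).congr fun _ => (kV_eq _).symm

@[fun_prop]
theorem sp_ks0 (hn : SP B n) : SP B fun z => ks0 (n z) :=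
  (Key.sp_dec_s0 hn).congr fun _ => (ks0_eq _).symm

@[fun_prop]
theorem sp_khv (hn : SP B n) : SP B fun z => khv (n z) :=
  (Key.sp_dec_hv hn).congr fun _ => (khv_eq _).symm

@[fun_prop]
theorem sp_kdbl (hn : SP B n) : SP B fun z => kdbl (n z) :=
  (Key.sp_dec_dbl hn).congr fun _ => (kdbl_eq _).symm

theorem Key.sp_code {k : β → Key} (h1 : SP B fun z => (k z).E) (h2 : SP B fun z => (k z).D)
    (h3 : SP B fun z => (k z).h) (h4 : SP B fun z => (k z).V) (h5 : SP B fun z => (k z).s0)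
    (h6 : SP B fun z => (k z).hv) (h7 : SP B fun z => (k z).dbl) : SP B fun z => (k z).code := by
  unfold Key.code
  fun_prop

@[fun_prop]
theorem Key.sp_code_mk (h1 : SP B x) (h2 : SP B y) (h3 : SP B u) (h4 : SP B v) (h5 : SP B w)
    (h6 : SP B d) (h7 : SP B sf) :
    SP B fun z => Key.code ⟨x z, y z, u z, v z, w z, d z, sf z⟩ :=
  Key.sp_code h1 h2 h3 h4 h5 h6 h7

theorem Key.sp_code_sgl (hx : SP B x) : SP B fun z => (sgl (x z)).code :=
  Key.sp_code hx (SP.const 0) (SP.const 0) (SP.const 0) (SP.const 0) (SP.const false)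
    (SP.const false)

theorem Key.sp_code_dec (hn : SP B n) : SP B fun z => (Key.dec (n z)).code :=
  Key.sp_code (Key.sp_dec_E hn) (Key.sp_dec_D hn) (Key.sp_dec_h hn) (Key.sp_dec_V hn)
    (Key.sp_dec_s0 hn) (Key.sp_dec_hv hn) (Key.sp_dec_dbl hn)

@[fun_prop]
theorem Cx.sp_ht (hC : C.IsSP B) (hf : SP B f) (hv : SP B v) :
    SP B fun z => (C.p (f z)).ht (v z) := Full.sp_low hv (Cx.sp_n0 hC hf)

@[fun_prop]
theorem Cx.sp_tp (hC : C.IsSP B) (hf : SP B f) (hd : SP B d) (hv : SP B v) :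
    SP B fun z => (C.p (f z)).tp (d z) (v z) := by
  unfold Par.tp
  fun_prop

@[fun_prop]
theorem Cx.sp_cu (hC : C.IsSP B) (hf : SP B f) (hχ : SP B χ) :
    SP B fun z => (C.p (f z)).cu (χ z) := Full.sp_shr hχ (Cx.sp_W1 hC hf)

@[fun_prop]
theorem Cx.sp_cj (hC : C.IsSP B) (hf : SP B f) (hχ : SP B χ) :
    SP B fun z => (C.p (f z)).cj (χ z) := Full.sp_low hχ (Cx.sp_W1 hC hf)

@[fun_prop]
theorem Cx.sp_flg (hC : C.IsSP B) (hf : SP B f) (hs : SP B sf) (hχ : SP B χ) :
    SP B fun z => (C.p (f z)).flg (sf z) (χ z) :=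
  hs.and (sp_decide_pow_lt (Cx.sp_r1 hC hf) (Cx.sp_cu hC hf hχ))

@[fun_prop]
theorem Cx.sp_rs (hC : C.IsSP B) (hf : SP B f) (hs : SP B sf) (hχ : SP B χ) :
    SP B fun z => (C.p (f z)).rs (sf z) (χ z) := by
  unfold Par.rs
  fun_prop

@[fun_prop]
theorem Cx.sp_cl (hC : C.IsSP B) (hf : SP B f) (hd : SP B d) (hχ : SP B χ) :
    SP B fun z => (C.p (f z)).cl (d z) (χ z) := by
  unfold Par.cl
  fun_prop

@[fun_prop]
theorem Cx.sp_cb (hC : C.IsSP B) (hf : SP B f) (hχ : SP B χ) :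
    SP B fun z => (C.p (f z)).cb (χ z) := by
  unfold Par.cb
  fun_prop

@[fun_prop]
theorem Cx.sp_up (hC : C.IsSP B) (hf : SP B f) (hx : SP B x) (hv : SP B v) :
    SP B fun z => (shp (C.p (f z)) (x z)).up (v z) := Full.sp_low hv (Cx.sp_shp_q hC hf hx)

@[fun_prop]
theorem Cx.sp_ck (hC : C.IsSP B) (hf : SP B f) (hx : SP B x) (hv : SP B v) :
    SP B fun z => (shp (C.p (f z)) (x z)).ck (v z) := Full.sp_shr hv (Cx.sp_shp_q hC hf hx)

@[fun_prop]
theorem Cx.sp_cks (hC : C.IsSP B) (hf : SP B f) (hx : SP B x) (hd : SP B d) (hv : SP B v)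
    (hχ : SP B χ) : SP B fun z => Lv.cks (shp (C.p (f z)) (x z)) (d z) (v z) (χ z) := by
  unfold Lv.cks
  fun_prop

/-- The name at the level `k` below the name `v` at the level `s`. -/
def leaf_anc (p : Par) (s v k : ℕ) : ℕ :=
  Full.low v (if k - k / 6 < s - s / 6 then p.n0 + p.W * (k - k / 6) else v)

theorem leaf_anc_self (p : Par) (s v : ℕ) : leaf_anc p s v s = v := by
  rw [leaf_anc, if_neg (lt_irrefl _)]
  exact Nat.mod_eq_of_lt Nat.lt_two_pow_self

theorem leaf_anc_le (p : Par) (s v k : ℕ) : leaf_anc p s v k ≤ v := Nat.mod_le _ _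

theorem leaf_anc_up (p : Par) (v : ℕ) {s k : ℕ} (hk : k < s) (h : k % 6 ≠ 5) :
    (shp p k).up (leaf_anc p s v (k + 1)) = leaf_anc p s v k := by
  rw [Shp.up, leaf_shp_q, leaf_anc, leaf_anc, if_pos (show k - k / 6 < s - s / 6 by omega)]
  split_ifs with h1
  · exact Nat.mod_mod_of_dvd _ (pow_dvd_pow _ (Nat.add_le_add_left
      (Nat.mul_le_mul_left _ (by omega)) _))
  · rw [Full.low, Nat.mod_eq_of_lt (Nat.lt_two_pow_self (n := v))]
    rfl

theorem leaf_anc_same (p : Par) (s v : ℕ) {k : ℕ} (h : k % 6 = 5) :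
    leaf_anc p s v (k + 1) = leaf_anc p s v k := by
  rw [leaf_anc, leaf_anc, show k + 1 - (k + 1) / 6 = k - k / 6 by omega]

/-- One step for the flag. -/
def leaf_stF (p : Par) (s v : ℕ) (d : Bool) (k : ℕ) (b : Bool) : Bool :=
  if k % 6 < 4 then b || (decide (d = decide (k % 6 < 2)) && p.flg (decide (k % 2 = 0))
    (Full.shr (leaf_anc p s v (k + 1)) (p.n0 + p.W * (k - k / 6))))
  else if k % 6 = 4 then false else b

/-- One step for the level. -/
def leaf_stL (p : Par) (s v : ℕ) (d : Bool) (k l : ℕ) : ℕ :=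
  if k % 6 = 4 then p.cl d (Full.shr (leaf_anc p s v (k + 1)) (p.n0 + p.W * (k - k / 6))) else l

theorem leaf_fl (p : Par) (s v : ℕ) (d : Bool) {k : ℕ} (hk : k ≤ s) :
    Nat.rec (motive := fun _ => Bool) false (leaf_stF p s v d) k =
      (shp p k).fl d (leaf_anc p s v k) := by
  induction k with
  | zero => rfl
  | succ k ih =>
    rw [Nat.rec_add_one, ih (by omega), shp, leaf_stF, ← leaf_shp_q]
    split_ifs with h1 h2
    · rw [← leaf_anc_up p v hk (by omega)]
      rfl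
    · rfl
    · rw [leaf_anc_same p s v (by omega)]

theorem leaf_lv (p : Par) (s v : ℕ) (d : Bool) {k : ℕ} (hk : k ≤ s) :
    Nat.rec (motive := fun _ => ℕ) 0 (leaf_stL p s v d) k =
      (shp p k).lv d (leaf_anc p s v k) := by
  induction k with
  | zero => rfl
  | succ k ih =>
    rw [Nat.rec_add_one, ih (by omega), shp, leaf_stL, ← leaf_shp_q]
    by_cases h1 : k % 6 < 4
    · rw [if_neg (by omega), if_pos h1, ← leaf_anc_up p v hk (by omega)]
      rfl
    · rw [if_neg h1]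
      split_ifs with h2
      · rfl
      · rw [leaf_anc_same p s v (by omega)]

theorem leaf_cl_le (p : Par) (d : Bool) (χ : ℕ) : p.cl d χ ≤ χ := by
  unfold Par.cl
  split_ifs
  · exact Nat.div_le_self _ _
  · exact (Nat.div_le_self _ _).trans (Nat.mod_le _ _)

theorem leaf_lv_le (p : Par) (s v : ℕ) (d : Bool) (k : ℕ) :
    Nat.rec (motive := fun _ => ℕ) 0 (leaf_stL p s v d) k ≤ v := by
  induction k with
  | zero => exact Nat.zero_le _
  | succ k ih =>
    rw [Nat.rec_add_one, leaf_stL]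
    split_ifs
    · exact (leaf_cl_le _ _ _).trans ((Nat.div_le_self _ _).trans (leaf_anc_le _ _ _ _))
    · exact ih

@[fun_prop]
theorem leaf_sp_anc (hC : C.IsSP B) (hf : SP B f) (hx : SP B x) (hv : SP B v) (hy : SP B y) :
    SP B fun z => leaf_anc (C.p (f z)) (x z) (v z) (y z) := by
  unfold leaf_anc
  fun_prop

@[fun_prop]
theorem Cx.sp_fl (hC : C.IsSP B) (hf : SP B f) (hx : SP B x) (hd : SP B d) (hv : SP B v) :
    SP B fun z => (shp (C.p (f z)) (x z)).fl (d z) (v z) := by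
  refine (SP.natRec (step := fun z => leaf_stF (C.p (f z)) (x z) (v z) (d z)) hx (SP.const false)
    ?_ (PBd.const 1) fun _ _ _ _ _ => Bool.toNat_le _).congr fun z => ?_
  · unfold leaf_stF
    fun_prop
  · rw [leaf_fl _ _ _ _ le_rfl, leaf_anc_self]

@[fun_prop]
theorem Cx.sp_lv (hC : C.IsSP B) (hf : SP B f) (hx : SP B x) (hd : SP B d) (hv : SP B v) :
    SP B fun z => (shp (C.p (f z)) (x z)).lv (d z) (v z) := by
  refine (SP.natRec (step := fun z => leaf_stL (C.p (f z)) (x z) (v z) (d z)) hx (SP.const 0)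
    ?_ hv.pbd fun _ _ _ _ _ => leaf_lv_le _ _ _ _ _).congr fun z => ?_
  · unfold leaf_stL
    fun_prop
  · rw [leaf_lv _ _ _ _ le_rfl, leaf_anc_self]

/-- `Shp.vs` as a test -/
def leaf_vs (p : Par) (H : Shp) (d : Bool) (v χ : ℕ) : Bool :=
  bif p.tp d v then decide (p.cl d χ = 0) && (d || !p.cb χ)
  else bif H.fl d v then decide (p.cl d χ = H.lv d v + 1) && (d || !p.cb χ)
  else decide (H.lv d v ≤ p.cl d χ) && decide (p.cl d χ ≤ p.K)

theorem leaf_vs_iff (p : Par) (H : Shp) (d : Bool) (v χ : ℕ) :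
    leaf_vs p H d v χ = true ↔ H.vs p d v χ := by
  unfold leaf_vs Shp.vs
  cases p.tp d v <;> cases H.fl d v <;> cases d <;> simp

@[fun_prop]
theorem Cx.sp_vs (hC : C.IsSP B) {j : ∀ z, Decidable ((shp (C.p (f z)) (x z)).vs (C.p (f z)) (d z)
    (v z) (χ z))} (hf : SP B f) (hx : SP B x) (hd : SP B d) (hv : SP B v) (hχ : SP B χ) :
    SP B fun z => @decide ((shp (C.p (f z)) (x z)).vs (C.p (f z)) (d z) (v z) (χ z)) (j z) := by
  have h : SP B fun z => leaf_vs (C.p (f z)) (shp (C.p (f z)) (x z)) (d z) (v z) (χ z) := by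
    unfold leaf_vs
    fun_prop
  exact h.congr fun z => Bool.eq_iff_iff.2 (by rw [leaf_vs_iff, decide_eq_true_iff])

@[fun_prop]
theorem Cx.sp_vld (hC : C.IsSP B) {j : ∀ z, Decidable ((shp (C.p (f z)) (x z)).vld (C.p (f z))
    (v z) (χ z))} (hf : SP B f) (hx : SP B x) (hv : SP B v) (hχ : SP B χ) :
    SP B fun z => @decide ((shp (C.p (f z)) (x z)).vld (C.p (f z)) (v z) (χ z)) (j z) :=
  ((Cx.sp_vs hC (j := fun _ => Classical.propDecidable _) hf hx (SP.const true) hv hχ).and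
    (Cx.sp_vs hC (j := fun _ => Classical.propDecidable _) hf hx (SP.const false) hv hχ)).congr
    fun z => Bool.eq_iff_iff.2 (by
      rw [Bool.and_eq_true, decide_eq_true_iff, decide_eq_true_iff, decide_eq_true_iff, Shp.vld])

end sp

end Vale.Agent.P313.NL
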