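import Vale.Agent.P313.NL.Leaf

/-! Calls of the procedures, tests, and the telescoping sum. -/

namespace Vale.Agent.P313.NL

open Finset Vale.Agent.Lib.Space
open scoped Classical

variable {α : Type} {C : Cx α} {body : PN → Pg α Arg} {a : α} {s lg eb X : ℕ} {L : Lv}
  {A : Type} [Enc A α] {B : Bud A}

section defs

variable {Γ : Type}

/-- Call `key` with the level, budget, end and rank `x`. -/
def cKey (x : α → Γ → Cd) : Pg α Γ :=
  .call .key fun a γ => ((x a γ).1, (x a γ).2.1, (x a γ).2.2.1, (x a γ).2.2.2, 0, 0)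
/-- Call `mv`. -/
def cMv (x : α → Γ → Cd) : Pg α Γ :=
  .call .mv fun a γ => ((x a γ).1, (x a γ).2.1, (x a γ).2.2.1, (x a γ).2.2.2, 0, 0)
/-- Call `mid` with the query `i`. -/
def cMid (x : α → Γ → Cd) (i : α → Γ → ℕ) : Pg α Γ :=
  .call .mid fun a γ => ((x a γ).1, (x a γ).2.1, (x a γ).2.2.1, (x a γ).2.2.2, i a γ, 0)
/-- Call `wt`. -/
def cWt (x : α → Γ → Cd) : Bg α Γ :=
  Nd.call .wt fun a z => ((x a z.1).1, (x a z.1).2.1, (x a z.1).2.2.1, (x a z.1).2.2.2, z.2, 0)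
/-- Call `al` (the rank is not used). -/
def cAl (x : α → Γ → Cd) : Bg α Γ :=
  Nd.call .al fun a z => ((x a z.1).1, (x a z.1).2.1, (x a z.1).2.2.1, 0, z.2, 0)
/-- Run `y` at the other end of a term and come back. -/
def atFar (x : α → Γ → Cd) (y : Pg α Γ) : Pg α Γ :=
  Nd.via (cMv x) (.map (fun _ z => z.1) y)
    (cMv fun a z => ((x a z.1).1, (x a z.1).2.1, 1 - (x a z.1).2.2.1, z.2))
/-- Run `y` in a changed state; `g` undoes the change `f`. -/
def inSt (f g : α → GS → Γ → GS) (y : Pg α Γ) : Pg α Γ :=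
  Nd.via (.act f) (.map (fun _ z => z.1) y) (.act fun a s z => g a s z.1)
/-- One if the programs `u` and `v` return the same values for all `i ∈ [lo, hi)`, else zero. -/
def agreeP (lo hi : α → Γ → ℕ) (u v : Pg α (Γ × ℕ)) : Pg α Γ :=
  .seq (Nd.sum hi (.ite (fun a _ z => decide (lo a z.1 ≤ z.2))
    (Nd.two (fun s t => if s = t then 0 else 1) u v) (.val fun _ _ _ => 0)))
    (.val fun _ _ z => if z.2 = 0 then 1 else 0)
/-- The part of the telescoping sum for the length `l` (in the context) with words of `l + b`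
blocks. -/
def ma_part (C : Cx α) (b : ℕ) (gd : Pg α (Γ × ℕ)) (f : Bg α (Γ × ℕ × ℕ × ℕ × ℕ)) :
    Bg α (Γ × ℕ) :=
  Big.bind gd (Big.ite (fun _ _ z => decide (z.2 = 0)) (Big.val fun _ _ _ => 0)
    (Big.shr C.Pm (fun _ z => 2 * Mix.t0 * (z.1.2 + b))
      (Big.sum (fun a z => C.pw a (2 * Mix.t0 * (z.1.2 + b)))
        (Big.map (fun _ z => (z.1.1.1, z.1.1.2, z.1.2, z.1.1.2 + b, z.2)) f))))
/-- The telescoping sum. `gd` (context: `l`) returns zero if the length `l` is not used, else a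
number `h` (a handle). `f0` is the first term; `f` has the context `l, h, l', w` with `l' = l` or
`l' = l + 1` and a word `w < 4 ^ (t0 * l')`. -/
def telP (C : Cx α) (jj : α → Γ → ℕ) (gd : Pg α (Γ × ℕ)) (f0 : Bg α Γ)
    (f : Bg α (Γ × ℕ × ℕ × ℕ × ℕ)) : Bg α Γ :=
  Big.sub C.Pm (Big.add f0 (Big.sum jj (ma_part C 1 gd f))) (Big.sum jj (ma_part C 0 gd f))

end defs

variable {Γ : Type} {γ : Γ} {x : α → Γ → Cd} {q j v r k k' : ℕ} {e : Env} {d : Bool} {t : Tm}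
  {κ : ℕ → ℕ} {g g' : GS}

theorem ma_lg (hf : C.Fits a lg) : 4 ≤ lg := by
  have := hf.small.c_le
  have := hf.small.c_pos
  omega

theorem ma_arg (hf : C.Fits a lg) (hs : s ≤ 6 * (C.p a).K) (hj : j ≤ (C.p a).P)
    (hr : r < (C.p a).Kp) {i u : ℕ} (hu : lg ≤ u) (hi : i < 2 ^ u) :
    Arg.Lt (s, j, d.toNat, r, i, 0) u := by
  have h1 := hf.small.K_le
  have h2 := hf.small.P_le
  have h3 := hf.small.Kp_le
  have h4 := hf.small.Kp_ge
  have h5 : 2 ^ lg ≤ 2 ^ u := Nat.pow_le_pow_right two_pos hu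
  have h6 := d.toNat_le
  refine ⟨?_, ?_, ?_, ?_, hi, ?_⟩ <;> dsimp only <;> omega

theorem ma_rank (ht : L.nb (C.p a) j e d v r = some t) (d' : Bool) :
    rank (L.V j e) d' t < (C.p a).Kp := (mem_filter.1 (Lv.nb_eq_some.1 ht).1).2 d'

theorem ma_r (ht : L.nb (C.p a) j e d v r = some t) : r < (C.p a).Kp :=
  (Lv.nb_eq_some.1 ht).2.2 ▸ ma_rank ht d

theorem ev_cKey (hf : C.Fits a lg) (h : SpecN C body a s q L κ) (hs : s ≤ 6 * (C.p a).K)
    (hx : x a γ = (s, j, d.toNat, r)) (hj : j ≤ (C.p a).P) (he : e.Ok (C.p a).m) (hv : v < 2 ^ q)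
    (hr : r < (C.p a).Kp) (hk : κ j + lg + 2 ≤ k) : Ev body a (C.ok a) (cKey x) γ (v, e) (v, e)
      (kc (L.nb (C.p a) j e d v r)) k := by
  refine .call (k' := κ j) lg ?_ ?_ (by omega) <;> simp only [hx]
  · exact ma_arg hf hs hj hr le_rfl (by positivity)
  · exact h.key j hj e he d v r hv hr

theorem ev_cMv (hf : C.Fits a lg) (h : SpecN C body a s q L κ) (hs : s ≤ 6 * (C.p a).K)
    (hx : x a γ = (s, j, d.toNat, r)) (hj : j ≤ (C.p a).P) (he : e.Ok (C.p a).m)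
    (ht : L.nb (C.p a) j e d v r = some t) (hk : κ j + lg + 2 ≤ k) :
    Ev body a (C.ok a) (cMv x) γ (v, e) (t.ep !d, e) (rank (L.V j e) (!d) t) k := by
  refine .call (k' := κ j) lg ?_ ?_ (by omega) <;> simp only [hx]
  · exact ma_arg hf hs hj (ma_r ht) le_rfl (by positivity)
  · exact h.mv j hj e he d v r t ht

theorem ev_cMid (hf : C.Fits a lg) (h : SpecN C body a s q L κ) (hs : s ≤ 6 * (C.p a).K)
    (hx : x a γ = (s, j, d.toNat, r)) (hj : j ≤ (C.p a).P) (he : e.Ok (C.p a).m)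
    (ht : L.nb (C.p a) j e d v r = some t) (hd : t.k.dbl = true) {i : α → Γ → ℕ} {b : ℕ}
    (hb : b < (C.p a).m) (hk : κ j + lg + 3 ≤ k) :
    (i a γ = 2 * b → Ev body a (C.ok a) (cMid x i) γ (v, e) (v, e) (KH.bt t.y b) k) ∧
    (i a γ = 2 * b + 1 → Ev body a (C.ok a) (cMid x i) γ (v, e) (v, e)
      (KH.bt (C.F a e.2.2.1 (ext t.k.s0 t.y e.2.2.2.2)) b) k) := by
  have h1 := hf.small.m_le
  have h2 := h.mid j hj e he d v r t ht hd b hb
  refine ⟨fun hi => ?_, fun hi => ?_⟩ <;>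
    refine .call (k' := κ j) (lg + 1) ?_ ?_ (by omega) <;> simp only [hx, hi]
  · exact ma_arg hf hs hj (ma_r ht) (by omega) (by omega)
  · exact h2.1
  · exact ma_arg hf hs hj (ma_r ht) (by omega) (by omega)
  · exact h2.2

theorem ev_cWt {wm : ℕ} (hf : C.Fits a lg) (h : SpecW C body a s q L κ) (hs : s ≤ 6 * (C.p a).K)
    (hw : L.WF (C.p a) (C.F a) q eb wm) (hwm : wm ≤ (C.p a).Om * 2 ^ (C.p a).P)
    (hx : x a γ = (s, j, d.toNat, r)) (hj : j ≤ (C.p a).P) (he : e.Ok (C.p a).m)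
    (ht : L.nb (C.p a) j e d v r = some t) (hk : κ j + lg + 2 ≤ k) :
    EvB body a (C.ok a) C.Pm (cWt x) γ (v, e) (L.w j e t) k := by
  refine ⟨?_, fun p hp => ?_⟩
  · have h1 := hw.w_le j e t (Lv.N_subset j e (Lv.nb_eq_some.1 ht).1)
    have h2 := hf.small.c_le
    have h3 := hf.Pm_ge
    have h4 : (C.p a).Om < 2 ^ (lg + 1) := by
      have := Nat.lt_two_pow_self (n := lg)
      rw [Par.Om]
      omega
    refine lt_pow_mono (u := lg + 1 + (C.p a).P) ((h1.trans hwm).trans_lt ?_) (by omega)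
    rw [pow_add]
    exact Nat.mul_lt_mul_of_pos_right h4 (by positivity)
  · refine .call (k' := κ j) lg ?_ ?_ (by omega) <;> simp only [hx]
    · exact ma_arg hf hs hj (ma_r ht) le_rfl (hp.trans hf.Pm_lt)
    · exact h.wt j hj e he d v r t ht p hp

theorem ev_cAl {wm : ℕ} (hf : C.Fits a lg) (h : SpecW C body a s q L κ) (hs : s ≤ 6 * (C.p a).K)
    (hw : L.WF (C.p a) (C.F a) q eb wm) (hx : x a γ = (s, j, d.toNat, r)) (hj : j ≤ (C.p a).P)
    (he : e.Ok (C.p a).m) (hv : v < 2 ^ q) (hk : κ j + lg + 2 ≤ k) :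
    EvB body a (C.ok a) C.Pm (cAl x) γ (v, e) (L.al j e d v) k := by
  refine ⟨?_, fun p hp => ?_⟩
  · have h2 := ma_lg hf
    have h3 := hf.Pm_ge
    exact (hw.al_le j e d v).trans_lt (Nat.pow_lt_pow_right one_lt_two (by omega))
  · have h4 := hf.small.Kp_ge
    refine .call (k' := κ j) lg ?_ ?_ (by omega) <;> simp only [hx]
    · exact ma_arg hf hs hj (by omega) le_rfl (hp.trans hf.Pm_lt)
    · exact h.al j hj e he d v hv p hp

theorem ev_atFar (hf : C.Fits a lg) (h : SpecN C body a s q L κ) (hs : s ≤ 6 * (C.p a).K)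
    (hx : x a γ = (s, j, d.toNat, r)) (hj : j ≤ (C.p a).P) (he : e.Ok (C.p a).m)
    (ht : L.nb (C.p a) j e d v r = some t) {y : Pg α Γ} {w u : ℕ}
    (hy : Ev body a (C.ok a) y γ (t.ep !d, e) (t.ep !d, e) w k') (hw : w < 2 ^ u)
    (hk1 : κ j + lg + 2 ≤ k') (hk : 4 * (u + lg + 1) + k' ≤ k) :
    Ev body a (C.ok a) (atFar x y) γ (v, e) (v, e) w k := by
  obtain ⟨h1, h2, h3⟩ := Lv.nb_eq_some.1 ht
  have h4 : L.nb (C.p a) j e (!d) (t.ep !d) (rank (L.V j e) (!d) t) = some t :=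
    Lv.nb_eq_some.2 ⟨h1, rfl, rfl⟩
  have h5 : ∀ d', rank (L.V j e) d' t < 2 ^ (u + lg) := fun d' =>
    lt_pow_mono ((ma_rank ht d').trans_le hf.small.Kp_le) (by omega)
  have h6 := ev_cMv (γ := (γ, rank (L.V j e) (!d) t))
    (x := fun a z => ((x a z.1).1, (x a z.1).2.1, 1 - (x a z.1).2.2.1, z.2)) hf h hs
    (by rw [hx]; cases d <;> rfl) hj he h4 hk1
  rw [Bool.not_not, h2] at h6
  exact Ev.via (u + lg) (ev_cMv hf h hs hx hj he ht hk1) (.map hy) h6 (h5 _)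
    (lt_pow_mono hw (by omega)) (h5 _) (by omega)

theorem ev_inSt {f f' : α → GS → Γ → GS} {y : Pg α Γ} {w u : ℕ} (h0 : C.ok a g)
    (h1 : f a g γ = g') (h2 : C.ok a g') (h3 : f' a g' γ = g)
    (hy : Ev body a (C.ok a) y γ g' g' w k') (hw : w < 2 ^ u) (hk : 4 * u + k' ≤ k) :
    Ev body a (C.ok a) (inSt f f' y) γ g g w k := by
  have e1 : Ev body a (C.ok a) (.act f) γ g g' 0 k' := h1 ▸ .act (h1 ▸ h2)
  have e3 : Ev body a (C.ok a) (.act fun a s (z : Γ × ℕ) => f' a s z.1) (γ, 0) g' g 0 k' :=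
    h3 ▸ .act (h3.symm ▸ h0)
  exact Ev.via u e1 (.map hy) e3 (by positivity) hw (by positivity) hk

theorem ev_agreeP {lo hi : α → Γ → ℕ} {u w : Pg α (Γ × ℕ)} {fu fw : ℕ → ℕ}
    (hu : ∀ i < hi a γ, lo a γ ≤ i → fu i < 2 ∧ Ev body a (C.ok a) u (γ, i) g g (fu i) k')
    (hw : ∀ i < hi a γ, lo a γ ≤ i → fw i < 2 ∧ Ev body a (C.ok a) w (γ, i) g g (fw i) k')
    (hh : hi a γ ≤ 2 ^ lg) (hk : 10 * (lg + 2) + k' ≤ k) : Ev body a (C.ok a) (agreeP lo hi u w) γ g g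
      (if ∀ i < hi a γ, lo a γ ≤ i → fu i = fw i then 1 else 0) k := by
  have h0 : ∀ (P : Prop) [Decidable P] (x y n : ℕ), x < 2 → y < 2 →
      (if P then x else y) < 2 ^ (n + 1) := fun P _ x y n hx hy =>
    lt_pow_mono (u := 1) (by split_ifs <;> omega) (by omega)
  have h1 : ∑ i ∈ range (hi a γ), (if lo a γ ≤ i then (if fu i = fw i then 0 else 1) else 0) <
      2 ^ (lg + 1) := by
    refine lt_of_le_of_lt (sum_le_card_nsmul _ _ 1 fun i _ => ?_) ?_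
    · split_ifs <;> omega
    · have : 0 < 2 ^ lg := by positivity
      rw [card_range, smul_eq_mul]
      omega
  refine .seq (k' := 1) (lg + 1) (Ev.sum (k' := 3 + k') (lg + 1) (fun i hi' => ?_)
    (by have : 0 < 2 ^ lg := by positivity
        omega) h1 (by omega)) h1 (.val' ?_ (h0 _ 1 0 0 one_lt_two two_pos)) (by omega)
  · by_cases hl : lo a γ ≤ i
    · rw [if_pos hl]
      exact .iteT (decide_eq_true hl) (Ev.two 1 (hu i hi' hl).2 (hw i hi' hl).2 (hu i hi' hl).1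
        (hw i hi' hl).1 (h0 _ 0 1 0 two_pos one_lt_two) le_rfl)
    · rw [if_neg hl]
      exact .iteF (decide_eq_false hl) (.val (by positivity))
  · refine if_congr ?_ rfl rfl
    simp only [sum_eq_zero_iff, mem_range]
    refine forall₂_congr fun i _ => ?_
    split_ifs with h2 h3 <;> simp [*]

theorem ma_Hn_le {wk : ℕ → ℕ → Env → Env} {F : Env → ℕ} {l M : ℕ} (hF : ∀ e', F e' ≤ M) :
    ∑ w ∈ range (4 ^ (Mix.t0 * l)), F (wk (Mix.t0 * l) w e) ≤ 4 ^ (Mix.t0 * l) * M ∧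
      Hn wk l F e ≤ M := by
  have h1 : ∑ w ∈ range (4 ^ (Mix.t0 * l)), F (wk (Mix.t0 * l) w e) ≤ 4 ^ (Mix.t0 * l) * M := by
    simpa using sum_le_card_nsmul (range (4 ^ (Mix.t0 * l))) _ M fun w _ => hF _
  exact ⟨h1, Nat.div_le_of_le_mul h1⟩

theorem ma_ev_part (hf : C.Fits a lg) {gd : Pg α (Γ × ℕ)} {f : Bg α (Γ × ℕ × ℕ × ℕ × ℕ)}
    {wk : ℕ → ℕ → Env → Env} {F : Env → ℕ} {l b h kk : ℕ} (hb : b ≤ 1) (hl : l < (C.p a).P)
    (hF : ∀ e', F e' ≤ 2 ^ ((C.p a).P + 2 * lg)) (hh : h < 2 ^ (2 * Mix.t0 * l + 2 * lg))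
    (hg : Ev body a (C.ok a) gd (γ, l) g g h k)
    (hw : h ≠ 0 → ∀ w < 4 ^ (Mix.t0 * (l + b)), EvB body a (C.ok a) C.Pm f (γ, l, h, l + b, w) g
      (F (wk (Mix.t0 * (l + b)) w e)) kk)
    (hk : kk + 100000000 * l + 100000000 * lg ≤ k) :
    EvB body a (C.ok a) C.Pm (ma_part C b gd f) (γ, l) g
      (if h ≠ 0 then Hn wk (l + b) F e else 0) k := by
  have h4 := ma_lg hf
  have hP := hf.Pm_ge
  have e4 : 2 ^ (2 * Mix.t0 * (l + b)) = 4 ^ (Mix.t0 * (l + b)) := by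
    rw [mul_assoc, pow_mul]
    rfl
  have hle : 2 * Mix.t0 * (l + b) ≤ 2 * Mix.t0 * ((C.p a).P + 2) :=
    Nat.mul_le_mul_left _ (by omega)
  have e5 : C.pw a (2 * Mix.t0 * (l + b)) = 4 ^ (Mix.t0 * (l + b)) := by
    rw [Cx.pw_eq hf (by omega), e4]
  refine EvB.bind (k' := 20 * (2 * Mix.t0 * (l + b) + 1 + lg + 1) + kk) _ hg hh ?_
    (by simp only [Mix.t0]; omega)
  by_cases h0 : h = 0
  · rw [if_neg (not_not.2 h0)]
    exact EvB.iteT (decide_eq_true h0) (EvB.val (f := fun _ _ _ => 0) (by positivity) (by omega))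
  · rw [if_pos h0]
    refine EvB.iteF (decide_eq_false h0) ((EvB.shr (EvB.sum (k' := kk) (γ := ((γ, l), h))
      (n := fun a z => C.pw a (2 * Mix.t0 * (z.1.2 + b)))
      (f := fun w => F (wk (Mix.t0 * (l + b)) w e)) (2 * Mix.t0 * (l + b) + 1)
      (fun w hw' => EvB.map (hw h0 w (e5 ▸ hw'))) ?_ ?_ hf.Pm_lt le_rfl)).congr ?_) <;>
      dsimp only
    · rw [e5, ← e4]
      exact Nat.pow_lt_pow_right one_lt_two (by omega)
    · rw [e5]
      refine (ma_Hn_le hF).1.trans_lt ?_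
      rw [← e4, ← pow_add]
      exact Nat.pow_lt_pow_right one_lt_two (by omega)
    · rw [e5, e4, Hn]

/-- The parts for the length `l` hold `O(l + lg)` bits; `gd` must run before the sum over the words
is entered, when only `O(lg)` bits are held. -/
theorem ev_telP (hf : C.Fits a lg) {jj : α → Γ → ℕ} {gd : Pg α (Γ × ℕ)} {f0 : Bg α Γ}
    {f : Bg α (Γ × ℕ × ℕ × ℕ × ℕ)} {wk : ℕ → ℕ → Env → Env} {G : ℕ → Prop} {F : ℕ → Env → ℕ}
    {hd : ℕ → ℕ} {kk : ℕ → ℕ} {kg : ℕ} (hjj : jj a γ = j) (hj : j ≤ (C.p a).P)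
    (hF : ∀ j' e', F j' e' ≤ 2 ^ ((C.p a).P + 2 * lg))
    (h0 : EvB body a (C.ok a) C.Pm f0 γ g (F j e) (kk 0))
    (hg : ∀ l < j, (hd l ≠ 0 ↔ G l) ∧ hd l < 2 ^ (2 * Mix.t0 * l + 2 * lg) ∧
      Ev body a (C.ok a) gd (γ, l) g g (hd l) kg)
    (hl : ∀ l < j, G l → ∀ l', l' = l ∨ l' = l + 1 → ∀ w < 4 ^ (Mix.t0 * l'),
      EvB body a (C.ok a) C.Pm f (γ, l, hd l, l', w) g (F (j - l - 1) (wk (Mix.t0 * l') w e)) (kk l))
    (hk : ∀ l ≤ j, kk l + Cu * l + Cu * lg ≤ k) (hkg : kg + Cu * lg ≤ k) :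
    EvB body a (C.ok a) C.Pm (telP C jj gd f0 f) γ g (tel wk G F j e) k ∧
      tel wk G F j e ≤ 2 ^ ((C.p a).P + 3 * lg) := by
  have h4 := ma_lg hf
  have hP := hf.Pm_ge
  have hP1 := hf.small.P_le
  simp only [Cu] at hk hkg
  have hk0 := hk 0 (Nat.zero_le _)
  have hs : ∀ b, ∑ l ∈ range j with G l, Hn wk (l + b) (F (j - l - 1)) e ≤
      j * 2 ^ ((C.p a).P + 2 * lg) := fun b =>
    (sum_le_sum_of_subset (filter_subset _ _)).trans (by
      simpa using sum_le_card_nsmul (range j) _ _ fun l _ => (ma_Hn_le (hF (j - l - 1))).2)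
  have ht : ∀ b, F j e + ∑ l ∈ range j with G l, Hn wk (l + b) (F (j - l - 1)) e ≤
      2 ^ ((C.p a).P + 3 * lg) := fun b =>
    calc _ ≤ (j + 1) * 2 ^ ((C.p a).P + 2 * lg) := by
          have := hs b
          have := hF j e
          rw [add_mul]
          omega
      _ ≤ 2 ^ lg * 2 ^ ((C.p a).P + 2 * lg) := Nat.mul_le_mul_right _ (by omega)
      _ = _ := by rw [← pow_add]; congr 1; omega
  have hlt : 2 ^ ((C.p a).P + 3 * lg) < 2 ^ C.Pm a := Nat.pow_lt_pow_right one_lt_two (by omega)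
  have hb : ∀ b ≤ 1, EvB body a (C.ok a) C.Pm (Big.sum jj (ma_part C b gd f)) γ g
      (∑ l ∈ range j with G l, Hn wk (l + b) (F (j - l - 1)) e) (k - 120 * (lg + 1)) := by
    intro b hb
    have e1 : ∑ l ∈ range (jj a γ), (if hd l ≠ 0 then Hn wk (l + b) (F (j - l - 1)) e else 0) =
        ∑ l ∈ range j with G l, Hn wk (l + b) (F (j - l - 1)) e := by
      rw [hjj, sum_filter]
      exact sum_congr rfl fun l hl => if_congr (hg l (mem_range.1 hl)).1 rfl rfl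
    refine (EvB.sum (k' := k - 200 * (lg + 1)) lg (fun l hl' => ?_) (by omega) ?_ hf.Pm_lt
      (by omega)).congr e1
    · rw [hjj] at hl'
      obtain ⟨g1, g2, g3⟩ := hg l hl'
      have := hk l hl'.le
      exact ma_ev_part (kk := kk l) hf hb (by omega) (hF _) g2 (g3.mono (by omega))
        (fun h0 => hl l hl' (g1.1 h0) (l + b) (by omega)) (by omega)
    · have := ht b
      rw [e1]
      omega
  refine ⟨EvB.sub (k' := k - 60 * (lg + 1)) (EvB.add (k' := k - 120 * (lg + 1))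
    (h0.mono (by omega)) (hb 1 le_rfl) ((ht 1).trans_lt hlt) hf.Pm_lt (by omega))
    ((hb 0 zero_le_one).mono (by omega)) hf.Pm_lt (by omega), (Nat.sub_le _ _).trans (ht 1)⟩

/-! `IsSP` lemmas for all definitions of this file. -/

section sp

variable [i : Enc A Γ]

theorem isSP_cKey (hx : SP B fun z : α × Γ => x z.1 z.2) : (cKey x).IsSP B i :=
  isSP_call (by fun_prop)

theorem isSP_cMv (hx : SP B fun z : α × Γ => x z.1 z.2) : (cMv x).IsSP B i :=
  isSP_call (by fun_prop)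

theorem isSP_cMid {n : α → Γ → ℕ} (hx : SP B fun z : α × Γ => x z.1 z.2)
    (hn : SP B fun z : α × Γ => n z.1 z.2) : (cMid x n).IsSP B i :=
  isSP_call (by fun_prop)

theorem isSP_cWt (hx : SP B fun z : α × Γ => x z.1 z.2) : (cWt x).IsSP B inferInstance := by
  have h : SP B fun z : α × Γ × ℕ => x z.1 z.2.1 :=
    hx.comp (g := fun z : α × Γ × ℕ => (z.1, z.2.1)) (by fun_prop)
  exact isSP_call (h.fst.pair (h.snd.fst.pair (h.snd.snd.fst.pair (h.snd.snd.snd.pair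
    (by fun_prop)))))

theorem isSP_cAl (hx : SP B fun z : α × Γ => x z.1 z.2) : (cAl x).IsSP B inferInstance := by
  have h : SP B fun z : α × Γ × ℕ => x z.1 z.2.1 :=
    hx.comp (g := fun z : α × Γ × ℕ => (z.1, z.2.1)) (by fun_prop)
  exact isSP_call (h.fst.pair (h.snd.fst.pair (h.snd.snd.fst.pair (by fun_prop))))

theorem isSP_atFar {y : Pg α Γ} (hx : SP B fun z : α × Γ => x z.1 z.2) (hy : y.IsSP B i) :
    (atFar x y).IsSP B i := by
  have h : SP B fun z : α × Γ × ℕ => x z.1 z.2.1 :=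
    hx.comp (g := fun z : α × Γ × ℕ => (z.1, z.2.1)) (by fun_prop)
  exact isSP_via (isSP_cMv hx) (isSP_map (by fun_prop) hy) (isSP_cMv (h.fst.pair (h.snd.fst.pair
    (((SP.const 1).sub h.snd.snd.fst).pair (by fun_prop)))))

theorem isSP_inSt {f f' : α → GS → Γ → GS} {y : Pg α Γ}
    (hf : SP B fun z : α × GS × Γ => f z.1 z.2.1 z.2.2)
    (hf' : SP B fun z : α × GS × Γ => f' z.1 z.2.1 z.2.2) (hy : y.IsSP B i) :
    (inSt f f' y).IsSP B i :=
  isSP_via (isSP_act hf) (isSP_map (by fun_prop) hy) (isSP_act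
    (hf'.comp (g := fun z : α × GS × Γ × ℕ => (z.1, z.2.1, z.2.2.1)) (by fun_prop)))

theorem isSP_agreeP {lo hi : α → Γ → ℕ} {u w : Pg α (Γ × ℕ)}
    (hlo : SP B fun z : α × Γ => lo z.1 z.2) (hhi : SP B fun z : α × Γ => hi z.1 z.2)
    (hu : u.IsSP B inferInstance) (hw : w.IsSP B inferInstance) :
    (agreeP lo hi u w).IsSP B i :=
  isSP_seq (isSP_sum hhi (isSP_ite
    ((hlo.comp (g := fun z : α × GS × Γ × ℕ => (z.1, z.2.2.1)) (by fun_prop)).decide_le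
      (by fun_prop))
    (isSP_two (SP.ite (by fun_prop) (by fun_prop) (by fun_prop)) hu hw) (isSP_val (SP.const 0))))
    (isSP_val (SP.ite (by fun_prop) (by fun_prop) (by fun_prop)))

theorem ma_isSP_part (hC : C.IsSP B) {b : ℕ} {gd : Pg α (Γ × ℕ)} {f : Bg α (Γ × ℕ × ℕ × ℕ × ℕ)}
    (hg : gd.IsSP B inferInstance) (hf : f.IsSP B inferInstance) :
    (ma_part C b gd f).IsSP B inferInstance :=
  isSP_bbind hg (isSP_bite (by fun_prop) (isSP_bval (SP.const 0)) (isSP_bshr hC.Pm (by fun_prop)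
    (isSP_bsum (Full.sp_cpow (hC.cap.comp SP.fst') (SP.const 2) (by fun_prop))
      (isSP_bmap (by fun_prop) hf))))

theorem isSP_telP (hC : C.IsSP B) {jj : α → Γ → ℕ} {gd : Pg α (Γ × ℕ)} {f0 : Bg α Γ}
    {f : Bg α (Γ × ℕ × ℕ × ℕ × ℕ)} (hj : SP B fun z : α × Γ => jj z.1 z.2)
    (hg : gd.IsSP B inferInstance) (h0 : f0.IsSP B inferInstance) (hf : f.IsSP B inferInstance) :
    (telP C jj gd f0 f).IsSP B inferInstance :=
  isSP_bsub hC.Pm (isSP_badd h0 (isSP_bsum hj (ma_isSP_part hC hg hf)))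
    (isSP_bsum hj (ma_isSP_part hC hg hf))

end sp

end Vale.Agent.P313.NL
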