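import Vale.Agent.P313.NL.Leaf
import Vale.Agent.P313.NL.IB

/-! The programs for the first level. -/

namespace Vale.Agent.P313.NL

open Finset Vale.Agent.Lib.Space
open scoped Classical

variable {α : Type} {C : Cx α} {body : PN → Pg α Arg} {a : α} {s lg eb X : ℕ} {L : Lv}
  {A : Type} [Enc A α] {B : Bud A}

/-- The entry for the end `v` in the direction `d` and the other end `u`. -/
def mb_w (A0 : ℕ → ℕ → ℕ) (d v u : ℕ) : ℕ := if d = 0 then A0 v u else A0 u v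

/-- The number of neighbours below `n`. -/
def mb_cnt (A0 : ℕ → ℕ → ℕ) (d v n : ℕ) : ℕ := ∑ u ∈ range n, if mb_w A0 d v u = 0 then 0 else 1

/-- One if `u` is the neighbour of `v` with the rank `r`. -/
def mb_is (A0 : ℕ → ℕ → ℕ) (d v r u : ℕ) : ℕ :=
  if mb_w A0 d v u ≠ 0 ∧ mb_cnt A0 d v u = r then 1 else 0

/-- The number of neighbours of `v` with the rank `r`. -/
def mb_ex (N : ℕ) (A0 : ℕ → ℕ → ℕ) (d v r : ℕ) : ℕ := ∑ u ∈ range N, mb_is A0 d v r u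

/-- The neighbour of `v` with the rank `r`. -/
def mb_nb (N : ℕ) (A0 : ℕ → ℕ → ℕ) (d v r : ℕ) : ℕ := ∑ u ∈ range N, mb_is A0 d v r u * u

/-- The bodies of the procedures at the level zero (no calls). -/
def body0 (C : Cx α) : PN → Pg α Arg
  | .key => .val fun a g x =>
      if g.1 < (C.p a).N ∧ mb_ex (C.p a).N (C.A0 a) x.2.2.1 g.1 x.2.2.2.1 ≠ 0 then 1 else 0
  | .mv => .seq (.val fun a g x => mb_cnt (C.A0 a) (1 - x.2.2.1)
        (mb_nb (C.p a).N (C.A0 a) x.2.2.1 g.1 x.2.2.2.1) g.1)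
      (.seq (.act fun a g z => (mb_nb (C.p a).N (C.A0 a) z.1.2.2.1 g.1 z.1.2.2.2.1, g.2))
        (.val fun _ _ z => z.1.2))
  | .wt => .val fun a g x => KH.bt (mb_w (C.A0 a) x.2.2.1 g.1
      (mb_nb (C.p a).N (C.A0 a) x.2.2.1 g.1 x.2.2.2.1) * C.pw a ((C.p a).P - 1)) x.2.2.2.2.1
  | .mid => .val fun _ _ _ => 0
  | .al => .val fun a g x => KH.bt (if g.1 = (if x.2.2.1 = 0 then (C.p a).N - 1 else 0) then
      C.pw a (C.p a).P else 0) x.2.2.2.2.1

section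

variable {p : Par} {A0 : ℕ → ℕ → ℕ}

theorem mb_mem {t : Tm} :
    t ∈ (base p A0).T ↔ t.x < p.N ∧ t.z < p.N ∧ A0 t.x t.z ≠ 0 ∧ t = chA t.x t.z 0 := by
  simp only [base, mem_image, mem_filter, mem_product, mem_range]
  constructor
  · rintro ⟨a, ⟨⟨h1, h2⟩, h3⟩, rfl⟩
    exact ⟨h1, h2, h3, rfl⟩
  · rintro ⟨h1, h2, h3, h4⟩
    exact ⟨(t.x, t.z), ⟨⟨h1, h2⟩, h3⟩, h4.symm⟩

theorem mb_w_ep (t : Tm) (d : Bool) : mb_w A0 d.toNat (t.ep d) (t.ep !d) = A0 t.x t.z := by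
  cases d <;> simp [mb_w, Tm.ep]

theorem mb_ep_lt {t : Tm} (ht : t ∈ (base p A0).T) (d : Bool) : t.ep d < p.N := by
  obtain ⟨h1, h2, -⟩ := mb_mem.1 ht
  cases d
  · exact h1
  · exact h2

/-- The term with given ends. -/
def mb_tm (d : Bool) (v u : ℕ) : Tm := if d then chA u v 0 else chA v u 0

theorem mb_tm_ep (d : Bool) (v u : ℕ) : (mb_tm d v u).ep d = v := by cases d <;> rfl

theorem mb_tm_ep' (d : Bool) (v u : ℕ) : (mb_tm d v u).ep (!d) = u := by cases d <;> rfl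

theorem mb_tm_mem {d : Bool} {v u : ℕ} (hv : v < p.N) (hu : u < p.N)
    (h : mb_w A0 d.toNat v u ≠ 0) : mb_tm d v u ∈ (base p A0).T := by
  cases d
  · exact mb_mem.2 ⟨hv, hu, h, rfl⟩
  · exact mb_mem.2 ⟨hu, hv, h, rfl⟩

theorem mb_tm_eq {t : Tm} (ht : t ∈ (base p A0).T) (d : Bool) :
    mb_tm d (t.ep d) (t.ep !d) = t := by
  have h := (mb_mem.1 ht).2.2.2
  cases d <;> exact h.symm

theorem mb_tlt {t t' : Tm} (ht : t ∈ (base p A0).T) (ht' : t' ∈ (base p A0).T) (d : Bool) :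
    tlt d t' t ↔ t'.ep (!d) < t.ep !d := by
  have h1 : t.k = sgl 0 ∧ t.y = 0 := by rw [(mb_mem.1 ht).2.2.2]; exact ⟨rfl, rfl⟩
  have h2 : t'.k = sgl 0 ∧ t'.y = 0 := by rw [(mb_mem.1 ht').2.2.2]; exact ⟨rfl, rfl⟩
  simp [tlt, h1.1, h1.2, h2.1, h2.2]

theorem mb_cnt_eq (d v n : ℕ) :
    mb_cnt A0 d v n = ((range n).filter fun u => mb_w A0 d v u ≠ 0).card := by
  rw [mb_cnt, card_filter]
  exact sum_congr rfl fun u _ => by split_ifs <;> simp_all

theorem mb_rank {t : Tm} (ht : t ∈ (base p A0).T) (d : Bool) :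
    rank (base p A0).T d t = mb_cnt A0 d.toNat (t.ep d) (t.ep !d) := by
  rw [mb_cnt_eq, rank]
  refine card_nbij' (fun t' => t'.ep !d) (fun u => mb_tm d (t.ep d) u) ?_ ?_ ?_ ?_
  · intro t' h'
    simp only [coe_filter, Set.mem_ofPred_eq, mem_range] at h' ⊢
    refine ⟨(mb_tlt ht h'.1 d).1 h'.2.2, ?_⟩
    rw [← h'.2.1, mb_w_ep]
    exact (mb_mem.1 h'.1).2.2.1
  · intro u hu
    simp only [coe_filter, Set.mem_ofPred_eq, mem_range] at hu ⊢
    have hm : mb_tm d (t.ep d) u ∈ (base p A0).T :=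
      mb_tm_mem (mb_ep_lt ht d) (hu.1.trans (mb_ep_lt ht _)) hu.2
    exact ⟨hm, mb_tm_ep _ _ _, (mb_tlt ht hm d).2 (by rw [mb_tm_ep']; exact hu.1)⟩
  · intro t' h'
    simp only [coe_filter, Set.mem_ofPred_eq] at h'
    show mb_tm d (t.ep d) (t'.ep !d) = t'
    rw [← h'.2.1]
    exact mb_tm_eq h'.1 d
  · intro u _
    exact mb_tm_ep' _ _ _

theorem mb_rank_lt (hg : Gr p A0) {t : Tm} (ht : t ∈ (base p A0).T) (d : Bool) :
    rank (base p A0).T d t < 2 := by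
  refine lt_of_lt_of_le (card_lt_card ⟨fun t' h' => ?_, fun h => ?_⟩) (base_deg hg d (t.ep d))
  · exact mem_filter.2 ⟨(mem_filter.1 h').1, (mem_filter.1 h').2.1⟩
  · have h1 := (mem_filter.1 (h (mem_filter.2 ⟨ht, rfl⟩))).2.2
    exact lt_irrefl _ ((mb_tlt ht ht d).1 h1)

theorem mb_cnt_lt {d v u u' : ℕ} (h : mb_w A0 d v u ≠ 0) (hu : u < u') :
    mb_cnt A0 d v u < mb_cnt A0 d v u' := by
  rw [mb_cnt_eq, mb_cnt_eq]
  refine card_lt_card ⟨fun w hw => ?_, fun hs => ?_⟩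
  · exact mem_filter.2 ⟨mem_range.2 ((mem_range.1 (mem_filter.1 hw).1).trans hu),
      (mem_filter.1 hw).2⟩
  · exact lt_irrefl _ (mem_range.1 (mem_filter.1 (hs (mem_filter.2 ⟨mem_range.2 hu, h⟩))).1)

theorem mb_nb_eq {N d v u : ℕ} (hu : u < N) (h : mb_w A0 d v u ≠ 0) :
    mb_nb N A0 d v (mb_cnt A0 d v u) = u := by
  rw [mb_nb, sum_eq_single_of_mem u (mem_range.2 hu), mb_is, if_pos ⟨h, rfl⟩, one_mul]
  intro w _ hw
  rw [mb_is, if_neg, zero_mul]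
  rintro ⟨h1, h2⟩
  rcases lt_or_gt_of_ne hw with h3 | h3
  · exact (mb_cnt_lt h1 h3).ne h2
  · exact (mb_cnt_lt h h3).ne' h2

variable {F : ℕ → ℕ → ℕ} {j : ℕ} {e : Env} {d : Bool} {v r : ℕ} {t : Tm}

theorem mb_some (h : (est p F A0 0).nb p j e d v r = some t) :
    t ∈ (base p A0).T ∧ t.ep d = v ∧ rank (base p A0).T d t = r ∧
      rank (base p A0).T (!d) t < p.Kp := by
  unfold Lv.nb at h
  split_ifs at h with h1
  obtain ⟨h2, h3, h4⟩ := h1.choose_spec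
  rw [Option.some.inj h] at h2 h3 h4
  exact ⟨(mem_filter.1 h2).1, h3, h4, (mem_filter.1 h2).2 _⟩

theorem mb_some_nb (h : (est p F A0 0).nb p j e d v r = some t) :
    mb_nb p.N A0 d.toNat v r = t.ep !d := by
  obtain ⟨h1, rfl, rfl, -⟩ := mb_some h
  rw [mb_rank h1]
  exact mb_nb_eq (mb_ep_lt h1 _) (by rw [mb_w_ep]; exact (mb_mem.1 h1).2.2.1)

theorem mb_kc (hg : Gr p A0) (hK : 2 ≤ p.Kp) : kc ((est p F A0 0).nb p j e d v r) =
    if v < p.N ∧ mb_ex p.N A0 d.toNat v r ≠ 0 then 1 else 0 := by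
  cases h : (est p F A0 0).nb p j e d v r with
  | some t =>
    obtain ⟨h1, rfl, rfl, -⟩ := mb_some h
    rw [if_pos, kc, (mb_mem.1 h1).2.2.2]
    · rfl
    · refine ⟨mb_ep_lt h1 _, fun h0 => ?_⟩
      have h2 := sum_eq_zero_iff.1 h0 _ (mem_range.2 (mb_ep_lt h1 !d))
      rw [mb_is, if_pos] at h2
      · exact one_ne_zero h2
      · exact ⟨by rw [mb_w_ep]; exact (mb_mem.1 h1).2.2.1, (mb_rank h1 d).symm⟩
  | none =>
    rw [if_neg, kc]
    rintro ⟨hv, h0⟩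
    obtain ⟨u, hu, h1⟩ := exists_ne_zero_of_sum_ne_zero h0
    have h2 : mb_w A0 d.toNat v u ≠ 0 ∧ mb_cnt A0 d.toNat v u = r := by
      by_contra h3
      exact h1 (if_neg h3)
    have hm := mb_tm_mem (p := p) hv (mem_range.1 hu) h2.1
    unfold Lv.nb at h
    rw [dif_pos] at h
    · exact Option.some_ne_none _ h
    · refine ⟨_, mem_filter.2 ⟨hm, fun d' => (mb_rank_lt hg hm d').trans_le hK⟩, mb_tm_ep _ _ _, ?_⟩
      refine (mb_rank hm d).trans ?_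
      rw [mb_tm_ep, mb_tm_ep', h2.2]

end

theorem body0_spec (hf : C.Fits a lg) (hg : Gr (C.p a) (C.A0 a)) (hm : (C.p a).n0 ≤ (C.p a).m)
    (h : ∀ r, ∀ x : Arg, x.1 = 0 → ∀ g g' v k, Ev body a (C.ok a) (body0 C r) x g g' v k →
      Ev body a (C.ok a) (body r) x g g' v k) :
    SpecN C body a 0 (C.p a).n0 (est (C.p a) (C.F a) (C.A0 a) 0) (fun _ => Cc * lg) ∧
    SpecW C body a 0 (C.p a).n0 (est (C.p a) (C.F a) (C.A0 a) 0) fun _ => Cc * lg := by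
  have h3 := hf.small.c_le
  have hP := hf.Pm_ge
  have h2 : 2 ≤ 2 ^ (Cc * lg) :=
    (pow_one 2).symm.trans_le (Nat.pow_le_pow_right two_pos (by unfold Cc; omega))
  have hv : ∀ {r : PN} {x : Arg} {g : GS} {f : α → GS → Arg → ℕ} {w : ℕ}, body0 C r = .val f →
      x.1 = 0 → f a g x = w → w < 2 → Ev body a (C.ok a) (body r) x g g w (Cc * lg) := by
    rintro r x g f w e hx rfl hw
    exact h r x hx _ _ _ _ (e ▸ .val (hw.trans_le h2))
  refine ⟨⟨fun j _ e _ d v r _ _ => ?_, fun j _ e he d v r t ht => ?_,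
    fun j _ e _ d v r t ht hd => ?_⟩, fun j _ e _ d v r t ht i _ => ?_, fun j _ e _ d v _ i _ => ?_⟩
  · refine hv rfl rfl (mb_kc hg hf.small.Kp_ge).symm ?_
    rw [mb_kc hg hf.small.Kp_ge]
    split_ifs <;> omega
  · have e1 := mb_some_nb ht
    obtain ⟨h1, rfl, -, h4⟩ := mb_some ht
    have h5 := h4.trans_le hf.small.Kp_le
    have e2 : mb_cnt (C.A0 a) (1 - d.toNat) (t.ep !d) (t.ep d) =
        rank (base (C.p a) (C.A0 a)).T (!d) t := by
      rw [mb_rank h1]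
      cases d <;> rfl
    have hk : C.ok a (t.ep !d, e) := ⟨((mb_ep_lt h1 _).trans_le hg.N_le).trans_le
      (Nat.pow_le_pow_right two_pos hm), he⟩
    refine h _ _ rfl _ _ _ _ (.seq (k' := lg) lg (.val ?_) ?_ ?_ (by unfold Cc; omega))
    · show mb_cnt _ _ (mb_nb _ _ _ _ _) _ < _
      rw [e1, e2]
      exact h5.trans_le (Nat.pow_le_pow_right two_pos (by unfold Cc; omega))
    · show mb_cnt _ _ (mb_nb _ _ _ _ _) _ < _
      rw [e1, e2]
      exact h5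
    · show Ev _ _ _ _ (_, mb_cnt _ _ (mb_nb _ _ _ _ _) _) _ _
        (rank (base (C.p a) (C.A0 a)).T (!d) t) _
      rw [e1, e2]
      generalize rank (base (C.p a) (C.A0 a)).T (!d) t = w at h5
      rw [← e1] at hk ⊢
      exact .seq (k' := lg) 0 (.act hk) one_pos (.val h5) (by omega)
  · have h1 := (mb_mem.1 (mb_some ht).1).2.2.2
    rw [h1] at hd
    exact absurd hd Bool.false_ne_true
  · refine hv rfl rfl ?_ (KH.bt_lt _ _)
    show KH.bt (mb_w _ _ _ (mb_nb _ _ _ _ _) * _) _ = _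
    rw [mb_some_nb ht, ← (mb_some ht).2.1, mb_w_ep, Cx.pw_eq hf (by omega)]
    rfl
  · refine hv rfl rfl ?_ (KH.bt_lt _ _)
    show KH.bt (if _ then C.pw _ _ else _) _ = _
    rw [Cx.pw_eq hf (by omega)]
    cases d <;> rfl

section sp

variable {β : Type} [Enc A β] {f : β → α} {d v r u : β → ℕ}

theorem mb_sp_w (hC : C.IsSP B) (hf : SP B f) (hd : SP B d) (hv : SP B v) (hu : SP B u) :
    SP B fun z => mb_w (C.A0 (f z)) (d z) (v z) (u z) :=
  SP.ite (hd.decide_eq (SP.const 0)) (hC.A0.comp (hf.pair (hv.pair hu)))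
    (hC.A0.comp (hf.pair (hu.pair hv)))

theorem mb_sp_cnt (hC : C.IsSP B) (hf : SP B f) (hd : SP B d) (hv : SP B v) (hu : SP B u) :
    SP B fun z => mb_cnt (C.A0 (f z)) (d z) (v z) (u z) :=
  SP.sum_range hu (SP.ite ((mb_sp_w hC (hf.comp SP.fst') (hd.comp SP.fst') (hv.comp SP.fst')
    SP.snd').decide_eq (SP.const 0)) (SP.const 0) (SP.const 1))

theorem mb_sp_is (hC : C.IsSP B) (hf : SP B f) (hd : SP B d) (hv : SP B v) (hr : SP B r)
    (hu : SP B u) : SP B fun z => mb_is (C.A0 (f z)) (d z) (v z) (r z) (u z) :=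
  SP.ite (((mb_sp_w hC hf hd hv hu).decide_ne (SP.const 0)).decide_and
    ((mb_sp_cnt hC hf hd hv hu).decide_eq hr)) (SP.const 1) (SP.const 0)

theorem mb_sp_ex (hC : C.IsSP B) (hf : SP B f) (hd : SP B d) (hv : SP B v) (hr : SP B r) :
    SP B fun z => mb_ex (C.p (f z)).N (C.A0 (f z)) (d z) (v z) (r z) :=
  SP.sum_range (hC.N.comp hf) (mb_sp_is hC (hf.comp SP.fst') (hd.comp SP.fst') (hv.comp SP.fst')
    (hr.comp SP.fst') SP.snd')

theorem mb_sp_nb (hC : C.IsSP B) (hf : SP B f) (hd : SP B d) (hv : SP B v) (hr : SP B r) :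
    SP B fun z => mb_nb (C.p (f z)).N (C.A0 (f z)) (d z) (v z) (r z) :=
  SP.sum_range (hC.N.comp hf) ((mb_sp_is hC (hf.comp SP.fst') (hd.comp SP.fst') (hv.comp SP.fst')
    (hr.comp SP.fst') SP.snd').mul SP.snd')

end sp

theorem isSP_body0 (hC : C.IsSP B) (r : PN) : (body0 C r).IsSP B inferInstance := by
  have ha : SP B fun z : α × GS × Arg => z.1 := SP.fst'
  have hv : SP B fun z : α × GS × Arg => z.2.1.1 := SP.snd'.fst.fst
  have hd : SP B fun z : α × GS × Arg => z.2.2.2.2.1 := SP.snd'.snd.snd.snd.fst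
  have hr : SP B fun z : α × GS × Arg => z.2.2.2.2.2.1 := SP.snd'.snd.snd.snd.snd.fst
  have hi : SP B fun z : α × GS × Arg => z.2.2.2.2.2.2.1 := SP.snd'.snd.snd.snd.snd.snd.fst
  have hn := mb_sp_nb hC ha hd hv hr
  cases r with
  | key =>
    exact SP.ite ((hv.decide_lt (hC.N.comp ha)).decide_and
      ((mb_sp_ex hC ha hd hv hr).decide_ne (SP.const 0))) (SP.const 1) (SP.const 0)
  | mv =>
    exact ⟨mb_sp_cnt hC ha ((SP.const 1).sub hd) hn hv,
      (mb_sp_nb hC SP.fst' SP.snd'.snd.fst.snd.snd.fst SP.snd'.fst.fst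
        SP.snd'.snd.fst.snd.snd.snd.fst).pair SP.snd'.fst.snd, SP.snd'.snd.fst.snd⟩
  | wt =>
    exact KH.sp_bt ((mb_sp_w hC ha hd hv hn).mul (Full.sp_cpow (hC.cap.comp ha) (SP.const 2)
      ((hC.P.comp ha).sub (SP.const 1)))) hi
  | mid => exact SP.const 0
  | al =>
    exact KH.sp_bt (SP.ite (hv.decide_eq (SP.ite (hd.decide_eq (SP.const 0))
      ((hC.N.comp ha).sub (SP.const 1)) (SP.const 0)))
      (Full.sp_cpow (hC.cap.comp ha) (SP.const 2) (hC.P.comp ha)) (SP.const 0)) hi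

end Vale.Agent.P313.NL
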