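import Vale.Agent.P313.NL.MR1

/-! The programs for the operation `D`. The first argument of all programs is the new level `s + 1`. -/

namespace Vale.Agent.P313.NL

open Finset Vale.Agent.Lib.Space Full
open scoped Classical

variable {α : Type} {C : Cx α} {body : PN → Pg α Arg} {a : α} {s lg eb X : ℕ} {L : Lv}
  {A : Type} [Enc A α] {B : Bud A}

/-- The contribution of one term to the load. -/
def md_one (C : Cx α) : Bg α Cd :=
  Big.bind (cKey fun _ z => z) (Big.ite (fun _ _ z => decide (z.2 = 0)) (Big.val fun _ _ _ => 0)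
    (Big.map (fun _ z => z.1) (Big.bind (atFar (fun _ z => z)
      (.val fun a g z => ((shp (C.p a) z.1).fl (decide (z.2.2.1 = 1)) g.1).toNat))
      (Big.ite (fun _ _ z => decide (z.2 = 0)) (cWt fun _ z => z.1) (Big.val fun _ _ _ => 0)))))

/-- The load in one environment. -/
def md_fL (C : Cx α) : Bg α (ℕ × ℕ × ℕ) :=
  Big.sum (fun a _ => (C.p a).Kp) (Big.map (fun _ z => (z.1.1, z.1.2.1, z.1.2.2, z.2)) (md_one C))

/-- The estimate for the centre at the current name of the level `s`; context: `s`, budget, end. -/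
def ctrP (C : Cx α) : Bg α (ℕ × ℕ × ℕ) :=
  Big.ite (fun a g z => (shp (C.p a) z.1).fl (decide (z.2.2 = 1)) g.1)
    (Big.val fun a _ _ => C.pw a (C.p a).P)
    (Big.add (telP C (fun _ z => z.2.1) (.val fun _ _ _ => 1) (md_fL C)
      (Big.via (.act fun a g z => (g.1, C.wk2 a Mix.walk (Mix.t0 * z.2.2.2.1) z.2.2.2.2 g.2))
        (Big.map (fun _ z => (z.1.1.1, z.1.1.2.1 - z.1.2.1 - 1, z.1.1.2.2)) (md_fL C))
        (.act fun a g z => (g.1, C.wk2 a Mix.unwalk (Mix.t0 * z.1.2.2.2.1) z.1.2.2.2.2 g.2))))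
      (Big.val fun a _ _ => 2 * C.pw a (C.p a).P))

theorem md_dec (d : Bool) : decide (d.toNat = 1) = d := by cases d <;> rfl

theorem md_act {Γ : Type} {f : α → GS → Γ → GS} {γ : Γ} {g g' : GS} {k : ℕ} (e : f a g γ = g')
    (h : C.ok a g') : Ev body a (C.ok a) (.act f) γ g g' 0 k := e ▸ .act (e ▸ h)

theorem md_pow {x y : ℕ} (h : x ≤ y) : 2 ^ x ≤ 2 ^ y := Nat.pow_le_pow_right two_pos h

theorem md_Om (hf : C.Fits a lg) : (C.p a).Om ≤ 2 ^ lg := by
  have h1 := hf.small.Om_le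
  have h2 := hf.small.mu_le
  have h3 : (C.p a).M ≤ 2 ^ lg := md_pow (by omega)
  omega

theorem md_ok (h : Step C body a s lg eb X L) {v : ℕ} {e : Env} (he : e.Ok (C.p a).m)
    (hv : v < 2 ^ ((shp (C.p a) s).q + (C.p a).W)) : C.ok a (v, e) :=
  ⟨lt_pow_mono hv h.q_le, he⟩

theorem md_kc (h : Step C body a s lg eb X L) (j : ℕ) (e : Env) (d : Bool) (v r : ℕ) :
    kc (L.nb (C.p a) j e d v r) < 2 ^ (16 * lg) := by
  have h1 := h.fits.small.m_le
  have h2 := h.q_le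
  have h3 := h.e_le
  rcases ht : L.nb (C.p a) j e d v r with _ | t
  · exact Nat.two_pow_pos _
  · exact (h.wf.tm _ _ _ (L.N_subset _ _ (Lv.nb_eq_some.1 ht).1)).code_lt (by omega) (by omega)
      (ma_lg h.fits)

theorem md_ev_one (h : Step C body a s lg eb X L) {j v r : ℕ} {e : Env} (d : Bool)
    (hj : j ≤ (C.p a).P) (he : e.Ok (C.p a).m) (hv : v < 2 ^ (shp (C.p a) s).q)
    (hr : r < (C.p a).Kp) : EvB body a (C.ok a) C.Pm (md_one C) (s, j, d.toNat, r) (v, e)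
      (((L.nb (C.p a) j e d v r).map fun t =>
        if (shp (C.p a) s).fl d (t.ep !d) = false then L.w j e t else 0).getD 0)
      (X + Cc * j + 40 * lg) := by
  have h4 := ma_lg h.fits
  have hs := h.s_lt.le
  refine EvB.bind (k' := X + Cc * j + 20 * lg) (16 * lg)
    (ev_cKey h.fits h.sn hs rfl hj he hv hr (by omega)) (md_kc h ..) ?_ (by omega)
  rcases ht : L.nb (C.p a) j e d v r with _ | t
  · exact EvB.iteT rfl (EvB.val (Nat.two_pow_pos _) (by omega))
  refine EvB.iteF rfl (EvB.map (EvB.bind (k' := X + Cc * j + 2 * lg) (u := 1)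
    (v := ((shp (C.p a) s).fl d (t.ep !d)).toNat)
    (ev_atFar (k' := X + Cc * j + 2 * lg) (u := 1) h.fits h.sn hs rfl hj he ht
      (Ev.val' (by simp only [md_dec]) (lt_pow_mono (u := 1) (Bool.toNat_lt _) (by omega)))
      (Bool.toNat_lt _) (by omega) (by omega)) (Bool.toNat_lt _) ?_ (by omega)))
  rw [Option.map_some, Option.getD_some]
  cases (shp (C.p a) s).fl d (t.ep !d)
  · exact EvB.iteT rfl (ev_cWt h.fits h.sw hs h.wf le_rfl rfl hj he ht (by omega))
  · exact EvB.iteF rfl (EvB.val (Nat.two_pow_pos _) (by omega))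

theorem md_fL_le (h : Step C body a s lg eb X L) (d : Bool) (v j : ℕ) (e : Env) :
    L.fL (C.p a) (shp (C.p a) s) d v j e ≤ 2 ^ ((C.p a).P + 2 * lg) := by
  refine (sum_le_sum_of_subset (monotone_filter_right _ fun t _ ht => ht.1)).trans
    ((sum_le_card_nsmul _ _ _ fun t ht => h.wf.w_le j e t (L.N_subset _ _ (mem_filter.1 ht).1)).trans ?_)
  rw [smul_eq_mul, two_mul, add_comm, pow_add, pow_add, mul_assoc]
  exact Nat.mul_le_mul ((L.card_N_le j e d v).trans h.fits.small.Kp_le)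
    (Nat.mul_le_mul_right _ (md_Om h.fits))

theorem md_ev_fL (h : Step C body a s lg eb X L) {j v : ℕ} {e : Env} (d : Bool)
    (hj : j ≤ (C.p a).P) (he : e.Ok (C.p a).m) (hv : v < 2 ^ (shp (C.p a) s).q) :
    EvB body a (C.ok a) C.Pm (md_fL C) (s, j, d.toNat) (v, e)
      (L.fL (C.p a) (shp (C.p a) s) d v j e) (X + Cc * j + 100 * lg) := by
  have h4 := ma_lg h.fits
  have h5 := h.fits.Pm_ge
  have h6 := h.fits.small.Kp_le
  have e1 : ∑ r ∈ range (C.p a).Kp, ((L.nb (C.p a) j e d v r).map fun t =>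
      if (shp (C.p a) s).fl d (t.ep !d) = false then L.w j e t else 0).getD 0 =
      L.fL (C.p a) (shp (C.p a) s) d v j e := by
    rw [← L.sum_nb, ← sum_filter, filter_filter, Lv.fL]
  refine (EvB.sum (lg + 1) (fun r hr => EvB.map (md_ev_one h d hj he hv hr))
    (by rw [pow_succ]; have := Nat.two_pow_pos lg; omega) ?_ h.fits.Pm_lt (by omega)).congr e1
  rw [e1]
  exact (md_fL_le h ..).trans_lt (Nat.pow_lt_pow_right one_lt_two (by omega))

theorem ev_ctrP (h : Step C body a s lg eb X L) {j v : ℕ} {e : Env} (d : Bool)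
    (hj : j ≤ (C.p a).P) (he : e.Ok (C.p a).m) (hv : v < 2 ^ (shp (C.p a) s).q) :
    EvB body a (C.ok a) C.Pm (ctrP C) (s, j, d.toNat) (v, e)
      (L.ctrE (C.p a) (shp (C.p a) s) d j e v) (X + Cc * j + 10 * Cu * lg) ∧
    L.ctrE (C.p a) (shp (C.p a) s) d j e v ≤ 2 ^ ((C.p a).P + 3 * lg + 1) := by
  have h4 := ma_lg h.fits
  have h5 := h.fits.Pm_ge
  have hP : C.pw a (C.p a).P = 2 ^ (C.p a).P := Cx.pw_eq h.fits (by omega)
  have hv' : v < 2 ^ ((shp (C.p a) s).q + (C.p a).W) := lt_pow_mono hv (by omega)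
  rw [Lv.ctrE]
  split_ifs with hf
  · exact ⟨EvB.iteT (by simp only [md_dec, hf]) ((EvB.val (by
      rw [hP]; exact Nat.pow_lt_pow_right one_lt_two (by omega)) (by unfold Cu; omega)).congr hP),
      md_pow (by omega)⟩
  obtain ⟨h1, h2⟩ := ev_telP (body := body) (γ := (s, j, d.toNat)) (g := (v, e)) (j := j)
    (jj := fun _ z => z.2.1)
    (gd := .val fun _ _ _ => 1) (G := fun _ => True) (hd := fun _ => 1) (wk := (C.p a).wk2)
    (f := Big.via (.act fun a g z => (g.1, C.wk2 a Mix.walk (Mix.t0 * z.2.2.2.1) z.2.2.2.2 g.2))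
        (Big.map (fun _ z => (z.1.1.1, z.1.1.2.1 - z.1.2.1 - 1, z.1.1.2.2)) (md_fL C))
        (.act fun a g z => (g.1, C.wk2 a Mix.unwalk (Mix.t0 * z.1.2.2.2.1) z.1.2.2.2.2 g.2)))
    (kk := fun l => X + Cc * (j - l) + 110 * lg) (kg := 1) (k := X + Cc * j + 9 * Cu * lg)
    h.fits rfl hj (md_fL_le h d v) ((md_ev_fL h d hj he hv).mono (by simp only [Nat.sub_zero]; omega))
    (fun l _ => ⟨by simp, Nat.one_lt_two_pow (by omega), .val one_lt_two⟩)
    (fun l hl _ l' _ w _ => by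
      exact EvB.via (g1 := (v, (C.p a).wk2 (Mix.t0 * l') w e)) (v := 0) (v' := 0) 0
        (md_act (congrArg _ (Cx.wk2_eq h.fits ..)) (md_ok h (he.wk2 _ _) hv'))
        (EvB.map (md_ev_fL (j := j - l - 1) h d (by omega) (he.wk2 _ _) hv))
        (md_act (congrArg _ (Cx.wk2_back h.fits _ _ he)) (md_ok h he hv')) one_pos one_pos
        (by unfold Cc; omega))
    (fun l hl => by unfold Cc Cu; omega) (by unfold Cu; omega)
  have h3 : 2 * 2 ^ (C.p a).P ≤ 2 ^ ((C.p a).P + 3 * lg) := by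
    rw [← pow_succ']; exact md_pow (by omega)
  have h6 : 2 ^ ((C.p a).P + 3 * lg + 1) < 2 ^ C.Pm a := Nat.pow_lt_pow_right one_lt_two (by omega)
  rw [pow_succ] at h6 ⊢
  refine ⟨EvB.iteF (by simp only [md_dec, hf]) (EvB.add h1 ((EvB.val (by rw [hP]; omega)
    (by unfold Cu; omega)).congr (by rw [hP])) (by omega) h.fits.Pm_lt (by unfold Cu; omega)),
    by omega⟩

section defs

variable {Γ : Type}

/-- The state of the parent for the candidate `x`. -/
def md_dn (C : Cx α) (a : α) (x : Cd) (g : GS) : GS :=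
  (low g.1 (C.q a (x.1 - 1)), C.sub a (C.q a (x.1 - 1)) g.2
    (if x.2.2.1 = 1 then x.2.2.2 / (C.p a).Kp else shr g.1 (C.q a (x.1 - 1)))
    (if x.2.2.1 = 1 then shr g.1 (C.q a (x.1 - 1)) else x.2.2.2 / (C.p a).Kp))

/-- Run `y` in the state of the parent of the candidate `x`; `y` sees the chunk of the name, and
the chunk `c` is appended at the end. -/
def md_dive (C : Cx α) (x : α → Γ → Cd) (c : α → Γ × ℕ → ℕ) (y : Pg α (Γ × ℕ)) : Pg α Γ :=
  .seq (.val fun a g z => shr g.1 (C.q a ((x a z).1 - 1)))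
    (.seq (.val fun a g z => C.getc a (C.q a ((x a z.1).1 - 1)) g.2.1.2.2)
      (.seq (.val fun a g z => C.getc a (C.q a ((x a z.1.1).1 - 1)) g.2.2.1.2.2)
        (Nd.via (.act fun a g z => md_dn C a (x a z.1.1.1) g) (.map (fun _ z => z.1.1.1) y)
          (.act fun a g z => (C.dn a (C.q a ((x a z.1.1.1.1).1 - 1)) g.1 (c a z.1.1.1),
            C.sub a (C.q a ((x a z.1.1.1.1).1 - 1)) g.2 z.1.1.2 z.1.2)))))

/-- The arguments for the parent. -/
def md_pa (C : Cx α) (a : α) (x : Cd) : Cd := (x.1 - 1, x.2.1, x.2.2.1, x.2.2.2 % (C.p a).Kp)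

/-- The raise of the rank; `ck` is the chunk of the current name. -/
def md_rs (C : Cx α) (a : α) (x : Cd) (ck : ℕ) : ℕ :=
  (C.p a).rs (decide ((x.1 - 1) % 2 = 0))
    (if decide ((x.1 - 1) % 6 < 2) = decide (x.2.2.1 = 1) then ck else x.2.2.2 / (C.p a).Kp)

/-- The code of the key with a larger rank. -/
def md_code (n r : ℕ) : ℕ := Key.code { Key.dec n with E := (Key.dec n).E + r }

/-- The product of fixed point numbers. -/
def md_fmul (C : Cx α) (x y : Bg α Γ) : Bg α Γ := Big.shr C.Pm (fun a _ => (C.p a).P) (Big.mul x y)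

/-- The distance of the class from the centre. -/
def md_dist (C : Cx α) (χ : Γ → ℕ) (x : Bg α Γ) : Bg α Γ :=
  Big.add (Big.sub C.Pm (Big.val fun a _ z => (C.p a).cu (χ z) * C.pw a (C.p a).P) x)
    (Big.sub C.Pm x (Big.val fun a _ z => (C.p a).cu (χ z) * C.pw a (C.p a).P))

/-- See `Par.nstN`. -/
def md_nst (C : Cx α) (χ : Γ → ℕ) (x : Bg α Γ) : Bg α Γ :=
  Big.mul (Big.val fun a _ z => C.pw a (C.p a).mu * (C.p a).cu (χ z))
    (Big.sub C.Pm (Big.val fun a _ _ => C.pw a (C.p a).P) (md_dist C χ x))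

/-- See `Par.faN`. -/
def md_fa (C : Cx α) (χ : Γ → ℕ) (x : Bg α Γ) : Bg α Γ :=
  Big.min C.Pm (Big.val fun a _ _ => C.pw a (C.p a).P)
    (Big.sub C.Pm (md_nst C χ x) (Big.val fun a _ z => (C.p a).cj (χ z) * C.pw a (C.p a).P))

/-- See `Par.fbN`. -/
def md_fb (C : Cx α) (χ : Γ → ℕ) (x : Bg α Γ) : Bg α Γ :=
  md_fmul C (Big.min C.Pm (Big.val fun a _ _ => C.pw a (C.p a).P)
    (Big.sub C.Pm (Big.add (md_nst C χ x) (Big.val fun a _ _ => C.pw a (C.p a).P))
      (Big.val fun a _ z => (C.p a).cj (χ z) * C.pw a (C.p a).P)))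
    (Big.min C.Pm (Big.val fun a _ _ => C.pw a (C.p a).P)
      (Big.sub C.Pm (Big.val fun a _ _ => 2 * C.pw a (C.p a).P) (md_dist C χ x)))

/-- See `Par.cst`. -/
def md_cst (C : Cx α) (r χ : α → Γ → ℕ) : Bg α Γ :=
  Big.val fun a _ z => C.pw a ((C.p a).P + r a z) / ((C.p a).cu (χ a z) * C.pw a (C.p a).mu)

/-- Run `y` at the parent name; `y` sees the chunk. -/
def md_up (C : Cx α) (y : Bg α (Cd × ℕ)) : Bg α Cd :=
  Big.via (.seq (.val fun a g z => shr g.1 (C.q a (z.1 - 1)))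
    (Nd.then (.act fun a g z => (low g.1 (C.q a (z.1.1 - 1)), g.2)) (.val fun _ _ z => z.2))) y
    (.act fun a g z => (C.dn a (C.q a (z.1.1 - 1)) g.1 z.2, g.2))

/-- The centre. -/
def md_ctr (C : Cx α) : Bg α (Cd × ℕ) :=
  Big.map (fun _ z => (z.1.1 - 1, z.1.2.1, (decide ((z.1.1 - 1) % 6 < 2)).toNat)) (ctrP C)

end defs

/-- The candidates. -/
def cdD (C : Cx α) : Cand α where
  nd a := C.pw a (C.p a).W * (C.p a).Kp
  ck := md_dive C (fun _ z => z) (fun _ z => z.2) (.seq (cKey fun a z => md_pa C a z.1)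
    (.ite (fun _ _ z => decide (z.2 = 0)) (.val fun _ _ _ => 0)
      (.seq (agreeP (fun _ _ => 0) (fun a z => (Key.dec (z.2 - 1)).E + md_rs C a z.1.1 z.1.2)
        (.val fun a g z => C.vb a (C.q a (z.1.1.1.1 - 1)) (g.2.tr (decide (z.1.1.1.2.2.1 = 1))) g.1 z.2)
        (atFar (fun a z => md_pa C a z.1.1.1) (.val fun a g z =>
          C.vb a (C.q a (z.1.1.1.1 - 1)) (g.2.tr (!decide (z.1.1.1.2.2.1 = 1))) g.1 z.2)))
        (.val fun a _ z => if z.2 = 1 then md_code (z.1.2 - 1) (md_rs C a z.1.1.1 z.1.1.2) + 1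
          else 0))))
  cm := md_dive C (fun _ z => z) (fun a z => z.1.2.2.2 / (C.p a).Kp)
    (.seq (cMv fun a z => md_pa C a z.1) (.val fun a _ z => z.1.2 * (C.p a).Kp + z.2))
  cmid := md_dive C (fun _ z => z.1) (fun _ z => z.2)
    (cMid (fun a z => md_pa C a z.1.1) fun _ z => z.1.2)

/-- Run `y` at the end `d` of the candidate, `d` given by its relation to the normalised end. -/
def md_at (C : Cx α) (b : Bool) (y : Bg α Cd) : Bg α Cd :=
  Big.ite (fun _ _ z => decide (decide ((z.1 - 1) % 6 < 2) = decide (z.2.2.1 = 1)) == b) y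
    (Big.via (cdD C).cm (Big.map (fun _ z => z.1) y)
      (.map (fun _ z => (z.1.1, z.1.2.1, 1 - z.1.2.2.1, z.2)) (cdD C).cm))

/-- The weight of a candidate. -/
def md_wc (C : Cx α) : Bg α Cd :=
  md_fmul C (md_fmul C (md_fmul C
    (md_dive C (fun _ z => z.1) (fun _ z => z.2)
      (.map (fun _ z => (z.1.1, z.1.2)) (cWt fun a z => md_pa C a z)))
    (md_at C true (md_up C (md_cst C (fun a z => (C.p a).rs (decide ((z.1.1 - 1) % 2 = 0)) z.2)
      fun _ z => z.2))))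
    (md_at C true (md_up C (md_fa C (fun z => z.2) (md_ctr C)))))
    (md_at C false (md_up C (md_fb C (fun z => z.2) (md_ctr C))))

/-- The body of `wt`. -/
def wtD (C : Cx α) : Pg α Arg :=
  .map (fun _ x => ((x.1, x.2.1, x.2.2.1, x.2.2.2.1), x.2.2.2.2.1)) (Big.bind (findG C (cdD C))
    (Big.map (fun _ z => (z.1.1, z.1.2.1, z.1.2.2.1, z.2 - 1)) (md_wc C)))

/-- The body of `al`. -/
def alD (C : Cx α) : Pg α Arg :=
  .map (fun _ x => ((x.1, x.2.1, x.2.2.1, x.2.2.2.1), x.2.2.2.2.1)) (md_up C (md_fmul C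
    (cAl fun a z => md_pa C a z.1)
    (Big.ite (fun _ _ z => decide (decide (z.1.2.2.1 = 1) = decide ((z.1.1 - 1) % 6 < 2)))
      (md_fmul C (md_cst C (fun _ _ => 0) fun _ z => z.2) (md_fa C (fun z => z.2) (md_ctr C)))
      (md_fb C (fun z => z.2) (md_ctr C)))))

section ev

variable {Γ : Type} {γ : Γ} {j v i k k' w : ℕ} {e : Env} {d : Bool} {g : GS}

theorem md_A (hf : C.Fits a lg) : (C.p a).A ≤ 2 ^ lg := md_pow hf.small.W_le

theorem md_nd (hf : C.Fits a lg) : (cdD C).nd a = (C.p a).A * (C.p a).Kp := by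
  have h1 := hf.small.W_le
  have h2 := hf.Pm_ge
  exact congrArg (· * _) (Cx.pw_eq hf (by omega))

theorem md_cks {H : Shp} {p : Par} (hv : v < 2 ^ (H.q + p.W)) {χ : ℕ} (hχ : χ < p.A) :
    (Lv.cks H d v χ).1 < p.A ∧ (Lv.cks H d v χ).2 < p.A := by
  have := id1_ck_lt H hv
  cases d <;> exact ⟨‹_›, ‹_›⟩

theorem md_ev_dive (h : Step C body a s lg eb X L) {x : α → Γ → Cd} {c : α → Γ × ℕ → ℕ}
    {y : Pg α (Γ × ℕ)} (hx : x a γ = (s + 1, j, d.toNat, i)) (he : e.Ok (C.p a).m)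
    (hv : v < 2 ^ ((shp (C.p a) s).q + (C.p a).W)) (hi : i < (C.p a).A * (C.p a).Kp) {v2 u : ℕ}
    (hv2 : v2 < 2 ^ (shp (C.p a) s).q) (hc : c a (γ, (shp (C.p a) s).ck v) < (C.p a).A)
    (hy : Ev body a (C.ok a) y (γ, (shp (C.p a) s).ck v) ((shp (C.p a) s).up v,
      (C.p a).sub (shp (C.p a) s).q e (Lv.cks (shp (C.p a) s) d v (i / (C.p a).Kp)).1
        (Lv.cks (shp (C.p a) s) d v (i / (C.p a).Kp)).2) (v2,
      (C.p a).sub (shp (C.p a) s).q e (Lv.cks (shp (C.p a) s) d v (i / (C.p a).Kp)).1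
        (Lv.cks (shp (C.p a) s) d v (i / (C.p a).Kp)).2) w k')
    (hw : w < 2 ^ u) (hk : 4 * u + 4 * lg + k' ≤ k) :
    Ev body a (C.ok a) (md_dive C x c y) γ (v, e)
      ((shp (C.p a) s).dn v2 (c a (γ, (shp (C.p a) s).ck v)), e) w k := by
  have hA := md_A h.fits
  have hq := h.q_le
  have h1 := md_cks (d := d) hv (Nat.div_lt_of_lt_mul (mul_comm (C.p a).A _ ▸ hi))
  have hq' : C.q a ((x a γ).1 - 1) = (shp (C.p a) s).q := by rw [hx]; exact Cx.q_eq s
  have h2 := (id1_ck_lt _ hv).trans_le hA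
  have h3 := fun U => (Cx.getc_lt (C := C) (a := a) (shp (C.p a) s).q U).trans_le hA
  refine .seq (k' := k - lg) lg (Ev.val' (by rw [hq']; rfl) (lt_pow_mono h2 (by omega))) h2
    (.seq (k' := k - 2 * lg) lg (Ev.val' (by rw [hq']) (lt_pow_mono (h3 _) (by omega))) (h3 _)
      (.seq (k' := k - 3 * lg) lg (Ev.val' (by rw [hq']) (lt_pow_mono (h3 _) (by omega))) (h3 _)
        (Ev.via u (md_act ?_ (md_ok h (he.sub hq h1.1 h1.2)
          (lt_pow_mono (id1_up_lt _ v) (by omega)))) (.map hy) (md_act ?_ (md_ok h he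
            (Shp.dn_lt _ hv2 hc))) (Nat.two_pow_pos _) hw (Nat.two_pow_pos _) (by omega))
        (by omega)) (by omega)) (by omega)
  · simp only [md_dn, hx, Nat.add_sub_cancel, Cx.q_eq, Cx.sub_eq h.fits hq]
    cases d <;> rfl
  · simp only [hq', Cx.sub_eq h.fits hq, Cx.dn_eq h.fits (le_of_add_le_left hq),
      Cx.sub_back e h1.1 h1.2]

theorem md_pa_eq : md_pa C a (s + 1, j, d.toNat, i) = (s, j, d.toNat, i % (C.p a).Kp) := rfl

theorem md_cand {p : Par} {F : ℕ → ℕ → ℕ} {H : Shp} {d0 sf : Bool} {t : Tm} :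
    L.candD p F H d0 sf j e d v i = some t ↔ ∃ t0, L.nb p j (p.sub H.q e
      (Lv.cks H d v (i / p.Kp)).1 (Lv.cks H d v (i / p.Kp)).2) d (H.up v) (i % p.Kp) = some t0 ∧
      act F (H.q + p.W) e t ∧
      H.chD p d0 sf t0 (Lv.cks H d v (i / p.Kp)).1 (Lv.cks H d v (i / p.Kp)).2 = t := by
  simp only [Lv.candD, Option.bind_eq_some_iff, Option.ite_none_right_eq_some, Option.some.injEq]
  exact exists_congr fun t0 => and_congr_right fun _ =>
    ⟨fun h => ⟨h.2 ▸ h.1, h.2⟩, fun h => ⟨h.2 ▸ h.1, h.2⟩⟩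

theorem md_cand_of {p : Par} {F : ℕ → ℕ → ℕ} {H : Shp} {d0 sf : Bool} {t0 : Tm} {χx χz : ℕ}
    (h0 : t0 ∈ L.N p j (p.sub H.q e χx χz)) (h1 : t0.ep d < 2 ^ H.q)
    (ha : act F (H.q + p.W) e (H.chD p d0 sf t0 χx χz)) :
    L.candD p F H d0 sf j e d ((H.chD p d0 sf t0 χx χz).ep d)
      ((if d then χx else χz) * p.Kp + rank (L.V j (p.sub H.q e χx χz)) d t0) =
      some (H.chD p d0 sf t0 χx χz) := by
  have hr := (mem_filter.1 h0).2 d
  have e1 : Lv.cks H d ((H.chD p d0 sf t0 χx χz).ep d) (((if d then χx else χz) * p.Kp +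
      rank (L.V j (p.sub H.q e χx χz)) d t0) / p.Kp) = (χx, χz) := by
    rw [mul_comm, Nat.mul_add_div (by omega), Nat.div_eq_of_lt hr, id1_ep_chD, Lv.cks, H.ck_dn h1]
    cases d <;> rfl
  refine md_cand.2 ⟨t0, ?_, ha, by rw [e1]⟩
  rw [e1, id1_ep_chD, H.up_dn h1, mul_comm, Nat.mul_add_mod, Nat.mod_eq_of_lt hr]
  exact Lv.nb_eq_some.2 ⟨h0, rfl, rfl⟩

theorem md_lt_nd {x r A K : ℕ} (hx : x < A) (hr : r < K) : x * K + r < A * K :=
  (Nat.add_lt_add_left hr _).trans_le (by rw [← add_one_mul]; exact Nat.mul_le_mul_right _ hx)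

theorem md_act_iff {p : Par} {F : ℕ → ℕ → ℕ} {H : Shp} {d0 sf : Bool} {t0 : Tm} {χx χz : ℕ}
    (h0 : TmOk p H.q eb t0) (hx : χx < p.A) (hz : χz < p.A)
    (ha : act F H.q (p.sub H.q e χx χz) t0) (d : Bool) :
    act F (H.q + p.W) e (H.chD p d0 sf t0 χx χz) ↔
      ∀ b < t0.k.E + p.rs sf (if d0 then χz else χx), 0 ≤ b →
        KH.bt (vl F H.q ((p.sub H.q e χx χz).tr d) (t0.ep d)) b =
          KH.bt (vl F H.q ((p.sub H.q e χx χz).tr !d) (t0.ep !d)) b := by
  have h1 := ((act_chU (F := F) (e := e) h0 hx hz).2 ha).2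
  have e1 : vl F (H.q + p.W) e.1 (H.dn t0.x χx) = vl F H.q (p.sub H.q e χx χz).1 t0.x := by
    simp only [vl, Par.sub, ext_setc h0.x_lt hx]
  have e2 : vl F (H.q + p.W) e.2.1 (H.dn t0.z χz) = vl F H.q (p.sub H.q e χx χz).2.1 t0.z := by
    simp only [vl, Par.sub, ext_setc h0.z_lt hz]
  refine (and_iff_left h1).trans ?_
  simp only [Shp.chD, e1, e2, agree_iff_bt]
  cases d
  · rfl
  · exact forall₃_congr fun _ _ _ => eq_comm

end ev

theorem cdD_spec (h : Step C body a s lg eb X L) :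
    CandSpec C body a (cdD C) (s + 1) ((shp (C.p a) s).q + (C.p a).W) lg
      (L.D (C.p a) (C.F a) (shp (C.p a) s) (decide (s % 6 < 2)) (decide (s % 2 = 0)))
      (L.candD (C.p a) (C.F a) (shp (C.p a) s) (decide (s % 6 < 2)) (decide (s % 2 = 0)))
      fun j => X + Cc * j + 20 * Cu * lg := by
  have h4 := ma_lg h.fits
  have hs := h.s_lt.le
  have hq := h.q_le
  have hA := md_A h.fits
  have hK := h.fits.small.Kp_le
  have hK2 := h.fits.small.Kp_ge
  have hnd : ∀ {i}, i < (C.p a).A * (C.p a).Kp → i < 2 ^ (2 * lg) := fun hi =>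
    hi.trans_le (by rw [two_mul, pow_add]; exact Nat.mul_le_mul hA hK)
  have hdv : ∀ {i}, i < (C.p a).A * (C.p a).Kp → i / (C.p a).Kp < (C.p a).A := fun hi =>
    Nat.div_lt_of_lt_mul (mul_comm (C.p a).A _ ▸ hi)
  refine ⟨?_, fun j e d v i t hv hi ht => ?_, fun j e d t ht => ?_, fun j hj e he d v i hv hi => ?_,
    fun j hj e he d v i t hv hi ht => ?_, fun j hj e he d v i t hv hi ht hd b hb => ?_⟩ <;>
    rw [md_nd h.fits] at *
  · exact ((Nat.mul_le_mul hA hK).trans (pow_add ..).ge).trans_lt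
      (Nat.pow_lt_pow_right one_lt_two (by omega))
  · obtain ⟨t0, h1, h2, rfl⟩ := md_cand.1 ht
    obtain ⟨h3, h5, -⟩ := Lv.nb_eq_some.1 h1
    have h6 := md_cks (d := d) hv (hdv hi)
    refine ⟨?_, mem_biUnion.2 ⟨_, mem_product.2 ⟨mem_range.2 h6.1, mem_range.2 h6.2⟩,
      mem_filter.2 ⟨mem_image_of_mem _ h3, h2⟩⟩⟩
    rw [id1_ep_chD, h5]
    cases d <;> exact Shp.dn_up_ck _ v
  · obtain ⟨χ, h1, h2⟩ := mem_biUnion.1 ht
    obtain ⟨h5, h3⟩ := mem_filter.1 h2
    obtain ⟨t0, h6, rfl⟩ := mem_image.1 h5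
    simp only [mem_product, mem_range] at h1
    exact ⟨_, md_lt_nd (by cases d; exacts [h1.2, h1.1]) ((mem_filter.1 h6).2 d),
      md_cand_of h6 (id1_ep_lt (h.wf.tm _ _ _ (L.N_subset _ _ h6)) d) h3⟩
  · have h6 := md_cks (d := d) hv (hdv hi)
    have he' := he.sub hq h6.1 h6.2
    have key := fun y w (hw : w < 2 ^ (16 * lg)) hy => md_ev_dive (x := fun _ z => z)
      (c := fun _ z => z.2) (γ := (s + 1, j, d.toNat, i)) (w := w) (k' := X + Cc * j + 100 * lg)
      (k := X + Cc * j + 20 * Cu * lg) (y := y) h rfl he hv hi (id1_up_lt _ v) (id1_ck_lt _ hv) hy hw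
      (by unfold Cu; omega)
    simp only [Shp.dn_up_ck] at key
    have hk := ev_cKey (x := fun a (z : Cd × ℕ) => md_pa C a z.1)
      (γ := ((s + 1, j, d.toNat, i), (shp (C.p a) s).ck v)) (k := X + Cc * j + 100 * lg) h.fits h.sn
      hs md_pa_eq hj he' (id1_up_lt _ v) (Nat.mod_lt _ (by omega)) (by omega)
    have hk2 := md_kc h j ((C.p a).sub (shp (C.p a) s).q e
      (Lv.cks (shp (C.p a) s) d v (i / (C.p a).Kp)).1 (Lv.cks (shp (C.p a) s) d v (i / (C.p a).Kp)).2)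
      d ((shp (C.p a) s).up v) (i % (C.p a).Kp)
    rw [Lv.candD]
    rcases ht : L.nb (C.p a) j ((C.p a).sub (shp (C.p a) s).q e
      (Lv.cks (shp (C.p a) s) d v (i / (C.p a).Kp)).1 (Lv.cks (shp (C.p a) s) d v (i / (C.p a).Kp)).2)
      d ((shp (C.p a) s).up v) (i % (C.p a).Kp) with _ | t0 <;> rw [ht] at hk hk2
    · exact key _ _ hk2 (.seq (k' := 0) (16 * lg) hk hk2 (.iteT rfl (.val one_pos)) (by omega))
    obtain ⟨h3, h5, -⟩ := Lv.nb_eq_some.1 ht
    have h7 := h.wf.tm _ _ _ (L.N_subset _ _ h3)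
    have h8 := md_act_iff (d0 := decide (s % 6 < 2)) (sf := decide (s % 2 = 0)) h7 h6.1 h6.2
      (h.wf.act _ _ _ (L.N_subset _ _ h3)) d
    have e1 : md_rs C a (s + 1, j, d.toNat, i) ((shp (C.p a) s).ck v) =
        (C.p a).rs (decide (s % 2 = 0)) (if decide (s % 6 < 2) then
          (Lv.cks (shp (C.p a) s) d v (i / (C.p a).Kp)).2
          else (Lv.cks (shp (C.p a) s) d v (i / (C.p a).Kp)).1) := by
      simp only [md_rs, md_dec, Nat.add_sub_cancel]
      cases decide (s % 6 < 2) <;> cases d <;> rfl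
    have h9 := (h7.chD h.n0_le h.r1_le (decide (s % 6 < 2)) (decide (s % 2 = 0)) h6.1 h6.2)
    have hm := h.fits.small.m_le
    have he2 := h.e_le
    have h10 := h9.code_lt (lg := lg) (by omega) (by omega) h4
    have h11 : ∀ {t : Tm} (P : Prop) [Decidable P], t.k.code + 1 < 2 ^ (16 * lg) →
        kc (if P then some t else none) < 2 ^ (16 * lg) := fun P _ h => by
      split_ifs
      exacts [h, Nat.two_pow_pos _]
    refine key _ _ (h11 _ h10) (.seq (k' := X + Cc * j + 80 * lg) (16 * lg) hk hk2 (.iteF rfl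
      (.seq (k' := 16 * lg) 1 (ev_agreeP (lg := lg) (k' := X + Cc * j + 20 * lg)
        (fu := fun b => KH.bt (vl (C.F a) (shp (C.p a) s).q (Env.tr ((C.p a).sub (shp (C.p a) s).q e
          (Lv.cks (shp (C.p a) s) d v (i / (C.p a).Kp)).1
          (Lv.cks (shp (C.p a) s) d v (i / (C.p a).Kp)).2) d) (t0.ep d)) b)
        (fw := fun b => KH.bt (vl (C.F a) (shp (C.p a) s).q (Env.tr ((C.p a).sub (shp (C.p a) s).q e
          (Lv.cks (shp (C.p a) s) d v (i / (C.p a).Kp)).1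
          (Lv.cks (shp (C.p a) s) d v (i / (C.p a).Kp)).2) !d) (t0.ep !d)) b)
        (fun b _ _ => ⟨KH.bt_lt _ b, Ev.val' ?_ (bt_lt_pow _ _ (by omega))⟩)
        (fun b _ _ => ⟨KH.bt_lt _ b, ev_atFar (u := 1) (k' := X + Cc * j + 2 * lg)
          (x := fun a (z : ((Cd × ℕ) × ℕ) × ℕ) => md_pa C a z.1.1.1) h.fits h.sn hs
          md_pa_eq hj he' ht (Ev.val' ?_ (bt_lt_pow _ _ (by omega))) (KH.bt_lt _ b) (by omega)
          (by omega)⟩)
        ?_ (by omega)) (by split_ifs <;> simp) (Ev.val' ?_ (h11 _ h10)) (by omega))) (by omega))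
    · simp only [md_dec, Nat.add_sub_cancel, Cx.q_eq, Cx.vb_eq h.fits (le_of_add_le_left hq), h5]
    · simp only [md_dec, Nat.add_sub_cancel, Cx.q_eq, Cx.vb_eq h.fits (le_of_add_le_left hq)]
    · have := h9.E_le
      simp only [kc, Nat.add_sub_cancel, Key.dec_code, e1]
      exact (this.trans he2).trans (by omega)
    · simp only [Option.bind_some, apply_ite kc]
      simp only [kc, Nat.add_sub_cancel, Key.dec_code, e1, ← h8, md_code]
      by_cases h12 : act (C.F a) ((shp (C.p a) s).q + (C.p a).W) e (Shp.chD (C.p a)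
        (decide (s % 6 < 2)) (decide (s % 2 = 0)) (shp (C.p a) s) t0
        (Lv.cks (shp (C.p a) s) d v (i / (C.p a).Kp)).1 (Lv.cks (shp (C.p a) s) d v (i / (C.p a).Kp)).2)
      · simp only [h12, if_true]
        rfl
      · simp only [h12, if_false, zero_ne_one]
  · obtain ⟨t0, h1, h2, rfl⟩ := md_cand.1 ht
    obtain ⟨h3, h5, -⟩ := Lv.nb_eq_some.1 h1
    have h6 := md_cks (d := d) hv (hdv hi)
    have h7 := id1_ep_lt (h.wf.tm _ _ _ (L.N_subset _ _ h3)) (!d)
    have h8 := md_lt_nd (id1_ck_lt _ hv) (ma_rank h1 (!d))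
    refine ⟨_, h8, ?_, ?_⟩
    · have := md_cand_of h3 h7 h2
      cases d <;> exact this
    · have := md_ev_dive (x := fun _ z => z) (c := fun a z => z.1.2.2.2 / (C.p a).Kp)
        (γ := (s + 1, j, d.toNat, i)) (k := X + Cc * j + 20 * Cu * lg) h rfl he hv hi h7 (hdv hi)
        (.seq (k := X + Cc * j + 4 * lg) (k' := 2 * lg) lg
          (ev_cMv (x := fun a (z : Cd × ℕ) => md_pa C a z.1) h.fits h.sn hs md_pa_eq hj
            (he.sub hq h6.1 h6.2) h1 (by omega)) ((ma_rank h1 _).trans_le hK)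
          (Ev.val (f := fun a _ (z : (Cd × ℕ) × ℕ) => z.1.2 * (C.p a).Kp + z.2) (hnd h8)) (by omega))
        (hnd h8) (by unfold Cu; omega)
      rw [id1_ep_chD]
      cases d <;> exact this
  · obtain ⟨t0, h1, h2, rfl⟩ := md_cand.1 ht
    have h6 := md_cks (d := d) hv (hdv hi)
    have key := fun n w (hw : w < 2 ^ 1) hy => md_ev_dive (x := fun _ (z : Cd × ℕ) => z.1)
      (c := fun _ z => z.2) (γ := ((s + 1, j, d.toNat, i), n)) (w := w) (k' := X + Cc * j + 2 * lg)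
      (k := X + Cc * j + 20 * Cu * lg) (y := cMid (fun a z => md_pa C a z.1.1) fun _ z => z.1.2)
      h rfl he hv hi (id1_up_lt _ v) (id1_ck_lt _ hv) hy hw (by unfold Cu; omega)
    simp only [Shp.dn_up_ck] at key
    have h7 := fun n => ev_cMid (x := fun a (z : (Cd × ℕ) × ℕ) => md_pa C a z.1.1)
      (γ := (((s + 1, j, d.toNat, i), n), (shp (C.p a) s).ck v)) (i := fun _ z => z.1.2)
      (k := X + Cc * j + 2 * lg) h.fits h.sn hs md_pa_eq hj (he.sub hq h6.1 h6.2) h1 hd hb (by omega)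
    exact ⟨key _ _ (KH.bt_lt _ _) ((h7 _).1 rfl), key _ _ (KH.bt_lt _ _) ((h7 _).2 rfl)⟩

section num

variable {Γ : Type} {γ : Γ} {j v i k k' w c : ℕ} {e : Env} {d : Bool} {g : GS} {x y : Bg α Γ}
  {χ : Γ → ℕ}

theorem md_val {f : α → GS → Γ → ℕ} (hf : C.Fits a lg) (e : f a g γ = v)
    (hv : v ≤ 2 ^ ((C.p a).P + 5 * lg)) (hk : 1 ≤ k) :
    EvB body a (C.ok a) C.Pm (Big.val f) γ g v k := by
  have h1 := hf.Pm_ge
  have h2 := ma_lg hf
  exact e ▸ EvB.val (e ▸ hv.trans_lt (Nat.pow_lt_pow_right one_lt_two (by omega))) hk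

theorem md_pwP (hf : C.Fits a lg) : C.pw a (C.p a).P = 2 ^ (C.p a).P :=
  Cx.pw_eq hf (by have := hf.Pm_ge; omega)

theorem md_pwM (hf : C.Fits a lg) : C.pw a (C.p a).mu = (C.p a).M :=
  Cx.pw_eq hf (by have := hf.Pm_ge; have := hf.small.mu_le; omega)

theorem md_mul_le {x y m n : ℕ} (hx : x ≤ 2 ^ m) (hy : y ≤ 2 ^ n) (h : m + n ≤ k) : x * y ≤ 2 ^ k :=
  (Nat.mul_le_mul hx hy).trans ((pow_add ..).ge.trans (md_pow h))

theorem md_ev_fmul (hf : C.Fits a lg) (hx : EvB body a (C.ok a) C.Pm x γ g v k')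
    (hy : EvB body a (C.ok a) C.Pm y γ g w k') (hv : v ≤ 2 ^ ((C.p a).P + lg))
    (hw : w ≤ 2 ^ ((C.p a).P + lg)) (hk : k' + 80 * lg ≤ k) :
    EvB body a (C.ok a) C.Pm (md_fmul C x y) γ g ((C.p a).fmul v w) k := by
  have h1 := hf.Pm_ge
  have h2 := ma_lg hf
  exact EvB.shr (EvB.mul hx hy ((md_mul_le hv hw le_rfl).trans_lt
    (Nat.pow_lt_pow_right one_lt_two (by omega))) hf.Pm_lt (by omega))

theorem md_ev_dist (hf : C.Fits a lg) (hc : χ γ = c) (hc' : c ≤ 2 ^ lg)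
    (hx : EvB body a (C.ok a) C.Pm x γ g v k') (hv : v ≤ 2 ^ ((C.p a).P + 3 * lg + 1))
    (hk : k' + 200 * lg ≤ k) : EvB body a (C.ok a) C.Pm (md_dist C χ x) γ g
      (((C.p a).cu c * 2 ^ (C.p a).P - v) + (v - (C.p a).cu c * 2 ^ (C.p a).P)) k := by
  have h1 := hf.Pm_ge
  have h2 := ma_lg hf
  have h3 : (C.p a).cu c * 2 ^ (C.p a).P ≤ 2 ^ ((C.p a).P + 3 * lg + 1) :=
    md_mul_le ((Nat.div_le_self _ _).trans hc') le_rfl (by omega)
  have h4 : 2 ^ ((C.p a).P + 3 * lg + 1) < 2 ^ C.Pm a := Nat.pow_lt_pow_right one_lt_two (by omega)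
  have h5 := md_val (body := body) (g := g) (γ := γ) (k := k' + 1)
    (f := fun a _ z => (C.p a).cu (χ z) * C.pw a (C.p a).P) hf (by rw [hc, md_pwP hf])
    (h3.trans (md_pow (by omega))) (by omega)
  exact EvB.add (k' := k' + 100 * lg) (EvB.sub h5 (hx.mono (by omega)) hf.Pm_lt (by omega))
    (EvB.sub (hx.mono (by omega)) h5 hf.Pm_lt (by omega)) (by omega) hf.Pm_lt (by omega)

theorem md_ev_nst (hf : C.Fits a lg) (hc : χ γ = c) (hc' : c ≤ 2 ^ lg)
    (hx : EvB body a (C.ok a) C.Pm x γ g v k') (hv : v ≤ 2 ^ ((C.p a).P + 3 * lg + 1))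
    (hk : k' + 400 * lg ≤ k) : EvB body a (C.ok a) C.Pm (md_nst C χ x) γ g ((C.p a).nstN c v) k ∧
      (C.p a).nstN c v ≤ 2 ^ ((C.p a).P + 2 * lg) := by
  have h1 := hf.Pm_ge
  have h2 := ma_lg hf
  have h5 := hf.small.mu_le
  have h3 : (C.p a).M * (C.p a).cu c ≤ 2 ^ (2 * lg) :=
    md_mul_le (le_refl (2 ^ (C.p a).mu)) ((Nat.div_le_self _ _).trans hc') (by omega)
  have h4 : (C.p a).nstN c v ≤ 2 ^ ((C.p a).P + 2 * lg) := md_mul_le h3 (Nat.sub_le _ _) (by omega)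
  exact ⟨EvB.mul (k' := k' + 300 * lg) (md_val hf (by rw [hc, md_pwM hf])
    (h3.trans (md_pow (by omega))) (by omega)) (EvB.sub (md_val hf (md_pwP hf) (md_pow (by omega))
      (by omega)) (md_ev_dist hf hc hc' hx hv le_rfl) hf.Pm_lt (by omega))
    (h4.trans_lt (Nat.pow_lt_pow_right one_lt_two (by omega))) hf.Pm_lt (by omega), h4⟩

theorem md_ev_fa (hf : C.Fits a lg) (hc : χ γ = c) (hc' : c ≤ 2 ^ lg)
    (hx : EvB body a (C.ok a) C.Pm x γ g v k') (hv : v ≤ 2 ^ ((C.p a).P + 3 * lg + 1))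
    (hk : k' + 800 * lg ≤ k) : EvB body a (C.ok a) C.Pm (md_fa C χ x) γ g ((C.p a).faN c v) k := by
  have h2 := ma_lg hf
  exact EvB.min (k' := k' + 500 * lg) (md_val hf (md_pwP hf) (md_pow (by omega)) (by omega))
    (EvB.sub (md_ev_nst hf hc hc' hx hv le_rfl).1 (md_val hf (by rw [hc, md_pwP hf])
      (md_mul_le ((Nat.mod_le _ _).trans hc') le_rfl (by omega)) (by omega)) hf.Pm_lt (by omega))
    hf.Pm_lt (by omega)

theorem md_ev_fb (hf : C.Fits a lg) (hc : χ γ = c) (hc' : c ≤ 2 ^ lg)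
    (hx : EvB body a (C.ok a) C.Pm x γ g v k') (hv : v ≤ 2 ^ ((C.p a).P + 3 * lg + 1))
    (hk : k' + 800 * lg ≤ k) : EvB body a (C.ok a) C.Pm (md_fb C χ x) γ g ((C.p a).fbN c v) k := by
  have h1 := hf.Pm_ge
  have h2 := ma_lg hf
  have h3 := md_ev_nst hf hc hc' hx hv le_rfl
  have h4 : 2 ^ (C.p a).P ≤ 2 ^ ((C.p a).P + 2 * lg) := md_pow (by omega)
  have h5 : 2 ^ ((C.p a).P + 2 * lg + 1) < 2 ^ C.Pm a := Nat.pow_lt_pow_right one_lt_two (by omega)
  have h6 := h3.2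
  have hP := fun k hk => md_val (body := body) (g := g) (γ := γ) (k := k)
    (f := fun a _ _ => C.pw a (C.p a).P) hf (md_pwP hf) (md_pow (by omega)) hk
  rw [pow_succ] at h5
  exact md_ev_fmul (k' := k' + 700 * lg) hf
    (EvB.min (k' := k' + 600 * lg) (hP _ (by omega)) (EvB.sub (k' := k' + 500 * lg)
      (EvB.add h3.1 (hP _ (by omega)) (by omega) hf.Pm_lt (by omega))
      (md_val hf (by rw [hc, md_pwP hf]) (md_mul_le ((Nat.mod_le _ _).trans hc') le_rfl (by omega))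
        (by omega)) hf.Pm_lt (by omega)) hf.Pm_lt (by omega))
    (EvB.min (k' := k' + 600 * lg) (hP _ (by omega)) (EvB.sub
      (md_val hf (by rw [md_pwP hf]) (md_mul_le (m := 1) le_rfl le_rfl (by omega)) (by omega))
      (md_ev_dist hf hc hc' hx hv le_rfl) hf.Pm_lt (by omega)) hf.Pm_lt (by omega))
    ((min_le_left _ _).trans (md_pow (by omega))) ((min_le_left _ _).trans (md_pow (by omega)))
    (by omega)

theorem md_ev_cst (hf : C.Fits a lg) {r χ : α → Γ → ℕ} {n : ℕ} (hr : r a γ = n) (hc : χ a γ = c)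
    (hn : n ≤ lg) (hk : 1 ≤ k) :
    EvB body a (C.ok a) C.Pm (md_cst C r χ) γ g ((C.p a).cst n c) k := by
  have h1 := hf.Pm_ge
  exact md_val hf (by rw [hr, hc, md_pwM hf, Cx.pw_eq hf (by omega), Par.cst])
    ((Nat.div_le_self _ _).trans (md_pow (by omega))) hk

theorem md_ev_up (h : Step C body a s lg eb X L) {y : Bg α (Cd × ℕ)} {n : ℕ} (he : e.Ok (C.p a).m)
    (hv : v < 2 ^ ((shp (C.p a) s).q + (C.p a).W))
    (hy : EvB body a (C.ok a) C.Pm y ((s + 1, j, n, i), (shp (C.p a) s).ck v)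
      ((shp (C.p a) s).up v, e) w k') (hk1 : 2 * lg ≤ k') (hk : k' + 10 * lg ≤ k) :
    EvB body a (C.ok a) C.Pm (md_up C y) (s + 1, j, n, i) (v, e) w k := by
  have h2 := (id1_ck_lt _ hv).trans_le (md_A h.fits)
  have h4 := ma_lg h.fits
  have hq : C.q a (s + 1 - 1) = (shp (C.p a) s).q := Cx.q_eq s
  exact EvB.via lg (.seq (k' := lg) lg (Ev.val' (by rw [hq]; rfl) (lt_pow_mono h2 (by omega))) h2
    (Ev.then 0 (md_act (by simp only [hq]; rfl) (md_ok h he (lt_pow_mono (id1_up_lt _ v) (by omega))))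
      one_pos (.val h2) (by omega)) (by omega)) hy
    (md_act (by simp only [hq, Cx.dn_eq h.fits (le_of_add_le_left h.q_le), Shp.dn_up_ck])
      (md_ok h he hv)) h2 (Nat.two_pow_pos _) (by omega)

theorem md_ev_at (h : Step C body a s lg eb X L) {y : Bg α Cd} {t : Tm} (b : Bool)
    (hj : j ≤ (C.p a).P) (he : e.Ok (C.p a).m) (hv : v < 2 ^ ((shp (C.p a) s).q + (C.p a).W))
    (hi : i < (cdD C).nd a) (ht : L.candD (C.p a) (C.F a) (shp (C.p a) s) (decide (s % 6 < 2))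
      (decide (s % 2 = 0)) j e d v i = some t)
    (hy : EvB body a (C.ok a) C.Pm y (s + 1, j, d.toNat, i)
      (t.ep (if b then decide (s % 6 < 2) else !decide (s % 6 < 2)), e) w k')
    (hk1 : X + Cc * j + 20 * Cu * lg ≤ k') (hk : k' + 30 * lg ≤ k) :
    EvB body a (C.ok a) C.Pm (md_at C b y) (s + 1, j, d.toNat, i) (v, e) w k := by
  have hs := cdD_spec h
  have h4 := ma_lg h.fits
  obtain ⟨h1, h2⟩ := hs.sound j e d v i t hv hi ht
  by_cases hb : (if b then decide (s % 6 < 2) else !decide (s % 6 < 2)) = d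
  · rw [hb, h1] at hy
    refine EvB.iteT ?_ (hy.mono (by omega))
    simp only [md_dec, Nat.add_sub_cancel]
    revert hb
    cases b <;> cases d <;> cases decide (s % 6 < 2) <;> simp
  · rw [Bool.eq_not_of_ne hb] at hy
    obtain ⟨i', h3, h5, h6⟩ := hs.cm j hj e he d v i t hv hi ht
    have h7 := id1_ep_lt (((h.wf.D h.n0_le h.r1_le (by have := h.fits.small.Om_le; omega) _ _).tm
      _ _ _ h2)) (!d)
    obtain ⟨i'', h8, -, h9⟩ := hs.cm j hj e he (!d) _ i' t h7 h3 h5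
    rw [Bool.not_not, h1] at h9
    refine EvB.iteF ?_ (EvB.via (5 * lg) (h6.mono hk1) (EvB.map hy) (.map ?_) (h3.trans hs.nd_lt)
      (h8.trans hs.nd_lt) (by omega))
    · simp only [md_dec, Nat.add_sub_cancel]
      revert hb
      cases b <;> cases d <;> cases decide (s % 6 < 2) <;> simp
    · cases d <;> exact h9.mono hk1

theorem md_ev_ctr (h : Step C body a s lg eb X L) {n : ℕ} (hj : j ≤ (C.p a).P) (he : e.Ok (C.p a).m)
    (hv : v < 2 ^ (shp (C.p a) s).q) :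
    EvB body a (C.ok a) C.Pm (md_ctr C) ((s + 1, j, n, i), c) (v, e)
      (L.ctrE (C.p a) (shp (C.p a) s) (decide (s % 6 < 2)) j e v) (X + Cc * j + 10 * Cu * lg) :=
  EvB.map (ev_ctrP h _ hj he hv).1

theorem md_ev_wc (h : Step C body a s lg eb X L) {t : Tm} (hj : j ≤ (C.p a).P)
    (he : e.Ok (C.p a).m) (hv : v < 2 ^ ((shp (C.p a) s).q + (C.p a).W)) (hi : i < (cdD C).nd a)
    (ht : L.candD (C.p a) (C.F a) (shp (C.p a) s) (decide (s % 6 < 2)) (decide (s % 2 = 0)) j e d v i =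
      some t) : EvB body a (C.ok a) C.Pm (md_wc C) (s + 1, j, d.toNat, i) (v, e)
      ((L.D (C.p a) (C.F a) (shp (C.p a) s) (decide (s % 6 < 2)) (decide (s % 2 = 0))).w j e t)
      (X + Cc * j + 21 * Cu * lg) := by
  have h4 := ma_lg h.fits
  have hf := h.fits
  have hOm := hf.small.Om_le
  have hmu := hf.small.mu_le
  have hi' := md_nd hf ▸ hi
  have hep := id1_ep_lt (((h.wf.D h.n0_le h.r1_le (by omega) _ _).tm _ _ _
    ((cdD_spec h).sound j e d v i t hv hi ht).2))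
  have hck := fun b => ((id1_ck_lt _ (hep b)).trans_le (md_A hf)).le
  have hc := fun b => ev_ctrP h (j := j) (decide (s % 6 < 2)) hj he (id1_up_lt _ (t.ep b))
  obtain ⟨t0, h1, -, h2⟩ := md_cand.1 ht
  have h6 := md_cks (d := d) hv (Nat.div_lt_of_lt_mul (mul_comm (C.p a).A _ ▸ hi'))
  have h7 := h.wf.tm _ _ _ (L.N_subset _ _ (Lv.nb_eq_some.1 h1).1)
  have h8 := ev_cWt (x := fun a z => md_pa C a z) (γ := (s + 1, j, d.toNat, i))
    (k := X + Cc * j + 2 * lg) hf h.sw h.s_lt.le h.wf le_rfl md_pa_eq hj (he.sub h.q_le h6.1 h6.2)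
    h1 (by omega)
  have h9 := (h.wf.w_le _ _ _ (L.N_subset _ _ (Lv.nb_eq_some.1 h1).1))
  have e1 : (shp (C.p a) s).ck t.x = (Lv.cks (shp (C.p a) s) d v (i / (C.p a).Kp)).1 := by
    rw [← h2]; exact Shp.ck_dn _ h7.x_lt _
  have e2 : (shp (C.p a) s).ck t.z = (Lv.cks (shp (C.p a) s) d v (i / (C.p a).Kp)).2 := by
    rw [← h2]; exact Shp.ck_dn _ h7.z_lt _
  have e3 : (shp (C.p a) s).paD (C.p a) (decide (s % 6 < 2)) (decide (s % 2 = 0)) t = t0 := by
    rw [← h2]; exact paD_chD _ _ _ h7.x_lt h7.z_lt _ _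
  have h10 : ∀ χ, (C.p a).cst ((C.p a).rs (decide (s % 2 = 0)) χ) χ ≤ 2 ^ (C.p a).P := fun χ =>
    (Nat.le_mul_of_pos_left _ (Nat.two_pow_pos _)).trans (e2_cst _ χ)
  have h11 := h9.trans (md_mul_le (md_Om hf) le_rfl (add_comm _ _).le)
  have h12 : 2 ^ (C.p a).P ≤ 2 ^ ((C.p a).P + lg) := md_pow (by omega)
  simp only [Lv.D, e1, e2, e3]
  refine md_ev_fmul (k' := X + Cc * j + 20 * Cu * lg + 300 * lg) hf
    (md_ev_fmul (k' := X + Cc * j + 20 * Cu * lg + 200 * lg) hf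
      (md_ev_fmul (k' := X + Cc * j + 20 * Cu * lg + 100 * lg) hf ⟨h8.1, fun b hb => ?_⟩
        (md_ev_at h true hj he hv hi ht (md_ev_up (k' := 2 * lg) h he (hep _)
          (md_ev_cst hf rfl rfl ?_ (by omega)) le_rfl (by unfold Cu; omega)) le_rfl (by omega))
        h11 ((h10 _).trans h12) (by omega))
      (md_ev_at h true hj he hv hi ht (md_ev_up (k' := X + Cc * j + 11 * Cu * lg) h he (hep _)
        (md_ev_fa hf rfl (hck _) (md_ev_ctr h hj he (id1_up_lt _ _)) (hc _).2 (by unfold Cu; omega))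
        (by unfold Cu; omega) (by unfold Cu; omega)) le_rfl (by omega))
      ((e2_fmul_le _ (h10 _)).trans h11) ((min_le_left _ _).trans h12) (by omega))
    (md_ev_at h false hj he hv hi ht (md_ev_up (k' := X + Cc * j + 11 * Cu * lg) h he (hep _)
      (md_ev_fb hf rfl (hck _) (md_ev_ctr h hj he (id1_up_lt _ _)) (hc _).2 (by unfold Cu; omega))
      (by unfold Cu; omega) (by unfold Cu; omega)) le_rfl (by omega))
    ((e2_fmul_le _ (min_le_left _ _)).trans ((e2_fmul_le _ (h10 _)).trans h11))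
    (((e2_fmul_le _ (min_le_left _ _)).trans (min_le_left _ _)).trans h12) (by unfold Cu; omega)
  · have := md_ev_dive (x := fun _ (z : Cd × ℕ) => z.1) (c := fun _ z => z.2)
      (γ := ((s + 1, j, d.toNat, i), b)) (k := X + Cc * j + 20 * Cu * lg + 100 * lg) (u := 1)
      (y := .map (fun _ z => (z.1.1, z.1.2)) (cWt fun a z => md_pa C a z)) h rfl he hv hi'
      (id1_up_lt _ v) (id1_ck_lt _ hv) (.map (h8.2 b hb)) (KH.bt_lt _ _) (by omega)
    rwa [Shp.dn_up_ck] at this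
  · rw [Par.rs]
    split_ifs <;> omega

end num

theorem D_specW (h : Step C body a s lg eb X L)
    (h1 : ∀ x : Arg, x.1 = s + 1 → ∀ g g' v k, Ev body a (C.ok a) (wtD C) x g g' v k →
      Ev body a (C.ok a) (body .wt) x g g' v k)
    (h2 : ∀ x : Arg, x.1 = s + 1 → ∀ g g' v k, Ev body a (C.ok a) (alD C) x g g' v k →
      Ev body a (C.ok a) (body .al) x g g' v k) :
    SpecW C body a (s + 1) ((shp (C.p a) s).q + (C.p a).W)
      (L.D (C.p a) (C.F a) (shp (C.p a) s) (decide (s % 6 < 2)) (decide (s % 2 = 0)))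
      fun j => X + Cc * lg + Cc * j := by
  have h4 := ma_lg h.fits
  have hf := h.fits
  have hw := h.wf.D h.n0_le h.r1_le (by have := hf.small.Om_le; omega) (decide (s % 6 < 2))
    (decide (s % 2 = 0))
  refine ⟨fun j hj e he d v r t ht b hb => h1 _ rfl _ _ _ _ (.map ?_),
    fun j hj e he d v hv b hb => h2 _ rfl _ _ _ _ (.map ?_)⟩
  · obtain ⟨i, hi, h3, h5⟩ := findG_some ⟨hf, h.s_lt, h.q_le, h.e_le, hw, cdD_spec h⟩ hj he ht
    obtain ⟨h6, h7, -⟩ := Lv.nb_eq_some.1 ht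
    have hv := h7 ▸ id1_ep_lt (hw.tm _ _ _ (Lv.N_subset _ _ h6)) d
    have h8 := hi.trans (cdD_spec h).nd_lt
    exact (EvB.bind (5 * lg + 1) (h5.mono (by unfold Cc Cu; omega)) (by rw [pow_succ]; omega)
      (EvB.map (md_ev_wc h hj he hv hi h3)) (by unfold Cc Cu; omega)).2 b hb
  · have hck := ((id1_ck_lt _ hv).trans_le (md_A hf)).le
    have hc := ev_ctrP h (j := j) (decide (s % 6 < 2)) hj he (id1_up_lt _ v)
    have h12 : 2 ^ (C.p a).P ≤ 2 ^ ((C.p a).P + lg) := md_pow (by omega)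
    have h13 : (C.p a).cst 0 ((shp (C.p a) s).ck v) ≤ 2 ^ (C.p a).P := Nat.div_le_self _ _
    refine (md_ev_up (k' := X + Cc * j + 13 * Cu * lg) h he hv
      (md_ev_fmul (k' := X + Cc * j + 12 * Cu * lg) hf (ev_cAl hf h.sw h.s_lt.le h.wf md_pa_eq hj he
        (id1_up_lt _ v) (by unfold Cu; omega)) ?_ ((h.wf.al_le ..).trans h12) ?_
        (by unfold Cu; omega)) (by unfold Cu; omega) (by unfold Cc Cu; omega)).2 b hb
    · split_ifs with hd
      · exact EvB.iteT (by simp only [md_dec, Nat.add_sub_cancel, ← hd, decide_true])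
          (md_ev_fmul (k' := X + Cc * j + 11 * Cu * lg) hf
            (md_ev_cst hf rfl rfl (Nat.zero_le _) (by unfold Cu; omega))
            (md_ev_fa hf rfl hck (md_ev_ctr (j := j) h hj he (id1_up_lt _ _)) hc.2
              (by unfold Cu; omega))
            (h13.trans h12) ((min_le_left _ _).trans h12) (by unfold Cu; omega))
      · exact EvB.iteF (by simp only [md_dec, Nat.add_sub_cancel, hd, decide_false])
          (md_ev_fb hf rfl hck (md_ev_ctr (j := j) h hj he (id1_up_lt _ _)) hc.2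
            (by unfold Cu; omega))
    · split_ifs
      · exact ((e2_fmul_le _ (min_le_left _ _)).trans h13).trans h12
      · exact ((e2_fmul_le _ (min_le_left _ _)).trans (min_le_left _ _)).trans h12

section sp

variable {β Γ : Type} [Enc A β] [i : Enc A Γ] {f : β → α} {n v w : β → ℕ} {d : β → Bool}
  {e : β → Env} {x : β → Cd}

/-- The flags, unfolded `k` times. -/
def md_fl (C : Cx α) (a : α) : ℕ → ℕ → Bool → ℕ → Bool
  | 0, _, _, _ => false
  | k + 1, s, d, v => decide (s % 6 ≠ 0 ∧ s % 6 ≠ 5) &&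
      (md_fl C a k (s - 1) d (low v (C.q a (s - 1))) || (decide (d = decide ((s - 1) % 6 < 2)) &&
        (C.p a).flg (decide ((s - 1) % 2 = 0)) (shr v (C.q a (s - 1)))))

theorem md_fl_zero (p : Par) (h : s % 6 = 0 ∨ s % 6 = 5) (d : Bool) (v : ℕ) :
    (shp p s).fl d v = false := by
  have h5 : ∀ s, s % 6 = 4 → (shp p (s + 1)).fl d v = false := fun s hs => by
    rw [shp, if_neg (by omega), if_pos hs]
    rfl
  rcases s with _ | s
  · rfl
  rcases h with h | h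
  · obtain ⟨s, rfl⟩ : ∃ s', s = s' + 1 := ⟨s - 1, by omega⟩
    rw [shp, if_neg (by omega), if_neg (by omega)]
    exact h5 s (by omega)
  · exact h5 s (by omega)

theorem md_fl_eq (k : ℕ) : ∀ s d v, s % 6 ≤ k ∨ s % 6 = 5 →
    md_fl C a k s d v = (shp (C.p a) s).fl d v := by
  induction k with
  | zero => exact fun s d v h => (md_fl_zero _ (by omega) d v).symm
  | succ k ih =>
    intro s d v h
    by_cases h0 : s % 6 = 0 ∨ s % 6 = 5
    · rw [md_fl_zero _ h0, md_fl, decide_eq_false (by omega), Bool.false_and]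
    obtain ⟨s, rfl⟩ : ∃ s', s = s' + 1 := ⟨s - 1, by omega⟩
    rw [md_fl, decide_eq_true (by omega), Bool.true_and, ih _ _ _ (by omega), shp, if_pos (by omega),
      Nat.add_sub_cancel, Cx.q_eq]
    rfl

variable (hC : C.IsSP B) (hf : SP B f)
include hC hf

theorem md_sp_cu (hn : SP B n) : SP B fun z => (C.p (f z)).cu (n z) := sp_shr hn (hC.W1.comp hf)

theorem md_sp_cj (hn : SP B n) : SP B fun z => (C.p (f z)).cj (n z) := sp_low hn (hC.W1.comp hf)

theorem md_sp_flg (hd : SP B d) (hn : SP B n) : SP B fun z => (C.p (f z)).flg (d z) (n z) := by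
  refine (hd.and ((SP.const 0).decide_lt (sp_shr ((md_sp_cu hC hf hn).sub (SP.const 1))
    (hC.r1.comp hf)))).congr fun z => ?_
  have := Nat.two_pow_pos (C.p (f z)).r1
  simp only [Par.flg, shr, Nat.div_pos_iff]
  exact congrArg _ (decide_eq_decide.2 (by omega))

theorem md_sp_rs (hd : SP B d) (hn : SP B n) : SP B fun z => (C.p (f z)).rs (d z) (n z) :=
  SP.ite (md_sp_flg hC hf hd hn).decide_true (hC.r1.comp hf) (SP.const 0)

omit hC hf in
theorem md_sp_beq {d' : β → Bool} (hd : SP B d) (hd' : SP B d') :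
    SP B fun z => decide (d z = d' z) :=
  (hd.toNat.decide_eq hd'.toNat).congr fun z => by cases d z <;> cases d' z <;> rfl

theorem md_sp_fl' (k : ℕ) : ∀ {n v : β → ℕ}, SP B n → SP B d → SP B v →
    SP B fun z => md_fl C (f z) k (n z) (d z) (v z) := by
  induction k with
  | zero => exact fun _ _ _ => SP.const false
  | succ k ih =>
    intro n v hn hd hv
    have h1 := hn.sub (SP.const 1)
    have h2 := MR1.sp_q hC hf h1
    have h3 := hn.mod (SP.const 6)
    refine ((((h3.decide_ne (SP.const 0)).and (h3.decide_ne (SP.const 5))).and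
      ((ih h1 hd (sp_low hv h2)).or ((md_sp_beq hd ((h1.mod (SP.const 6)).decide_lt (SP.const 2))).and
        (md_sp_flg hC hf ((h1.mod (SP.const 2)).decide_eq (SP.const 0)) (sp_shr hv h2)))))).congr
      fun z => ?_
    rw [md_fl, Bool.decide_and]

theorem md_sp_fl (hn : SP B n) (hd : SP B d) (hv : SP B v) :
    SP B fun z => (shp (C.p (f z)) (n z)).fl (d z) (v z) :=
  (md_sp_fl' hC hf 5 hn hd hv).congr fun z => md_fl_eq 5 _ _ _ (by omega)

theorem md_sp_W : SP B fun z => (C.p (f z)).W := (SP.const 2).mul (hC.W1.comp hf)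

theorem md_sp_dn (hn : SP B n) (hv : SP B v) (hw : SP B w) :
    SP B fun z => C.dn (f z) (n z) (v z) (w z) := hv.add ((MR1.sp_pw hC hf hn).mul hw)

theorem md_sp_setc (hn : SP B n) (hv : SP B v) (hw : SP B w) :
    SP B fun z => C.setc (f z) (n z) (v z) (w z) :=
  ((sp_low hv hn).add ((MR1.sp_pw hC hf hn).mul hw)).add
    ((MR1.sp_pw hC hf (hn.add (md_sp_W hC hf))).mul (sp_shr hv (hn.add (md_sp_W hC hf))))

theorem md_sp_sub (hn : SP B n) (he : SP B e) (hv : SP B v) (hw : SP B w) :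
    SP B fun z => C.sub (f z) (n z) (e z) (v z) (w z) :=
  (he.fst.fst.pair (he.fst.snd.fst.pair (md_sp_setc hC hf hn he.fst.snd.snd hv))).pair
    ((he.snd.fst.fst.pair (he.snd.fst.snd.fst.pair
      (md_sp_setc hC hf hn he.snd.fst.snd.snd hw))).pair he.snd.snd)

theorem md_sp_getc (hn : SP B n) (hv : SP B v) : SP B fun z => C.getc (f z) (n z) (v z) :=
  sp_low (sp_shr hv hn) (md_sp_W hC hf)

theorem md_sp_wk2 {F : ℕ → ℕ → ℕ → ℕ → ℕ}
    (hF : ∀ {M u : β → ℕ}, SP B M → SP B u → SP B fun z => F (M z) (n z) (w z) (u z))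
    (he : SP B e) : SP B fun z => C.wk2 (f z) F (n z) (w z) (e z) := by
  have hm := MR1.sp_m hC hf
  have h0 := MR1.sp_pw hC hf hm
  have h1 := hF h0 ((he.fst.snd.fst.mul h0).add he.snd.snd.snd.fst)
  exact mw_sp_sh he (sp_shr h1 hm) he.snd.fst.snd.fst (sp_low h1 hm)

theorem md_sp_pa (hx : SP B x) : SP B fun z => md_pa C (f z) (x z) := MR1.sp_par hC hf hx

theorem md_sp_q (hx : SP B x) : SP B fun z => C.q (f z) ((x z).1 - 1) :=
  MR1.sp_q hC hf (hx.fst.sub (SP.const 1))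

theorem md_sp_mdn {g : β → GS} (hx : SP B x) (hg : SP B g) :
    SP B fun z => md_dn C (f z) (x z) (g z) := by
  have h1 := md_sp_q hC hf hx
  have h2 := hx.snd.snd.fst.decide_eq (SP.const 1)
  have h3 := hx.snd.snd.snd.div (hC.Kp.comp hf)
  have h4 := sp_shr hg.fst h1
  exact (sp_low hg.fst h1).pair (md_sp_sub hC hf h1 hg.snd (SP.ite h2 h3 h4) (SP.ite h2 h4 h3))

theorem md_sp_mrs (hx : SP B x) (hn : SP B n) : SP B fun z => md_rs C (f z) (x z) (n z) := by
  have h1 := hx.fst.sub (SP.const 1)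
  exact md_sp_rs hC hf ((h1.mod (SP.const 2)).decide_eq (SP.const 0)) (SP.ite (md_sp_beq
    ((h1.mod (SP.const 6)).decide_lt (SP.const 2)) (hx.snd.snd.fst.decide_eq (SP.const 1))) hn
    (hx.snd.snd.snd.div (hC.Kp.comp hf)))

omit hC hf in
theorem md_sp_code (hn : SP B n) (hv : SP B v) : SP B fun z => md_code (n z) (v z) :=
  have h := MR1.KSP.dec hn
  MR1.KSP.code (k := fun z => { Key.dec (n z) with E := (Key.dec (n z)).E + v z })
    ⟨h.E.add hv, h.D, h.h, h.V, h.s0, h.hv, h.dbl⟩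

omit hC hf in
theorem md_sp_tr (he : SP B e) (hd : SP B d) : SP B fun z => (e z).tr (d z) :=
  SP.ite hd.decide_true he.snd.fst he.fst

theorem md_sp_P : SP B fun z => C.pw (f z) (C.p (f z)).P := MR1.sp_pw hC hf (hC.P.comp hf)

omit hf

theorem md_isSP_fL : (md_fL C).IsSP B inferInstance :=
  isSP_bsum (hC.Kp.comp SP.fst') (isSP_bmap (by fun_prop) (isSP_bbind (isSP_cKey SP.snd')
    (isSP_bite (by fun_prop) (isSP_bval (SP.const 0)) (isSP_bmap (by fun_prop) (isSP_bbind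
      (isSP_atFar SP.snd' (isSP_val (md_sp_fl hC SP.fst' (by fun_prop) (by fun_prop)
        (by fun_prop)).toNat))
      (isSP_bite (by fun_prop) (isSP_cWt (by fun_prop)) (isSP_bval (SP.const 0))))))))

theorem md_isSP_dive {x : α → Γ → Cd} {c : α → Γ × ℕ → ℕ} {y : Pg α (Γ × ℕ)}
    (hx : SP B fun z : α × Γ => x z.1 z.2) (hc : SP B fun z : α × Γ × ℕ => c z.1 z.2)
    (hy : y.IsSP B inferInstance) : (md_dive C x c y).IsSP B i := by
  have h1 := hx.comp (g := fun z : α × GS × Γ => (z.1, z.2.2)) (by fun_prop)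
  have h2 := hx.comp (g := fun z : α × GS × Γ × ℕ => (z.1, z.2.2.1)) (by fun_prop)
  have h3 := hx.comp (g := fun z : α × GS × (Γ × ℕ) × ℕ => (z.1, z.2.2.1.1)) (by fun_prop)
  have h4 := hx.comp (g := fun z : α × GS × ((Γ × ℕ) × ℕ) × ℕ => (z.1, z.2.2.1.1.1)) (by fun_prop)
  have h5 := md_sp_q hC SP.fst'
    (hx.comp (g := fun z : α × GS × (((Γ × ℕ) × ℕ) × ℕ) × ℕ => (z.1, z.2.2.1.1.1.1)) (by fun_prop))
  exact isSP_seq (isSP_val (sp_shr (by fun_prop) (md_sp_q hC SP.fst' h1)))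
    (isSP_seq (isSP_val (md_sp_getc hC SP.fst' (md_sp_q hC SP.fst' h2) (by fun_prop)))
      (isSP_seq (isSP_val (md_sp_getc hC SP.fst' (md_sp_q hC SP.fst' h3) (by fun_prop)))
        (isSP_via (isSP_act (md_sp_mdn hC SP.fst' h4 (by fun_prop))) (isSP_map (by fun_prop) hy)
          (isSP_act ((md_sp_dn hC SP.fst' h5 (by fun_prop) (hc.comp
            (g := fun z : α × GS × (((Γ × ℕ) × ℕ) × ℕ) × ℕ => (z.1, z.2.2.1.1.1)) (by fun_prop))).pair
            (md_sp_sub hC SP.fst' h5 (by fun_prop) (by fun_prop) (by fun_prop)))))))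

section

variable {x y : Bg α Γ} {χ : Γ → ℕ}

theorem md_isSP_fmul (hx : x.IsSP B inferInstance) (hy : y.IsSP B inferInstance) :
    (md_fmul C x y).IsSP B inferInstance :=
  isSP_bshr hC.Pm (hC.P.comp SP.fst') (isSP_bmul hx hy)

theorem md_isSP_dist (hc : SP B χ) (hx : x.IsSP B inferInstance) :
    (md_dist C χ x).IsSP B inferInstance := by
  have h := isSP_bval (ρ := PN) (f := fun a (_ : GS) z => (C.p a).cu (χ z) * C.pw a (C.p a).P)
    ((md_sp_cu hC SP.fst' (hc.comp SP.snd'.snd)).mul (md_sp_P hC SP.fst'))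
  exact isSP_badd (isSP_bsub hC.Pm h hx) (isSP_bsub hC.Pm hx h)

theorem md_isSP_nst (hc : SP B χ) (hx : x.IsSP B inferInstance) :
    (md_nst C χ x).IsSP B inferInstance :=
  isSP_bmul (isSP_bval ((MR1.sp_pw hC SP.fst' (hC.mu.comp SP.fst')).mul
    (md_sp_cu hC SP.fst' (hc.comp SP.snd'.snd))))
    (isSP_bsub hC.Pm (isSP_bval (md_sp_P hC SP.fst')) (md_isSP_dist hC hc hx))

theorem md_isSP_fa (hc : SP B χ) (hx : x.IsSP B inferInstance) :
    (md_fa C χ x).IsSP B inferInstance :=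
  isSP_bmin hC.Pm (isSP_bval (md_sp_P hC SP.fst')) (isSP_bsub hC.Pm (md_isSP_nst hC hc hx)
    (isSP_bval ((md_sp_cj hC SP.fst' (hc.comp SP.snd'.snd)).mul (md_sp_P hC SP.fst'))))

theorem md_isSP_fb (hc : SP B χ) (hx : x.IsSP B inferInstance) :
    (md_fb C χ x).IsSP B inferInstance :=
  md_isSP_fmul hC (isSP_bmin hC.Pm (isSP_bval (md_sp_P hC SP.fst')) (isSP_bsub hC.Pm
    (isSP_badd (md_isSP_nst hC hc hx) (isSP_bval (md_sp_P hC SP.fst')))
    (isSP_bval ((md_sp_cj hC SP.fst' (hc.comp SP.snd'.snd)).mul (md_sp_P hC SP.fst')))))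
    (isSP_bmin hC.Pm (isSP_bval (md_sp_P hC SP.fst')) (isSP_bsub hC.Pm
      (isSP_bval ((SP.const 2).mul (md_sp_P hC SP.fst'))) (md_isSP_dist hC hc hx)))

theorem md_isSP_cst {r χ : α → Γ → ℕ} (hr : SP B fun z : α × GS × Γ => r z.1 z.2.2)
    (hc : SP B fun z : α × GS × Γ => χ z.1 z.2.2) : (md_cst C r χ).IsSP B inferInstance :=
  isSP_bval ((MR1.sp_pw hC SP.fst' ((hC.P.comp SP.fst').add hr)).div
    ((md_sp_cu hC SP.fst' hc).mul (MR1.sp_pw hC SP.fst' (hC.mu.comp SP.fst'))))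

end

theorem md_isSP_up {y : Bg α (Cd × ℕ)} (hy : y.IsSP B inferInstance) :
    (md_up C y).IsSP B inferInstance := by
  have h := md_sp_q hC SP.fst' (x := fun z : α × GS × Cd × ℕ => z.2.2.1) (by fun_prop)
  exact isSP_bvia (isSP_seq (isSP_val (sp_shr (by fun_prop) (md_sp_q hC SP.fst' SP.snd'.snd)))
    (isSP_then (isSP_act ((sp_low (by fun_prop) h).pair (by fun_prop))) (isSP_val (by fun_prop)))) hy
    (isSP_act ((md_sp_dn hC SP.fst' h (by fun_prop) (by fun_prop)).pair (by fun_prop)))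

end sp

theorem isSP_ctrP (hC : C.IsSP B) : (ctrP C).IsSP B inferInstance :=
  isSP_bite (md_sp_fl hC SP.fst' (by fun_prop) (by fun_prop) (by fun_prop))
    (isSP_bval (md_sp_P hC SP.fst')) (isSP_badd (isSP_telP hC (by fun_prop) (isSP_val (SP.const 1))
      (md_isSP_fL hC) (isSP_bvia (isSP_act (SP.pair (by fun_prop) (md_sp_wk2 hC SP.fst'
        (fun hM hu => Mix.sp_walk hM (by fun_prop) (by fun_prop) hu) (by fun_prop))))
        (isSP_bmap (by fun_prop) (md_isSP_fL hC)) (isSP_act (SP.pair (by fun_prop)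
          (md_sp_wk2 hC SP.fst' (fun hM hu => Mix.sp_unwalk hM (by fun_prop) (by fun_prop) hu)
            (by fun_prop))))))
      (isSP_bval ((SP.const 2).mul (md_sp_P hC SP.fst'))))

theorem md_isSP_cd (hC : C.IsSP B) : (cdD C).IsSP B := by
  have h1 : SP B fun z : α × GS × ((Cd × ℕ) × ℕ) × ℕ => decide (z.2.2.1.1.1.2.2.1 = 1) := by
    fun_prop
  have h2 := md_sp_q hC SP.fst' (x := fun z : α × GS × ((Cd × ℕ) × ℕ) × ℕ => z.2.2.1.1.1)
    (by fun_prop)
  refine ⟨(MR1.sp_pw hC SP.id (md_sp_W hC SP.id)).mul hC.Kp, ?_, ?_, ?_⟩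
  · exact md_isSP_dive hC SP.snd' (by fun_prop) (isSP_seq
      (isSP_cKey (md_sp_pa hC SP.fst' (by fun_prop))) (isSP_ite (by fun_prop)
        (isSP_val (SP.const 0)) (isSP_seq (isSP_agreeP (SP.const 0)
          (SP.add (mw_sp_E (by fun_prop)) (md_sp_mrs hC SP.fst' (by fun_prop) (by fun_prop)))
          (isSP_val (MR1.sp_vb hC SP.fst' h2 (md_sp_tr SP.snd'.fst.snd h1) SP.snd'.fst.fst
            SP.snd'.snd.snd))
          (isSP_atFar (md_sp_pa hC SP.fst' (by fun_prop)) (isSP_val (MR1.sp_vb hC SP.fst' h2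
            (md_sp_tr SP.snd'.fst.snd h1.not) SP.snd'.fst.fst SP.snd'.snd.snd))))
          (isSP_val (SP.ite (by fun_prop) ((md_sp_code (by fun_prop)
            (md_sp_mrs hC SP.fst' (by fun_prop) (by fun_prop))).add (SP.const 1)) (SP.const 0))))))
  · exact md_isSP_dive (c := fun a (z : Cd × ℕ) => z.1.2.2.2 / (C.p a).Kp) hC SP.snd'
      (SP.snd'.fst.snd.snd.snd.div (hC.Kp.comp SP.fst')) (isSP_seq
        (isSP_cMv (md_sp_pa hC SP.fst' SP.snd'.fst))
        (isSP_val ((SP.snd'.snd.fst.snd.mul (hC.Kp.comp SP.fst')).add SP.snd'.snd.snd)))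
  · exact md_isSP_dive hC (by fun_prop) (by fun_prop)
      (isSP_cMid (md_sp_pa hC SP.fst' (by fun_prop)) (by fun_prop))

theorem md_isSP_at (hC : C.IsSP B) (b : Bool) {y : Bg α Cd} (hy : y.IsSP B inferInstance) :
    (md_at C b y).IsSP B inferInstance :=
  isSP_bite ((md_sp_beq (md_sp_beq (d := fun z : α × GS × Cd => decide ((z.2.2.1 - 1) % 6 < 2))
    (d' := fun z => decide (z.2.2.2.2.1 = 1)) (by fun_prop) (by fun_prop)) (SP.const b)).congr
      fun _ => rfl) hy (isSP_bvia (md_isSP_cd hC).2.2.1 (isSP_bmap (by fun_prop) hy)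
        (isSP_map (by fun_prop) (md_isSP_cd hC).2.2.1))

theorem isSP_D (hC : C.IsSP B) :
    (cdD C).IsSP B ∧ (wtD C).IsSP B inferInstance ∧ (alD C).IsSP B inferInstance := by
  have h1 : (md_ctr C).IsSP B inferInstance := isSP_bmap (by fun_prop) (isSP_ctrP hC)
  have h2 := md_isSP_fa hC (χ := fun z : Cd × ℕ => z.2) SP.snd' h1
  have h3 := md_isSP_fb hC (χ := fun z : Cd × ℕ => z.2) SP.snd' h1
  refine ⟨md_isSP_cd hC, isSP_map (by fun_prop) (isSP_bbind (isSP_gen hC (md_isSP_cd hC)).1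
    (isSP_bmap (by fun_prop) (md_isSP_fmul hC (md_isSP_fmul hC (md_isSP_fmul hC
      (md_isSP_dive hC (by fun_prop) (by fun_prop) (isSP_map (by fun_prop)
        (isSP_cWt (md_sp_pa hC SP.fst' SP.snd'))))
      (md_isSP_at hC _ (md_isSP_up hC (md_isSP_cst hC
        (md_sp_rs hC SP.fst' (by fun_prop) (by fun_prop)) (by fun_prop)))))
      (md_isSP_at hC _ (md_isSP_up hC h2))) (md_isSP_at hC _ (md_isSP_up hC h3))))),
    isSP_map (by fun_prop) (md_isSP_up hC (md_isSP_fmul hC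
      (isSP_cAl (md_sp_pa hC SP.fst' (by fun_prop)))
      (isSP_bite (md_sp_beq (by fun_prop) (by fun_prop))
        (md_isSP_fmul hC (md_isSP_cst hC (SP.const 0) (by fun_prop)) h2) h3)))⟩

end Vale.Agent.P313.NL
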