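import Vale.Agent.P313.NL.EDef
import Vale.Agent.P313.NL.Big

/-!
The interface of the recursive program which computes the estimates.
-/

namespace Vale.Agent.P313.NL

open Finset Vale.Agent.Lib.Space

/-- The global state: the current name and the environment. -/
abbrev GS : Type := ℕ × Env

/-- The procedures. -/
inductive PN | key | mv | wt | mid | al deriving DecidableEq

instance : Fintype PN := ⟨{.key, .mv, .wt, .mid, .al}, fun x => by cases x <;> simp⟩

/-- The data of an instance, as functions of the read-only context. -/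
structure Cx (α : Type) where
  /-- parameters -/
  p : α → Par
  /-- hash functions -/
  F : α → ℕ → ℕ → ℕ
  /-- the first graph -/
  A0 : α → ℕ → ℕ → ℕ
  /-- bits of large numbers -/
  Pm : α → ℕ
  /-- `2 ^ Pm` -/
  cap : α → ℕ

variable {α : Type}

/-- Programs. -/
abbrev Pg (α Γ : Type) : Type 1 := Nd α GS PN Γ

/-- Large numbers. -/
abbrev Bg (α Γ : Type) : Type 1 := Big α GS PN Γ

/-- The data are computed in small space. -/
structure Cx.IsSP {A : Type} [Enc A α] (B : Bud A) (C : Cx α) : Prop where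
  N : SP B fun a => (C.p a).N
  n0 : SP B fun a => (C.p a).n0
  K : SP B fun a => (C.p a).K
  mu : SP B fun a => (C.p a).mu
  r1 : SP B fun a => (C.p a).r1
  c : SP B fun a => (C.p a).c
  W1 : SP B fun a => (C.p a).W1
  mh : SP B fun a => (C.p a).mh
  Kp : SP B fun a => (C.p a).Kp
  wb : SP B fun a => (C.p a).wb
  tw : SP B fun a => (C.p a).tw
  P : SP B fun a => (C.p a).P
  F : SP B fun z : α × ℕ × ℕ => C.F z.1 z.2.1 z.2.2
  A0 : SP B fun z : α × ℕ × ℕ => C.A0 z.1 z.2.1 z.2.2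
  Pm : SP B C.Pm
  cap : SP B C.cap

/-- The sizes fit. -/
structure Cx.Fits (C : Cx α) (a : α) (lg : ℕ) : Prop where
  small : (C.p a).Small lg
  cap_eq : C.cap a = 2 ^ C.Pm a
  Pm_lt : C.Pm a < 2 ^ lg
  Pm_ge : 3 * (C.p a).P + 2 * Mix.t0 * ((C.p a).P + 2) + 3 * (C.p a).m + 10 * lg ≤ C.Pm a
  F_lt : ∀ i v, C.F a i v < 2 ^ (C.p a).m

/-- The allowed global states. -/
def Cx.ok (C : Cx α) (a : α) (g : GS) : Prop := g.1 < 2 ^ (C.p a).m ∧ g.2.Ok (C.p a).m

/-- The code of the key of a term plus one, or zero. -/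
def kc : Option Tm → ℕ
  | none => 0
  | some t => t.k.code + 1

/-- The constant in the cost. -/
def Cc : ℕ := 100000000000

section

variable (C : Cx α) (body : PN → Pg α Arg) (a : α)

/-- The procedures for the navigation are correct at the level `s`. The arguments are the level,
the budget, the end, the rank and the position of a bit. -/
structure SpecN (s q : ℕ) (L : Lv) (κ : ℕ → ℕ) : Prop where
  key : ∀ j ≤ (C.p a).P, ∀ e : Env, e.Ok (C.p a).m → ∀ (d : Bool) (v r : ℕ), v < 2 ^ q →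
    r < (C.p a).Kp → Ev body a (C.ok a) (body .key) (s, j, d.toNat, r, 0, 0) (v, e) (v, e)
      (kc (L.nb (C.p a) j e d v r)) (κ j)
  mv : ∀ j ≤ (C.p a).P, ∀ e : Env, e.Ok (C.p a).m → ∀ (d : Bool) (v r : ℕ) (t : Tm),
    L.nb (C.p a) j e d v r = some t → Ev body a (C.ok a) (body .mv) (s, j, d.toNat, r, 0, 0) (v, e)
      (t.ep !d, e) (rank (L.V j e) (!d) t) (κ j)
  mid : ∀ j ≤ (C.p a).P, ∀ e : Env, e.Ok (C.p a).m → ∀ (d : Bool) (v r : ℕ) (t : Tm),
    L.nb (C.p a) j e d v r = some t → t.k.dbl = true → ∀ i < (C.p a).m,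
      Ev body a (C.ok a) (body .mid) (s, j, d.toNat, r, 2 * i, 0) (v, e) (v, e)
        (KH.bt t.y i) (κ j) ∧
      Ev body a (C.ok a) (body .mid) (s, j, d.toNat, r, 2 * i + 1, 0) (v, e) (v, e)
        (KH.bt (C.F a e.2.2.1 (ext t.k.s0 t.y e.2.2.2.2)) i) (κ j)

/-- The procedures for the numbers are correct at the level `s`. -/
structure SpecW (s q : ℕ) (L : Lv) (κ : ℕ → ℕ) : Prop where
  wt : ∀ j ≤ (C.p a).P, ∀ e : Env, e.Ok (C.p a).m → ∀ (d : Bool) (v r : ℕ) (t : Tm),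
    L.nb (C.p a) j e d v r = some t → ∀ i < C.Pm a,
      Ev body a (C.ok a) (body .wt) (s, j, d.toNat, r, i, 0) (v, e) (v, e)
        (KH.bt (L.w j e t) i) (κ j)
  al : ∀ j ≤ (C.p a).P, ∀ e : Env, e.Ok (C.p a).m → ∀ (d : Bool) (v : ℕ), v < 2 ^ q →
    ∀ i < C.Pm a, Ev body a (C.ok a) (body .al) (s, j, d.toNat, 0, i, 0) (v, e) (v, e)
      (KH.bt (L.al j e d v) i) (κ j)

end

/-- The context of a candidate: level, budget, end, number. -/
abbrev Cd : Type := ℕ × ℕ × ℕ × ℕ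

/-- Programs for candidates. -/
structure Cand (α : Type) where
  /-- the number of candidates -/
  nd : α → ℕ
  /-- the code of the key plus one, or zero if the candidate is not valid -/
  ck : Pg α Cd
  /-- move to the other end, return the number of a candidate there for the same term -/
  cm : Pg α Cd
  /-- the queries for the midpoint -/
  cmid : Pg α (Cd × ℕ)

/-- All parts are `SP`. -/
def Cand.IsSP {A : Type} [Enc A α] (B : Bud A) (Q : Cand α) : Prop :=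
  SP B Q.nd ∧ Q.ck.IsSP B inferInstance ∧ Q.cm.IsSP B inferInstance ∧ Q.cmid.IsSP B inferInstance

/-- The programs for the candidates are correct for the level `s`, whose valid terms are `L.V`;
`cand j e d v i` is the term of the candidate `i` at the end `d` with the name `v`. -/
structure CandSpec (C : Cx α) (body : PN → Pg α Arg) (a : α) (Q : Cand α) (s q lg : ℕ) (L : Lv)
    (cand : ℕ → Env → Bool → ℕ → ℕ → Option Tm) (κ : ℕ → ℕ) : Prop where
  nd_lt : Q.nd a < 2 ^ (5 * lg)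
  sound : ∀ j e d v i t, v < 2 ^ q → i < Q.nd a → cand j e d v i = some t →
    t.ep d = v ∧ t ∈ L.V j e
  compl : ∀ j e d, ∀ t ∈ L.V j e, ∃ i < Q.nd a, cand j e d (t.ep d) i = some t
  ck : ∀ j ≤ (C.p a).P, ∀ e : Env, e.Ok (C.p a).m → ∀ (d : Bool) (v i : ℕ), v < 2 ^ q →
    i < Q.nd a → Ev body a (C.ok a) Q.ck (s, j, d.toNat, i) (v, e) (v, e) (kc (cand j e d v i)) (κ j)
  cm : ∀ j ≤ (C.p a).P, ∀ e : Env, e.Ok (C.p a).m → ∀ (d : Bool) (v i : ℕ) (t : Tm), v < 2 ^ q →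
    i < Q.nd a → cand j e d v i = some t → ∃ i' < Q.nd a, cand j e (!d) (t.ep !d) i' = some t ∧
      Ev body a (C.ok a) Q.cm (s, j, d.toNat, i) (v, e) (t.ep !d, e) i' (κ j)
  cmid : ∀ j ≤ (C.p a).P, ∀ e : Env, e.Ok (C.p a).m → ∀ (d : Bool) (v i : ℕ) (t : Tm),
    v < 2 ^ q → i < Q.nd a → cand j e d v i = some t → t.k.dbl = true → ∀ b < (C.p a).m,
      Ev body a (C.ok a) Q.cmid ((s, j, d.toNat, i), 2 * b) (v, e) (v, e) (KH.bt t.y b) (κ j) ∧
      Ev body a (C.ok a) Q.cmid ((s, j, d.toNat, i), 2 * b + 1) (v, e) (v, e)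
        (KH.bt (C.F a e.2.2.1 (ext t.k.s0 t.y e.2.2.2.2)) b) (κ j)

/-! ### The candidates of the three operations -/

namespace Lv

open scoped Classical

variable (p : Par) (F : ℕ → ℕ → ℕ) (H : Shp) (L : Lv)

/-- The chunks of the source and of the target, if `v` is the end `d` and `χ` the other chunk. -/
def cks (d : Bool) (v χ : ℕ) : ℕ × ℕ := if d then (χ, H.ck v) else (H.ck v, χ)

/-- Candidates for `D`: `i = χ * Kp + r < A * Kp`. -/
noncomputable def candD (d0 sf : Bool) (j : ℕ) (e : Env) (d : Bool) (v i : ℕ) : Option Tm :=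
  (L.nb p j (p.sub H.q e (cks H d v (i / p.Kp)).1 (cks H d v (i / p.Kp)).2) d (H.up v)
    (i % p.Kp)).bind fun t =>
      if act F (H.q + p.W) e (H.chD p d0 sf t (cks H d v (i / p.Kp)).1 (cks H d v (i / p.Kp)).2) then
        some (H.chD p d0 sf t (cks H d v (i / p.Kp)).1 (cks H d v (i / p.Kp)).2) else none

/-- Candidates for `M`: `i = ((χ * Kp + r1) * Kp + r2) * 2 + tag < A * Kp * Kp * 2`. -/
noncomputable def candM (j : ℕ) (e : Env) (d : Bool) (v i : ℕ) : Option Tm :=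
  let χ := cks H d v (i / 2 / p.Kp / p.Kp)
  let e' := p.sub H.q e χ.1 χ.2
  if i % 2 = 0 then (L.nb p j e' d (H.up v) (i / 2 / p.Kp % p.Kp)).map fun t => H.chU t χ.1 χ.2
  else (L.nb p j (if d then e'.r2 else e'.r1) d (H.up v) (i / 2 / p.Kp % p.Kp)).bind fun t =>
    (L.nb p j (if d then e'.r1 else e'.r2) d (t.ep !d) (i / 2 % p.Kp)).bind fun t' =>
      if t.k.dbl = false ∧ t'.k.dbl = false then
        some (if d then H.chM t' t χ.1 χ.2 else H.chM t t' χ.1 χ.2) else none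

/-- Candidates for `R`: `i = (((tag * (c + 1) + s) * (m + 1) + D) * 2 ^ wb + τ) * Kp + r`,
`i < 2 * (c + 1) * (m + 1) * 2 ^ wb * Kp`. -/
noncomputable def candR (j : ℕ) (e : Env) (d : Bool) (v i : ℕ) : Option Tm :=
  let τ := i / p.Kp % 2 ^ p.wb
  let D := i / p.Kp / 2 ^ p.wb % (p.m + 1)
  let s := i / p.Kp / 2 ^ p.wb / (p.m + 1) % (p.c + 1)
  (L.nb p j (p.xc e D τ) d v (i % p.Kp)).bind fun t =>
    if t.k.D = D then
      (if i / p.Kp / 2 ^ p.wb / (p.m + 1) / (p.c + 1) = 0 then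
        (if s < p.c ∧ L.okA p F H j e (τ, t) s then some (chA t.x t.z (t.k.E + s)) else none)
      else if L.okP p F H j e (τ, t) s then some (p.chP t s) else none)
    else none

end Lv

/-! ### The functions with powers of two, in the form which the machine computes -/

namespace Cx

open Full

variable (C : Cx α) (a : α)

/-- `2 ^ e` for `e ≤ Pm` -/
def pw (e : ℕ) : ℕ := cpow (C.cap a) 2 e
/-- the bits of the names at the level `s` -/
def q (s : ℕ) : ℕ := (C.p a).n0 + (C.p a).W * (s - s / 6)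
/-- see `Shp.dn` -/
def dn (q v χ : ℕ) : ℕ := v + C.pw a q * χ
/-- see `Par.setc` -/
def setc (q U χ : ℕ) : ℕ :=
  low U q + C.pw a q * χ + C.pw a (q + (C.p a).W) * shr U (q + (C.p a).W)
/-- see `Par.sub` -/
def sub (q : ℕ) (e : Env) (χx χz : ℕ) : Env :=
  ((e.1.1, e.1.2.1, C.setc a q e.1.2.2 χx), (e.2.1.1, e.2.1.2.1, C.setc a q e.2.1.2.2 χz), e.2.2)
/-- the chunk of `U` at the position `q` -/
def getc (q U : ℕ) : ℕ := low (shr U q) (C.p a).W
/-- see `Par.xc` -/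
def xc (e : Env) (D τ : ℕ) : Env :=
  e.sh e.1.2.1 e.2.1.2.1 (e.2.2.2.1 ^^^ low (τ * C.pw a D) (C.p a).m)
/-- see `Par.wk2`; `f` is `Mix.walk` or `Mix.unwalk` -/
def wk2 (f : ℕ → ℕ → ℕ → ℕ → ℕ) (t w : ℕ) (e : Env) : Env :=
  e.sh (shr (f (C.pw a (C.p a).m) t w (e.1.2.1 * C.pw a (C.p a).m + e.2.2.2.1)) (C.p a).m) e.2.1.2.1
    (low (f (C.pw a (C.p a).m) t w (e.1.2.1 * C.pw a (C.p a).m + e.2.2.2.1)) (C.p a).m)
/-- see `Par.wkAB` -/
def wkAB (f : ℕ → ℕ → ℕ → ℕ → ℕ) (t w : ℕ) (e : Env) : Env :=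
  e.sh (f (C.pw a (C.p a).mh) t w e.1.2.1)
    (e.2.1.2.1 ^^^ e.1.2.1 ^^^ f (C.pw a (C.p a).mh) t w e.1.2.1) e.2.2.2.1
/-- see `Par.wkG` -/
def wkG (f : ℕ → ℕ → ℕ → ℕ → ℕ) (t w : ℕ) (e : Env) : Env :=
  e.sh (f (C.pw a (C.p a).mh) t w e.1.2.1)
    (e.2.1.2.1 ^^^ e.1.2.1 ^^^ f (C.pw a (C.p a).mh) t w e.1.2.1)
    (e.2.2.2.1 ^^^ e.1.2.1 ^^^ f (C.pw a (C.p a).mh) t w e.1.2.1)
/-- the bit `i` of `vl` -/
def vb (q : ℕ) (r : Trk) (v i : ℕ) : ℕ :=
  KH.bt (C.F a r.1 (v + C.pw a q * shr r.2.2 q) ^^^ r.2.1) i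

end Cx

/-- The unit for the cost of parts of a level. -/
def Cu : ℕ := 1000000000

/-- The hypotheses for the step from the level `s` to the level `s + 1`. -/
structure Step (C : Cx α) (body : PN → Pg α Arg) (a : α) (s lg eb X : ℕ) (L : Lv) : Prop where
  fits : C.Fits a lg
  s_lt : s < 6 * (C.p a).K
  n0_le : (C.p a).n0 ≤ (shp (C.p a) s).q
  q_le : (shp (C.p a) s).q + (C.p a).W ≤ (C.p a).m
  e_le : eb + (C.p a).c ≤ (C.p a).m
  r1_le : (C.p a).r1 ≤ (C.p a).c
  wf : L.WF (C.p a) (C.F a) (shp (C.p a) s).q eb ((C.p a).Om * 2 ^ (C.p a).P)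
  sn : SpecN C body a s (shp (C.p a) s).q L fun j => X + Cc * j
  sw : SpecW C body a s (shp (C.p a) s).q L fun j => X + Cc * j

end Vale.Agent.P313.NL
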