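import Vale.Agent.P313.NL.Leaf

/-! The navigation, for any kind of candidates. -/

namespace Vale.Agent.P313.NL

open Finset Vale.Agent.Lib.Space
open scoped Classical

variable {α : Type} {C : Cx α} {body : PN → Pg α Arg} {a : α} {s lg eb X : ℕ} {L : Lv}
  {A : Type} [Enc A α] {B : Bud A}

namespace MG

/-- Replace the number in the context. -/
def c2 (z : Cd × ℕ) : Cd := (z.1.1, z.1.2.1, z.1.2.2.1, z.2)

/-- The context at the other end. -/
def fl (z : Cd × ℕ) : Cd := (z.1.1, z.1.2.1, 1 - z.1.2.2.1, z.2)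

/-- The context in the arguments of a procedure. -/
def cx (x : Arg) : Cd := (x.1, x.2.1, x.2.2.1, x.2.2.2.1)

/-- The name of the other end. -/
def farB (Q : Cand α) : Bg α Cd :=
  Big.via Q.cm (Big.val fun _ g _ => g.1) (.map (fun _ z => fl z) Q.cm)

/-- The name of the midpoint. -/
def midB (Q : Cand α) : Bg α Cd :=
  Big.bind Q.ck (Big.ite (fun _ _ z => (Key.dec (z.2 - 1)).dbl)
    (Big.map (fun _ z => z.1) (Nd.map (fun _ z => (z.1, 2 * z.2)) Q.cmid)) (Big.val fun _ _ _ => 0))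

/-- The lexicographic order: `p` tests `x < y`, `q` tests `y < x`, and `c` decides a tie. -/
def lex {Γ : Type} (p q c : Pg α Γ) : Pg α Γ :=
  Nd.two (fun x y => x % 2 + (1 - x / 2) * (1 - x % 2) * y) (Nd.two (fun x y => x + 2 * y) p q) c

/-- Is the term of the second candidate smaller than the term of the first; both are valid. -/
def ltV (C : Cx α) (Q : Cand α) : Pg α (Cd × ℕ) :=
  lex (Big.lt (fun a => (C.p a).m) (Big.map (fun _ z => c2 z) (farB Q))
      (Big.map (fun _ z => z.1) (farB Q)))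
    (Big.lt (fun a => (C.p a).m) (Big.map (fun _ z => z.1) (farB Q))
      (Big.map (fun _ z => c2 z) (farB Q)))
    (lex (Nd.two (fun x y => (decide (x < y)).toNat) (.map (fun _ z => c2 z) Q.ck)
        (.map (fun _ z => z.1) Q.ck))
      (Nd.two (fun x y => (decide (x < y)).toNat) (.map (fun _ z => z.1) Q.ck)
        (.map (fun _ z => c2 z) Q.ck))
      (Big.lt (fun a => (C.p a).m) (Big.map (fun _ z => c2 z) (midB Q))
        (Big.map (fun _ z => z.1) (midB Q))))

/-- Run `p` only if the second candidate is valid. -/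
def grd (Q : Cand α) (p : Pg α (Cd × ℕ)) : Pg α (Cd × ℕ) :=
  .seq (.map (fun _ z => c2 z) Q.ck)
    (.ite (fun _ _ z => decide (z.2 = 0)) (.val fun _ _ _ => 0) (.map (fun _ z => z.1) p))

/-- Do two candidates give the same term. -/
def same (C : Cx α) (Q : Cand α) : Pg α (Cd × ℕ) :=
  grd Q (Nd.two (fun x y => 1 - (x + y)) (ltV C Q)
    (.map (fun _ z => (c2 z, z.1.2.2.2)) (ltV C Q)))

/-- The rank of the term of a candidate. -/
def rk (C : Cx α) (Q : Cand α) : Pg α Cd :=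
  Nd.sum (fun a _ => Q.nd a) (grd Q (Nd.two (fun x y => x * (1 - y)) (ltV C Q)
    (.map (fun _ z => c2 z) (Nd.sum (fun _ z => z.2.2.2) (same C Q)))))

/-- The rank at the other end. -/
def rkO (C : Cx α) (Q : Cand α) : Pg α Cd :=
  Nd.via Q.cm (.map (fun _ z => fl z) (rk C Q)) (.map (fun _ z => fl z) Q.cm)

/-- Find a candidate and run `p` on it. -/
def onG (f : Pg α Cd) (p : Pg α (Cd × ℕ)) : Pg α Arg :=
  .seq (.map (fun _ x => cx x) f) (.ite (fun _ _ z => decide (z.2 = 0)) (.val fun _ _ _ => 0)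
    (.map (fun _ z => (c2 (cx z.1, z.2 - 1), z.1.2.2.2.2.1)) p))

end MG

open MG

/-- The number of a candidate for the term with the rank `r`, plus one; zero if there is none.
Context: level, budget, end, rank. -/
def findG (C : Cx α) (Q : Cand α) : Pg α Cd :=
  Nd.first (fun a _ => Q.nd a) (grd Q (.seq (.map (fun _ z => c2 z) (rk C Q))
    (.seq (.map (fun _ z => c2 z.1) (rkO C Q)) (.val fun a _ z => (decide (z.1.2 = z.1.1.1.2.2.2) &&
      decide (z.1.2 < (C.p a).Kp) && decide (z.2 < (C.p a).Kp)).toNat))))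
/-- Do the candidates `i` and `i'` give the same term. -/
def sameG (C : Cx α) (Q : Cand α) : Pg α (Cd × ℕ) := same C Q
/-- The body of `key`. -/
def keyG (C : Cx α) (Q : Cand α) : Pg α Arg := onG (findG C Q) (.map (fun _ z => z.1) Q.ck)
/-- The body of `mv`. -/
def mvG (C : Cx α) (Q : Cand α) : Pg α Arg :=
  onG (findG C Q) (.map (fun _ z => z.1) (.seq Q.cm (.map (fun _ z => fl z) (rk C Q))))
/-- The body of `mid`. -/
def midG (C : Cx α) (Q : Cand α) : Pg α Arg := onG (findG C Q) Q.cmid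

variable {Q : Cand α} {q wm : ℕ} {cand : ℕ → Env → Bool → ℕ → ℕ → Option Tm} {κ : ℕ → ℕ}
  {j v r : ℕ} {e : Env} {d : Bool} {t : Tm}

/-- The hypotheses for the navigation at the level `s`. -/
structure GenH (C : Cx α) (body : PN → Pg α Arg) (a : α) (Q : Cand α) (s q lg eb wm : ℕ) (L : Lv)
    (cand : ℕ → Env → Bool → ℕ → ℕ → Option Tm) (κ : ℕ → ℕ) : Prop where
  fits : C.Fits a lg
  s_le : s ≤ 6 * (C.p a).K
  q_le : q ≤ (C.p a).m
  e_le : eb ≤ (C.p a).m
  wf : L.WF (C.p a) (C.F a) q eb wm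
  cs : CandSpec C body a Q s q lg L cand κ

namespace MG

theorem fl_eq (s j i i' : ℕ) (d : Bool) : fl ((s, j, d.toNat, i), i') = (s, j, (!d).toNat, i') := by
  cases d <;> rfl

theorem ite_lt (P : Prop) [Decidable P] {u : ℕ} (hu : 1 ≤ u) : (if P then 1 else 0) < 2 ^ u :=
  lt_pow_mono (u := 1) (by split_ifs <;> omega) hu

theorem ep_lt {p : Par} (h : TmOk p q eb t) (d : Bool) : t.ep d < 2 ^ q := by
  cases d
  · exact h.x_lt
  · exact h.z_lt

theorem eq_of_not_tlt {t' : Tm} (h : t'.ep d = t.ep d) (h1 : ¬ tlt d t' t) (h2 : ¬ tlt d t t') :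
    t' = t := by
  unfold tlt at h1 h2
  have h3 : t'.k = t.k := Key.code_inj (by omega)
  cases d <;> simp only [Tm.ep, Bool.not_true, Bool.not_false, Bool.false_eq_true, if_true,
    if_false] at h h1 h2 <;> exact Tm.ext (by omega) (by omega) (by omega) h3

/-- Counting the values at their first occurrence. -/
theorem sum_first {c : ℕ → Option Tm} {n : ℕ} {S : Finset Tm} {P : Tm → Prop}
    (h1 : ∀ i < n, ∀ t, c i = some t → (P t ↔ t ∈ S)) (h2 : ∀ t ∈ S, ∃ i < n, c i = some t) :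
    ∑ i ∈ range n, ((c i).elim 0 fun t => (if P t then 1 else 0) *
      (1 - ∑ l ∈ range i, if c l = some t then 1 else 0)) = S.card := by
  have h3 : ∀ i ∈ range n, ((c i).elim 0 fun t => (if P t then 1 else 0) *
      (1 - ∑ l ∈ range i, if c l = some t then 1 else 0)) =
      ∑ t ∈ S, if c i = some t ∧ ∀ l < i, c l ≠ some t then 1 else 0 := fun i hi => by
    rcases hc : c i with _ | t
    · simp
    · have h4 : ∀ t', (some t = some t' ∧ ∀ l < i, c l ≠ some t') ↔
          (t = t' ∧ ∀ l < i, c l ≠ some t) := fun t' =>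
        ⟨fun h => by obtain ⟨⟨⟩, h⟩ := h; exact ⟨rfl, h⟩, fun h => h.1 ▸ ⟨rfl, h.2⟩⟩
      simp only [h4, ite_and, sum_ite_eq, Option.elim, h1 i (mem_range.1 hi) t hc]
      split_ifs with h5 h6
      · rw [sum_eq_zero fun l hl => if_neg (h6 l (mem_range.1 hl)), one_mul, Nat.sub_zero]
      · push Not at h6
        obtain ⟨l, hl, h6⟩ := h6
        have := single_le_sum (f := fun l => if c l = some t then 1 else 0)
          (fun _ _ => Nat.zero_le _) (mem_range.2 hl)
        rw [if_pos h6] at this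
        omega
      · rw [zero_mul]
  rw [sum_congr rfl h3, sum_comm, card_eq_sum_ones]
  refine sum_congr rfl fun t ht => ?_
  have h4 : ∃ i, c i = some t := (h2 t ht).imp fun _ h => h.2
  obtain ⟨i, hi, h5⟩ := h2 t ht
  rw [sum_eq_single (Nat.find h4) (fun l _ hl => if_neg fun h => hl
    ((Nat.find_eq_iff h4).2 h).symm) fun h => absurd (mem_range.2 ((Nat.find_min' h4 h5).trans_lt
      hi)) h, if_pos ((Nat.find_eq_iff h4).1 rfl)]

theorem ev_lex {Γ : Type} {p p' c : Pg α Γ} {γ : Γ} {g : GS} {ok : GS → Prop} {x y k k' : ℕ}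
    {P : Prop} [Decidable P] (h1 : Ev body a ok p γ g g (if x < y then 1 else 0) k')
    (h2 : Ev body a ok p' γ g g (if y < x then 1 else 0) k')
    (h3 : Ev body a ok c γ g g (if P then 1 else 0) k') (hk : 12 + k' ≤ k) :
    Ev body a ok (lex p p' c) γ g g (if x < y ∨ (x = y ∧ P) then 1 else 0) k := by
  have h4 : (if x < y then 1 else 0) + 2 * (if y < x then 1 else 0) < 2 ^ 2 := by
    split_ifs <;> omega
  have h5 : ((if x < y then 1 else 0) + 2 * (if y < x then 1 else 0)) % 2 +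
      (1 - ((if x < y then 1 else 0) + 2 * (if y < x then 1 else 0)) / 2) *
      (1 - ((if x < y then 1 else 0) + 2 * (if y < x then 1 else 0)) % 2) * (if P then 1 else 0) =
      if x < y ∨ (x = y ∧ P) then 1 else 0 := by
    rcases lt_trichotomy x y with h | h | h
    · simp [h, h.not_gt]
    · simp [h]
    · simp [h, h.not_gt, h.ne']
  exact (Ev.two (k' := 6 + k') 2 (Ev.two 2 h1 h2 (ite_lt _ one_le_two) (ite_lt _ one_le_two) h4
    le_rfl) (h3.mono (by omega)) h4 (ite_lt _ one_le_two) (h5 ▸ ite_lt _ one_le_two)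
    (by omega)).congr h5

theorem ev_grd {p : Pg α (Cd × ℕ)} {γ : Cd} {g : GS} {ok : GS → Prop} {i k k' u : ℕ}
    {o : Option Tm} {f : Tm → ℕ} (h1 : Ev body a ok Q.ck (c2 (γ, i)) g g (kc o) k')
    (hu : kc o < 2 ^ u) (h2 : ∀ t, o = some t → Ev body a ok p (γ, i) g g (f t) k')
    (hk : u + k' ≤ k) : Ev body a ok (grd Q p) (γ, i) g g (o.elim 0 f) k := by
  refine .seq u (.map (h1.mono (by omega))) hu ?_ hk
  rcases o with _ | t
  · exact .iteT rfl (.val (Nat.two_pow_pos _))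
  · exact .iteF rfl (.map (h2 t rfl))

theorem ev_onG {f : Pg α Cd} {p : Pg α (Cd × ℕ)} {g g' : GS} {ok : GS → Prop}
    {i b c w k k' u : ℕ} (h1 : Ev body a ok f (s, j, c, r) g g (i + 1) k') (hu : i + 1 < 2 ^ u)
    (h2 : Ev body a ok p ((s, j, c, i), b) g g' w k') (hk : u + k' ≤ k) :
    Ev body a ok (onG f p) (s, j, c, r, b, 0) g g' w k :=
  .seq u (.map (h1.mono (by omega))) hu (.iteF rfl (.map h2)) hk

variable (h : GenH C body a Q s q lg eb wm L cand κ) (hj : j ≤ (C.p a).P) (he : e.Ok (C.p a).m)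
  (hv : v < 2 ^ q) {i i' : ℕ} {t' : Tm}

include h

theorem lg_ge : 4 ≤ lg := by
  have := h.fits.small.c_le
  have := h.fits.small.c_pos
  omega

include hv

theorem tmOk (hi : i < Q.nd a) (ht : cand j e d v i = some t) : TmOk (C.p a) q eb t :=
  h.wf.tm _ _ _ (h.cs.sound _ _ _ _ _ _ hv hi ht).2

theorem kc_lt (hi : i < Q.nd a) : kc (cand j e d v i) < 2 ^ (16 * lg) := by
  have h1 := h.fits.small.m_le
  have h2 := h.q_le
  have h3 := h.e_le
  rcases ht : cand j e d v i with _ | t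
  · exact Nat.two_pow_pos _
  · exact (tmOk h hv hi ht).code_lt (by omega) (by omega) (lg_ge h)

include hj he

theorem ev_go (hi : i < Q.nd a) (ht : cand j e d v i = some t) : ∃ i' < Q.nd a, ∃ i'' < Q.nd a,
    cand j e (!d) (t.ep !d) i' = some t ∧
    Ev body a (C.ok a) Q.cm (s, j, d.toNat, i) (v, e) (t.ep !d, e) i' (κ j) ∧
    Ev body a (C.ok a) Q.cm (fl ((s, j, d.toNat, i), i')) (t.ep !d, e) (v, e) i'' (κ j) := by
  obtain ⟨i', h1, h2, h3⟩ := h.cs.cm j hj e he d v i t hv hi ht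
  obtain ⟨i'', h4, -, h5⟩ := h.cs.cm j hj e he (!d) _ i' t (ep_lt (tmOk h hv hi ht) _) h1 h2
  rw [Bool.not_not, (h.cs.sound _ _ _ _ _ _ hv hi ht).1, ← fl_eq s j i] at h5
  exact ⟨i', h1, i'', h4, h2, h3, h5⟩

theorem ev_farB (hi : i < Q.nd a) (ht : cand j e d v i = some t) :
    EvB body a (C.ok a) (fun a => (C.p a).m) (farB Q) (s, j, d.toNat, i) (v, e) (t.ep !d)
      (κ j + 30 * lg) := by
  obtain ⟨i', h1, i'', h2, -, h3, h4⟩ := ev_go h hj he hv hi ht
  have := lg_ge h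
  exact EvB.via (k' := κ j + 1) (5 * lg) (h3.mono (by omega))
    (EvB.val (f := fun _ (g : GS) _ => g.1) (lt_pow_mono (ep_lt (tmOk h hv hi ht) _) h.q_le)
      (by omega)) (.map (h4.mono (by omega))) (h1.trans h.cs.nd_lt) (h2.trans h.cs.nd_lt) (by omega)

theorem ev_midB (hi : i < Q.nd a) (ht : cand j e d v i = some t) :
    EvB body a (C.ok a) (fun a => (C.p a).m) (midB Q) (s, j, d.toNat, i) (v, e) t.y
      (κ j + 30 * lg) := by
  have h0 := lg_ge h
  have h1 := tmOk h hv hi ht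
  refine EvB.bind (k' := κ j + 1) (16 * lg) ((h.cs.ck j hj e he d v i hv hi).mono (by omega))
    (kc_lt h hv hi) ?_ (by omega)
  have h2 : (Key.dec (kc (cand j e d v i) - 1)).dbl = t.k.dbl := by
    rw [ht, kc, Nat.add_sub_cancel, Key.dec_code]
  cases hd : t.k.dbl
  · rw [(h1.sing hd).1]
    exact EvB.iteF (h2.trans hd) (EvB.val (f := fun _ _ _ => 0) (Nat.two_pow_pos _) (by omega))
  · exact EvB.iteT (h2.trans hd) (EvB.map ⟨lt_pow_mono (h1.mid hd).1 ((h1.mid hd).2.le.trans h.q_le),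
      fun b hb => .map ((h.cs.cmid j hj e he d v i t hv hi ht hd b hb).1.mono (by omega))⟩)

theorem ev_ltV (hi : i < Q.nd a) (hi' : i' < Q.nd a) (ht : cand j e d v i = some t)
    (ht' : cand j e d v i' = some t') : Ev body a (C.ok a) (ltV C Q) ((s, j, d.toNat, i), i')
      (v, e) (v, e) (if tlt d t' t then 1 else 0) (κ j + 200 * lg) := by
  have h0 := lg_ge h
  have hm : (C.p a).m < 2 ^ lg := h.fits.small.m_le
  have f1 := ev_farB h hj he hv hi ht
  have f2 := ev_farB h hj he hv hi' ht'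
  have k1 := h.cs.ck j hj e he d v i hv hi
  have k2 := h.cs.ck j hj e he d v i' hv hi'
  have l1 := kc_lt (j := j) (e := e) (d := d) h hv hi
  have l2 := kc_lt (j := j) (e := e) (d := d) h hv hi'
  rw [ht] at k1 l1
  rw [ht'] at k2 l2
  have b : ∀ x y : ℕ, (decide (x + 1 < y + 1)).toNat = if x < y then 1 else 0 := fun x y => by
    by_cases hxy : x < y <;> simp [hxy]
  have b' : ∀ x y : ℕ, (decide (x + 1 < y + 1)).toNat < 2 ^ (16 * lg) := fun x y =>
    b x y ▸ ite_lt _ (by omega)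
  have c1 : 60 * (lg + 1) + (κ j + 30 * lg) ≤ κ j + 140 * lg := by omega
  have c2 : 3 * (16 * lg) + κ j ≤ κ j + 140 * lg := by omega
  have c3 : κ j + 140 * lg ≤ κ j + 150 * lg := by omega
  have c4 : 12 + (κ j + 140 * lg) ≤ κ j + 150 * lg := by omega
  have c5 : 12 + (κ j + 150 * lg) ≤ κ j + 200 * lg := by omega
  exact (ev_lex ((EvB.lt (a := a) (Pm := fun a => (C.p a).m) f2.map f1.map hm c1).mono c3)
    ((EvB.lt (a := a) (Pm := fun a => (C.p a).m) f1.map f2.map hm c1).mono c3) (ev_lex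
      ((Ev.two (16 * lg) (.map k2) (.map k1) l2 l1 (b' _ _) c2).congr (b _ _))
      ((Ev.two (16 * lg) (.map k1) (.map k2) l1 l2 (b' _ _) c2).congr (b _ _))
      (EvB.lt (a := a) (Pm := fun a => (C.p a).m) (ev_midB h hj he hv hi' ht').map
        (ev_midB h hj he hv hi ht).map hm c1) c4) c5).congr (if_congr Iff.rfl rfl rfl)

theorem ev_same (hi : i < Q.nd a) (hi' : i' < Q.nd a) (ht : cand j e d v i = some t) :
    Ev body a (C.ok a) (same C Q) ((s, j, d.toNat, i), i') (v, e) (v, e)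
      (if cand j e d v i' = some t then 1 else 0) (κ j + 300 * lg) := by
  have h0 := lg_ge h
  refine (ev_grd (k' := κ j + 250 * lg) (f := fun t' => if t' = t then 1 else 0)
    ((h.cs.ck j hj e he d v i' hv hi').mono (by omega)) (kc_lt h hv hi') (fun t' ht' => ?_)
    (by omega)).congr (by cases cand j e d v i' <;> simp)
  refine (Ev.two 1 (ev_ltV h hj he hv hi hi' ht ht') (.map (ev_ltV h hj he hv hi' hi ht' ht))
    (ite_lt _ le_rfl) (ite_lt _ le_rfl) (by omega) (by omega)).congr ?_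
  by_cases e1 : t' = t
  · have : ¬ tlt d t t := by unfold tlt; omega
    rw [e1, if_neg this, if_pos rfl]
  · have := mt (fun h' : ¬ tlt d t' t ∧ ¬ tlt d t t' => eq_of_not_tlt
      ((h.cs.sound _ _ _ _ _ _ hv hi' ht').1.trans (h.cs.sound _ _ _ _ _ _ hv hi ht).1.symm)
        h'.1 h'.2) e1
    rw [if_neg e1]
    split_ifs with e2 e3 e3 <;> first | rfl | exact absurd ⟨e2, e3⟩ this

theorem ev_rk (hi : i < Q.nd a) (ht : cand j e d v i = some t) :
    rank (L.V j e) d t < 2 ^ (5 * lg) ∧ Ev body a (C.ok a) (rk C Q) (s, j, d.toNat, i) (v, e) (v, e)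
      (rank (L.V j e) d t) (κ j + 500 * lg) := by
  have h0 := lg_ge h
  have h1 := (h.cs.sound _ _ _ _ _ _ hv hi ht).1
  have h2 := sum_first (c := cand j e d v) (n := Q.nd a) (P := fun t' => tlt d t' t)
    (S := (L.V j e).filter fun t' => t'.ep d = t.ep d ∧ tlt d t' t)
    (fun l hl t' ht' => by
      obtain ⟨h3, h4⟩ := h.cs.sound _ _ _ _ _ _ hv hl ht'
      rw [mem_filter, h3, h1]
      exact ⟨fun h5 => ⟨h4, rfl, h5⟩, fun h5 => h5.2.2⟩)
    (fun t' ht' => by
      obtain ⟨h3, h4, -⟩ := mem_filter.1 ht'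
      exact h1 ▸ h4 ▸ h.cs.compl j e d t' h3)
  have h3 : ∀ (n : ℕ) (f : ℕ → ℕ), n ≤ Q.nd a → (∀ l, f l ≤ 1) →
      ∑ l ∈ range n, f l < 2 ^ (5 * lg) := fun n f hn hf => by
    refine lt_of_le_of_lt (le_trans ?_ hn) h.cs.nd_lt
    simpa using sum_le_card_nsmul (range n) _ 1 fun l _ => hf l
  have h4 : ∀ (P : Prop) (x : ℕ), (if P then 1 else 0) * (1 - x) ≤ 1 := fun P x => by
    split_ifs <;> omega
  have h5 := h3 _ _ le_rfl fun l => show ((cand j e d v l).elim 0 fun t' =>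
      (if tlt d t' t then 1 else 0) * (1 - ∑ l' ∈ range l,
        if cand j e d v l' = some t' then 1 else 0)) ≤ 1 by
    cases cand j e d v l
    · exact Nat.zero_le _
    · exact h4 _ _
  refine ⟨h2.symm.trans_lt h5, (Ev.sum (k' := κ j + 450 * lg) (5 * lg) (fun l hl => ev_grd
    (k' := κ j + 400 * lg) ((h.cs.ck j hj e he d v l hv hl).mono (by omega)) (kc_lt h hv hl)
    (fun t' ht' => ?_) (by omega)) h.cs.nd_lt h5 (by omega)).congr h2⟩
  have h6 := h3 l (fun l' => if cand j e d v l' = some t' then 1 else 0) hl.le fun _ => by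
    split_ifs <;> omega
  exact Ev.two (k' := κ j + 350 * lg) (5 * lg) ((ev_ltV h hj he hv hi hl ht ht').mono (by omega))
    (.map (Ev.sum (5 * lg) (fun l' hl' => ev_same h hj he hv hl (lt_trans hl' hl) ht')
      (hl.trans h.cs.nd_lt) h6 (by omega))) (ite_lt _ (by omega)) h6
    (lt_pow_mono (u := 1) (Nat.lt_succ_of_le (h4 _ _)) (by omega)) (by omega)

theorem ev_rkO (hi : i < Q.nd a) (ht : cand j e d v i = some t) :
    rank (L.V j e) (!d) t < 2 ^ (5 * lg) ∧ Ev body a (C.ok a) (rkO C Q) (s, j, d.toNat, i) (v, e)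
      (v, e) (rank (L.V j e) (!d) t) (κ j + 600 * lg) := by
  obtain ⟨i', h1, i'', h2, h3, h4, h5⟩ := ev_go h hj he hv hi ht
  obtain ⟨h6, h7⟩ := ev_rk h hj he (ep_lt (tmOk h hv hi ht) _) h1 h3
  exact ⟨h6, Ev.via (5 * lg) (h4.mono (by omega)) (.map (fl_eq s j i i' d ▸ h7))
    (.map (h5.mono (by omega))) (h1.trans h.cs.nd_lt) h6 (h2.trans h.cs.nd_lt) (by omega)⟩

theorem ev_find : Ev body a (C.ok a) (findG C Q) (s, j, d.toNat, r) (v, e) (v, e)
    (firstF (Q.nd a) fun i => (cand j e d v i).elim 0 fun t =>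
      if L.nb (C.p a) j e d v r = some t then 1 else 0) (κ j + 800 * lg) := by
  have h0 := lg_ge h
  refine Ev.first (k' := κ j + 750 * lg) (5 * lg) (fun i hi => ev_grd (k' := κ j + 700 * lg)
    ((h.cs.ck j hj e he d v i hv hi).mono (by omega)) (kc_lt h hv hi) (fun t ht => ?_) (by omega))
    h.cs.nd_lt (fun i _ => ?_) (by omega)
  · obtain ⟨h1, h2⟩ := ev_rk h hj he hv hi ht
    obtain ⟨h3, h4⟩ := ev_rkO h hj he hv hi ht
    obtain ⟨h5, h6⟩ := h.cs.sound _ _ _ _ _ _ hv hi ht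
    refine .seq (k' := κ j + 650 * lg) (5 * lg) (.map (h2.mono (by omega))) h1
      (.seq (k' := 1) (5 * lg) (.map (h4.mono (by omega))) h3 (.val' ?_ (ite_lt _ le_rfl))
        (by omega)) (by omega)
    have h7 : L.nb (C.p a) j e d v r = some t ↔ (rank (L.V j e) d t = r ∧
        rank (L.V j e) d t < (C.p a).Kp) ∧ rank (L.V j e) (!d) t < (C.p a).Kp := by
      rw [Lv.nb_eq_some, Lv.N, mem_filter]
      refine ⟨fun h' => ⟨⟨h'.2.2, h'.1.2 _⟩, h'.1.2 _⟩, fun h' => ⟨⟨h6, fun d' => ?_⟩, h5, h'.1.1⟩⟩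
      cases d <;> cases d' <;> first | exact h'.1.2 | exact h'.2
    simp only [h7, ← Bool.decide_and]
    split_ifs with h8
    · rw [decide_eq_true h8, Bool.toNat_true]
    · rw [decide_eq_false h8, Bool.toNat_false]
  · cases cand j e d v i
    · exact Nat.two_pow_pos _
    · exact ite_lt _ (by omega)

omit hv in
theorem find_some (ht : L.nb (C.p a) j e d v r = some t) : v < 2 ^ q ∧
    ∃ i < Q.nd a, cand j e d v i = some t ∧ Ev body a (C.ok a) (findG C Q) (s, j, d.toNat, r)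
      (v, e) (v, e) (i + 1) (κ j + 800 * lg) := by
  obtain ⟨h1, h2, -⟩ := Lv.nb_eq_some.1 ht
  have h3 := Lv.N_subset j e h1
  have hv : v < 2 ^ q := h2 ▸ ep_lt (h.wf.tm _ _ _ h3) d
  have h4 := ev_find (r := r) (d := d) h hj he hv
  obtain ⟨i, hi, h5⟩ := h.cs.compl j e d t h3
  rw [h2] at h5
  generalize h6 : firstF _ _ = w at h4
  rcases w with _ | w
  · have := firstF_eq_zero.1 h6 i hi
    simp [h5, ht] at this
  · obtain ⟨h7, h8, -⟩ := firstF_eq_succ.1 h6
    refine ⟨hv, w, h7, ?_, h4⟩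
    revert h8
    cases cand j e d v w <;> simp [ht, eq_comm]

end MG

theorem findG_some (h : GenH C body a Q s q lg eb wm L cand κ) (hj : j ≤ (C.p a).P)
    (he : e.Ok (C.p a).m) (ht : L.nb (C.p a) j e d v r = some t) :
    ∃ i < Q.nd a, cand j e d v i = some t ∧ Ev body a (C.ok a) (findG C Q) (s, j, d.toNat, r)
      (v, e) (v, e) (i + 1) (κ j + Cu * lg) := by
  obtain ⟨-, i, h1, h2, h3⟩ := find_some h hj he ht
  exact ⟨i, h1, h2, h3.mono (by unfold Cu; omega)⟩

theorem sameG_spec (h : GenH C body a Q s q lg eb wm L cand κ) (hj : j ≤ (C.p a).P)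
    (he : e.Ok (C.p a).m) (hv : v < 2 ^ q) {i i' : ℕ} (hi : i < Q.nd a) (hi' : i' < Q.nd a)
    (ht : cand j e d v i = some t) : Ev body a (C.ok a) (sameG C Q) ((s, j, d.toNat, i), i')
      (v, e) (v, e) (if cand j e d v i' = some t then 1 else 0) (κ j + Cu * lg) :=
  (ev_same h hj he hv hi hi' ht).mono (by unfold Cu; omega)

theorem specN_of_cand (h : GenH C body a Q s q lg eb wm L cand κ) {κ' : ℕ → ℕ}
    (hκ : ∀ j, κ j + 2 * Cu * lg ≤ κ' j)
    (h1 : ∀ x : Arg, x.1 = s → ∀ g g' v k, Ev body a (C.ok a) (keyG C Q) x g g' v k →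
      Ev body a (C.ok a) (body .key) x g g' v k)
    (h2 : ∀ x : Arg, x.1 = s → ∀ g g' v k, Ev body a (C.ok a) (mvG C Q) x g g' v k →
      Ev body a (C.ok a) (body .mv) x g g' v k)
    (h3 : ∀ x : Arg, x.1 = s → ∀ g g' v k, Ev body a (C.ok a) (midG C Q) x g g' v k →
      Ev body a (C.ok a) (body .mid) x g g' v k) : SpecN C body a s q L κ' := by
  have hk : ∀ j, 5 * lg + (κ j + 800 * lg) ≤ κ' j := fun j => by
    have := hκ j
    unfold Cu at this
    omega
  refine ⟨fun j hj e he d v r hv _ => h1 _ rfl _ _ _ _ ?_, fun j hj e he d v r t ht =>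
    h2 _ rfl _ _ _ _ ?_, fun j hj e he d v r t ht hd b hb => ?_⟩
  · rcases ht : L.nb (C.p a) j e d v r with _ | t
    · have h4 := ev_find (r := r) (d := d) h hj he hv
      rw [firstF_eq_zero.2 fun i _ => by cases cand j e d v i <;> simp [ht]] at h4
      exact .seq (k' := 0) 0 (.map (h4.mono (le_of_add_le_right (hk j)))) one_pos
        (.iteT rfl (.val one_pos)) (Nat.zero_le _)
    · obtain ⟨hv, i, h4, h5, h6⟩ := find_some h hj he ht
      exact ev_onG h6 (lt_of_le_of_lt h4 h.cs.nd_lt)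
        (.map (h5 ▸ (h.cs.ck j hj e he d v i hv h4).mono (Nat.le_add_right _ _))) (hk j)
  · obtain ⟨hv, i, h4, h5, h6⟩ := find_some h hj he ht
    obtain ⟨i', h7, -, -, h8, h9, -⟩ := ev_go h hj he hv h4 h5
    exact ev_onG h6 (lt_of_le_of_lt h4 h.cs.nd_lt) (.map (.seq (5 * lg)
      (h9.mono (Nat.le_add_right _ _)) (h7.trans h.cs.nd_lt) (.map (fl_eq s j i i' d ▸
        (ev_rk h hj he (ep_lt (tmOk h hv h4 h5) _) h7 h8).2)) (by omega))) (hk j)
  · obtain ⟨hv, i, h4, h5, h6⟩ := find_some h hj he ht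
    obtain ⟨h7, h8⟩ := h.cs.cmid j hj e he d v i t hv h4 h5 hd b hb
    exact ⟨h3 _ rfl _ _ _ _ (ev_onG h6 (lt_of_le_of_lt h4 h.cs.nd_lt)
      (h7.mono (Nat.le_add_right _ _)) (hk j)), h3 _ rfl _ _ _ _ (ev_onG h6
        (lt_of_le_of_lt h4 h.cs.nd_lt) (h8.mono (Nat.le_add_right _ _)) (hk j))⟩

theorem isSP_gen (hC : C.IsSP B) (hQ : Q.IsSP B) :
    (findG C Q).IsSP B inferInstance ∧ (sameG C Q).IsSP B inferInstance ∧
      (keyG C Q).IsSP B inferInstance ∧ (mvG C Q).IsSP B inferInstance ∧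
      (midG C Q).IsSP B inferInstance := by
  obtain ⟨q1, q2, q3, q4⟩ := hQ
  have m : SP B fun a => (C.p a).m := (SP.const 2).mul hC.mh
  have s2 : SP B fun z : α × Cd × ℕ => c2 z.2 := by unfold c2; fun_prop
  have sf : SP B fun z : α × Cd × ℕ => fl z.2 := by unfold fl; fun_prop
  have s1 : SP B fun z : α × Cd × ℕ => z.2.1 := by fun_prop
  have f1 : (farB Q).IsSP B inferInstance :=
    isSP_bvia q3 (isSP_bval (by fun_prop)) (isSP_map sf q3)
  have f2 : (midB Q).IsSP B inferInstance :=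
    isSP_bbind q2 (isSP_bite (((Full.sp_unpair2 (Full.sp_unpair2 (Full.sp_unpair2
      (by fun_prop)))).mod (SP.const 2)).decide_eq (SP.const 1))
      (isSP_bmap s1 (isSP_map (by fun_prop) q4)) (isSP_bval (SP.const 0)))
  have lx : ∀ {p p' c : Pg α (Cd × ℕ)}, p.IsSP B inferInstance → p'.IsSP B inferInstance →
      c.IsSP B inferInstance → (lex p p' c).IsSP B inferInstance := fun h1 h2 h3 =>
    isSP_two (by fun_prop) (isSP_two (by fun_prop) h1 h2) h3
  have f3 : (ltV C Q).IsSP B inferInstance :=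
    lx (isSP_blt m (isSP_bmap s2 f1) (isSP_bmap s1 f1))
      (isSP_blt m (isSP_bmap s1 f1) (isSP_bmap s2 f1))
      (lx (isSP_two (by fun_prop) (isSP_map s2 q2) (isSP_map s1 q2))
        (isSP_two (by fun_prop) (isSP_map s1 q2) (isSP_map s2 q2))
        (isSP_blt m (isSP_bmap s2 f2) (isSP_bmap s1 f2)))
  have gd : ∀ {p : Pg α (Cd × ℕ)}, p.IsSP B inferInstance → (grd Q p).IsSP B inferInstance :=
    fun hp => isSP_seq (isSP_map s2 q2) (isSP_ite (by fun_prop) (isSP_val (SP.const 0))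
      (isSP_map (by fun_prop) hp))
  have f4 : (same C Q).IsSP B inferInstance :=
    gd (isSP_two (by fun_prop) f3 (isSP_map (s2.pair (by fun_prop)) f3))
  have f5 : (rk C Q).IsSP B inferInstance :=
    isSP_sum (q1.comp SP.fst') (gd (isSP_two (by fun_prop) f3
      (isSP_map s2 (isSP_sum (by fun_prop) f4))))
  have f6 : (rkO C Q).IsSP B inferInstance := isSP_via q3 (isSP_map sf f5) (isSP_map sf q3)
  have f7 : (findG C Q).IsSP B inferInstance :=
    isSP_first (q1.comp SP.fst') (gd (isSP_seq (isSP_map s2 f5) (isSP_seq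
      (isSP_map (by unfold c2; fun_prop) f6) (isSP_val (((SP.decide_eq (by fun_prop)
        (by fun_prop)).and (SP.decide_lt (by fun_prop) (hC.Kp.comp SP.fst'))).and
          (SP.decide_lt (by fun_prop) (hC.Kp.comp SP.fst'))).toNat))))
  have on : ∀ {p : Pg α (Cd × ℕ)}, p.IsSP B inferInstance →
      (onG (findG C Q) p).IsSP B inferInstance := fun hp =>
    isSP_seq (isSP_map (by unfold cx; fun_prop) f7) (isSP_ite (by fun_prop) (isSP_val (SP.const 0))
      (isSP_map (by unfold c2 cx; fun_prop) hp))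
  exact ⟨f7, f4, on (isSP_map s1 q2), on (isSP_map s1 (isSP_seq q3 (isSP_map sf f5))), on q4⟩

end Vale.Agent.P313.NL
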