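import Vale.Agent.P313.NL.MDef
import Vale.Agent.P313.NL.E2
import Vale.Agent.P313.NL.IM1

/-! The candidates for the operation `M`, and the attributes of names as small numbers. -/

namespace Vale.Agent.P313.NL

open Finset
open scoped Classical

variable {p : Par} {F : ℕ → ℕ → ℕ} {H : Shp} {L : Lv} {j eb wm : ℕ} {e : Env} {d : Bool}

/-- The number of a candidate. -/
def mmIx (k χ r1 r2 tag : ℕ) : ℕ := ((χ * k + r1) * k + r2) * 2 + tag

theorem mm_div {k x r : ℕ} (h : r < k) : (x * k + r) / k = x ∧ (x * k + r) % k = r := by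
  have hk : 0 < k := by omega
  constructor
  · rw [add_comm, Nat.add_mul_div_right _ _ hk, Nat.div_eq_of_lt h, zero_add]
  · rw [add_comm, Nat.add_mul_mod_self_right, Nat.mod_eq_of_lt h]

theorem mmIx_dec {k χ r1 r2 tag : ℕ} (h1 : r1 < k) (h2 : r2 < k) (h3 : tag < 2) :
    mmIx k χ r1 r2 tag / 2 / k / k = χ ∧ mmIx k χ r1 r2 tag / 2 / k % k = r1 ∧
      mmIx k χ r1 r2 tag / 2 % k = r2 ∧ mmIx k χ r1 r2 tag % 2 = tag := by
  unfold mmIx
  rw [(mm_div h3).1, (mm_div h3).2, (mm_div h2).1, (mm_div h2).2, (mm_div h1).1, (mm_div h1).2]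
  exact ⟨rfl, rfl, rfl, rfl⟩

theorem mm_lt {k x n r : ℕ} (hx : x < n) (h : r < k) : x * k + r < n * k :=
  calc x * k + r < (x + 1) * k := by rw [add_mul, one_mul]; omega
    _ ≤ n * k := Nat.mul_le_mul_right _ hx

theorem mmIx_lt {k n χ r1 r2 tag : ℕ} (h0 : χ < n) (h1 : r1 < k) (h2 : r2 < k) (h3 : tag < 2) :
    mmIx k χ r1 r2 tag < n * k * k * 2 := mm_lt (mm_lt (mm_lt h0 h1) h2) h3

theorem mm_chi_lt {k n i : ℕ} (h : i < n * k * k * 2) : i / 2 / k / k < n :=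
  Nat.div_lt_of_lt_mul (by
    rw [mul_comm]
    exact Nat.div_lt_of_lt_mul (by
      rw [mul_comm]
      exact Nat.div_lt_of_lt_mul (by rwa [mul_comm])))

theorem mm_rank {t : Tm} (ht : t ∈ L.N p j e) (d : Bool) : rank (L.V j e) d t < p.Kp :=
  (mem_filter.1 ht).2 d

theorem mm_mem {t : Tm} : t ∈ (L.M p H).V j e ↔ ∃ χx < p.A, ∃ χz < p.A,
    (∃ u ∈ L.N p j (p.sub H.q e χx χz), H.chU u χx χz = t) ∨
      ∃ b ∈ pairs (L.N p j (p.sub H.q e χx χz).r1) (L.N p j (p.sub H.q e χx χz).r2),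
        H.chM b.1 b.2 χx χz = t := by
  simp only [Lv.M, mem_biUnion, mem_union, mem_image, mem_product, mem_range, Prod.exists]
  constructor
  · rintro ⟨x, z, ⟨hx, hz⟩, h⟩
    exact ⟨x, hx, z, hz, h⟩
  · rintro ⟨x, hx, z, hz, h⟩
    exact ⟨x, z, ⟨hx, hz⟩, h⟩

/-- The candidate for a term which is not merged. -/
theorem mm_candU (hw : L.WF p F H.q eb wm) {χx χz : ℕ} {u : Tm}
    (hu : u ∈ L.N p j (p.sub H.q e χx χz)) (d : Bool) :
    L.candM p H j e d ((H.chU u χx χz).ep d) (mmIx p.Kp (if d then χx else χz)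
      (rank (L.V j (p.sub H.q e χx χz)) d u) 0 0) = some (H.chU u χx χz) := by
  have h0 := hw.tm _ _ u (Lv.N_subset _ _ hu)
  have h1 := mm_rank hu d
  obtain ⟨e1, e2, -, e4⟩ := mmIx_dec (χ := if d then χx else χz) h1 (by omega : 0 < p.Kp) two_pos
  have h2 : L.nb p j (p.sub H.q e χx χz) d (u.ep d) (rank (L.V j (p.sub H.q e χx χz)) d u) =
      some u := Lv.nb_eq_some.2 ⟨hu, rfl, rfl⟩
  simp only [Lv.candM, e1, e2, e4, if_true]
  cases d <;> simp only [Tm.ep, Shp.chU, Lv.cks, H.up_dn h0.x_lt, H.ck_dn h0.x_lt, H.up_dn h0.z_lt,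
    H.ck_dn h0.z_lt, if_true, Bool.false_eq_true, if_false] at h2 ⊢ <;> rw [h2] <;> rfl

/-- The candidate for a merged term. -/
theorem mm_candM (hw : L.WF p F H.q eb wm) {χx χz : ℕ} {t1 t2 : Tm}
    (h1 : t1 ∈ L.N p j (p.sub H.q e χx χz).r1) (h2 : t2 ∈ L.N p j (p.sub H.q e χx χz).r2)
    (he : t1.z = t2.x) (d1 : t1.k.dbl = false) (d2 : t2.k.dbl = false) (d : Bool) :
    L.candM p H j e d ((H.chM t1 t2 χx χz).ep d) (mmIx p.Kp (if d then χx else χz)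
      (if d then rank (L.V j (p.sub H.q e χx χz).r2) d t2
        else rank (L.V j (p.sub H.q e χx χz).r1) d t1)
      (if d then rank (L.V j (p.sub H.q e χx χz).r1) d t1
        else rank (L.V j (p.sub H.q e χx χz).r2) d t2) 1) = some (H.chM t1 t2 χx χz) := by
  have k1 := hw.tm _ _ t1 (Lv.N_subset _ _ h1)
  have k2 := hw.tm _ _ t2 (Lv.N_subset _ _ h2)
  have n1 : L.nb p j _ d (t1.ep d) _ = some t1 := Lv.nb_eq_some.2 ⟨h1, rfl, rfl⟩
  have n2 : L.nb p j _ d (t2.ep d) _ = some t2 := Lv.nb_eq_some.2 ⟨h2, rfl, rfl⟩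
  cases d
  · obtain ⟨e1, e2, e3, e4⟩ := mmIx_dec (χ := χz) (mm_rank h1 false) (mm_rank h2 false) one_lt_two
    simp only [Lv.candM, e1, e2, e3, e4, Tm.ep, Shp.chM, Lv.cks, H.up_dn k1.x_lt, H.ck_dn k1.x_lt,
      Bool.false_eq_true, if_false, one_ne_zero, Bool.not_false, if_true] at n1 n2 ⊢
    rw [n1, Option.bind_some, he, n2, Option.bind_some, if_pos ⟨d1, d2⟩]
  · obtain ⟨e1, e2, e3, e4⟩ := mmIx_dec (χ := χx) (mm_rank h2 true) (mm_rank h1 true) one_lt_two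
    simp only [Lv.candM, e1, e2, e3, e4, Tm.ep, Shp.chM, Lv.cks, H.up_dn k2.z_lt, H.ck_dn k2.z_lt,
      Bool.false_eq_true, if_false, one_ne_zero, Bool.not_true, if_true] at n1 n2 ⊢
    rw [n2, Option.bind_some, ← he, n1, Option.bind_some, if_pos ⟨d2, d1⟩]

/-- The environment of the parents of a candidate. -/
def mmE (p : Par) (H : Shp) (e : Env) (d : Bool) (v i : ℕ) : Env :=
  p.sub H.q e (Lv.cks H d v (i / 2 / p.Kp / p.Kp)).1 (Lv.cks H d v (i / 2 / p.Kp / p.Kp)).2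

/-- The roles for the term at the end `d`. -/
def Env.ro (e : Env) (d : Bool) : Env := if d then e.r2 else e.r1

theorem mm_even {v i : ℕ} (h : i % 2 = 0) : L.candM p H j e d v i =
    (L.nb p j (mmE p H e d v i) d (H.up v) (i / 2 / p.Kp % p.Kp)).map fun t =>
      H.chU t (Lv.cks H d v (i / 2 / p.Kp / p.Kp)).1 (Lv.cks H d v (i / 2 / p.Kp / p.Kp)).2 := by
  simp only [Lv.candM, if_pos h]
  rfl

theorem mm_odd {v i : ℕ} (h : i % 2 ≠ 0) : L.candM p H j e d v i =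
    (L.nb p j ((mmE p H e d v i).ro d) d (H.up v) (i / 2 / p.Kp % p.Kp)).bind fun t =>
      (L.nb p j ((mmE p H e d v i).ro !d) d (t.ep !d) (i / 2 % p.Kp)).bind fun t' =>
        if t.k.dbl = false ∧ t'.k.dbl = false then
          some (H.chM (if d then t' else t) (if d then t else t')
            (Lv.cks H d v (i / 2 / p.Kp / p.Kp)).1 (Lv.cks H d v (i / 2 / p.Kp / p.Kp)).2)
        else none := by
  simp only [Lv.candM, if_neg h]
  cases d <;> rfl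

theorem mm_some {v i : ℕ} {t : Tm} (h : L.candM p H j e d v i = some t) :
    (i % 2 = 0 ∧ ∃ u, L.nb p j (mmE p H e d v i) d (H.up v) (i / 2 / p.Kp % p.Kp) = some u ∧
      t = H.chU u (Lv.cks H d v (i / 2 / p.Kp / p.Kp)).1 (Lv.cks H d v (i / 2 / p.Kp / p.Kp)).2) ∨
    (i % 2 ≠ 0 ∧ ∃ u u', L.nb p j ((mmE p H e d v i).ro d) d (H.up v) (i / 2 / p.Kp % p.Kp) =
      some u ∧ L.nb p j ((mmE p H e d v i).ro !d) d (u.ep !d) (i / 2 % p.Kp) = some u' ∧
      u.k.dbl = false ∧ u'.k.dbl = false ∧ t = H.chM (if d then u' else u) (if d then u else u')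
        (Lv.cks H d v (i / 2 / p.Kp / p.Kp)).1 (Lv.cks H d v (i / 2 / p.Kp / p.Kp)).2) := by
  by_cases hi : i % 2 = 0
  · rw [mm_even hi, Option.map_eq_some_iff] at h
    obtain ⟨u, h1, h2⟩ := h
    exact Or.inl ⟨hi, u, h1, h2.symm⟩
  · rw [mm_odd hi, Option.bind_eq_some_iff] at h
    obtain ⟨u, h1, h⟩ := h
    rw [Option.bind_eq_some_iff] at h
    obtain ⟨u', h2, h⟩ := h
    split_ifs at h with h3 <;> exact Or.inr ⟨hi, u, u', h1, h2, h3.1, h3.2, by simp_all⟩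

theorem mm_cks_lt {v χ : ℕ} (hv : v < 2 ^ (H.q + p.W)) (hχ : χ < p.A) :
    (Lv.cks H d v χ).1 < p.A ∧ (Lv.cks H d v χ).2 < p.A := by
  have := id1_ck_lt H hv
  cases d <;> exact ⟨by assumption, by assumption⟩

theorem mm_sound {v i : ℕ} {t : Tm} (hv : v < 2 ^ (H.q + p.W)) (hi : i < p.A * p.Kp * p.Kp * 2)
    (h : L.candM p H j e d v i = some t) : t.ep d = v ∧ t ∈ (L.M p H).V j e := by
  obtain ⟨c1, c2⟩ := mm_cks_lt (d := d) hv (mm_chi_lt hi)
  rcases mm_some h with ⟨-, u, h1, rfl⟩ | ⟨-, u, u', h1, h2, d1, d2, rfl⟩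
  · obtain ⟨h1, h2, -⟩ := Lv.nb_eq_some.1 h1
    refine ⟨?_, mm_mem.2 ⟨_, c1, _, c2, Or.inl ⟨u, h1, rfl⟩⟩⟩
    cases d
    · exact (congrArg (H.dn · (H.ck v)) h2).trans (H.dn_up_ck v)
    · exact (congrArg (H.dn · (H.ck v)) h2).trans (H.dn_up_ck v)
  · obtain ⟨h1, h3, -⟩ := Lv.nb_eq_some.1 h1
    obtain ⟨h2, h4, -⟩ := Lv.nb_eq_some.1 h2
    cases d
    · exact ⟨(congrArg (H.dn · (H.ck v)) h3).trans (H.dn_up_ck v), mm_mem.2 ⟨_, c1, _, c2,
        Or.inr ⟨(u, u'), im1_mem_pairs.2 ⟨h1, h2, h4.symm, d1, d2⟩, rfl⟩⟩⟩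
    · exact ⟨(congrArg (H.dn · (H.ck v)) h3).trans (H.dn_up_ck v), mm_mem.2 ⟨_, c1, _, c2,
        Or.inr ⟨(u', u), im1_mem_pairs.2 ⟨h2, h1, h4, d2, d1⟩, rfl⟩⟩⟩

theorem mm_compl (hw : L.WF p F H.q eb wm) {t : Tm} (ht : t ∈ (L.M p H).V j e) (d : Bool) :
    ∃ i < p.A * p.Kp * p.Kp * 2, L.candM p H j e d (t.ep d) i = some t := by
  obtain ⟨x, hx, z, hz, ⟨u, hu, rfl⟩ | ⟨b, hb, rfl⟩⟩ := mm_mem.1 ht
  · have := mm_rank hu d
    exact ⟨_, mmIx_lt (by split_ifs <;> assumption) this (by omega) two_pos, mm_candU hw hu d⟩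
  · obtain ⟨h1, h2, h3, h4, h5⟩ := im1_mem_pairs.1 hb
    refine ⟨_, mmIx_lt (by split_ifs <;> assumption) ?_ ?_ one_lt_two, mm_candM hw h1 h2 h3 h4 h5 d⟩
    · split_ifs
      · exact mm_rank h2 d
      · exact mm_rank h1 d
    · split_ifs
      · exact mm_rank h1 d
      · exact mm_rank h2 d

/-! ### Attributes of names -/

theorem mm_lv_lt (p : Par) (s : ℕ) : ∀ (d : Bool) (v : ℕ), v < 2 ^ (shp p s).q →
    (shp p s).lv d v < 2 ^ p.W1 := by
  induction s with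
  | zero => exact fun _ _ _ => Nat.two_pow_pos _
  | succ s ih =>
    rw [shp]
    split_ifs
    · exact fun d v _ => ih d _ (id1_up_lt _ v)
    · intro d v hv
      have h1 : (shp p s).ck v < 2 ^ p.W1 * 2 ^ p.W1 := by
        rw [← pow_add, ← two_mul]
        exact id1_ck_lt _ hv
      cases d
      · exact (Nat.div_le_self _ _).trans_lt (Nat.mod_lt _ (Nat.two_pow_pos _))
      · exact Nat.div_lt_of_lt_mul h1
    · exact ih

/-- see `Shp.vs` -/
def mmVs (p : Par) (H : Shp) (d : Bool) (v χ : ℕ) : Bool :=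
  bif p.tp d v then decide (p.cl d χ = 0) && (d || !p.cb χ)
  else bif H.fl d v then decide (p.cl d χ = H.lv d v + 1) && (d || !p.cb χ)
  else decide (H.lv d v ≤ p.cl d χ) && decide (p.cl d χ ≤ p.K)

/-- see `Shp.vld` -/
def mmVld (p : Par) (H : Shp) (v χ : ℕ) : Bool := mmVs p H true v χ && mmVs p H false v χ

theorem mmVs_iff (d : Bool) (v χ : ℕ) : mmVs p H d v χ = true ↔ H.vs p d v χ := by
  unfold mmVs Shp.vs
  cases p.tp d v <;> cases H.fl d v <;> cases d <;> simp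

theorem mmVld_iff (v χ : ℕ) : mmVld p H v χ = true ↔ H.vld p v χ := by
  rw [mmVld, Bool.and_eq_true, mmVs_iff, mmVs_iff, Shp.vld]

/-- The attributes of the name `v` with the chunk `χ`. -/
def mmAt (p : Par) (H : Shp) (v χ : ℕ) : ℕ :=
  Nat.pair ((H.fl true v).toNat + 2 * (H.fl false v).toNat + 4 * (p.tp true v).toNat +
    8 * (p.tp false v).toNat + 16 * (mmVld p H v χ).toNat)
    (Nat.pair (H.lv true v) (H.lv false v))

/-- A bit of the attributes. -/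
def mmB (k n : ℕ) : Bool := decide (KH.bt n.unpair.1 k = 1)
/-- The level of the incoming terms. -/
def mmL1 (n : ℕ) : ℕ := n.unpair.2.unpair.1
/-- The level of the outgoing terms. -/
def mmL0 (n : ℕ) : ℕ := n.unpair.2.unpair.2

theorem mmAt_dec (v χ : ℕ) : mmB 0 (mmAt p H v χ) = H.fl true v ∧
    mmB 1 (mmAt p H v χ) = H.fl false v ∧ mmB 2 (mmAt p H v χ) = p.tp true v ∧
    mmB 3 (mmAt p H v χ) = p.tp false v ∧ mmB 4 (mmAt p H v χ) = mmVld p H v χ ∧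
    mmL1 (mmAt p H v χ) = H.lv true v ∧ mmL0 (mmAt p H v χ) = H.lv false v := by
  simp only [mmB, mmL1, mmL0, mmAt, Nat.unpair_pair, and_true]
  generalize H.fl true v = b0
  generalize H.fl false v = b1
  generalize p.tp true v = b2
  generalize p.tp false v = b3
  generalize mmVld p H v χ = b4
  revert b0 b1 b2 b3 b4
  decide

theorem mmAt_lt {s lg v : ℕ} (hp : p.Small lg) (hv : v < 2 ^ (shp p s).q) (χ : ℕ) :
    mmAt p (shp p s) v χ < 2 ^ (4 * lg) := by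
  have h0 : p.W1 ≤ lg := by
    have := hp.W_le
    rw [Par.W] at this
    omega
  have h1 : ∀ d, (shp p s).lv d v < 2 ^ lg := fun d => lt_pow_mono (mm_lv_lt p s d v hv) h0
  have h2 : ∀ a b n, a < 2 ^ n → b < 2 ^ n → Nat.pair a b < 2 ^ (2 * n) := fun a b n ha hb => by
    refine (Nat.pair_lt_max_add_one_sq a b).trans_le ?_
    rw [mul_comm, pow_mul]
    exact Nat.pow_le_pow_left (by omega) 2
  have h3 := hp.c_le
  have h4 := hp.c_pos
  rw [show 4 * lg = 2 * (2 * lg) by ring]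
  refine h2 _ _ _ (lt_pow_mono (u := 5) ?_ (by omega)) (h2 _ _ _ (h1 _) (h1 _))
  have := Bool.toNat_le ((shp p s).fl true v)
  have := Bool.toNat_le ((shp p s).fl false v)
  have := Bool.toNat_le (p.tp true v)
  have := Bool.toNat_le (p.tp false v)
  have := Bool.toNat_le (mmVld p (shp p s) v χ)
  omega

/-- see `Shp.idle` -/
def mmIdle (b : Bool) (x z : ℕ) : Bool := b || mmB 0 z || mmB 1 x
/-- see `Shp.prd` -/
def mmPrd (b : Bool) (x z : ℕ) : Bool := !mmIdle b x z && (mmB 3 z || decide (mmL1 x ≤ mmL0 z + 2))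
/-- see `Shp.en` -/
def mmEn (b : Bool) (x z : ℕ) : Bool := !mmIdle b x z && (mmB 2 x || decide (mmL0 z ≤ mmL1 x + 2))
/-- see `Shp.okU`; `c` is the bit of the source, `lx` and `lz` are the new levels -/
def mmOkU (b : Bool) (x z : ℕ) (c : Bool) (lx lz : ℕ) : Bool :=
  mmB 4 x && mmB 4 z && decide (c.toNat = (mmPrd b x z).toNat) &&
    decide (lx = mmL0 x + (mmIdle b x z).toNat) && decide (lz = mmL0 x + (mmIdle b x z).toNat)
/-- see `Shp.okM` -/
def mmOkM (x y z : ℕ) (c : Bool) (lx lz : ℕ) : Bool :=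
  mmB 4 x && mmB 4 z && decide (c.toNat = (mmPrd false x y).toNat) && mmEn false x y &&
    mmPrd false y z && decide (lx = max (mmL0 x) (mmL0 y)) && decide (lz = max (mmL0 x) (mmL0 y))

theorem mmIdle_eq (t : Tm) (χ χ' : ℕ) :
    mmIdle t.k.dbl (mmAt p H t.x χ) (mmAt p H t.z χ') = H.idle t := by
  simp only [mmIdle, mmAt_dec, Shp.idle]

theorem mmPrd_iff (t : Tm) (χ χ' : ℕ) :
    mmPrd t.k.dbl (mmAt p H t.x χ) (mmAt p H t.z χ') = true ↔ H.prd p t := by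
  simp [mmPrd, mmIdle_eq, mmAt_dec, Shp.prd]

theorem mmEn_iff (t : Tm) (χ χ' : ℕ) :
    mmEn t.k.dbl (mmAt p H t.x χ) (mmAt p H t.z χ') = true ↔ H.en p t := by
  simp [mmEn, mmIdle_eq, mmAt_dec, Shp.en]

theorem mm_toNat (b c : Bool) : b.toNat = c.toNat ↔ (b = true ↔ c = true) := by
  revert b c
  decide

theorem mmOkU_iff (t : Tm) (χx χz : ℕ) : mmOkU t.k.dbl (mmAt p H t.x χx) (mmAt p H t.z χz)
    (p.cb χx) (p.cl false χx) (p.cl true χz) = true ↔ H.okU p t χx χz := by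
  simp only [mmOkU, Bool.and_eq_true, decide_eq_true_eq, mm_toNat, mmPrd_iff, mmIdle_eq, mmAt_dec,
    Shp.okU, Shp.lam, and_assoc, mmVld_iff]

theorem mmOkM_iff {t1 t2 : Tm} (he : t1.z = t2.x) (d1 : t1.k.dbl = false) (d2 : t2.k.dbl = false)
    (χx χy χz : ℕ) : mmOkM (mmAt p H t1.x χx) (mmAt p H t1.z χy) (mmAt p H t2.z χz)
      (p.cb χx) (p.cl false χx) (p.cl true χz) = true ↔ H.okM p t1 t2 χx χz := by
  have h1 := mmPrd_iff (p := p) (H := H) t1 χx χy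
  have h2 := mmEn_iff (p := p) (H := H) t1 χx χy
  have h3 := mmPrd_iff (p := p) (H := H) t2 χy χz
  rw [d1] at h1 h2
  rw [d2, ← he] at h3
  simp only [mmOkM, Bool.and_eq_true, decide_eq_true_eq, mm_toNat, h1, h2, h3, mmAt_dec,
    Shp.okM, Shp.lam, and_assoc, ← he, mmVld_iff]

theorem mm_wU {u : Tm} (h : TmOk p H.q eb u) (χx χz : ℕ) : (L.M p H).w j e (H.chU u χx χz) =
    if H.okU p u χx χz then (if H.en p u ∧ p.cb χz = true then L.w j (p.sub H.q e χx χz) u / 2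
      else L.w j (p.sub H.q e χx χz) u) else 0 := by
  have e1 : H.ck (H.chU u χx χz).x = χx := H.ck_dn h.x_lt _
  have e2 : H.ck (H.chU u χx χz).z = χz := H.ck_dn h.z_lt _
  simp only [Lv.M, if_neg (not_isM_chU h χx χz), paU_chU H h.x_lt h.z_lt, e1, e2]

theorem mm_wM {t1 t2 : Tm} (h1 : TmOk p H.q eb t1) (h2 : TmOk p H.q eb t2) (he : t1.z = t2.x)
    (d1 : t1.k.dbl = false) (d2 : t2.k.dbl = false) (χx χz : ℕ) :
    (L.M p H).w j e (H.chM t1 t2 χx χz) = if H.okM p t1 t2 χx χz then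
      L.w j (p.sub H.q e χx χz).r1 t1 * L.w j (p.sub H.q e χx χz).r2 t2 / 2 ^ (p.P + 1) else 0 := by
  have e1 : H.ck (H.chM t1 t2 χx χz).x = χx := H.ck_dn h1.x_lt _
  have e2 : H.ck (H.chM t1 t2 χx χz).z = χz := H.ck_dn h2.z_lt _
  simp only [Lv.M, if_pos (isM_chM H t1 t2 χx χz), pa1_chM h1 d1, pa2_chM h2 d2 he, e1, e2,
    Par.fmul, Nat.div_div_eq_div_mul, pow_succ]

end Vale.Agent.P313.NL
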