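import Vale.Agent.P313.NL.Leaf
import Vale.Agent.P313.NL.MMa

/-! The attributes of names are computed in small space. -/

namespace Vale.Agent.P313.NL

open Finset Vale.Agent.Lib.Space Full
open scoped Classical

/-- The levels, by the remainder of `s` modulo six. -/
def mmLv (p : Par) (q : ℕ → ℕ) (e : Bool) : ℕ → ℕ → ℕ → ℕ
  | 0, s, v => if s = 0 then 0 else p.cl e (shr v (q (s - 2)))
  | r + 1, s, v => if r = 4 then p.cl e (shr v (q (s - 1)))
      else mmLv p q e r (s - 1) (low v (q (s - 1)))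

/-- The flags, by the remainder of `s` modulo six. -/
def mmFl (p : Par) (q : ℕ → ℕ) (e : Bool) : ℕ → ℕ → ℕ → Bool
  | 0, _, _ => false
  | r + 1, s, v => if r = 4 then false else mmFl p q e r (s - 1) (low v (q (s - 1))) ||
      (decide (e = decide (r < 2)) && p.flg (decide (r % 2 = 0)) (shr v (q (s - 1))))

theorem mm_shp (p : Par) (e : Bool) (s : ℕ) : ∀ v,
    (shp p s).lv e v = mmLv p (fun s => (shp p s).q) e (s % 6) s v ∧
      (shp p s).fl e v = mmFl p (fun s => (shp p s).q) e (s % 6) s v := by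
  induction s with
  | zero => exact fun _ => ⟨rfl, rfl⟩
  | succ s ih =>
    intro v
    rw [shp]
    split_ifs with h1 h2
    · have h3 : s % 6 ≠ 4 := by omega
      have h4 : s % 6 % 2 = s % 2 := by omega
      rw [show (s + 1) % 6 = s % 6 + 1 by omega, mmLv, mmFl, if_neg h3, if_neg h3,
        Nat.add_sub_cancel, ← (ih _).1, ← (ih _).2, h4]
      exact ⟨rfl, rfl⟩
    · rw [show (s + 1) % 6 = 4 + 1 by omega, mmLv, mmFl, if_pos rfl, if_pos rfl]
      exact ⟨rfl, rfl⟩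
    · rw [(ih v).1, (ih v).2, show (s + 1) % 6 = 0 by omega, show s % 6 = 4 + 1 by omega, mmLv,
        mmFl, if_neg (Nat.succ_ne_zero s)]
      exact ⟨rfl, rfl⟩

variable {α : Type} {C : Cx α} {A : Type} [Enc A α] {B : Bud A} {β : Type} [Enc A β] {f : β → α}
  {s v χ x y : β → ℕ}

theorem mm_sp_case {γ : Type} [Enc A γ] {G : ℕ → β → γ} (hs : SP B s) (hG : ∀ r, SP B (G r)) :
    SP B fun z => G (s z % 6) z := by
  have h : ∀ r, SP B fun z => decide (s z % 6 = r) := fun r =>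
    (hs.mod (SP.const 6)).decide_eq (SP.const r)
  refine (SP.ite (h 0) (hG 0) (SP.ite (h 1) (hG 1) (SP.ite (h 2) (hG 2) (SP.ite (h 3) (hG 3)
    (SP.ite (h 4) (hG 4) (hG 5)))))).congr fun z => ?_
  split_ifs with h0 h1 h2 h3 h4
  · rw [h0]
  · rw [h1]
  · rw [h2]
  · rw [h3]
  · rw [h4]
  · rw [show s z % 6 = 5 by omega]

theorem mm_sp_pw (hC : C.IsSP B) (hf : SP B f) (hx : SP B x) : SP B fun z => C.pw (f z) (x z) :=
  sp_cpow (hC.cap.comp hf) (SP.const 2) hx

theorem mm_sp_W (hC : C.IsSP B) (hf : SP B f) : SP B fun z => (C.p (f z)).W :=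
  (SP.const 2).mul (hC.W1.comp hf)

theorem mm_sp_q (hC : C.IsSP B) (hf : SP B f) (hs : SP B s) : SP B fun z => C.q (f z) (s z) :=
  (hC.n0.comp hf).add ((mm_sp_W hC hf).mul (hs.sub (hs.div (SP.const 6))))

theorem mm_sp_q' (hC : C.IsSP B) (hf : SP B f) (hs : SP B s) :
    SP B fun z => (shp (C.p (f z)) (s z)).q := (mm_sp_q hC hf hs).congr fun _ => C.q_eq _

theorem mm_sp_cl (hC : C.IsSP B) (hf : SP B f) (e : Bool) (hx : SP B x) :
    SP B fun z => (C.p (f z)).cl e (x z) := by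
  cases e
  · exact (sp_low hx (hC.W1.comp hf)).div (SP.const 2)
  · exact sp_shr hx (hC.W1.comp hf)

theorem mm_sp_cb (hC : C.IsSP B) (hf : SP B f) (hx : SP B x) :
    SP B fun z => (C.p (f z)).cb (x z) :=
  ((sp_low hx (hC.W1.comp hf)).mod (SP.const 2)).decide_eq (SP.const 1)

theorem mm_sp_tp (hC : C.IsSP B) (hf : SP B f) (e : Bool) (hx : SP B x) :
    SP B fun z => (C.p (f z)).tp e (x z) := by
  cases e
  · exact (sp_low hx (hC.n0.comp hf)).decide_eq ((hC.N.comp hf).sub (SP.const 1))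
  · exact (sp_low hx (hC.n0.comp hf)).decide_eq (SP.const 0)

theorem mm_sp_flg (hC : C.IsSP B) (hf : SP B f) (b : Bool) (hx : SP B x) :
    SP B fun z => (C.p (f z)).flg b (x z) := by
  have h := sp_shr hx (hC.W1.comp hf)
  refine (SP.const b).and (((sp_cpow h (SP.const 2) (hC.r1.comp hf)).decide_lt h).congr fun z => ?_)
  rw [decide_eq_decide, cpow, min_lt_iff, or_iff_right (lt_irrefl _)]
  rfl

theorem mm_sp_mmLv (hC : C.IsSP B) (hf : SP B f) (e : Bool) (r : ℕ) : ∀ {s v : β → ℕ}, SP B s →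
    SP B v → SP B fun z => mmLv (C.p (f z)) (fun s => (shp (C.p (f z)) s).q) e r (s z) (v z) := by
  induction r with
  | zero =>
    exact fun hs hv => SP.ite (hs.decide_eq (SP.const 0)) (SP.const 0)
      (mm_sp_cl hC hf e (sp_shr hv (mm_sp_q' hC hf (hs.sub (SP.const 2)))))
  | succ r ih =>
    intro s v hs hv
    have h := mm_sp_q' hC hf (hs.sub (SP.const 1))
    simp only [mmLv]
    split_ifs
    · exact mm_sp_cl hC hf e (sp_shr hv h)
    · exact ih (hs.sub (SP.const 1)) (sp_low hv h)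

theorem mm_sp_mmFl (hC : C.IsSP B) (hf : SP B f) (e : Bool) (r : ℕ) : ∀ {s v : β → ℕ}, SP B s →
    SP B v → SP B fun z => mmFl (C.p (f z)) (fun s => (shp (C.p (f z)) s).q) e r (s z) (v z) := by
  induction r with
  | zero => exact fun _ _ => SP.const false
  | succ r ih =>
    intro s v hs hv
    have h := mm_sp_q' hC hf (hs.sub (SP.const 1))
    simp only [mmFl]
    split_ifs
    · exact SP.const false
    · exact (ih (hs.sub (SP.const 1)) (sp_low hv h)).or
        ((SP.const _).and (mm_sp_flg hC hf _ (sp_shr hv h)))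

theorem mm_sp_lv (hC : C.IsSP B) (hf : SP B f) (e : Bool) (hs : SP B s) (hv : SP B v) :
    SP B fun z => (shp (C.p (f z)) (s z)).lv e (v z) :=
  (mm_sp_case hs fun r => mm_sp_mmLv hC hf e r hs hv).congr fun _ => (mm_shp _ e _ _).1.symm

theorem mm_sp_fl (hC : C.IsSP B) (hf : SP B f) (e : Bool) (hs : SP B s) (hv : SP B v) :
    SP B fun z => (shp (C.p (f z)) (s z)).fl e (v z) :=
  (mm_sp_case hs fun r => mm_sp_mmFl hC hf e r hs hv).congr fun _ => (mm_shp _ e _ _).2.symm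

theorem mm_sp_vs (hC : C.IsSP B) (hf : SP B f) (e : Bool) (hs : SP B s) (hv : SP B v)
    (hχ : SP B χ) : SP B fun z => mmVs (C.p (f z)) (shp (C.p (f z)) (s z)) e (v z) (χ z) := by
  have h1 := mm_sp_cl hC hf e hχ
  have h2 := mm_sp_lv hC hf e hs hv
  have h3 := (SP.const e).or (mm_sp_cb hC hf hχ).not
  exact (mm_sp_tp hC hf e hv).cond ((h1.decide_eq (SP.const 0)).and h3)
    ((mm_sp_fl hC hf e hs hv).cond ((h1.decide_eq (h2.add (SP.const 1))).and h3)
      ((h2.decide_le h1).and (h1.decide_le (hC.K.comp hf))))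

theorem mm_sp_vld (hC : C.IsSP B) (hf : SP B f) (hs : SP B s) (hv : SP B v) (hχ : SP B χ) :
    SP B fun z => mmVld (C.p (f z)) (shp (C.p (f z)) (s z)) (v z) (χ z) :=
  (mm_sp_vs hC hf true hs hv hχ).and (mm_sp_vs hC hf false hs hv hχ)

theorem mm_sp_at (hC : C.IsSP B) (hf : SP B f) (hs : SP B s) (hv : SP B v) (hχ : SP B χ) :
    SP B fun z => mmAt (C.p (f z)) (shp (C.p (f z)) (s z)) (v z) (χ z) :=
  sp_npair (((((mm_sp_fl hC hf true hs hv).toNat.add
    ((SP.const 2).mul (mm_sp_fl hC hf false hs hv).toNat)).add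
    ((SP.const 4).mul (mm_sp_tp hC hf true hv).toNat)).add
    ((SP.const 8).mul (mm_sp_tp hC hf false hv).toNat)).add
    ((SP.const 16).mul (mm_sp_vld hC hf hs hv hχ).toNat))
    (sp_npair (mm_sp_lv hC hf true hs hv) (mm_sp_lv hC hf false hs hv))

theorem mm_sp_dn (hC : C.IsSP B) (hf : SP B f) (hs : SP B s) (hv : SP B v) (hχ : SP B χ) :
    SP B fun z => C.dn (f z) (s z) (v z) (χ z) := hv.add ((mm_sp_pw hC hf hs).mul hχ)

theorem mm_sp_setc (hC : C.IsSP B) (hf : SP B f) (hs : SP B s) (hv : SP B v) (hχ : SP B χ) :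
    SP B fun z => C.setc (f z) (s z) (v z) (χ z) :=
  ((sp_low hv hs).add ((mm_sp_pw hC hf hs).mul hχ)).add
    ((mm_sp_pw hC hf (hs.add (mm_sp_W hC hf))).mul (sp_shr hv (hs.add (mm_sp_W hC hf))))

theorem mm_sp_sub (hC : C.IsSP B) {e : β → Env} (hf : SP B f) (hs : SP B s) (he : SP B e)
    (hx : SP B x) (hy : SP B y) : SP B fun z => C.sub (f z) (s z) (e z) (x z) (y z) :=
  (he.fst.fst.pair (he.fst.snd.fst.pair (mm_sp_setc hC hf hs he.fst.snd.snd hx))).pair
    ((he.snd.fst.fst.pair (he.snd.fst.snd.fst.pair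
      (mm_sp_setc hC hf hs he.snd.fst.snd.snd hy))).pair he.snd.snd)

theorem mm_sp_getc (hC : C.IsSP B) (hf : SP B f) (hs : SP B s) (hv : SP B v) :
    SP B fun z => C.getc (f z) (s z) (v z) := sp_low (sp_shr hv hs) (mm_sp_W hC hf)

@[fun_prop]
theorem mm_sp_B (k : ℕ) (hx : SP B x) : SP B fun z => mmB k (x z) := by
  unfold mmB
  fun_prop

@[fun_prop]
theorem mm_sp_L1 (hx : SP B x) : SP B fun z => mmL1 (x z) := sp_unpair1 (sp_unpair2 hx)

@[fun_prop]
theorem mm_sp_L0 (hx : SP B x) : SP B fun z => mmL0 (x z) := sp_unpair2 (sp_unpair2 hx)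

variable {b c : β → Bool}

@[fun_prop]
theorem mm_sp_idle (hb : SP B b) (hx : SP B x) (hy : SP B y) :
    SP B fun z => mmIdle (b z) (x z) (y z) := by
  unfold mmIdle
  fun_prop

@[fun_prop]
theorem mm_sp_prd (hb : SP B b) (hx : SP B x) (hy : SP B y) :
    SP B fun z => mmPrd (b z) (x z) (y z) := by
  unfold mmPrd
  fun_prop

@[fun_prop]
theorem mm_sp_en (hb : SP B b) (hx : SP B x) (hy : SP B y) :
    SP B fun z => mmEn (b z) (x z) (y z) := by
  unfold mmEn
  fun_prop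

theorem mm_sp_okU (hb : SP B b) (hx : SP B x) (hy : SP B y) (hc : SP B c) (hs : SP B s)
    (hv : SP B v) : SP B fun z => mmOkU (b z) (x z) (y z) (c z) (s z) (v z) := by
  unfold mmOkU
  fun_prop

theorem mm_sp_okM (hx : SP B x) (hy : SP B y) (hχ : SP B χ) (hc : SP B c) (hs : SP B s)
    (hv : SP B v) : SP B fun z => mmOkM (x z) (y z) (χ z) (c z) (s z) (v z) := by
  unfold mmOkM
  fun_prop

theorem mm_sp_ix (hx : SP B x) (hy : SP B y) (hχ : SP B χ) (hs : SP B s) (k : ℕ) :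
    SP B fun z => mmIx (x z) (y z) (χ z) (s z) k := by
  unfold mmIx
  fun_prop

theorem mm_sp_dbl (hx : SP B x) : SP B fun z => (Key.dec (x z)).dbl :=
  ((sp_unpair2 (sp_unpair2 (sp_unpair2 hx))).mod (SP.const 2)).decide_eq (SP.const 1)

theorem mm_sp_E (hx : SP B x) : SP B fun z => (Key.dec (x z)).E := sp_unpair1 (sp_unpair1 hx)

end Vale.Agent.P313.NL
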