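import Vale.Agent.P313.NL.MA
import Vale.Agent.P313.NL.MG
import Vale.Agent.P313.NL.E4
import Vale.Agent.P313.NL.MMb

/-! The programs for the operation `M`. The first argument is the new level `s + 1`. -/

namespace Vale.Agent.P313.NL

open Finset Vale.Agent.Lib.Space
open scoped Classical

variable {α : Type} {C : Cx α} {body : PN → Pg α Arg} {a : α} {s lg eb X : ℕ} {L : Lv}
  {A : Type} [Enc A α] {B : Bud A}

/-- Change of the roles. -/
def mmRl (b : ℕ) (e : Env) : Env := if b = 0 then e else if b = 1 then e.r1 else e.r2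

theorem mmRl_rl (b : ℕ) (e : Env) : mmRl b (mmRl b e) = e := by
  unfold mmRl
  split_ifs <;> rfl

theorem mmRl_ok {m : ℕ} {e : Env} (h : e.Ok m) (b : ℕ) : (mmRl b e).Ok m := by
  unfold mmRl
  split_ifs
  · exact h
  · exact h.r1
  · exact h.r2

theorem mmRl_succ (d : Bool) (e : Env) : mmRl (d.toNat + 1) e = e.ro d := by cases d <;> rfl

theorem mmRl_sub (d : Bool) (e : Env) : mmRl (2 - d.toNat) e = e.ro !d := by cases d <;> rfl

theorem mm_ro_ok {m : ℕ} {e : Env} (h : e.Ok m) (d : Bool) : (e.ro d).Ok m :=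
  mmRl_succ d e ▸ mmRl_ok h _

/-- The context inside: candidate, query, the chunk of the name, the two saved chunks. -/
abbrev MmF : Type := (Cd × ℕ) × ℕ × ℕ × ℕ

section defs

variable (C : Cx α) (a : α)

/-- The bits of the names of the parents. -/
def mmQ (c : Cd) : ℕ := C.q a (c.1 - 1)
/-- The chunk of the other end. -/
def mmO (c : Cd) : ℕ := c.2.2.2 / 2 / (C.p a).Kp / (C.p a).Kp
/-- The first parent. -/
def mmX1 (c : Cd) : Cd := (c.1 - 1, c.2.1, c.2.2.1, c.2.2.2 / 2 / (C.p a).Kp % (C.p a).Kp)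
/-- The second parent. -/
def mmX2 (c : Cd) : Cd := (c.1 - 1, c.2.1, c.2.2.1, c.2.2.2 / 2 % (C.p a).Kp)
/-- The roles for the first parent. -/
def mmR (c : Cd) : ℕ := if c.2.2.2 % 2 = 0 then 0 else c.2.2.1 + 1
/-- The chunk of the source. -/
def mmCx (z : MmF) : ℕ := if z.1.1.2.2.1 = 1 then mmO C a z.1.1 else z.2.1
/-- The chunk of the target. -/
def mmCz (z : MmF) : ℕ := if z.1.1.2.2.1 = 1 then z.2.1 else mmO C a z.1.1
/-- Go to the level of the parents. -/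
def mmEnt (g : GS) (z : MmF) : GS := (Full.low g.1 (mmQ C a z.1.1),
  mmRl (mmR z.1.1) (C.sub a (mmQ C a z.1.1) g.2 (mmCx C a z) (mmCz C a z)))
/-- Come back with the chunk `χ` from the roles `b`. -/
def mmEx (g : GS) (z : MmF) (χ b : ℕ) : GS :=
  (C.dn a (mmQ C a z.1.1) g.1 χ, C.sub a (mmQ C a z.1.1) (mmRl b g.2) z.2.2.1 z.2.2.2)
/-- The attributes of the current name. -/
def mmA (g : GS) (c : Cd) (χ : ℕ) : ℕ := mmAt (C.p a) (shp (C.p a) (c.1 - 1)) g.1 χ
/-- The code of the merged key; `x` belongs to the first term. -/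
def mmK (q x z : ℕ) : ℕ := Key.code ⟨min x z, 0, max x z, max x z, q, decide (x < z), true⟩ + 1
/-- The result of `ck` for a merge. -/
def mmKK (c : Cd) (k1 k2 : ℕ) : ℕ :=
  if k2 = 0 then 0 else if (Key.dec (k1 - 1)).dbl || (Key.dec (k2 - 1)).dbl then 0 else
    if c.2.2.1 = 1 then mmK (mmQ C a c) (Key.dec (k2 - 1)).E (Key.dec (k1 - 1)).E
    else mmK (mmQ C a c) (Key.dec (k1 - 1)).E (Key.dec (k2 - 1)).E

omit a

/-- Save the chunks. -/
def mmSave (y : Pg α MmF) : Pg α (Cd × ℕ) :=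
  .seq (.val fun a g z => Full.shr g.1 (mmQ C a z.1))
    (.seq (.val fun a g z => C.getc a (mmQ C a z.1.1) g.2.1.2.2)
      (.seq (.val fun a g z => C.getc a (mmQ C a z.1.1.1) g.2.2.1.2.2)
        (.map (fun _ z => (z.1.1.1, z.1.1.2, z.1.2, z.2)) y)))

/-- Run `y` at the level of the parents. -/
def mmIn (y : Pg α MmF) : Pg α (Cd × ℕ) :=
  mmSave C (inSt (mmEnt C) (fun a g z => mmEx C a g z z.2.1 (mmR z.1.1)) y)

/-- Run `y` at the midpoint, with the roles for the second parent. -/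
def mmMid {Γ : Type} (π : Γ → Cd) (y : Pg α Γ) : Pg α Γ :=
  atFar (fun a z => mmX1 C a (π z))
    (inSt (fun _ g z => (g.1, mmRl (2 - (π z).2.2.1) (mmRl ((π z).2.2.1 + 1) g.2)))
      (fun _ g z => (g.1, mmRl ((π z).2.2.1 + 1) (mmRl (2 - (π z).2.2.1) g.2))) y)

/-- The key of a candidate. -/
def mmCk : Pg α MmF :=
  .seq (cKey fun a z => mmX1 C a z.1.1)
    (.ite (fun _ _ z => decide (z.2 = 0) || decide (z.1.1.1.2.2.2 % 2 = 0)) (.val fun _ _ z => z.2)
      (.seq (mmMid C (fun z => z.1.1.1) (cKey fun a z => mmX2 C a z.1.1.1))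
        (.val fun a _ z => mmKK C a z.1.1.1.1 z.1.2 z.2)))

/-- The move to the other end. -/
def mmCm : Pg α MmF :=
  (Nd.act (mmEnt C)).then (.seq (cMv fun a z => mmX1 C a z.1.1)
    (.ite (fun _ _ z => decide (z.1.1.1.2.2.2 % 2 = 0))
      ((Nd.act fun a g z => mmEx C a g z.1 (mmO C a z.1.1.1) 0).then
        (.val fun a _ z => mmIx (C.p a).Kp z.1.2.1 z.2 0 0))
      ((Nd.act fun _ g z =>
          (g.1, mmRl (2 - z.1.1.1.2.2.1) (mmRl (z.1.1.1.2.2.1 + 1) g.2))).then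
        (.seq (cMv fun a z => mmX2 C a z.1.1.1)
          ((Nd.act fun a g z => mmEx C a g z.1.1 (mmO C a z.1.1.1.1) (2 - z.1.1.1.1.2.2.1)).then
            (.val fun a _ z => mmIx (C.p a).Kp z.1.1.2.1 z.2 z.1.2 1))))))

/-- The queries for the midpoint. -/
def mmCmid : Pg α MmF :=
  .ite (fun _ _ z => decide (z.1.1.2.2.2 % 2 = 0)) (cMid (fun a z => mmX1 C a z.1.1) fun _ z => z.1.2)
    (atFar (fun a z => mmX1 C a z.1.1) (.val fun a g z => KH.bt (if z.1.2 % 2 = 0 then g.1 else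
      C.F a (mmRl (mmR z.1.1) g.2).2.2.1 (C.dn a (mmQ C a z.1.1) g.1
        (Full.shr (mmRl (mmR z.1.1) g.2).2.2.2.2 (mmQ C a z.1.1)))) (z.1.2 / 2)))

/-- The weight of a term which is not merged; the context ends with the key and the attributes of
the source and of the target. -/
def mmWU : Bg α (MmF × ℕ × ℕ × ℕ) :=
  Big.ite (fun a _ z => mmOkU (Key.dec (z.2.1 - 1)).dbl z.2.2.1 z.2.2.2 ((C.p a).cb (mmCx C a z.1))
      ((C.p a).cl false (mmCx C a z.1)) ((C.p a).cl true (mmCz C a z.1)))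
    (Big.shr C.Pm (fun a z => (mmEn (Key.dec (z.2.1 - 1)).dbl z.2.2.1 z.2.2.2 &&
      (C.p a).cb (mmCz C a z.1)).toNat) (cWt fun a z => mmX1 C a z.1.1.1))
    (Big.val fun _ _ _ => 0)

/-- The weight of a merged term; the context ends with the attributes of the midpoint, of the
source and of the target. -/
def mmWM : Bg α (MmF × ℕ × ℕ × ℕ) :=
  Big.ite (fun a _ z => mmOkM z.2.2.1 z.2.1 z.2.2.2 ((C.p a).cb (mmCx C a z.1))
      ((C.p a).cl false (mmCx C a z.1)) ((C.p a).cl true (mmCz C a z.1)))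
    (Big.shr C.Pm (fun a _ => (C.p a).P + 1) (Big.mul (cWt fun a z => mmX1 C a z.1.1.1)
      (mmMid C (fun z => z.1.1.1.1) (cWt fun a z => mmX2 C a z.1.1.1))))
    (Big.val fun _ _ _ => 0)

/-- Sort the attributes of the near end and of the far end. -/
def mmS (z : ((MmF × ℕ) × ℕ) × ℕ) : (MmF × ℕ × ℕ × ℕ) × ℕ :=
  ((z.1.1.1, z.1.2, if z.1.1.1.1.1.2.2.1 = 1 then z.2 else z.1.1.2,
    if z.1.1.1.1.1.2.2.1 = 1 then z.1.1.2 else z.2), z.1.1.1.1.2)

/-- A bit of the weight of a candidate. -/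
def mmWt : Pg α MmF :=
  .seq (.val fun a g z => mmA C a g z.1.1 z.2.1)
    (.ite (fun _ _ z => decide (z.1.1.1.2.2.2 % 2 = 0))
      (.seq (cKey fun a z => mmX1 C a z.1.1.1)
        (.seq (atFar (fun a z => mmX1 C a z.1.1.1.1)
          (.val fun a g z => mmA C a g z.1.1.1.1 (mmO C a z.1.1.1.1)))
          (.map (fun _ => mmS) (mmWU C))))
      (.seq (atFar (fun a z => mmX1 C a z.1.1.1) (.val fun a g z => mmA C a g z.1.1.1 0))
        (.seq (mmMid C (fun z => z.1.1.1.1) (atFar (fun a z => mmX2 C a z.1.1.1.1)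
          (.val fun a g z => mmA C a g z.1.1.1.1 (mmO C a z.1.1.1.1))))
          (.map (fun _ => mmS) (mmWM C)))))

end defs

/-- The candidates. -/
def cdM (C : Cx α) : Cand α where
  nd a := C.pw a (C.p a).W * (C.p a).Kp * (C.p a).Kp * 2
  ck := .map (fun _ c => (c, 0)) (mmIn C (mmCk C))
  cm := .map (fun _ c => (c, 0)) (mmSave C (mmCm C))
  cmid := mmIn C (mmCmid C)

/-- The body of `wt`. -/
def wtM (C : Cx α) : Pg α Arg :=
  .seq (.map (fun _ x => (x.1, x.2.1, x.2.2.1, x.2.2.2.1)) (findG C (cdM C)))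
    (.map (fun _ z => ((z.1.1, z.1.2.1, z.1.2.2.1, z.2 - 1), z.1.2.2.2.2.1)) (mmIn C (mmWt C)))

/-- The body of `al`. -/
def alM (C : Cx α) : Pg α Arg :=
  .seq (.val fun a g x => Full.shr g.1 (C.q a (x.1 - 1)))
    (.ite (fun a g z => mmVld (C.p a) (shp (C.p a) (z.1.1 - 1))
        (Full.low g.1 (C.q a (z.1.1 - 1))) z.2)
      (inSt (fun a g z => (Full.low g.1 (C.q a (z.1.1 - 1)), g.2))
        (fun a g z => (C.dn a (C.q a (z.1.1 - 1)) g.1 z.2, g.2))
        (.map (fun _ z => ((z.1.1 - 1, z.1.2.1, z.1.2.2.1, 0), z.1.2.2.2.2.1)) (cAl fun _ c => c)))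
      (.val fun _ _ _ => 0))

/-- The hypotheses for a query about the candidate `i`. -/
structure MmH (C : Cx α) (body : PN → Pg α Arg) (a : α) (s lg eb X : ℕ) (L : Lv) (j : ℕ) (e : Env)
    (v i : ℕ) : Prop where
  st : Step C body a s lg eb X L
  hj : j ≤ (C.p a).P
  he : e.Ok (C.p a).m
  hv : v < 2 ^ ((shp (C.p a) s).q + (C.p a).W)
  hi : i < (C.p a).A * (C.p a).Kp * (C.p a).Kp * 2

/-- The context inside. -/
def mmFr (C : Cx α) (a : α) (s j : ℕ) (e : Env) (d : Bool) (v i b : ℕ) : MmF :=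
  (((s + 1, j, d.toNat, i), b), (shp (C.p a) s).ck v, C.getc a (shp (C.p a) s).q e.1.2.2,
    C.getc a (shp (C.p a) s).q e.2.1.2.2)

variable {j v i b k k' w u : ℕ} {e : Env} {d : Bool}

theorem mmQ_eq (x : ℕ × ℕ × ℕ) : mmQ C a (s + 1, x) = (shp (C.p a) s).q := C.q_eq s

theorem mmCx_eq : mmCx C a (mmFr C a s j e d v i b) =
    (Lv.cks (shp (C.p a) s) d v (i / 2 / (C.p a).Kp / (C.p a).Kp)).1 := by cases d <;> rfl

theorem mmCz_eq : mmCz C a (mmFr C a s j e d v i b) =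
    (Lv.cks (shp (C.p a) s) d v (i / 2 / (C.p a).Kp / (C.p a).Kp)).2 := by cases d <;> rfl

theorem mm_A_le (hf : C.Fits a lg) : (C.p a).A ≤ 2 ^ lg :=
  Nat.pow_le_pow_right two_pos hf.small.W_le

theorem mm_nd (hf : C.Fits a lg) :
    (cdM C).nd a = (C.p a).A * (C.p a).Kp * (C.p a).Kp * 2 := by
  have h1 := hf.small.W_le
  have h2 := hf.Pm_ge
  change C.pw a _ * _ * _ * _ = _
  rw [C.pw_eq hf (by omega)]
  rfl

theorem mm_nd_lt (hf : C.Fits a lg) : (C.p a).A * (C.p a).Kp * (C.p a).Kp * 2 < 2 ^ (4 * lg) := by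
  have h1 := mm_A_le hf
  have h2 := hf.small.Kp_le
  have h3 := ma_lg hf
  calc _ ≤ 2 ^ lg * 2 ^ lg * 2 ^ lg * 2 := by gcongr
    _ = 2 ^ (3 * lg + 1) := by ring
    _ < _ := Nat.pow_lt_pow_right one_lt_two (by omega)

theorem mm_act {Γ : Type} {f : α → GS → Γ → GS} {γ : Γ} {g g' : GS} (e : f a g γ = g')
    (h : C.ok a g') : Ev body a (C.ok a) (.act f) γ g g' 0 k := e ▸ .act (e ▸ h)

namespace MmH

theorem lg4 (h : MmH C body a s lg eb X L j e v i) : 4 ≤ lg := ma_lg h.st.fits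

theorem q_le (h : MmH C body a s lg eb X L j e v i) : (shp (C.p a) s).q ≤ (C.p a).m :=
  le_of_add_le_left h.st.q_le

theorem o_lt (h : MmH C body a s lg eb X L j e v i) :
    i / 2 / (C.p a).Kp / (C.p a).Kp < (C.p a).A := mm_chi_lt h.hi

theorem E_ok (h : MmH C body a s lg eb X L j e v i) (d : Bool) :
    (mmE (C.p a) (shp (C.p a) s) e d v i).Ok (C.p a).m :=
  h.he.sub h.st.q_le (mm_cks_lt h.hv h.o_lt).1 (mm_cks_lt h.hv h.o_lt).2

theorem ok (h : MmH C body a s lg eb X L j e v i) {x : ℕ} {e' : Env}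
    (hx : x < 2 ^ (shp (C.p a) s).q) (he : e'.Ok (C.p a).m) : C.ok a (x, e') :=
  ⟨lt_pow_mono hx h.q_le, he⟩

theorem ok' (h : MmH C body a s lg eb X L j e v i) {x : ℕ}
    (hx : x < 2 ^ ((shp (C.p a) s).q + (C.p a).W)) : C.ok a (x, e) :=
  ⟨lt_pow_mono hx h.st.q_le, h.he⟩

theorem tm (h : MmH C body a s lg eb X L j e v i) {e' : Env} {x r : ℕ} {t : Tm}
    (ht : L.nb (C.p a) j e' d x r = some t) : TmOk (C.p a) (shp (C.p a) s).q eb t :=
  h.st.wf.tm _ _ t (Lv.N_subset _ _ (Lv.nb_eq_some.1 ht).1)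

theorem ent (h : MmH C body a s lg eb X L j e v i) :
    mmEnt C a (v, e) (mmFr C a s j e d v i b) = ((shp (C.p a) s).up v,
      mmRl (mmR (s + 1, j, d.toNat, i)) (mmE (C.p a) (shp (C.p a) s) e d v i)) := by
  rw [mmEnt, mmCx_eq, mmCz_eq]
  simp only [mmFr, mmQ_eq, C.sub_eq h.st.fits h.st.q_le]
  rfl

theorem ex (h : MmH C body a s lg eb X L j e v i) (x χ r : ℕ) :
    mmEx C a (x, mmRl r (mmE (C.p a) (shp (C.p a) s) e d v i)) (mmFr C a s j e d v i b) χ r =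
      ((shp (C.p a) s).dn x χ, e) := by
  simp only [mmEx, mmFr, mmQ_eq, C.sub_eq h.st.fits h.st.q_le, mmRl_rl, C.dn_eq h.st.fits h.q_le,
    mmE, C.sub_back e (mm_cks_lt h.hv h.o_lt).1 (mm_cks_lt h.hv h.o_lt).2]

theorem save (h : MmH C body a s lg eb X L j e v i) {y : Pg α MmF} {g : GS}
    (hy : Ev body a (C.ok a) y (mmFr C a s j e d v i b) (v, e) g w k') (hk : 3 * lg + k' ≤ k) :
    Ev body a (C.ok a) (mmSave C y) ((s + 1, j, d.toNat, i), b) (v, e) g w k := by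
  have h0 := mm_A_le h.st.fits
  have h1 : (shp (C.p a) s).ck v < 2 ^ lg := (id1_ck_lt _ h.hv).trans_le h0
  have h2 : ∀ U, C.getc a (shp (C.p a) s).q U < 2 ^ lg := fun U => (C.getc_lt _ U).trans_le h0
  exact .seq (k' := 2 * lg + k') lg (.val' (by rw [mmQ_eq]; rfl) (lt_pow_mono h1 (by omega))) h1
    (.seq (k' := lg + k') lg (.val' (by rw [mmQ_eq]) (lt_pow_mono (h2 _) (by omega))) (h2 _)
      (.seq (k' := k') lg (.val' (by rw [mmQ_eq]) (lt_pow_mono (h2 _) (by omega))) (h2 _)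
        (.map hy) le_rfl) (by omega)) (by omega)

theorem inn (h : MmH C body a s lg eb X L j e v i) {y : Pg α MmF} {e' : Env}
    (he : mmRl (mmR (s + 1, j, d.toNat, i)) (mmE (C.p a) (shp (C.p a) s) e d v i) = e')
    (hy : Ev body a (C.ok a) y (mmFr C a s j e d v i b) ((shp (C.p a) s).up v, e')
      ((shp (C.p a) s).up v, e') w k') (hw : w < 2 ^ u) (hk : 3 * lg + 4 * u + k' ≤ k) :
    Ev body a (C.ok a) (mmIn C y) ((s + 1, j, d.toNat, i), b) (v, e) (v, e) w k := by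
  subst he
  exact h.save (k' := 4 * u + k') (ev_inSt (h.ok' h.hv) h.ent
    (h.ok (id1_up_lt _ _) (mmRl_ok (h.E_ok d) _))
    ((h.ex _ _ _).trans (congrArg (·, e) (Shp.dn_up_ck _ v))) hy hw le_rfl) (by omega)

theorem even (hi : i % 2 = 0) (e : Env) : mmRl (mmR (s + 1, j, d.toNat, i)) e = e := by
  simp only [mmR, if_pos hi]
  rfl

theorem odd (hi : i % 2 ≠ 0) (e : Env) : mmRl (mmR (s + 1, j, d.toNat, i)) e = e.ro d := by
  simp only [mmR, if_neg hi, mmRl_succ]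

theorem sw (e : Env) (d : Bool) : mmRl (2 - d.toNat) (mmRl (d.toNat + 1) (e.ro d)) = e.ro !d := by
  cases d <;> rfl

theorem sw' (e : Env) (d : Bool) : mmRl (d.toNat + 1) (mmRl (2 - d.toNat) (e.ro !d)) = e.ro d := by
  cases d <;> rfl

theorem mid (h : MmH C body a s lg eb X L j e v i) {Γ : Type} {π : Γ → Cd} {γ : Γ} {y : Pg α Γ}
    (hπ : π γ = (s + 1, j, d.toNat, i)) {e' : Env} (he : e'.Ok (C.p a).m) {x : ℕ} {t : Tm}
    (ht : L.nb (C.p a) j (e'.ro d) d x (i / 2 / (C.p a).Kp % (C.p a).Kp) = some t)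
    (hy : Ev body a (C.ok a) y γ (t.ep !d, e'.ro !d) (t.ep !d, e'.ro !d) w k') (hw : w < 2 ^ u)
    (hk1 : X + Cc * j + lg + 2 ≤ k') (hk : 8 * (u + lg + 1) + k' ≤ k) :
    Ev body a (C.ok a) (mmMid C π y) γ (x, e'.ro d) (x, e'.ro d) w k :=
  ev_atFar (k' := 4 * u + k') h.st.fits h.st.sn h.st.s_lt.le (by rw [hπ]; rfl) h.hj (mm_ro_ok he d)
    ht (ev_inSt (h.ok (id1_ep_lt (h.tm ht) _) (mm_ro_ok he _)) (by rw [hπ, ← sw e' d])
      (h.ok (id1_ep_lt (h.tm ht) _) (mm_ro_ok he _)) (by rw [hπ, ← sw' e' d]) hy hw le_rfl) hw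
    (by omega) (by omega)

theorem kc_lt (h : MmH C body a s lg eb X L j e v i) (e' : Env) (d : Bool) (x r : ℕ) :
    kc (L.nb (C.p a) j e' d x r) < 2 ^ (16 * lg) := by
  have h1 := h.st.fits.small.m_le
  have h2 := h.q_le
  have h3 := h.st.e_le
  rcases ht : L.nb (C.p a) j e' d x r with _ | t
  · exact Nat.two_pow_pos _
  · exact (h.tm ht).code_lt (by omega) (by omega) h.lg4

theorem cand_lt (h : MmH C body a s lg eb X L j e v i) (d : Bool) :
    kc (L.candM (C.p a) (shp (C.p a) s) j e d v i) < 2 ^ (16 * lg) := by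
  have h1 := h.st.fits.small.m_le
  have h2 := h.st.q_le
  have h3 := h.st.e_le
  obtain ⟨c1, c2⟩ := mm_cks_lt (d := d) h.hv h.o_lt
  rcases ht : L.candM (C.p a) (shp (C.p a) s) j e d v i with _ | t
  · exact Nat.two_pow_pos _
  · refine TmOk.code_lt (p := C.p a) (q := (shp (C.p a) s).q + (C.p a).W) (eb := eb + (C.p a).c) ?_
      (by omega) (by omega) h.lg4
    rcases mm_some ht with ⟨-, u, h1, rfl⟩ | ⟨-, u, u', h1, h2, -, -, rfl⟩
    · exact (h.tm h1).chU h.st.n0_le c1 c2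
    · have h4 := (Lv.nb_eq_some.1 h2).2.1
      cases d
      · exact (h.tm h1).chM (h.tm h2) h4.symm h.st.n0_le h.st.fits.small.W1_pos c1 c2
      · exact (h.tm h2).chM (h.tm h1) h4 h.st.n0_le h.st.fits.small.W1_pos c1 c2

theorem r_lt (h : MmH C body a s lg eb X L j e v i) (x : ℕ) : x % (C.p a).Kp < (C.p a).Kp :=
  Nat.mod_lt _ (by have := h.st.fits.small.Kp_ge; omega)

variable {Γ : Type} {γ : Γ} {x : α → Γ → Cd} {e' : Env} {y r : ℕ} {t : Tm}

theorem key (h : MmH C body a s lg eb X L j e v i) (d : Bool) (r : ℕ) (he : e'.Ok (C.p a).m)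
    (hy : y < 2 ^ (shp (C.p a) s).q) (hx : x a γ = (s, j, d.toNat, r % (C.p a).Kp))
    (hk : X + Cc * j + lg + 2 ≤ k) : Ev body a (C.ok a) (cKey x) γ (y, e') (y, e')
      (kc (L.nb (C.p a) j e' d y (r % (C.p a).Kp))) k :=
  ev_cKey h.st.fits h.st.sn h.st.s_lt.le hx h.hj he hy (h.r_lt _) hk

theorem mv (h : MmH C body a s lg eb X L j e v i) (he : e'.Ok (C.p a).m)
    (ht : L.nb (C.p a) j e' d y r = some t) (hx : x a γ = (s, j, d.toNat, r))
    (hk : X + Cc * j + lg + 2 ≤ k) : Ev body a (C.ok a) (cMv x) γ (y, e') (t.ep !d, e')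
      (rank (L.V j e') (!d) t) k :=
  ev_cMv h.st.fits h.st.sn h.st.s_lt.le hx h.hj he ht hk

theorem far (h : MmH C body a s lg eb X L j e v i) (he : e'.Ok (C.p a).m)
    (ht : L.nb (C.p a) j e' d y r = some t) {z : Pg α Γ} (hx : x a γ = (s, j, d.toNat, r))
    (hz : Ev body a (C.ok a) z γ (t.ep !d, e') (t.ep !d, e') w k') (hw : w < 2 ^ u)
    (hk1 : X + Cc * j + lg + 2 ≤ k') (hk : 4 * (u + lg + 1) + k' ≤ k) :
    Ev body a (C.ok a) (atFar x z) γ (y, e') (y, e') w k :=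
  ev_atFar h.st.fits h.st.sn h.st.s_lt.le hx h.hj he ht hz hw hk1 hk

theorem wt (h : MmH C body a s lg eb X L j e v i) (he : e'.Ok (C.p a).m)
    (ht : L.nb (C.p a) j e' d y r = some t) (hx : x a γ = (s, j, d.toNat, r))
    (hk : X + Cc * j + lg + 2 ≤ k) : EvB body a (C.ok a) C.Pm (cWt x) γ (y, e') (L.w j e' t) k :=
  ev_cWt h.st.fits h.st.sw h.st.s_lt.le h.st.wf le_rfl hx h.hj he ht hk

theorem rk (h : MmH C body a s lg eb X L j e v i) (ht : L.nb (C.p a) j e' d y r = some t)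
    (d' : Bool) : rank (L.V j e') d' t < 2 ^ lg := (ma_rank ht d').trans_le h.st.fits.small.Kp_le

theorem ck (h : MmH C body a s lg eb X L j e v i) (d : Bool) :
    Ev body a (C.ok a) (mmIn C (mmCk C)) ((s + 1, j, d.toNat, i), 0) (v, e) (v, e)
      (kc (L.candM (C.p a) (shp (C.p a) s) j e d v i)) (X + Cc * j + 1000 * lg) := by
  have h4 := h.lg4
  have hc := h.cand_lt d
  refine h.inn (k' := X + Cc * j + 500 * lg) rfl ?_ hc (by omega)
  refine .seq (k' := X + Cc * j + 400 * lg) (16 * lg) (h.key d (i / 2 / (C.p a).Kp)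
    (mmRl_ok (h.E_ok d) _) (id1_up_lt _ _) (by rfl) (by omega)) (h.kc_lt _ _ _ _) ?_ (by omega)
  by_cases hi : i % 2 = 0
  · refine .iteT (by simp [mmFr, hi]) (.val' ?_ (lt_pow_mono hc (by omega)))
    rw [mm_even hi, even hi]
    cases L.nb (C.p a) j (mmE (C.p a) (shp (C.p a) s) e d v i) d ((shp (C.p a) s).up v)
      (i / 2 / (C.p a).Kp % (C.p a).Kp) <;> rfl
  · rw [odd hi]
    rcases h1 : L.nb (C.p a) j ((mmE (C.p a) (shp (C.p a) s) e d v i).ro d) d
      ((shp (C.p a) s).up v) (i / 2 / (C.p a).Kp % (C.p a).Kp) with _ | t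
    · refine .iteT (by simp [kc]) (.val' ?_ (lt_pow_mono hc (by omega)))
      rw [mm_odd hi, h1]
      rfl
    · refine .iteF (by simp [kc, mmFr, hi]) (.seq (k' := 16 * lg) (16 * lg)
        (h.mid (k' := X + Cc * j + lg + 2) (by rfl) (h.E_ok d) h1 (h.key d (i / 2)
          (mm_ro_ok (h.E_ok d) _) (id1_ep_lt (h.tm h1) _) (by rfl) le_rfl)
          (h.kc_lt _ _ _ _) le_rfl (by omega)) (h.kc_lt _ _ _ _) (.val' ?_ hc) (by omega))
      rw [mm_odd hi, h1, Option.bind_some]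
      rcases L.nb (C.p a) j ((mmE (C.p a) (shp (C.p a) s) e d v i).ro !d) d (t.ep !d)
        (i / 2 % (C.p a).Kp) with _ | t'
      · rfl
      · simp only [mmKK, kc, mmFr, mmQ_eq, Nat.add_sub_cancel, Key.dec_code, Nat.add_one_ne_zero,
          if_false, Option.bind_some]
        cases d <;> cases t.k.dbl <;> cases t'.k.dbl <;> rfl

theorem cm (h : MmH C body a s lg eb X L j e v i)
    (ht : L.candM (C.p a) (shp (C.p a) s) j e d v i = some t) :
    ∃ i' < (C.p a).A * (C.p a).Kp * (C.p a).Kp * 2,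
      L.candM (C.p a) (shp (C.p a) s) j e (!d) (t.ep !d) i' = some t ∧
      Ev body a (C.ok a) (mmSave C (mmCm C)) ((s + 1, j, d.toNat, i), 0) (v, e) (t.ep !d, e) i'
        (X + Cc * j + 1000 * lg) := by
  have h4 := h.lg4
  have h5 := h.st.fits.small.Kp_ge
  have hc := id1_ck_lt _ h.hv
  have hE := h.E_ok d
  have hn := mm_nd_lt h.st.fits
  have h0 : Ev body a (C.ok a) (Nd.act (mmEnt C)) (mmFr C a s j e d v i 0) (v, e) _ 0
      (X + Cc * j + 500 * lg) :=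
    mm_act h.ent (h.ok (id1_up_lt _ _) (mmRl_ok hE _))
  rcases mm_some ht with ⟨hi, u, h1, rfl⟩ | ⟨hi, u, u', h1, h2, d1, d2, rfl⟩
  · have h6 := mmIx_lt hc (ma_rank h1 !d) (by omega : 0 < (C.p a).Kp) two_pos
    have h7 := mm_candU h.st.wf (Lv.nb_eq_some.1 h1).1 (!d)
    have h8 := h.ex (d := d) (b := 0) (u.ep !d) (i / 2 / (C.p a).Kp / (C.p a).Kp) 0
    rw [even hi] at h0
    refine ⟨_, h6, by cases d <;> exact h7, h.save (Ev.then (k' := X + Cc * j + 400 * lg) 1 h0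
      two_pos (.seq (k' := 10 * lg) lg (h.mv hE h1 (by rfl) (by omega)) (h.rk h1 _)
        (.iteT (by simp [mmFr, hi]) (Ev.then (v := 0) (k' := 4 * lg) 1 ?_ two_pos (.val (h6.trans hn))
          (by omega))) (by omega)) (by omega)) (by omega)⟩
    have h9 : ((shp (C.p a) s).chU u (Lv.cks (shp (C.p a) s) d v (i / 2 / (C.p a).Kp / (C.p a).Kp)).1
        (Lv.cks (shp (C.p a) s) d v (i / 2 / (C.p a).Kp / (C.p a).Kp)).2).ep (!d) =
        (shp (C.p a) s).dn (u.ep !d) (i / 2 / (C.p a).Kp / (C.p a).Kp) := by cases d <;> rfl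
    rw [h9]
    exact mm_act h8 (h.ok' (Shp.dn_lt _ (id1_ep_lt (h.tm h1) _) h.o_lt))
  · have h6 := mmIx_lt hc (ma_rank h2 !d) (ma_rank h1 !d) one_lt_two
    have h8 := h.ex (d := d) (b := 0) (u'.ep !d) (i / 2 / (C.p a).Kp / (C.p a).Kp) (2 - d.toNat)
    rw [odd hi] at h0
    rw [mmRl_sub] at h8
    refine ⟨_, h6, ?_, h.save (Ev.then (k' := X + Cc * j + 400 * lg) 1 h0
      two_pos (.seq (k' := X + Cc * j + 300 * lg) lg (h.mv (mm_ro_ok hE _) h1 (by rfl) (by omega))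
        (h.rk h1 _) (.iteF (by simp [mmFr, hi]) (Ev.then (v := 0) (k' := X + Cc * j + 200 * lg)
          (g1 := (u.ep !d, (mmE (C.p a) (shp (C.p a) s) e d v i).ro !d)) 1 ?_ two_pos
          (.seq (k' := 10 * lg) lg (h.mv (mm_ro_ok hE _) h2 (by rfl) (by omega)) (h.rk h2 _)
            (Ev.then (v := 0) (k' := 4 * lg) 1 ?_ two_pos (.val (h6.trans hn)) (by omega)) (by omega))
          (by omega))) (by omega)) (by omega)) (by omega)⟩
    · obtain ⟨n1, -, -⟩ := Lv.nb_eq_some.1 h1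
      obtain ⟨n2, n3, -⟩ := Lv.nb_eq_some.1 h2
      cases d
      · exact mm_candM h.st.wf n1 n2 n3.symm d1 d2 true
      · exact mm_candM h.st.wf n2 n1 n3 d2 d1 false
    · exact mm_act (congrArg (u.ep !d, ·) (sw _ d)) (h.ok (id1_ep_lt (h.tm h1) _) (mm_ro_ok hE _))
    · have h9 : ((shp (C.p a) s).chM (if d then u' else u) (if d then u else u')
          (Lv.cks (shp (C.p a) s) d v (i / 2 / (C.p a).Kp / (C.p a).Kp)).1
          (Lv.cks (shp (C.p a) s) d v (i / 2 / (C.p a).Kp / (C.p a).Kp)).2).ep (!d) =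
          (shp (C.p a) s).dn (u'.ep !d) (i / 2 / (C.p a).Kp / (C.p a).Kp) := by cases d <;> rfl
      rw [h9]
      exact mm_act h8 (h.ok' (Shp.dn_lt _ (id1_ep_lt (h.tm h2) _) h.o_lt))

theorem cmid (h : MmH C body a s lg eb X L j e v i)
    (ht : L.candM (C.p a) (shp (C.p a) s) j e d v i = some t) (hd : t.k.dbl = true)
    (hb : b < (C.p a).m) :
    Ev body a (C.ok a) (mmIn C (mmCmid C)) ((s + 1, j, d.toNat, i), 2 * b) (v, e) (v, e)
      (KH.bt t.y b) (X + Cc * j + 1000 * lg) ∧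
    Ev body a (C.ok a) (mmIn C (mmCmid C)) ((s + 1, j, d.toNat, i), 2 * b + 1) (v, e) (v, e)
      (KH.bt (C.F a e.2.2.1 (ext t.k.s0 t.y e.2.2.2.2)) b) (X + Cc * j + 1000 * lg) := by
  have h4 := h.lg4
  have hE := h.E_ok d
  rcases mm_some ht with ⟨hi, u, h1, rfl⟩ | ⟨hi, u, u', h1, h2, d1, d2, rfl⟩
  · constructor <;> refine h.inn (u := 1) (k' := X + Cc * j + lg + 3) (even hi _)
      (.iteT (by simp [mmFr, hi]) ?_) (KH.bt_lt _ _) (by omega)
    · exact (ev_cMid h.st.fits h.st.sn h.st.s_lt.le (by rfl) h.hj hE h1 hd hb le_rfl).1 rfl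
    · exact (ev_cMid h.st.fits h.st.sn h.st.s_lt.le (by rfl) h.hj hE h1 hd hb le_rfl).2 rfl
  · have h3 : ((shp (C.p a) s).chM (if d then u' else u) (if d then u else u')
          (Lv.cks (shp (C.p a) s) d v (i / 2 / (C.p a).Kp / (C.p a).Kp)).1
          (Lv.cks (shp (C.p a) s) d v (i / 2 / (C.p a).Kp / (C.p a).Kp)).2).y = u.ep !d := by
      cases d
      · rfl
      · exact (Lv.nb_eq_some.1 h2).2.1
    rw [h3]
    constructor <;> refine h.inn (u := 1) (k' := X + Cc * j + 100 * lg) (odd hi _) (.iteF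
      (by simp [mmFr, hi]) (h.far (u := 1) (k' := X + Cc * j + lg + 2) (mm_ro_ok hE _) h1 (by rfl)
        (.val' ?_ (bt_lt_pow _ _ (by omega))) (KH.bt_lt _ _) le_rfl (by omega)))
      (KH.bt_lt _ _) (by omega)
    · simp [mmFr]
    · have h5 : (2 * b + 1) / 2 = b := by omega
      have h6 : (2 * b + 1) % 2 ≠ 0 := by omega
      simp only [mmFr, h5, if_neg h6, mmQ_eq, C.dn_eq h.st.fits h.q_le, ← odd (s := s) (j := j) hi,
        mmRl_rl]
      rfl

theorem at_lt (h : MmH C body a s lg eb X L j e v i) (hy : y < 2 ^ (shp (C.p a) s).q) (χ : ℕ) :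
    mmAt (C.p a) (shp (C.p a) s) y χ < 2 ^ (4 * lg) := mmAt_lt h.st.fits.small hy χ

theorem zero {g : GS} (hk : 1 ≤ k) :
    EvB body a (C.ok a) C.Pm (Big.val fun _ _ _ => 0) γ g 0 k := EvB.val (Nat.two_pow_pos _) hk

theorem wU (h : MmH C body a s lg eb X L j e v i) {χx χz : ℕ}
    (h1 : L.nb (C.p a) j ((C.p a).sub (shp (C.p a) s).q e χx χz) d y
      (i / 2 / (C.p a).Kp % (C.p a).Kp) = some t) (he : ((C.p a).sub (shp (C.p a) s).q e χx χz).Ok
        (C.p a).m) (ex : mmCx C a (mmFr C a s j e d v i b) = χx)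
    (ez : mmCz C a (mmFr C a s j e d v i b) = χz) :
    EvB body a (C.ok a) C.Pm (mmWU C) (mmFr C a s j e d v i b, t.k.code + 1,
      mmAt (C.p a) (shp (C.p a) s) t.x χx, mmAt (C.p a) (shp (C.p a) s) t.z χz)
      (y, (C.p a).sub (shp (C.p a) s).q e χx χz)
      ((L.M (C.p a) (shp (C.p a) s)).w j e ((shp (C.p a) s).chU t χx χz))
      (X + Cc * j + lg + 2) := by
  have h2 := mmOkU_iff (p := C.p a) (H := shp (C.p a) s) t χx χz
  have h3 := mmEn_iff (p := C.p a) (H := shp (C.p a) s) t χx χz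
  rw [mm_wU (h.tm h1)]
  by_cases h4 : (shp (C.p a) s).okU (C.p a) t χx χz
  · rw [if_pos h4]
    refine EvB.iteT (by simp only [ex, ez, Nat.add_sub_cancel, Key.dec_code, h2.2 h4])
      ((h.wt he h1 (by rfl) le_rfl).shr.congr ?_)
    simp only [ez, Nat.add_sub_cancel, Key.dec_code, ← h3, ← Bool.and_eq_true]
    cases (mmEn t.k.dbl (mmAt (C.p a) (shp (C.p a) s) t.x χx)
      (mmAt (C.p a) (shp (C.p a) s) t.z χz) && (C.p a).cb χz) <;> simp
  · rw [if_neg h4]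
    exact EvB.iteF (by simp only [ex, ez, Nat.add_sub_cancel, Key.dec_code,
      Bool.eq_false_iff.2 (mt h2.1 h4)]) (zero (by omega))

theorem wM (h : MmH C body a s lg eb X L j e v i)
    (hw : L.WF (C.p a) (C.F a) (shp (C.p a) s).q eb (2 ^ (C.p a).P)) {χx χz : ℕ} {t' t1 t2 : Tm}
    (h1 : L.nb (C.p a) j (((C.p a).sub (shp (C.p a) s).q e χx χz).ro d) d y
      (i / 2 / (C.p a).Kp % (C.p a).Kp) = some t)
    (h2 : L.nb (C.p a) j (((C.p a).sub (shp (C.p a) s).q e χx χz).ro !d) d (t.ep !d)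
      (i / 2 % (C.p a).Kp) = some t') (d1 : t.k.dbl = false) (d2 : t'.k.dbl = false)
    (e1 : t1 = if d then t' else t) (e2 : t2 = if d then t else t')
    (he : ((C.p a).sub (shp (C.p a) s).q e χx χz).Ok (C.p a).m)
    (ex : mmCx C a (mmFr C a s j e d v i b) = χx) (ez : mmCz C a (mmFr C a s j e d v i b) = χz) :
    EvB body a (C.ok a) C.Pm (mmWM C) (mmFr C a s j e d v i b, mmAt (C.p a) (shp (C.p a) s) t1.z 0,
      mmAt (C.p a) (shp (C.p a) s) t1.x χx, mmAt (C.p a) (shp (C.p a) s) t2.z χz)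
      (y, ((C.p a).sub (shp (C.p a) s).q e χx χz).ro d)
      ((L.M (C.p a) (shp (C.p a) s)).w j e ((shp (C.p a) s).chM t1 t2 χx χz))
      (X + Cc * j + 200 * lg) := by
  have h4 := h.lg4
  have h5 := (Lv.nb_eq_some.1 h2).2.1
  have k1 : TmOk (C.p a) (shp (C.p a) s).q eb t1 := by
    rw [e1]
    split_ifs
    · exact h.tm h2
    · exact h.tm h1
  have k2 : TmOk (C.p a) (shp (C.p a) s).q eb t2 := by
    rw [e2]
    split_ifs
    · exact h.tm h1
    · exact h.tm h2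
  have k3 : t1.z = t2.x := by
    rw [e1, e2]
    cases d
    · exact h5.symm
    · exact h5
  have k4 : t1.k.dbl = false := by rw [e1]; split_ifs <;> assumption
  have k5 : t2.k.dbl = false := by rw [e2]; split_ifs <;> assumption
  have h3 := mmOkM_iff (p := C.p a) (H := shp (C.p a) s) k3 k4 k5 χx 0 χz
  rw [mm_wM k1 k2 k3 k4 k5]
  by_cases h6 : (shp (C.p a) s).okM (C.p a) t1 t2 χx χz
  · rw [if_pos h6]
    have w1 := hw.w_le _ _ _ (Lv.N_subset _ _ (Lv.nb_eq_some.1 h1).1)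
    have w2 := hw.w_le _ _ _ (Lv.N_subset _ _ (Lv.nb_eq_some.1 h2).1)
    have h7 := h.st.fits.Pm_ge
    refine EvB.iteT (by simp only [ex, ez, h3.2 h6]) ((EvB.mul (k' := X + Cc * j + 100 * lg)
      (h.wt (mm_ro_ok he _) h1 (by rfl) (by omega)) ⟨w2.trans_lt
        (Nat.pow_lt_pow_right one_lt_two (by omega)), fun q hq => h.mid (u := 1) (by rfl) he h1
          ((h.wt (mm_ro_ok he _) h2 (by rfl) le_rfl).2 q hq) (KH.bt_lt _ _) le_rfl (by omega)⟩
      ((Nat.mul_le_mul w1 w2).trans_lt (by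
        rw [← pow_add]
        exact Nat.pow_lt_pow_right one_lt_two (by omega))) h.st.fits.Pm_lt (by omega)).shr.congr ?_)
    rw [e1, e2]
    cases d
    · rfl
    · rw [mul_comm]
      rfl
  · rw [if_neg h6]
    exact EvB.iteF (by simp only [ex, ez, Bool.eq_false_iff.2 (mt h3.1 h6)]) (zero (by omega))

theorem wtt (h : MmH C body a s lg eb X L j e v i)
    (hw : L.WF (C.p a) (C.F a) (shp (C.p a) s).q eb (2 ^ (C.p a).P))
    (ht : L.candM (C.p a) (shp (C.p a) s) j e d v i = some t) (hb : b < C.Pm a) :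
    Ev body a (C.ok a) (mmIn C (mmWt C)) ((s + 1, j, d.toNat, i), b) (v, e) (v, e)
      (KH.bt ((L.M (C.p a) (shp (C.p a) s)).w j e t) b) (X + Cc * j + 1000 * lg) := by
  have h4 := h.lg4
  have hE := h.E_ok d
  have h0 := h.at_lt (id1_up_lt _ v) ((shp (C.p a) s).ck v)
  rcases mm_some ht with ⟨hi, u, h1, rfl⟩ | ⟨hi, u, u', h1, h2, d1, d2, rfl⟩
  · have h3 := (Lv.nb_eq_some.1 h1).2.1
    have h5 := h.key (γ := (mmFr C a s j e d v i b, mmAt (C.p a) (shp (C.p a) s)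
      ((shp (C.p a) s).up v) ((shp (C.p a) s).ck v))) (x := fun a z => mmX1 C a z.1.1.1) d
      (i / 2 / (C.p a).Kp) hE (id1_up_lt _ v) rfl (k := X + Cc * j + 400 * lg) (by omega)
    have h6 := h.kc_lt (mmE (C.p a) (shp (C.p a) s) e d v i) d ((shp (C.p a) s).up v)
      (i / 2 / (C.p a).Kp % (C.p a).Kp)
    have h7 := h.at_lt (id1_ep_lt (h.tm h1) !d) (i / 2 / (C.p a).Kp / (C.p a).Kp)
    rw [h1] at h5 h6
    refine h.inn (u := 1) (k' := X + Cc * j + 500 * lg) (even hi _)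
      (.seq (k' := X + Cc * j + 400 * lg) (4 * lg) (.val (lt_pow_mono h0 (by omega))) h0
        (.iteT (by simp [mmFr, hi]) (.seq (k' := X + Cc * j + 300 * lg) (16 * lg) h5 h6
          (.seq (k' := X + Cc * j + lg + 2) (4 * lg) (h.far (k' := X + Cc * j + 10 * lg) hE h1
            (by rfl) (.val (lt_pow_mono h7 (by omega))) h7 (by omega) (by omega)) h7 (.map ?_)
            (by omega)) (by omega))) (by omega)) (KH.bt_lt _ _) (by omega)
    have h8 := (h.wU (b := b) h1 hE mmCx_eq mmCz_eq).2 b hb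
    rw [← h3]
    rw [← h3] at h8
    cases d <;> exact h8
  · have h3 := (Lv.nb_eq_some.1 h1).2.1
    have h5 := (Lv.nb_eq_some.1 h2).2.1
    have h6 := h.at_lt (id1_ep_lt (h.tm h1) !d) 0
    have h7 := h.at_lt (id1_ep_lt (h.tm h2) !d) (i / 2 / (C.p a).Kp / (C.p a).Kp)
    refine h.inn (u := 1) (k' := X + Cc * j + 500 * lg) (odd hi _)
      (.seq (k' := X + Cc * j + 400 * lg) (4 * lg) (.val (lt_pow_mono h0 (by omega))) h0
        (.iteF (by simp [mmFr, hi]) (.seq (k' := X + Cc * j + 300 * lg) (4 * lg)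
          (h.far (k' := X + Cc * j + 10 * lg) (mm_ro_ok hE _) h1
            (by rfl) (.val (lt_pow_mono h6 (by omega))) h6 (by omega) (by omega)) h6
          (.seq (k' := X + Cc * j + 200 * lg) (4 * lg) (h.mid (k' := X + Cc * j + 100 * lg)
            (by rfl) hE h1 (h.far (k' := X + Cc * j + 10 * lg) (mm_ro_ok hE _) h2
              (by rfl) (.val (lt_pow_mono h7 (by omega))) h7 (by omega) (by omega)) h7 (by omega)
            (by omega)) h7 (.map ?_) (by omega)) (by omega))) (by omega)) (KH.bt_lt _ _) (by omega)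
    have h8 := (h.wM (b := b) hw h1 h2 d1 d2 rfl rfl hE mmCx_eq mmCz_eq).2 b hb
    rw [← h3]
    rw [← h3] at h8
    cases d
    · exact h8
    · rw [← h5]
      exact h8

end MmH

theorem cdM_spec (h : Step C body a s lg eb X L) :
    CandSpec C body a (cdM C) (s + 1) ((shp (C.p a) s).q + (C.p a).W) lg
      (L.M (C.p a) (shp (C.p a) s)) (L.candM (C.p a) (shp (C.p a) s))
      fun j => X + Cc * j + 20 * Cu * lg := by
  have h1 := mm_nd h.fits
  have hk : ∀ j, X + Cc * j + 1000 * lg ≤ X + Cc * j + 20 * Cu * lg := fun j => by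
    rw [Cu]
    omega
  constructor <;> rw [h1]
  · exact lt_pow_mono (mm_nd_lt h.fits) (by omega)
  · exact fun j e d v i t hv hi ht => mm_sound hv hi ht
  · exact fun j e d t ht => mm_compl h.wf ht d
  · exact fun j hj e he d v i hv hi => .map ((MmH.ck ⟨h, hj, he, hv, hi⟩ d).mono (hk j))
  · intro j hj e he d v i t hv hi ht
    obtain ⟨i', h2, h3, h4⟩ := MmH.cm ⟨h, hj, he, hv, hi⟩ ht
    exact ⟨i', h2, h3, .map (h4.mono (hk j))⟩
  · intro j hj e he d v i t hv hi ht hd b hb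
    obtain ⟨h2, h3⟩ := MmH.cmid ⟨h, hj, he, hv, hi⟩ ht hd hb
    exact ⟨h2.mono (hk j), h3.mono (hk j)⟩

theorem M_specW (h : Step C body a s lg eb X L)
    (hw : L.WF (C.p a) (C.F a) (shp (C.p a) s).q eb (2 ^ (C.p a).P))
    (h1 : ∀ x : Arg, x.1 = s + 1 → ∀ g g' v k, Ev body a (C.ok a) (wtM C) x g g' v k →
      Ev body a (C.ok a) (body .wt) x g g' v k)
    (h2 : ∀ x : Arg, x.1 = s + 1 → ∀ g g' v k, Ev body a (C.ok a) (alM C) x g g' v k →
      Ev body a (C.ok a) (body .al) x g g' v k) :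
    SpecW C body a (s + 1) ((shp (C.p a) s).q + (C.p a).W) (L.M (C.p a) (shp (C.p a) s))
      fun j => X + Cc * lg + Cc * j := by
  have h4 := ma_lg h.fits
  have hM := hw.M h.n0_le h.fits.small.W1_pos
  constructor
  · intro j hj e he d v r t ht b hb
    obtain ⟨i, hi, hc, hf⟩ := findG_some ⟨h.fits, h.s_lt, h.q_le, h.e_le, hM, cdM_spec h⟩ hj he ht
    obtain ⟨t1, t2, -⟩ := Lv.nb_eq_some.1 ht
    have hv := t2 ▸ id1_ep_lt (hM.tm _ _ t (Lv.N_subset _ _ t1)) d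
    have h5 := mm_nd_lt h.fits
    rw [mm_nd h.fits] at hi
    refine h1 _ rfl _ _ _ _ (.seq (k' := X + Cc * j + 1000 * lg) (4 * lg) (.map (hf.mono ?_))
      (by omega) (.map (MmH.wtt ⟨h, hj, he, hv, hi⟩ hw hc hb)) ?_) <;> simp only [Cc, Cu] <;> omega
  · intro j hj e he d v hv b hb
    have h5 := h.fits.small.Kp_ge
    have h6 : MmH C body a s lg eb X L j e v 0 := ⟨h, hj, he, hv, by
      have : 0 < (C.p a).A := Nat.two_pow_pos _
      positivity⟩
    have h7 : (shp (C.p a) s).ck v < 2 ^ lg := (id1_ck_lt _ hv).trans_le (mm_A_le h.fits)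
    have h8 : lg + (X + Cc * j + 10 * lg) ≤ X + Cc * lg + Cc * j := by
      simp only [Cc]
      omega
    refine h2 _ rfl _ _ _ _ (.seq (k' := X + Cc * j + 10 * lg) lg (.val' (v := (shp (C.p a) s).ck v)
      (by rw [Nat.add_sub_cancel, C.q_eq]; rfl) (lt_pow_mono h7 (by omega))) h7 ?_ h8)
    by_cases h9 : (shp (C.p a) s).vld (C.p a) ((shp (C.p a) s).up v) ((shp (C.p a) s).ck v)
    · refine .iteT (by simp only [Nat.add_sub_cancel, C.q_eq]; exact (mmVld_iff _ _).2 h9)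
        (ev_inSt (u := 1) (k' := X + Cc * j + lg + 2) (g' := ((shp (C.p a) s).up v, e))
          (h6.ok' hv) (by simp only [Nat.add_sub_cancel, C.q_eq]; rfl) (h6.ok (id1_up_lt _ _) he)
          (by simp only [Nat.add_sub_cancel, C.q_eq, C.dn_eq h.fits h6.q_le, Shp.dn_up_ck])
          (.map ?_) (KH.bt_lt _ _) (by omega))
      simp only [Lv.M, if_pos h9]
      exact (ev_cAl h.fits h.sw h.s_lt.le hw (by rfl) hj he (id1_up_lt _ _) le_rfl).2 b hb
    · refine .iteF (by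
        simp only [Nat.add_sub_cancel, C.q_eq]
        exact Bool.eq_false_iff.2 (mt (mmVld_iff _ _).1 h9)) (.val' ?_ (bt_lt_pow _ _ (by omega)))
      simp [Lv.M, if_neg h9, KH.bt]

section sp

variable {β : Type} [Enc A β] {f : β → α} {c : β → Cd} {z : β → MmF} {g : β → GS} {x y : β → ℕ}

theorem mm_sp_rl {e : β → Env} (hx : SP B x) (he : SP B e) : SP B fun z => mmRl (x z) (e z) := by
  unfold mmRl Env.r1 Env.r2
  fun_prop

theorem mm_sp_Q (hC : C.IsSP B) (hf : SP B f) (hc : SP B c) : SP B fun z => mmQ C (f z) (c z) :=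
  mm_sp_q hC hf (hc.fst.sub (SP.const 1))

theorem mm_sp_O (hC : C.IsSP B) (hf : SP B f) (hc : SP B c) : SP B fun z => mmO C (f z) (c z) :=
  ((hc.snd.snd.snd.div (SP.const 2)).div (hC.Kp.comp hf)).div (hC.Kp.comp hf)

theorem mm_sp_X1 (hC : C.IsSP B) (hf : SP B f) (hc : SP B c) :
    SP B fun z => mmX1 C (f z) (c z) :=
  (hc.fst.sub (SP.const 1)).pair (hc.snd.fst.pair (hc.snd.snd.fst.pair
    (((hc.snd.snd.snd.div (SP.const 2)).div (hC.Kp.comp hf)).mod (hC.Kp.comp hf))))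

theorem mm_sp_X2 (hC : C.IsSP B) (hf : SP B f) (hc : SP B c) :
    SP B fun z => mmX2 C (f z) (c z) :=
  (hc.fst.sub (SP.const 1)).pair (hc.snd.fst.pair (hc.snd.snd.fst.pair
    ((hc.snd.snd.snd.div (SP.const 2)).mod (hC.Kp.comp hf))))

theorem mm_sp_R (hc : SP B c) : SP B fun z => mmR (c z) := by
  unfold mmR
  fun_prop

theorem mm_sp_Cx (hC : C.IsSP B) (hf : SP B f) (hz : SP B z) :
    SP B fun u => mmCx C (f u) (z u) :=
  SP.ite (hz.fst.fst.snd.snd.fst.decide_eq (SP.const 1)) (mm_sp_O hC hf hz.fst.fst) hz.snd.fst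

theorem mm_sp_Cz (hC : C.IsSP B) (hf : SP B f) (hz : SP B z) :
    SP B fun u => mmCz C (f u) (z u) :=
  SP.ite (hz.fst.fst.snd.snd.fst.decide_eq (SP.const 1)) hz.snd.fst (mm_sp_O hC hf hz.fst.fst)

theorem mm_sp_Ent (hC : C.IsSP B) (hf : SP B f) (hg : SP B g) (hz : SP B z) :
    SP B fun u => mmEnt C (f u) (g u) (z u) :=
  (Full.sp_low hg.fst (mm_sp_Q hC hf hz.fst.fst)).pair (mm_sp_rl (mm_sp_R hz.fst.fst)
    (mm_sp_sub hC hf (mm_sp_Q hC hf hz.fst.fst) hg.snd (mm_sp_Cx hC hf hz) (mm_sp_Cz hC hf hz)))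

theorem mm_sp_Ex (hC : C.IsSP B) (hf : SP B f) (hg : SP B g) (hz : SP B z) (hx : SP B x)
    (hy : SP B y) : SP B fun u => mmEx C (f u) (g u) (z u) (x u) (y u) :=
  (mm_sp_dn hC hf (mm_sp_Q hC hf hz.fst.fst) hg.fst hx).pair
    (mm_sp_sub hC hf (mm_sp_Q hC hf hz.fst.fst) (mm_sp_rl hy hg.snd) hz.snd.snd.fst hz.snd.snd.snd)

theorem mm_sp_A (hC : C.IsSP B) (hf : SP B f) (hg : SP B g) (hc : SP B c) (hx : SP B x) :
    SP B fun u => mmA C (f u) (g u) (c u) (x u) :=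
  mm_sp_at hC hf (hc.fst.sub (SP.const 1)) hg.fst hx

theorem mm_sp_K {q : β → ℕ} (hq : SP B q) (hx : SP B x) (hy : SP B y) :
    SP B fun u => mmK (q u) (x u) (y u) := by
  unfold mmK Key.code
  fun_prop

theorem mm_sp_KK (hC : C.IsSP B) (hf : SP B f) (hc : SP B c) (hx : SP B x) (hy : SP B y) :
    SP B fun u => mmKK C (f u) (c u) (x u) (y u) := by
  have h1 := hx.sub (SP.const 1)
  have h2 := hy.sub (SP.const 1)
  exact SP.ite (hy.decide_eq (SP.const 0)) (SP.const 0)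
    (SP.ite ((mm_sp_dbl h1).or (mm_sp_dbl h2)).decide_true (SP.const 0)
      (SP.ite (hc.snd.snd.fst.decide_eq (SP.const 1))
        (mm_sp_K (mm_sp_Q hC hf hc) (mm_sp_E h2) (mm_sp_E h1))
        (mm_sp_K (mm_sp_Q hC hf hc) (mm_sp_E h1) (mm_sp_E h2))))

theorem mm_isSP_save (hC : C.IsSP B) {y : Pg α MmF} (hy : y.IsSP B inferInstance) :
    (mmSave C y).IsSP B inferInstance :=
  isSP_seq (isSP_val (Full.sp_shr (by fun_prop) (mm_sp_Q hC SP.fst' (by fun_prop))))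
    (isSP_seq (isSP_val (mm_sp_getc hC SP.fst' (mm_sp_Q hC SP.fst' (by fun_prop)) (by fun_prop)))
      (isSP_seq (isSP_val (mm_sp_getc hC SP.fst' (mm_sp_Q hC SP.fst' (by fun_prop)) (by fun_prop)))
        (isSP_map (by fun_prop) hy)))

theorem mm_isSP_in (hC : C.IsSP B) {y : Pg α MmF} (hy : y.IsSP B inferInstance) :
    (mmIn C y).IsSP B inferInstance :=
  mm_isSP_save hC (isSP_inSt (mm_sp_Ent hC SP.fst' (by fun_prop) (by fun_prop))
    (mm_sp_Ex hC SP.fst' (by fun_prop) (by fun_prop) (by fun_prop) (mm_sp_R (by fun_prop))) hy)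

theorem mm_isSP_mid (hC : C.IsSP B) {Γ : Type} [i : Enc A Γ] {π : Γ → Cd} {y : Pg α Γ}
    (hπ : SP B π) (hy : y.IsSP B i) : (mmMid C π y).IsSP B i := by
  have h : SP B fun z : α × GS × Γ => (π z.2.2).2.2.1 := (hπ.comp SP.snd'.snd).snd.snd.fst
  exact isSP_atFar (mm_sp_X1 hC SP.fst' (hπ.comp SP.snd')) (isSP_inSt
    (SP.snd'.fst.fst.pair (mm_sp_rl ((SP.const 2).sub h)
      (mm_sp_rl (h.add (SP.const 1)) SP.snd'.fst.snd)))
    (SP.snd'.fst.fst.pair (mm_sp_rl (h.add (SP.const 1))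
      (mm_sp_rl ((SP.const 2).sub h) SP.snd'.fst.snd))) hy)

theorem mm_isSP_ck (hC : C.IsSP B) : (mmCk C).IsSP B inferInstance :=
  isSP_seq (isSP_cKey (mm_sp_X1 hC SP.fst' (by fun_prop))) (isSP_ite (by fun_prop)
    (isSP_val (by fun_prop)) (isSP_seq (mm_isSP_mid hC (by fun_prop)
      (isSP_cKey (mm_sp_X2 hC SP.fst' (by fun_prop))))
      (isSP_val (mm_sp_KK hC SP.fst' (by fun_prop) (by fun_prop) (by fun_prop)))))

theorem mm_isSP_cm (hC : C.IsSP B) : (mmCm C).IsSP B inferInstance :=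
  isSP_then (isSP_act (mm_sp_Ent hC SP.fst' (by fun_prop) (by fun_prop)))
    (isSP_seq (isSP_cMv (mm_sp_X1 hC SP.fst' (by fun_prop))) (isSP_ite (by fun_prop)
      (isSP_then (isSP_act (mm_sp_Ex hC SP.fst' (by fun_prop) (by fun_prop)
        (mm_sp_O hC SP.fst' (by fun_prop)) (SP.const 0)))
        (isSP_val (mm_sp_ix (hC.Kp.comp SP.fst') (by fun_prop) (by fun_prop) (SP.const 0) 0)))
      (isSP_then (isSP_act (SP.pair (by fun_prop) (mm_sp_rl (by fun_prop)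
        (mm_sp_rl (by fun_prop) (by fun_prop)))))
        (isSP_seq (isSP_cMv (mm_sp_X2 hC SP.fst' (by fun_prop)))
          (isSP_then (isSP_act (mm_sp_Ex hC SP.fst' (by fun_prop) (by fun_prop)
            (mm_sp_O hC SP.fst' (by fun_prop)) (by fun_prop)))
            (isSP_val (mm_sp_ix (hC.Kp.comp SP.fst') (by fun_prop) (by fun_prop)
              (by fun_prop) 1)))))))

theorem mm_isSP_cmid (hC : C.IsSP B) : (mmCmid C).IsSP B inferInstance := by
  have h1 : SP B fun z : α × GS × MmF => mmRl (mmR z.2.2.1.1) z.2.1.2 :=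
    mm_sp_rl (mm_sp_R (by fun_prop)) (by fun_prop)
  have h2 : SP B fun z : α × GS × MmF => mmQ C z.1 z.2.2.1.1 := mm_sp_Q hC SP.fst' (by fun_prop)
  exact isSP_ite (by fun_prop) (isSP_cMid (mm_sp_X1 hC SP.fst' (by fun_prop)) (by fun_prop))
    (isSP_atFar (mm_sp_X1 hC SP.fst' (by fun_prop)) (isSP_val (sp_bt (SP.ite (by fun_prop)
      (by fun_prop) (hC.F.comp (SP.fst'.pair (h1.snd.snd.fst.pair (mm_sp_dn hC SP.fst' h2
        (by fun_prop) (Full.sp_shr h1.snd.snd.snd.snd h2)))))) (by fun_prop))))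

theorem mm_isSP_wU (hC : C.IsSP B) : (mmWU C).IsSP B inferInstance :=
  isSP_bite (mm_sp_okU (mm_sp_dbl (by fun_prop)) (by fun_prop) (by fun_prop)
      (mm_sp_cb hC SP.fst' (mm_sp_Cx hC SP.fst' (by fun_prop)))
      (mm_sp_cl hC SP.fst' false (mm_sp_Cx hC SP.fst' (by fun_prop)))
      (mm_sp_cl hC SP.fst' true (mm_sp_Cz hC SP.fst' (by fun_prop))))
    (isSP_bshr hC.Pm ((mm_sp_en (mm_sp_dbl (by fun_prop)) (by fun_prop) (by fun_prop)).and
      (mm_sp_cb hC SP.fst' (mm_sp_Cz hC SP.fst' (by fun_prop)))).toNat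
      (isSP_cWt (mm_sp_X1 hC SP.fst' (by fun_prop)))) (isSP_bval (SP.const 0))

theorem mm_isSP_wM (hC : C.IsSP B) : (mmWM C).IsSP B inferInstance :=
  isSP_bite (mm_sp_okM (by fun_prop) (by fun_prop) (by fun_prop)
      (mm_sp_cb hC SP.fst' (mm_sp_Cx hC SP.fst' (by fun_prop)))
      (mm_sp_cl hC SP.fst' false (mm_sp_Cx hC SP.fst' (by fun_prop)))
      (mm_sp_cl hC SP.fst' true (mm_sp_Cz hC SP.fst' (by fun_prop))))
    (isSP_bshr hC.Pm ((hC.P.comp SP.fst').add (SP.const 1))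
      (isSP_bmul (isSP_cWt (mm_sp_X1 hC SP.fst' (by fun_prop)))
        (mm_isSP_mid hC (by fun_prop) (isSP_cWt (mm_sp_X2 hC SP.fst' (by fun_prop))))))
    (isSP_bval (SP.const 0))

theorem mm_sp_S : SP B fun z : α × ((MmF × ℕ) × ℕ) × ℕ => mmS z.2 := by
  unfold mmS
  fun_prop

theorem mm_isSP_wt (hC : C.IsSP B) : (mmWt C).IsSP B inferInstance :=
  isSP_seq (isSP_val (mm_sp_A hC SP.fst' (by fun_prop) (by fun_prop) (by fun_prop)))
    (isSP_ite (by fun_prop)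
      (isSP_seq (isSP_cKey (mm_sp_X1 hC SP.fst' (by fun_prop)))
        (isSP_seq (isSP_atFar (mm_sp_X1 hC SP.fst' (by fun_prop)) (isSP_val (mm_sp_A hC SP.fst'
          (by fun_prop) (by fun_prop) (mm_sp_O hC SP.fst' (by fun_prop)))))
          (isSP_map mm_sp_S (mm_isSP_wU hC))))
      (isSP_seq (isSP_atFar (mm_sp_X1 hC SP.fst' (by fun_prop)) (isSP_val (mm_sp_A hC SP.fst'
          (by fun_prop) (by fun_prop) (SP.const 0))))
        (isSP_seq (mm_isSP_mid hC (by fun_prop) (isSP_atFar (mm_sp_X2 hC SP.fst' (by fun_prop))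
          (isSP_val (mm_sp_A hC SP.fst' (by fun_prop) (by fun_prop)
            (mm_sp_O hC SP.fst' (by fun_prop))))))
          (isSP_map mm_sp_S (mm_isSP_wM hC)))))

end sp

theorem isSP_M (hC : C.IsSP B) :
    (cdM C).IsSP B ∧ (wtM C).IsSP B inferInstance ∧ (alM C).IsSP B inferInstance := by
  have h : (cdM C).IsSP B := ⟨(((mm_sp_pw hC SP.id (mm_sp_W hC SP.id)).mul hC.Kp).mul hC.Kp).mul
    (SP.const 2), isSP_map (by fun_prop) (mm_isSP_in hC (mm_isSP_ck hC)),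
    isSP_map (by fun_prop) (mm_isSP_save hC (mm_isSP_cm hC)), mm_isSP_in hC (mm_isSP_cmid hC)⟩
  have h1 : SP B fun z : α × GS × Arg × ℕ => C.q z.1 (z.2.2.1.1 - 1) :=
    mm_sp_q hC SP.fst' (by fun_prop)
  exact ⟨h, isSP_seq (isSP_map (by fun_prop) (isSP_gen hC h).1)
    (isSP_map (by fun_prop) (mm_isSP_in hC (mm_isSP_wt hC))),
    isSP_seq (isSP_val (Full.sp_shr (by fun_prop) (mm_sp_q hC SP.fst' (by fun_prop))))
      (isSP_ite (mm_sp_vld hC SP.fst' (by fun_prop) (Full.sp_low (by fun_prop) h1) (by fun_prop))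
        (isSP_inSt ((Full.sp_low (by fun_prop) h1).pair (by fun_prop))
          ((mm_sp_dn hC SP.fst' h1 (by fun_prop) (by fun_prop)).pair (by fun_prop))
          (isSP_map (by fun_prop) (isSP_cAl SP.snd'))) (isSP_val (SP.const 0)))⟩

end Vale.Agent.P313.NL
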