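import Vale.Agent.P313.NL.MW
import Vale.Agent.P313.NL.MG

/-! The candidates for the operation `R`. The first argument is the new level `s + 1`. -/

namespace Vale.Agent.P313.NL

open Finset Vale.Agent.Lib.Space
open scoped Classical

variable {α : Type} {C : Cx α} {body : PN → Pg α Arg} {a : α} {s lg eb X : ℕ} {L : Lv}
  {A : Type} [Enc A α] {B : Bud A}

namespace MR1

section defs

variable (C) {Γ : Type}

/-- the change of the third shift in the number of a candidate -/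
def nT (a : α) (i : ℕ) : ℕ := i / (C.p a).Kp % C.pw a (C.p a).wb
/-- the position of the change -/
def nD (a : α) (i : ℕ) : ℕ := i / (C.p a).Kp / C.pw a (C.p a).wb % ((C.p a).m + 1)
/-- the class -/
def nS (a : α) (i : ℕ) : ℕ :=
  i / (C.p a).Kp / C.pw a (C.p a).wb / ((C.p a).m + 1) % ((C.p a).c + 1)
/-- the tag -/
def nG (a : α) (i : ℕ) : ℕ :=
  i / (C.p a).Kp / C.pw a (C.p a).wb / ((C.p a).m + 1) / ((C.p a).c + 1)
/-- level, budget, end and rank of the witness -/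
def par (a : α) (z : Cd) : Cd := (z.1 - 1, z.2.1, z.2.2.1, z.2.2.2 % (C.p a).Kp)
/-- the state of the witness; the map is its own inverse -/
def ent (a : α) (g : GS) (z : Cd) : GS := (g.1, C.xc a g.2 (nD C a z.2.2.2) (nT C a z.2.2.2))

/-- both tests -/
def andP (p q : Pg α Γ) : Pg α Γ := Nd.two (· * ·) p q
/-- a local test -/
def locP (c : α → Γ → Bool) : Pg α Γ := .val fun a _ γ => (c a γ).toNat
/-- the test `2 ^ e ≤ x` -/
def geP (x : Bg α Γ) (e : α → Γ → ℕ) : Pg α Γ :=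
  .seq (Big.lt C.Pm x (Big.val fun a _ γ => C.pw a (e a γ))) (.val fun _ _ z => 1 - z.2)
/-- the value `f` if the test holds, else zero -/
def retP (p : Pg α Γ) (f : α → Γ → ℕ) : Pg α Γ := .seq p (.val fun a _ z => z.2 * f a z.1)
/-- a bit of the value of the current name on the track of the end `b` -/
def curB (x : α → Γ → Cd) (b : α → Γ → ℕ) : Pg α (Γ × ℕ) :=
  .val fun a g z => C.vb a (C.q a (x a z.1).1) (if b a z.1 = 1 then g.2.2.1 else g.2.1) g.1 z.2
/-- a bit of the value of the end `b` of the term `x` -/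
def endB (x : α → Γ → Cd) (b : α → Γ → ℕ) : Pg α (Γ × ℕ) :=
  .ite (fun a _ z => decide (b a z.1 = (x a z.1).2.2.1)) (curB C x b)
    (atFar (fun a z => x a z.1) (curB C x b))
/-- a bit of the value of the midpoint of the term `x` with the shift `sh` -/
def midB (x : α → Γ → Cd) (sh : α → GS → Γ → ℕ) : Pg α (Γ × ℕ) :=
  Nd.two (fun s t => (s + t) % 2) (cMid (fun a z => x a z.1) fun _ z => 2 * z.2 + 1)
    (.val fun a g z => KH.bt (sh a g z.1) z.2)

/-- the key of a term which is passed on -/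
def kP (c : ℕ) (k : Key) (s : ℕ) : Key :=
  { k with
    E := k.E + c
    D := k.D + (if k.dbl then c else 0) + c - max s (c - (k.h - k.D))
    h := k.h + if k.dbl then c else 0 }

/-- the key of the witness -/
def ky (z : Cd × ℕ) : Key := Key.dec (z.2 - 1)
/-- the key of the child of the witness -/
def kQ (a : α) (z : Cd × ℕ) : Key := kP (C.p a).c (ky z) (nS C a z.1.2.2.2)

/-- the ends of the witness agree below `hi` -/
def agE (hi : α → Cd × ℕ → ℕ) : Pg α (Cd × ℕ) :=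
  agreeP (fun _ _ => 0) hi (endB C (fun a z => par C a z.1) fun _ _ => 0)
    (endB C (fun a z => par C a z.1) fun _ _ => 1)

/-- the test for an accepted group, in the state of the witness -/
def tA : Pg α (Cd × ℕ) :=
  andP (andP (locP fun a z => decide (nS C a z.1.2.2.2 < (C.p a).c))
      (geP C (cWt fun a z => par C a z.1) fun a _ => (C.p a).P - (C.p a).tw))
    (andP (geP C (Big.map (fun a z => par C a z.1) (weP C))
        fun a z => (C.p a).P - (nS C a z.1.2.2.2 + 2))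
      (agE C fun a z => (ky z).E + nS C a z.1.2.2.2))

/-- the test for a term which is passed on, in the state of the witness -/
def tP : Pg α (Cd × ℕ) :=
  andP (andP (locP fun a z =>
        decide (nT C a z.1.2.2.2 < C.pw a (min (kQ C a z).D (ky z).h - (ky z).D)))
      (.ite (fun a _ z => decide (nS C a z.1.2.2.2 = (C.p a).c)) (locP fun _ _ => true)
        (geP C (cWt fun a z => par C a z.1) fun a z => (C.p a).P - (nS C a z.1.2.2.2 + 2))))
    (andP (agE C fun a z => (kQ C a z).E)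
      (agreeP (fun a z => (kQ C a z).D) (fun a z => (kQ C a z).h)
        (midB (fun a z => par C a z.1) fun a g z => (ent C a g z.1).2.2.2.2.1)
        (endB C (fun a z => par C a z.1) fun _ z => (ky z).hv.toNat)))

/-- the key of the candidate, in the state of the witness -/
def ckI : Pg α Cd :=
  .seq (cKey (par C))
    (.ite (fun a _ z => decide (z.2 ≠ 0) && decide ((ky z).D = nD C a z.1.2.2.2))
      (.ite (fun a _ z => decide (nG C a z.1.2.2.2 = 0))
        (retP (tA C) fun a z => (sgl ((ky z).E + nS C a z.1.2.2.2)).code + 1)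
        (retP (tP C) fun a z => (kQ C a z).code + 1))
      (.val fun _ _ _ => 0))

end defs

/-- The program is a test for `P`. -/
def T (C : Cx α) (body : PN → Pg α Arg) (a : α) {Γ : Type} (p : Pg α Γ) (γ : Γ) (g : GS)
    (P : Prop) (k : ℕ) : Prop := Ev body a (C.ok a) p γ g g (if P then 1 else 0) k

section tests

variable {Γ : Type} {γ : Γ} {g : GS} {P Q : Prop} {k k' j v r w : ℕ} {p q : Pg α Γ} {e : Env}
  {d : Bool} {t : Tm} {x : α → Γ → Cd}

theorem ite_lt (P : Prop) : (if P then 1 else 0) < 2 ^ 1 := by split_ifs <;> omega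

theorem ev_act {f : α → GS → Γ → GS} {g' : GS} (e : f a g γ = g') (h : C.ok a g') :
    Ev body a (C.ok a) (.act f) γ g g' 0 k := e ▸ .act (e ▸ h)

theorem T.congr (h : T C body a p γ g P k) (e : P ↔ Q) : T C body a p γ g Q k := by
  rwa [← propext e]

theorem T.and (hp : T C body a p γ g P k') (hq : T C body a q γ g Q k') (hk : 3 + k' ≤ k) :
    T C body a (andP p q) γ g (P ∧ Q) k := by
  refine (Ev.two 1 hp hq (ite_lt _) (ite_lt _) (by split_ifs <;> omega) hk).congr ?_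
  by_cases h1 : P <;> by_cases h2 : Q <;> simp [h1, h2]

theorem T.loc {c : α → Γ → Bool} (h : c a γ = true ↔ P) (hk : 1 ≤ k) :
    T C body a (locP c) γ g P k := by
  refine Ev.val' ?_ (lt_pow_mono (ite_lt _) hk)
  by_cases h1 : P
  · rw [if_pos h1, h.2 h1]
    rfl
  · rw [if_neg h1, Bool.eq_false_iff.2 fun h2 => h1 (h.1 h2)]
    rfl

theorem T.ge (hf : C.Fits a lg) {y : Bg α Γ} {n : α → Γ → ℕ}
    (hy : EvB body a (C.ok a) C.Pm y γ g w k') (hn : n a γ ≤ (C.p a).P) (h1 : 1 ≤ k')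
    (hk : 60 * (lg + 1) + k' ≤ k) : T C body a (geP C y n) γ g (2 ^ n a γ ≤ w) k := by
  have h2 := hf.Pm_ge
  have h3 := hf.small.c_le
  have e : C.pw a (n a γ) = 2 ^ n a γ := Cx.pw_eq hf (by omega)
  have h4 : EvB body a (C.ok a) C.Pm (Big.val fun a _ γ => C.pw a (n a γ)) γ g (C.pw a (n a γ)) k' :=
    EvB.val (f := fun a _ γ => C.pw a (n a γ))
      (e.trans_lt (Nat.pow_lt_pow_right one_lt_two (by omega))) h1
  refine .seq (k' := 1) 1 (EvB.lt hy h4 hf.Pm_lt hk) (by split_ifs <;> omega)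
    (.val' ?_ (ite_lt _)) (by omega)
  rw [e]
  split_ifs <;> omega

theorem T.ret {f : α → Γ → ℕ} {u : ℕ} (hp : T C body a p γ g P k) (hf : f a γ < 2 ^ u)
    (hk : 1 + u ≤ k) : Ev body a (C.ok a) (retP p f) γ g g (if P then f a γ else 0) k :=
  .seq (k' := u) 1 hp (ite_lt _) (.val' (by split_ifs <;> simp)
    (by split_ifs; exacts [hf, by positivity])) hk

theorem T.agree {lo hi : α → Γ → ℕ} {u u' : Pg α (Γ × ℕ)} {y y' : ℕ}
    (hu : ∀ i < hi a γ, Ev body a (C.ok a) u (γ, i) g g (KH.bt y i) k')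
    (hw : ∀ i < hi a γ, Ev body a (C.ok a) u' (γ, i) g g (KH.bt y' i) k')
    (hh : hi a γ ≤ 2 ^ lg) (hk : 10 * (lg + 2) + k' ≤ k) :
    T C body a (agreeP lo hi u u') γ g (agree y y' (lo a γ) (hi a γ)) k :=
  (ev_agreeP (fun i h _ => ⟨KH.bt_lt _ _, hu i h⟩) (fun i h _ => ⟨KH.bt_lt _ _, hw i h⟩) hh hk).congr
    (by rw [agree_iff_bt]; split_ifs <;> rfl)

theorem ev_curB (h : Step C body a s lg eb X L) {b : α → Γ → ℕ} {c : Bool} (hx : (x a γ).1 = s)
    (hb : b a γ = c.toNat) (i : ℕ) (hk : 1 ≤ k) :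
    Ev body a (C.ok a) (curB C x b) (γ, i) (v, e) (v, e)
      (KH.bt (vl (C.F a) (shp (C.p a) s).q (e.tr c) v) i) k := by
  refine .val' ?_ (bt_lt_pow _ _ hk)
  have := h.q_le
  simp only [hx, hb, Cx.q_eq]
  rw [Cx.vb_eq h.fits (by omega)]
  cases c <;> rfl

theorem ev_endB (h : Step C body a s lg eb X L) {b : α → Γ → ℕ} {c : Bool}
    (hx : x a γ = (s, j, d.toNat, r)) (hb : b a γ = c.toNat) (hj : j ≤ (C.p a).P)
    (he : e.Ok (C.p a).m) (ht : L.nb (C.p a) j e d v r = some t) (i : ℕ)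
    (hk : X + Cc * j + 5 * lg + 10 ≤ k) : Ev body a (C.ok a) (endB C x b) (γ, i) (v, e) (v, e)
      (KH.bt (vl (C.F a) (shp (C.p a) s).q (e.tr c) (t.ep c)) i) k := by
  by_cases hc : c = d
  · subst hc
    refine .iteT (decide_eq_true (by simp only [hx, hb])) ?_
    rw [(Lv.nb_eq_some.1 ht).2.1]
    exact ev_curB h (congrArg Prod.fst hx) hb i (by omega)
  · obtain rfl : c = !d := by cases c <;> cases d <;> simp_all
    refine .iteF (decide_eq_false (by simp only [hx, hb]; cases d <;> simp)) ?_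
    refine ev_atFar (u := 1) (k' := X + Cc * j + lg + 2) (x := fun a z => x a z.1) h.fits h.sn
      h.s_lt.le hx hj he ht (ev_curB h (congrArg Prod.fst hx) hb i (by omega)) (KH.bt_lt _ _) le_rfl ?_
    omega

theorem bt_xor (y y' i : ℕ) : (KH.bt y i + KH.bt y' i) % 2 = KH.bt (y ^^^ y') i := by
  rw [KH.bt_eq, KH.bt_eq, KH.bt_eq, Nat.testBit_xor]
  cases y.testBit i <;> cases y'.testBit i <;> rfl

theorem ev_midB (h : Step C body a s lg eb X L) {sh : α → GS → Γ → ℕ}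
    (hx : x a γ = (s, j, d.toNat, r)) (hj : j ≤ (C.p a).P) (he : e.Ok (C.p a).m)
    (ht : L.nb (C.p a) j e d v r = some t) (hd : t.k.dbl = true) {i : ℕ} (hi : i < (C.p a).m)
    (hk : X + Cc * j + 5 * lg + 10 ≤ k) : Ev body a (C.ok a) (midB x sh) (γ, i) (v, e) (v, e)
      (KH.bt (C.F a e.2.2.1 (ext t.k.s0 t.y e.2.2.2.2) ^^^ sh a (v, e) γ) i) k :=
  (Ev.two (k' := X + Cc * j + lg + 3) 1 ((ev_cMid (γ := (γ, i)) (x := fun a z => x a z.1) h.fits h.sn
    h.s_lt.le hx hj he ht hd hi le_rfl).2 rfl) (.val (bt_lt_pow _ _ (by omega))) (KH.bt_lt _ _)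
    (KH.bt_lt _ _) (Nat.mod_lt _ two_pos) (by omega)).congr (bt_xor _ _ _)

end tests

theorem ok_chA {p : Par} {q eb : ℕ} {t : Tm} (h : TmOk p q eb t) {i : ℕ} (hi : i ≤ p.c) :
    TmOk p q (eb + p.c) (chA t.x t.z (t.k.E + i)) :=
  ⟨h.x_lt, h.z_lt, h.ht_lt, h.ht_z, fun _ => ⟨rfl, rfl⟩, fun e => absurd e Bool.false_ne_true,
    le_rfl, Nat.add_le_add h.E_le hi, Nat.zero_le _, Nat.zero_le _⟩

theorem ok_chP {p : Par} {q eb : ℕ} {t : Tm} (h : TmOk p q eb t) (i : ℕ) :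
    TmOk p q (eb + p.c) (p.chP t i) := by
  have h1 := h.D_le
  have h2 := h.h_le
  refine ⟨h.x_lt, h.z_lt, h.ht_lt, h.ht_z, fun e => ⟨(h.sing e).1, ?_⟩, h.mid, ?_,
    Nat.add_le_add_right h.E_le _, ?_, h.V_le.trans (Nat.le_add_right _ _)⟩
  · rw [Par.chP, Par.sp, (h.sing e).2]
    simp [sgl]
  · simp only [Par.chP, Par.sp]
    omega
  · simp only [Par.chP]
    split_ifs <;> omega

theorem pow_le_iff {P i w : ℕ} (h : i + 2 ≤ P) : 2 ^ (P - (i + 2)) ≤ w ↔ 2 ^ P ≤ 4 * 2 ^ i * w := by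
  obtain ⟨n, rfl⟩ := Nat.exists_eq_add_of_le h
  rw [Nat.add_sub_cancel_left, pow_add, show 2 ^ (i + 2) = 4 * 2 ^ i by ring,
    Nat.mul_le_mul_left_iff (by positivity)]

section cand

variable {j v i : ℕ} {e : Env} {d : Bool} {t : Tm}

theorem pw_wb (hf : C.Fits a lg) : C.pw a (C.p a).wb = 2 ^ (C.p a).wb := by
  have h1 := hf.Pm_ge
  have h2 := hf.small.wb_le
  exact Cx.pw_eq hf (by omega)

theorem nD_le (i : ℕ) : nD C a i ≤ (C.p a).m := Nat.lt_succ_iff.1 (Nat.mod_lt _ (Nat.succ_pos _))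

theorem nS_le (i : ℕ) : nS C a i ≤ (C.p a).c := Nat.lt_succ_iff.1 (Nat.mod_lt _ (Nat.succ_pos _))

theorem ent_eq (hf : C.Fits a lg) (v : ℕ) (e : Env) (z : Cd) :
    ent C a (v, e) z = (v, (C.p a).xc e (nD C a z.2.2.2) (nT C a z.2.2.2)) :=
  Prod.ext rfl (Cx.xc_eq hf e (nD_le _) _)

theorem ent_ent (hf : C.Fits a lg) (v : ℕ) (e : Env) (z : Cd) :
    ent C a (v, (C.p a).xc e (nD C a z.2.2.2) (nT C a z.2.2.2)) z = (v, e) := by
  rw [ent_eq hf, xc_xc]

/-- the candidates in terms of the parts of their numbers -/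
theorem candR_eq (hf : C.Fits a lg) (H : Shp) : L.candR (C.p a) (C.F a) H j e d v i =
    (L.nb (C.p a) j ((C.p a).xc e (nD C a i) (nT C a i)) d v (i % (C.p a).Kp)).bind fun t =>
      if t.k.D = nD C a i then
        (if nG C a i = 0 then
          (if nS C a i < (C.p a).c ∧ L.okA (C.p a) (C.F a) H j e (nT C a i, t) (nS C a i) then
            some (chA t.x t.z (t.k.E + nS C a i)) else none)
        else if L.okP (C.p a) (C.F a) H j e (nT C a i, t) (nS C a i) then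
          some ((C.p a).chP t (nS C a i)) else none)
      else none := by
  simp only [nT, nD, nS, nG, pw_wb hf]
  rfl

theorem candR_some (hf : C.Fits a lg) {H : Shp} {t' : Tm} :
    L.candR (C.p a) (C.F a) H j e d v i = some t' ↔ ∃ t,
      L.nb (C.p a) j ((C.p a).xc e (nD C a i) (nT C a i)) d v (i % (C.p a).Kp) = some t ∧
      t.k.D = nD C a i ∧ ((nG C a i = 0 ∧ nS C a i < (C.p a).c ∧
        L.okA (C.p a) (C.F a) H j e (nT C a i, t) (nS C a i) ∧
          chA t.x t.z (t.k.E + nS C a i) = t') ∨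
        nG C a i ≠ 0 ∧ L.okP (C.p a) (C.F a) H j e (nT C a i, t) (nS C a i) ∧
          (C.p a).chP t (nS C a i) = t') := by
  rw [candR_eq hf, Option.bind_eq_some_iff]
  refine exists_congr fun t => and_congr_right fun _ => ?_
  split_ifs with h1 h2 h3 h4
  · simp [h1, h2, h3]
  · simp only [h2, true_and, ne_eq, not_true_eq_false, false_and, or_false, false_iff]
    exact fun h => h3 ⟨h.2.1, h.2.2.1⟩
  · simp [h1, h2, h4]
  · simp [h2, h4]
  · simp [h1]

theorem ev_agE (h : Step C body a s lg eb X L) (hj : j ≤ (C.p a).P) (he : e.Ok (C.p a).m)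
    (ht : L.nb (C.p a) j e d v (i % (C.p a).Kp) = some t) {hi : α → Cd × ℕ → ℕ} {k n : ℕ}
    (hn : hi a ((s + 1, j, d.toNat, i), k) = n) (hn' : n ≤ (C.p a).m) :
    T C body a (agE C hi) ((s + 1, j, d.toNat, i), k) (v, e)
      (agree (vl (C.F a) (shp (C.p a) s).q e.1 t.x) (vl (C.F a) (shp (C.p a) s).q e.2.1 t.z) 0 n)
      (X + Cc * j + 11 * Cu * lg) := by
  have h1 := h.fits.small.c_le
  have h3 := h.fits.small.m_le
  have hu : Cu = 1000000000 := rfl
  subst hn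
  exact T.agree (lg := lg) (k' := X + Cc * j + 5 * lg + 10)
    (fun n _ => ev_endB (c := false) h rfl rfl hj he ht n le_rfl)
    (fun n _ => ev_endB (c := true) h rfl rfl hj he ht n le_rfl) (by omega) (by rw [hu]; omega)

theorem ev_geW (h : Step C body a s lg eb X L) (hj : j ≤ (C.p a).P) (he : e.Ok (C.p a).m)
    (ht : L.nb (C.p a) j e d v (i % (C.p a).Kp) = some t) {f : α → Cd × ℕ → ℕ} {k n : ℕ}
    (hn : f a ((s + 1, j, d.toNat, i), k) = (C.p a).P - n) :
    T C body a (geP C (cWt fun a z => par C a z.1) f) ((s + 1, j, d.toNat, i), k) (v, e)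
      (2 ^ ((C.p a).P - n) ≤ L.w j e t) (X + Cc * j + 11 * Cu * lg) := by
  have h1 := h.fits.small.c_le
  have hu : Cu = 1000000000 := rfl
  rw [← hn]
  exact T.ge (k' := X + Cc * j + lg + 2) h.fits (ev_cWt (j := j) h.fits h.sw h.s_lt.le h.wf le_rfl
    rfl hj he ht le_rfl) (by omega) (by omega) (by rw [hu]; omega)

theorem ev_tA (h : Step C body a s lg eb X L) (hj : j ≤ (C.p a).P) (he : e.Ok (C.p a).m)
    (ht : L.nb (C.p a) j ((C.p a).xc e (nD C a i) (nT C a i)) d v (i % (C.p a).Kp) = some t)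
    (hD : t.k.D = nD C a i) : T C body a (tA C) ((s + 1, j, d.toNat, i), t.k.code + 1)
      (v, (C.p a).xc e (nD C a i) (nT C a i)) (nS C a i < (C.p a).c ∧
        L.okA (C.p a) (C.F a) (shp (C.p a) s) j e (nT C a i, t) (nS C a i))
      (X + Cc * j + 12 * Cu * lg) := by
  have hky : ky ((s + 1, j, d.toNat, i), t.k.code + 1) = t.k := Key.dec_code _
  have he' := he.xc (nD C a i) (nT C a i)
  have hok := h.wf.tm _ _ _ (Lv.N_subset _ _ (Lv.nb_eq_some.1 ht).1)
  have h1 := h.fits.small.c_le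
  have h2 := h.fits.small.lg_le
  have h4 := h.e_le
  have h5 := nS_le (C := C) (a := a) i
  have h6 := hok.E_le
  have hu : Cu = 1000000000 := rfl
  rw [Lv.okA, hD, ← pow_le_iff (by omega), ← and_assoc]
  refine T.and (k' := X + Cc * j + 11 * Cu * lg + 3)
    (T.and (T.loc decide_eq_true_iff (by rw [hu]; omega)) (ev_geW h hj he' ht rfl) (by omega))
    (T.and (k' := X + Cc * j + 11 * Cu * lg) ?_ ((ev_agE h hj he' ht (n := t.k.E + nS C a i)
      (by rw [hky]) (by omega)).congr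
        ⟨fun h => ⟨h, fun _ h => absurd h (Nat.not_lt_zero _)⟩, fun h => h.1⟩) (by omega))
    (by rw [hu]; omega)
  exact T.ge (k' := X + Cc * j + 10 * Cu * lg) h.fits (EvB.map (ev_weP h hj he' ht).1)
    (Nat.sub_le _ _) (by rw [hu]; omega) (by rw [hu]; omega)

theorem ev_tP (h : Step C body a s lg eb X L) (hj : j ≤ (C.p a).P) (he : e.Ok (C.p a).m)
    (ht : L.nb (C.p a) j ((C.p a).xc e (nD C a i) (nT C a i)) d v (i % (C.p a).Kp) = some t)
    (hD : t.k.D = nD C a i) : T C body a (tP C) ((s + 1, j, d.toNat, i), t.k.code + 1)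
      (v, (C.p a).xc e (nD C a i) (nT C a i))
      (L.okP (C.p a) (C.F a) (shp (C.p a) s) j e (nT C a i, t) (nS C a i))
      (X + Cc * j + 12 * Cu * lg) := by
  have hky : ky ((s + 1, j, d.toNat, i), t.k.code + 1) = t.k := Key.dec_code _
  have hkq : kQ C a ((s + 1, j, d.toNat, i), t.k.code + 1) = ((C.p a).chP t (nS C a i)).k := by
    rw [kQ, hky]
    rfl
  have he' := he.xc (nD C a i) (nT C a i)
  have hok := h.wf.tm _ _ _ (Lv.N_subset _ _ (Lv.nb_eq_some.1 ht).1)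
  have hok' := ok_chP hok (nS C a i)
  have h1 := h.fits.small.c_le
  have h2 := h.fits.small.lg_le
  have h3 := h.fits.small.m_le
  have h4 := h.e_le
  have h5 := nS_le (C := C) (a := a) i
  have h6 := hok'.E_le
  have h7 := hok'.h_le
  have h8 := hok.h_le
  have h9 := h.fits.Pm_ge
  have hu : Cu = 1000000000 := rfl
  rw [Lv.okP, ← and_assoc]
  refine T.and (k' := X + Cc * j + 11 * Cu * lg + 3)
    (T.and (k' := X + Cc * j + 11 * Cu * lg) (T.loc ?_ (by rw [hu]; omega)) ?_ (by omega))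
    (T.and (ev_agE h hj he' ht (congrArg Key.E hkq) (h6.trans h4)) ?_ (by omega)) (by rw [hu]; omega)
  · rw [hkq, hky, Cx.pw_eq h.fits (by omega)]
    exact decide_eq_true_iff
  · rw [hD]
    by_cases hc : nS C a i = (C.p a).c
    · exact .iteT (decide_eq_true hc) (T.loc (iff_of_true rfl (.inl hc)) (by rw [hu]; omega))
    · exact .iteF (decide_eq_false hc) ((ev_geW h hj he' ht rfl).congr
        ((pow_le_iff (by omega)).trans (or_iff_right hc).symm))
  · refine (T.agree (lg := lg) (k' := X + Cc * j + 5 * lg + 10) (lo := fun a z => (kQ C a z).D)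
      (hi := fun a z => (kQ C a z).h) (fun n hn => ev_midB h rfl hj he' ht ?_ ?_ le_rfl)
      (fun n _ => ev_endB (c := t.k.hv) h rfl (congrArg (·.hv.toNat) hky) hj he' ht n le_rfl)
      (by rw [hkq]; omega) (by rw [hu]; omega)).congr ?_
    · rw [hkq] at hn
      by_contra hd
      rw [(hok'.sing (Bool.eq_false_iff.2 hd)).2] at hn
      exact Nat.not_lt_zero _ hn
    · rw [hkq] at hn
      omega
    · rw [hkq, ent_ent h.fits v e (s + 1, j, d.toNat, i)]
      exact Iff.rfl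

theorem ev_ckI (h : Step C body a s lg eb X L) (hj : j ≤ (C.p a).P) (he : e.Ok (C.p a).m)
    (hv : v < 2 ^ (shp (C.p a) s).q) :
    kc (L.candR (C.p a) (C.F a) (shp (C.p a) s) j e d v i) < 2 ^ (16 * lg) ∧
    Ev body a (C.ok a) (ckI C) (s + 1, j, d.toNat, i) (v, (C.p a).xc e (nD C a i) (nT C a i))
      (v, (C.p a).xc e (nD C a i) (nT C a i))
      (kc (L.candR (C.p a) (C.F a) (shp (C.p a) s) j e d v i)) (X + Cc * j + 13 * Cu * lg) := by
  have he' := he.xc (nD C a i) (nT C a i)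
  have h1 := h.fits.small.c_le
  have h2 := h.fits.small.c_pos
  have h3 := h.fits.small.m_le
  have h4 := h.e_le
  have h5 := h.q_le
  have h6 := h.fits.small.Kp_ge
  have hu : Cu = 1000000000 := rfl
  have hk := ev_cKey (x := par C) (γ := (s + 1, j, d.toNat, i)) (k := X + Cc * j + 13 * Cu * lg)
    (j := j) h.fits h.sn h.s_lt.le rfl hj he' hv (Nat.mod_lt _ (by omega)) (by rw [hu]; omega)
  rw [candR_eq h.fits]
  cases ht : L.nb (C.p a) j ((C.p a).xc e (nD C a i) (nT C a i)) d v (i % (C.p a).Kp) with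
  | none =>
    rw [ht] at hk
    exact ⟨Nat.two_pow_pos _, .seq (k' := 0) 0 hk Nat.one_pos (.iteF rfl (.val Nat.one_pos))
      (by omega)⟩
  | some t =>
    rw [ht] at hk
    have hok := h.wf.tm _ _ _ (Lv.N_subset _ _ (Lv.nb_eq_some.1 ht).1)
    have hky : ky ((s + 1, j, d.toNat, i), t.k.code + 1) = t.k := Key.dec_code _
    have hc := hok.code_lt (lg := lg) (by omega) (by omega) (by omega)
    have hA := (ok_chA hok (nS_le (C := C) (a := a) i)).code_lt (lg := lg) (by omega) (by omega)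
      (by omega)
    have hP := (ok_chP hok (nS C a i)).code_lt (lg := lg) (by omega) (by omega) (by omega)
    rw [Option.bind_some]
    refine ⟨by split_ifs <;> first | exact hA | exact hP | exact Nat.two_pow_pos _,
      .seq (k' := X + Cc * j + 12 * Cu * lg) (16 * lg) hk hc ?_ (by rw [hu]; omega)⟩
    by_cases hD : t.k.D = nD C a i
    · rw [if_pos hD]
      refine .iteT (by simp [kc, hky, hD]) ?_
      by_cases hG : nG C a i = 0
      · rw [if_pos hG]
        refine .iteT (decide_eq_true hG) (((ev_tA h hj he ht hD).ret (u := 16 * lg)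
          (by rw [hky]; exact hA) (by rw [hu]; omega)).congr ?_)
        rw [hky]
        split_ifs <;> rfl
      · rw [if_neg hG]
        refine .iteF (decide_eq_false hG) (((ev_tP h hj he ht hD).ret (u := 16 * lg)
          (by rw [kQ, hky]; exact hP) (by rw [hu]; omega)).congr ?_)
        rw [kQ, hky]
        split_ifs <;> rfl
    · rw [if_neg hD]
      exact .iteF (by simp [kc, hky, hD]) (.val (Nat.two_pow_pos _))

theorem nb_lt {p : Par} {r : ℕ} (h : L.nb p j e d v r = some t) (c : Bool) :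
    rank (L.V j e) c t < p.Kp := (mem_filter.1 (Lv.nb_eq_some.1 h).1).2 c

theorem mem_wit {p : Par} {τ : ℕ} : (τ, t) ∈ L.wit p j e ↔
    t.k.D ≤ p.m ∧ τ < 2 ^ p.wb ∧ t ∈ L.N p j (p.xc e t.k.D τ) := by
  simp only [Lv.wit, mem_biUnion, mem_product, mem_range, mem_image, mem_filter, Prod.mk.injEq,
    Prod.exists]
  constructor
  · rintro ⟨D, τ', ⟨h1, h2⟩, t', ⟨h3, rfl⟩, rfl, rfl⟩
    exact ⟨by omega, h2, h3⟩
  · rintro ⟨h1, h2, h3⟩
    exact ⟨_, τ, ⟨by omega, h2⟩, t, ⟨h3, rfl⟩, rfl, rfl⟩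

/-- the number of a candidate -/
def num (C : Cx α) (a : α) (g s D τ r : ℕ) : ℕ :=
  (((g * ((C.p a).c + 1) + s) * ((C.p a).m + 1) + D) * C.pw a (C.p a).wb + τ) * (C.p a).Kp + r

theorem div_mod {x y n : ℕ} (h : y < n) : (x * n + y) / n = x ∧ (x * n + y) % n = y :=
  ⟨by rw [add_comm, Nat.add_mul_div_right _ _ (by omega), Nat.div_eq_of_lt h, zero_add],
    by rw [add_comm, Nat.add_mul_mod_self_right, Nat.mod_eq_of_lt h]⟩

theorem lt_mul {x y n m : ℕ} (h : y < n) (h' : x < m) : x * n + y < m * n :=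
  (Nat.add_lt_add_left h _).trans_le ((Nat.succ_mul x n).ge.trans (Nat.mul_le_mul_right _ h'))

theorem num_spec {g s D τ r : ℕ} (hg : g < 2) (hs : s ≤ (C.p a).c) (hD : D ≤ (C.p a).m)
    (hτ : τ < C.pw a (C.p a).wb) (hr : r < (C.p a).Kp) :
    num C a g s D τ r < 2 * ((C.p a).c + 1) * ((C.p a).m + 1) * C.pw a (C.p a).wb * (C.p a).Kp ∧
      num C a g s D τ r % (C.p a).Kp = r ∧ nT C a (num C a g s D τ r) = τ ∧
      nD C a (num C a g s D τ r) = D ∧ nS C a (num C a g s D τ r) = s ∧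
      nG C a (num C a g s D τ r) = g := by
  have h1 := Nat.lt_succ_of_le hs
  have h2 := Nat.lt_succ_of_le hD
  refine ⟨lt_mul hr (lt_mul hτ (lt_mul h2 (lt_mul h1 hg))), (div_mod hr).2, ?_⟩
  simp only [nT, nD, nS, nG, num, (div_mod hr).1, div_mod hτ, div_mod h1, div_mod h2, and_self]

end cand

section sp

variable {β Γ : Type} [Enc A β] [i : Enc A Γ] {f : β → α} {n : β → ℕ} {k : β → Key}

/-- All fields of the key are `SP`. -/
structure KSP (B : Bud A) (k : β → Key) : Prop where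
  E : SP B fun z => (k z).E
  D : SP B fun z => (k z).D
  h : SP B fun z => (k z).h
  V : SP B fun z => (k z).V
  s0 : SP B fun z => (k z).s0
  hv : SP B fun z => (k z).hv
  dbl : SP B fun z => (k z).dbl

open Full in
theorem KSP.dec (hn : SP B n) : KSP B fun z => Key.dec (n z) :=
  ⟨sp_unpair1 (sp_unpair1 hn), sp_unpair2 (sp_unpair1 hn), sp_unpair1 (sp_unpair1 (sp_unpair2 hn)),
    sp_unpair2 (sp_unpair1 (sp_unpair2 hn)), sp_unpair1 (sp_unpair2 (sp_unpair2 hn)),
    ((sp_unpair2 (sp_unpair2 (sp_unpair2 hn))).div (SP.const 2)).decide_eq (SP.const 1),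
    ((sp_unpair2 (sp_unpair2 (sp_unpair2 hn))).mod (SP.const 2)).decide_eq (SP.const 1)⟩

open Full in
theorem KSP.code (h : KSP B k) : SP B fun z => (k z).code :=
  sp_npair (sp_npair h.E h.D) (sp_npair (sp_npair h.h h.V) (sp_npair h.s0
    (((SP.const 2).mul h.hv.toNat).add h.dbl.toNat)))

theorem KSP.sgl (hn : SP B n) : KSP B fun z => sgl (n z) :=
  ⟨hn, SP.const 0, SP.const 0, SP.const 0, SP.const 0, SP.const false, SP.const false⟩

theorem KSP.kP {c : β → ℕ} (hc : SP B c) (h : KSP B k) (hn : SP B n) :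
    KSP B fun z => kP (c z) (k z) (n z) :=
  have h1 : SP B fun z => if (k z).dbl then c z else 0 := SP.ite h.dbl.decide_true hc (SP.const 0)
  ⟨h.E.add hc, ((h.D.add h1).add hc).sub (hn.max (hc.sub (h.h.sub h.D))), h.h.add h1, h.V, h.s0,
    h.hv, h.dbl⟩

variable (hC : C.IsSP B) (hf : SP B f)
include hC hf

theorem sp_pw (hn : SP B n) : SP B fun z => C.pw (f z) (n z) :=
  Full.sp_cpow (hC.cap.comp hf) (SP.const 2) hn

theorem sp_m : SP B fun z => (C.p (f z)).m := (SP.const 2).mul (hC.mh.comp hf)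

theorem sp_nT (hn : SP B n) : SP B fun z => nT C (f z) (n z) :=
  (hn.div (hC.Kp.comp hf)).mod (sp_pw hC hf (hC.wb.comp hf))

theorem sp_nD (hn : SP B n) : SP B fun z => nD C (f z) (n z) :=
  ((hn.div (hC.Kp.comp hf)).div (sp_pw hC hf (hC.wb.comp hf))).mod ((sp_m hC hf).add (SP.const 1))

theorem sp_nS (hn : SP B n) : SP B fun z => nS C (f z) (n z) :=
  (((hn.div (hC.Kp.comp hf)).div (sp_pw hC hf (hC.wb.comp hf))).div
    ((sp_m hC hf).add (SP.const 1))).mod ((hC.c.comp hf).add (SP.const 1))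

theorem sp_nG (hn : SP B n) : SP B fun z => nG C (f z) (n z) :=
  (((hn.div (hC.Kp.comp hf)).div (sp_pw hC hf (hC.wb.comp hf))).div
    ((sp_m hC hf).add (SP.const 1))).div ((hC.c.comp hf).add (SP.const 1))

theorem sp_par {x : β → Cd} (hx : SP B x) : SP B fun z => par C (f z) (x z) :=
  (hx.fst.sub (SP.const 1)).pair (hx.snd.fst.pair (hx.snd.snd.fst.pair
    (hx.snd.snd.snd.mod (hC.Kp.comp hf))))

theorem sp_ent {g : β → GS} {x : β → Cd} (hg : SP B g) (hx : SP B x) :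
    SP B fun z => ent C (f z) (g z) (x z) :=
  hg.fst.pair (hg.snd.fst.pair (hg.snd.snd.fst.pair (hg.snd.snd.snd.fst.pair
    ((KH.sp_xor hg.snd.snd.snd.snd.fst (Full.sp_low ((sp_nT hC hf hx.snd.snd.snd).mul
      (sp_pw hC hf (sp_nD hC hf hx.snd.snd.snd))) (sp_m hC hf))).pair hg.snd.snd.snd.snd.snd))))

theorem sp_q (hn : SP B n) : SP B fun z => C.q (f z) (n z) :=
  (hC.n0.comp hf).add (((SP.const 2).mul (hC.W1.comp hf)).mul (hn.sub (hn.div (SP.const 6))))

theorem sp_vb {r : β → Trk} {v j : β → ℕ} (hn : SP B n) (hr : SP B r) (hv : SP B v) (hj : SP B j) :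
    SP B fun z => C.vb (f z) (n z) (r z) (v z) (j z) :=
  sp_bt (KH.sp_xor (hC.F.comp (hf.pair (hr.fst.pair (hv.add ((sp_pw hC hf hn).mul
    (Full.sp_shr hr.snd.snd hn)))))) hr.snd.fst) hj

theorem sp_kQ {x : β → Cd × ℕ} (hx : SP B x) : KSP B fun z => kQ C (f z) (x z) :=
  KSP.kP (hC.c.comp hf) (KSP.dec (hx.snd.sub (SP.const 1))) (sp_nS hC hf hx.fst.snd.snd.snd)

omit hf

omit hC in
theorem isSP_andP {p q : Pg α Γ} (hp : p.IsSP B i) (hq : q.IsSP B i) : (andP p q).IsSP B i :=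
  isSP_two (by fun_prop) hp hq

omit hC in
theorem isSP_locP {c : α → Γ → Bool} (h : SP B fun z : α × Γ => c z.1 z.2) : (locP c).IsSP B i :=
  isSP_val (h.comp (g := fun z : α × GS × Γ => (z.1, z.2.2)) (by fun_prop)).toNat

theorem isSP_geP {x : Bg α Γ} {e : α → Γ → ℕ} (hx : x.IsSP B inferInstance)
    (h : SP B fun z : α × Γ => e z.1 z.2) : (geP C x e).IsSP B i :=
  isSP_seq (isSP_blt hC.Pm hx (isSP_bval (sp_pw hC SP.fst'
    (h.comp (g := fun z : α × GS × Γ => (z.1, z.2.2)) (by fun_prop))))) (isSP_val (by fun_prop))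

omit hC in
theorem isSP_retP {p : Pg α Γ} {e : α → Γ → ℕ} (hp : p.IsSP B i)
    (h : SP B fun z : α × Γ => e z.1 z.2) : (retP p e).IsSP B i :=
  isSP_seq hp (isSP_val (SP.snd'.snd.snd.mul
    (h.comp (g := fun z : α × GS × Γ × ℕ => (z.1, z.2.2.1)) (by fun_prop))))

theorem isSP_endB {x : α → Γ → Cd} {b : α → Γ → ℕ} (hx : SP B fun z : α × Γ => x z.1 z.2)
    (hb : SP B fun z : α × Γ => b z.1 z.2) : (endB C x b).IsSP B inferInstance := by
  have h1 := hx.comp (g := fun z : α × GS × Γ × ℕ => (z.1, z.2.2.1)) (by fun_prop)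
  have h2 := hb.comp (g := fun z : α × GS × Γ × ℕ => (z.1, z.2.2.1)) (by fun_prop)
  have h3 : (curB C x b).IsSP B inferInstance := isSP_val (sp_vb hC SP.fst' (sp_q hC SP.fst' h1.fst)
    (SP.ite (h2.decide_eq (SP.const 1)) (by fun_prop) (by fun_prop)) (by fun_prop) (by fun_prop))
  exact isSP_ite (h2.decide_eq h1.snd.snd.fst) h3 (isSP_atFar
    (hx.comp (g := fun z : α × Γ × ℕ => (z.1, z.2.1)) (by fun_prop)) h3)

omit hC in
theorem isSP_midB {x : α → Γ → Cd} {sh : α → GS → Γ → ℕ} (hx : SP B fun z : α × Γ => x z.1 z.2)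
    (hs : SP B fun z : α × GS × Γ => sh z.1 z.2.1 z.2.2) : (midB x sh).IsSP B inferInstance :=
  isSP_two (by fun_prop) (isSP_cMid (hx.comp (g := fun z : α × Γ × ℕ => (z.1, z.2.1)) (by fun_prop))
    (by fun_prop)) (isSP_val (sp_bt (hs.comp (g := fun z : α × GS × Γ × ℕ => (z.1, z.2.1, z.2.2.1))
      (by fun_prop)) (by fun_prop)))

theorem isSP_tAP : (tA C).IsSP B inferInstance ∧ (tP C).IsSP B inferInstance := by
  have h0 : SP B fun z : α × Cd × ℕ => z.1 := SP.fst'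
  have hp := sp_par hC h0 SP.snd'.fst
  have hs := sp_nS hC h0 SP.snd'.fst.snd.snd.snd
  have hk : KSP B fun z : α × Cd × ℕ => ky z.2 := KSP.dec (SP.snd'.snd.sub (SP.const 1))
  have hq := sp_kQ hC h0 SP.snd'
  have hE : ∀ {hi : α → Cd × ℕ → ℕ}, (SP B fun z : α × Cd × ℕ => hi z.1 z.2) →
      (agE C hi).IsSP B inferInstance := fun h =>
    isSP_agreeP (SP.const 0) h (isSP_endB hC hp (SP.const 0)) (isSP_endB hC hp (SP.const 1))
  have hP := (hC.P.comp h0).sub (hs.add (SP.const 2))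
  exact ⟨isSP_andP (isSP_andP (isSP_locP (hs.decide_lt (hC.c.comp h0)))
      (isSP_geP hC (isSP_cWt hp) ((hC.P.comp h0).sub (hC.tw.comp h0))))
    (isSP_andP (isSP_geP hC (isSP_bmap hp (isSP_weP hC)) hP) (hE (hk.E.add hs))),
    isSP_andP (isSP_andP (isSP_locP ((sp_nT hC h0 SP.snd'.fst.snd.snd.snd).decide_lt
      (sp_pw hC h0 ((hq.D.min hk.h).sub hk.D)))) (isSP_ite ((sp_nS hC SP.fst'
        SP.snd'.snd.fst.snd.snd.snd).decide_eq (hC.c.comp SP.fst')) (isSP_locP (SP.const true))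
        (isSP_geP hC (isSP_cWt hp) hP))) (isSP_andP (hE hq.E) (isSP_agreeP hq.D hq.h
      (isSP_midB hp (sp_ent hC SP.fst' SP.snd'.fst SP.snd'.snd.fst).snd.snd.snd.snd.fst)
      (isSP_endB hC hp hk.hv.toNat)))⟩

theorem isSP_ckI : (ckI C).IsSP B inferInstance :=
  isSP_seq (isSP_cKey (sp_par hC SP.fst' SP.snd')) (isSP_ite
    ((SP.snd'.snd.snd.decide_ne (SP.const 0)).and ((KSP.dec (SP.snd'.snd.snd.sub
      (SP.const 1))).D.decide_eq (sp_nD hC SP.fst' SP.snd'.snd.fst.snd.snd.snd)))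
    (isSP_ite ((sp_nG hC SP.fst' SP.snd'.snd.fst.snd.snd.snd).decide_eq (SP.const 0))
      (isSP_retP (isSP_tAP hC).1 ((KSP.sgl ((KSP.dec (SP.snd'.snd.sub (SP.const 1))).E.add
        (sp_nS hC SP.fst' SP.snd'.fst.snd.snd.snd))).code.add (SP.const 1)))
      (isSP_retP (isSP_tAP hC).2 ((sp_kQ hC SP.fst' SP.snd').code.add (SP.const 1))))
    (isSP_val (SP.const 0)))

end sp

end MR1

open MR1

/-- The candidates. -/
def cdR (C : Cx α) : Cand α where
  nd a := 2 * ((C.p a).c + 1) * ((C.p a).m + 1) * C.pw a (C.p a).wb * (C.p a).Kp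
  ck := inSt (ent C) (ent C) (ckI C)
  cm := .seq (Nd.via (.act (ent C)) (cMv fun a z => par C a z.1) (.act fun a g z => ent C a g z.1))
    (.val fun a _ z => z.1.2.2.2 / (C.p a).Kp * (C.p a).Kp + z.2)
  cmid := inSt (fun a g z => ent C a g z.1) (fun a g z => ent C a g z.1)
    (cMid (fun a z => par C a z.1) fun _ z => z.2)

theorem cdR_nd : (cdR C).nd a =
    2 * ((C.p a).c + 1) * ((C.p a).m + 1) * C.pw a (C.p a).wb * (C.p a).Kp := rfl

theorem mr1_nd_lt (hf : C.Fits a lg) : (cdR C).nd a < 2 ^ (5 * lg) := by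
  have h1 := hf.small.c_le
  have h2 : 2 * ((C.p a).c + 1) < 2 ^ lg :=
    lt_pow_mono (u := (C.p a).c + 1 + 1)
      (by have := @Nat.lt_two_pow_self ((C.p a).c + 1); rw [pow_succ]; omega) (by omega)
  rw [cdR_nd, pw_wb hf]
  refine lt_pow_mono (u := lg + lg + lg + lg) ?_ (by omega)
  rw [pow_add, pow_add, pow_add]
  exact Nat.mul_lt_mul_of_lt_of_le (Nat.mul_lt_mul_of_lt_of_le (Nat.mul_lt_mul_of_lt_of_le h2
    hf.small.m_le (by positivity)) (Nat.pow_le_pow_right two_pos hf.small.wb_le) (by positivity))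
    hf.small.Kp_le (by positivity)

theorem cdR_spec (h : Step C body a s lg eb X L) :
    CandSpec C body a (cdR C) (s + 1) (shp (C.p a) s).q lg
      (L.R (C.p a) (C.F a) (shp (C.p a) s)) (L.candR (C.p a) (C.F a) (shp (C.p a) s))
      fun j => X + Cc * j + 20 * Cu * lg := by
  have hf := h.fits
  have h1 := hf.small.c_le
  have h2 := hf.small.Kp_le
  have h3 := h.q_le
  have hu : Cu = 1000000000 := rfl
  have hok : ∀ {v : ℕ} {e : Env}, v < 2 ^ (shp (C.p a) s).q → e.Ok (C.p a).m → C.ok a (v, e) :=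
    fun hv he => ⟨lt_pow_mono hv (by omega), he⟩
  have hep : ∀ {j i : ℕ} {e : Env} {t t' : Tm} (c : Bool), (nG C a i = 0 ∧ nS C a i < (C.p a).c ∧
      L.okA (C.p a) (C.F a) (shp (C.p a) s) j e (nT C a i, t) (nS C a i) ∧
        chA t.x t.z (t.k.E + nS C a i) = t') ∨ nG C a i ≠ 0 ∧
      L.okP (C.p a) (C.F a) (shp (C.p a) s) j e (nT C a i, t) (nS C a i) ∧
        (C.p a).chP t (nS C a i) = t' → t'.ep c = t.ep c := fun c h => by
    rcases h with ⟨-, -, -, rfl⟩ | ⟨-, -, rfl⟩ <;> rfl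
  refine ⟨mr1_nd_lt hf, fun j e d v i t' _ _ hc => ?_, fun j e d t' ht' => ?_,
    fun j hj e he d v i hv _ => ?_, fun j hj e he d v i t' hv hi hc => ?_,
    fun j hj e he d v i t' hv _ hc hd b hb => ?_⟩
  · obtain ⟨t, ht, hD, h4⟩ := (candR_some hf).1 hc
    refine ⟨(hep d h4).trans (Lv.nb_eq_some.1 ht).2.1, ?_⟩
    have hw : (nT C a i, t) ∈ L.wit (C.p a) j e := mem_wit.2 ⟨hD ▸ nD_le i,
      (Nat.mod_lt _ (by rw [pw_wb hf]; positivity)).trans_eq (pw_wb hf),
      hD ▸ (Lv.nb_eq_some.1 ht).1⟩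
    rcases h4 with ⟨-, h5, h6, rfl⟩ | ⟨-, h6, rfl⟩
    · exact mem_union_left _ (mem_image.2 ⟨((nT C a i, t), nS C a i),
        mem_filter.2 ⟨mem_product.2 ⟨hw, mem_range.2 h5⟩, h6⟩, rfl⟩)
    · exact mem_union_right _ (mem_image.2 ⟨((nT C a i, t), nS C a i), mem_filter.2
        ⟨mem_product.2 ⟨hw, mem_range.2 (Nat.lt_succ_of_le (nS_le i))⟩, h6⟩, rfl⟩)
  · have key : ∀ {g σ τ : ℕ} {t : Tm}, g < 2 → σ ≤ (C.p a).c → (τ, t) ∈ L.wit (C.p a) j e →
        t'.ep d = t.ep d → ((g = 0 ∧ σ < (C.p a).c ∧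
          L.okA (C.p a) (C.F a) (shp (C.p a) s) j e (τ, t) σ ∧ chA t.x t.z (t.k.E + σ) = t') ∨
          g ≠ 0 ∧ L.okP (C.p a) (C.F a) (shp (C.p a) s) j e (τ, t) σ ∧ (C.p a).chP t σ = t') →
        ∃ i < (cdR C).nd a, L.candR (C.p a) (C.F a) (shp (C.p a) s) j e d (t'.ep d) i = some t' := by
      intro g σ τ t hg hσ hw hd h4
      obtain ⟨h5, h6, h7⟩ := mem_wit.1 hw
      obtain ⟨n1, n2, n3, n4, n5, n6⟩ := num_spec hg hσ h5 (h6.trans_eq (pw_wb hf).symm)
        ((mem_filter.1 h7).2 d)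
      refine ⟨_, n1, (candR_some hf).2 ⟨t, ?_, n4.symm, ?_⟩⟩
      · rw [n2, n3, n4]
        exact Lv.nb_eq_some.2 ⟨h7, hd.symm, rfl⟩
      · rwa [n3, n5, n6]
    rcases mem_union.1 ht' with h4 | h4 <;> obtain ⟨⟨⟨τ, t⟩, σ⟩, h5, rfl⟩ := mem_image.1 h4 <;>
      obtain ⟨h6, h7⟩ := mem_filter.1 h5 <;> obtain ⟨h8, h9⟩ := mem_product.1 h6
    · exact key two_pos (mem_range.1 h9).le h8 rfl (.inl ⟨rfl, mem_range.1 h9, h7, rfl⟩)
    · exact key one_lt_two (Nat.lt_succ_iff.1 (mem_range.1 h9)) h8 rfl (.inr ⟨one_ne_zero, h7, rfl⟩)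
  · obtain ⟨h4, h5⟩ := ev_ckI (d := d) (i := i) h hj he hv
    exact ev_inSt (hok hv he) (ent_eq hf v e _) (hok hv (he.xc _ _)) (ent_ent hf v e _) h5 h4
      (by rw [hu]; omega)
  · obtain ⟨t, ht, hD, h4⟩ := (candR_some hf).1 hc
    have h5 := nb_lt ht (!d)
    have h6 := h.wf.tm _ _ _ (Lv.N_subset _ _ (Lv.nb_eq_some.1 ht).1)
    have h7 : t.ep (!d) < 2 ^ (shp (C.p a) s).q := by cases d; exacts [h6.z_lt, h6.x_lt]
    have h9 := Lv.nb_eq_some.2 ⟨(Lv.nb_eq_some.1 ht).1, rfl, (rfl : rank _ (!d) t = _)⟩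
    have h10 := ev_cMv (x := fun a (z : Cd × ℕ) => par C a z.1) (γ := ((s + 1, j, d.toNat, i), 0))
      (j := j) hf h.sn h.s_lt.le rfl hj (he.xc _ _) ht le_rfl
    generalize rank _ (!d) t = r at h5 h9 h10
    obtain ⟨e1, e2⟩ := div_mod (x := i / (C.p a).Kp) h5
    have h8 : i / (C.p a).Kp * (C.p a).Kp + r < (cdR C).nd a :=
      lt_mul h5 ((Nat.div_lt_iff_lt_mul (by omega)).2 hi)
    rw [hep _ h4]
    refine ⟨_, h8, (candR_some hf).2 ⟨t, ?_⟩, .seq (k' := 5 * lg) lg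
      (Ev.via (k' := X + Cc * j + lg + 2) lg
        (ev_act (ent_eq hf v e (s + 1, j, d.toNat, i)) (hok hv (he.xc _ _))) h10
        (ev_act (f := fun a g (z : Cd × ℕ) => ent C a g z.1)
          (ent_ent hf (t.ep !d) e (s + 1, j, d.toNat, i)) (hok h7 he)) (by positivity) (h5.trans_le h2)
        (by positivity) (by rw [hu]; omega)) (h5.trans_le h2) (.val (h8.trans (mr1_nd_lt hf)))
      (by rw [hu]; omega)⟩
    simp only [nT, nD, nS, nG, e1, e2]
    exact ⟨h9, hD, h4⟩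
  · obtain ⟨t, ht, hD, ⟨-, -, -, rfl⟩ | ⟨-, -, rfl⟩⟩ := (candR_some hf).1 hc
    · exact absurd hd Bool.false_ne_true
    · have h4 := fun n => ev_cMid (γ := ((s + 1, j, d.toNat, i), n)) (x := fun a z => par C a z.1)
        (i := fun _ z => z.2) (j := j) hf h.sn h.s_lt.le rfl hj (he.xc _ _) ht hd hb le_rfl
      have h5 : 4 * 1 + (X + Cc * j + lg + 3) ≤ X + Cc * j + 20 * Cu * lg := by rw [hu]; omega
      constructor <;> refine ev_inSt (f := fun a g (z : Cd × ℕ) => ent C a g z.1)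
        (f' := fun a g (z : Cd × ℕ) => ent C a g z.1) (hok hv he) (ent_eq hf v e (s + 1, j, d.toNat, i))
        (hok hv (he.xc _ _)) (ent_ent hf v e (s + 1, j, d.toNat, i)) ?_ (KH.bt_lt _ _) h5
      exacts [(h4 _).1 rfl, (h4 _).2 rfl]

theorem isSP_cdR (hC : C.IsSP B) : (cdR C).IsSP B := by
  have h1 : SP B fun z : α × GS × Cd => ent C z.1 z.2.1 z.2.2 :=
    sp_ent hC SP.fst' SP.snd'.fst SP.snd'.snd
  have h2 : SP B fun z : α × GS × Cd × ℕ => ent C z.1 z.2.1 z.2.2.1 :=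
    sp_ent hC SP.fst' SP.snd'.fst SP.snd'.snd.fst
  have h3 : SP B fun z : α × Cd × ℕ => par C z.1 z.2.1 := sp_par hC SP.fst' SP.snd'.fst
  have h4 : SP B fun z : α × GS × Cd × ℕ => (C.p z.1).Kp := hC.Kp.comp SP.fst'
  refine ⟨((((SP.const 2).mul (hC.c.add (SP.const 1))).mul ((sp_m hC SP.id).add (SP.const 1))).mul
    (sp_pw hC SP.id hC.wb)).mul hC.Kp, ?_, ?_, ?_⟩
  · exact isSP_inSt (f := ent C) (f' := ent C) h1 h1 (isSP_ckI hC)
  · exact isSP_seq (isSP_via (isSP_act (f := ent C) h1)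
      (isSP_cMv (x := fun a (z : Cd × ℕ) => par C a z.1) h3) (isSP_act (f := fun a g (z : Cd × ℕ) => ent C a g z.1) h2))
      (isSP_val (((SP.snd'.snd.fst.snd.snd.snd.div h4).mul h4).add SP.snd'.snd.snd))
  · exact isSP_inSt (f := fun a g (z : Cd × ℕ) => ent C a g z.1)
      (f' := fun a g (z : Cd × ℕ) => ent C a g z.1) h2 h2
      (isSP_cMid (x := fun a (z : Cd × ℕ) => par C a z.1) (n := fun _ z => z.2) h3 SP.snd'.snd)

end Vale.Agent.P313.NL
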