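import Vale.Agent.P313.NL.MDef
import Vale.Agent.P313.NL.E2

/-! The weights after the operation `R` as sums over the candidates. -/

namespace Vale.Agent.P313.NL

open Finset
open scoped Classical

variable {p : Par} {F : ℕ → ℕ → ℕ} {H : Shp} {L : Lv} {j v : ℕ} {e : Env} {d : Bool} {t : Tm}

/-- The number of candidates with the same tag and class. -/
def mr2_blk (p : Par) : ℕ := (p.m + 1) * 2 ^ p.wb * p.Kp

/-- The environment of the parent of a candidate. -/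
def mr2_env (p : Par) (e : Env) (n : ℕ) : Env := p.xc e (n / p.Kp / 2 ^ p.wb) (n / p.Kp % 2 ^ p.wb)

/-- The parent of a candidate. -/
noncomputable def mr2_par (p : Par) (L : Lv) (j : ℕ) (e : Env) (d : Bool) (v n : ℕ) : Option Tm :=
  L.nb p j (mr2_env p e n) d v (n % p.Kp)

theorem mr2_D_lt {n : ℕ} (hn : n < mr2_blk p) : n / p.Kp / 2 ^ p.wb < p.m + 1 := by
  rw [Nat.div_div_eq_div_mul]
  refine Nat.div_lt_of_lt_mul ?_
  rw [mr2_blk] at hn
  calc n < (p.m + 1) * 2 ^ p.wb * p.Kp := hn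
    _ = p.Kp * 2 ^ p.wb * (p.m + 1) := by ring

theorem mr2_cand {u n : ℕ} (hn : n < mr2_blk p) :
    L.candR p F H j e d v (u * mr2_blk p + n) = (mr2_par p L j e d v n).bind fun t =>
      if t.k.D = n / p.Kp / 2 ^ p.wb then
        (if u / (p.c + 1) = 0 then
          (if u % (p.c + 1) < p.c ∧ L.okA p F H j e (n / p.Kp % 2 ^ p.wb, t) (u % (p.c + 1)) then
            some (chA t.x t.z (t.k.E + u % (p.c + 1))) else none)
        else if L.okP p F H j e (n / p.Kp % 2 ^ p.wb, t) (u % (p.c + 1)) then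
          some (p.chP t (u % (p.c + 1))) else none)
      else none := by
  have hK : 0 < p.Kp := by
    rcases Nat.eq_zero_or_pos p.Kp with h | h
    · rw [mr2_blk, h] at hn
      omega
    · exact h
  have hw : 0 < 2 ^ p.wb := by positivity
  have hD := mr2_D_lt hn
  have e0 : u * mr2_blk p + n = n + p.Kp * (2 ^ p.wb * ((p.m + 1) * u)) := by
    rw [mr2_blk]
    ring
  have e1 : (u * mr2_blk p + n) % p.Kp = n % p.Kp := by rw [e0, Nat.add_mul_mod_self_left]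
  have e2 : (u * mr2_blk p + n) / p.Kp = n / p.Kp + 2 ^ p.wb * ((p.m + 1) * u) := by
    rw [e0, Nat.add_mul_div_left _ _ hK]
  have e3 : (u * mr2_blk p + n) / p.Kp % 2 ^ p.wb = n / p.Kp % 2 ^ p.wb := by
    rw [e2, Nat.add_mul_mod_self_left]
  have e4 : (u * mr2_blk p + n) / p.Kp / 2 ^ p.wb = n / p.Kp / 2 ^ p.wb + (p.m + 1) * u := by
    rw [e2, Nat.add_mul_div_left _ _ hw]
  have e5 : (u * mr2_blk p + n) / p.Kp / 2 ^ p.wb % (p.m + 1) = n / p.Kp / 2 ^ p.wb := by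
    rw [e4, Nat.add_mul_mod_self_left, Nat.mod_eq_of_lt hD]
  have e6 : (u * mr2_blk p + n) / p.Kp / 2 ^ p.wb / (p.m + 1) = u := by
    rw [e4, Nat.add_mul_div_left _ _ (by omega), Nat.div_eq_of_lt hD, Nat.zero_add]
  simp only [Lv.candR, e1, e3, e5, e6, mr2_par, mr2_env]

theorem mr2_mem_wit {a : ℕ × Tm} : a ∈ L.wit p j e ↔
    a.2.k.D < p.m + 1 ∧ a.1 < 2 ^ p.wb ∧ a.2 ∈ L.N p j (p.xc e a.2.k.D a.1) := by
  simp only [Lv.wit, mem_biUnion, mem_product, mem_range, mem_image, mem_filter]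
  constructor
  · rintro ⟨b, ⟨h1, h2⟩, t, ⟨h3, h4⟩, rfl⟩
    dsimp only
    rw [h4]
    exact ⟨h1, h2, h3⟩
  · rintro ⟨h1, h2, h3⟩
    exact ⟨(a.2.k.D, a.1), ⟨h1, h2⟩, a.2, ⟨h3, rfl⟩, rfl⟩

/-- The position of a witness in its block. -/
noncomputable def mr2_pos (p : Par) (L : Lv) (j : ℕ) (e : Env) (d : Bool) (a : ℕ × Tm) : ℕ :=
  (a.2.k.D * 2 ^ p.wb + a.1) * p.Kp + rank (L.V j (p.xc e a.2.k.D a.1)) d a.2

theorem mr2_pos_spec {a : ℕ × Tm} (ha : a ∈ L.wit p j e) :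
    mr2_pos p L j e d a < mr2_blk p ∧ mr2_pos p L j e d a / p.Kp = a.2.k.D * 2 ^ p.wb + a.1 ∧
      mr2_pos p L j e d a / p.Kp / 2 ^ p.wb = a.2.k.D ∧
      mr2_pos p L j e d a / p.Kp % 2 ^ p.wb = a.1 ∧
      mr2_par p L j e d (a.2.ep d) (mr2_pos p L j e d a) = some a.2 := by
  obtain ⟨h1, h2, h3⟩ := mr2_mem_wit.1 ha
  have h4 : rank (L.V j (p.xc e a.2.k.D a.1)) d a.2 < p.Kp := (mem_filter.1 h3).2 d
  have hK : 0 < p.Kp := by omega
  have e1 : mr2_pos p L j e d a / p.Kp = a.2.k.D * 2 ^ p.wb + a.1 := by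
    rw [mr2_pos, add_comm, Nat.add_mul_div_right _ _ hK, Nat.div_eq_of_lt h4, Nat.zero_add]
  have e2 : mr2_pos p L j e d a % p.Kp = rank (L.V j (p.xc e a.2.k.D a.1)) d a.2 := by
    rw [mr2_pos, add_comm, Nat.add_mul_mod_self_right, Nat.mod_eq_of_lt h4]
  have e3 : mr2_pos p L j e d a / p.Kp / 2 ^ p.wb = a.2.k.D := by
    rw [e1, add_comm, Nat.add_mul_div_right _ _ (by positivity), Nat.div_eq_of_lt h2, Nat.zero_add]
  have e4 : mr2_pos p L j e d a / p.Kp % 2 ^ p.wb = a.1 := by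
    rw [e1, add_comm, Nat.add_mul_mod_self_right, Nat.mod_eq_of_lt h2]
  refine ⟨?_, e1, e3, e4, ?_⟩
  · have h5 : a.2.k.D * 2 ^ p.wb + a.1 + 1 ≤ (p.m + 1) * 2 ^ p.wb := by
      calc a.2.k.D * 2 ^ p.wb + a.1 + 1 ≤ a.2.k.D * 2 ^ p.wb + 2 ^ p.wb := by omega
        _ = (a.2.k.D + 1) * 2 ^ p.wb := by ring
        _ ≤ (p.m + 1) * 2 ^ p.wb := Nat.mul_le_mul_right _ h1
    calc mr2_pos p L j e d a < (a.2.k.D * 2 ^ p.wb + a.1) * p.Kp + p.Kp := by
          rw [mr2_pos]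
          omega
      _ = (a.2.k.D * 2 ^ p.wb + a.1 + 1) * p.Kp := by ring
      _ ≤ mr2_blk p := Nat.mul_le_mul_right _ h5
  · rw [mr2_par, mr2_env, e3, e4, e2]
    exact Lv.nb_eq_some.2 ⟨h3, rfl, rfl⟩

theorem mr2_of_par {n : ℕ} {t0 : Tm} (hn : n < mr2_blk p) (h : mr2_par p L j e d v n = some t0)
    (hD : t0.k.D = n / p.Kp / 2 ^ p.wb) : (n / p.Kp % 2 ^ p.wb, t0) ∈ L.wit p j e ∧ t0.ep d = v ∧
      mr2_pos p L j e d (n / p.Kp % 2 ^ p.wb, t0) = n := by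
  obtain ⟨h1, h2, h3⟩ := Lv.nb_eq_some.1 h
  rw [mr2_env, ← hD] at h1 h3
  refine ⟨mr2_mem_wit.2 ⟨hD ▸ mr2_D_lt hn, Nat.mod_lt _ (by positivity), h1⟩, h2, ?_⟩
  rw [mr2_pos]
  dsimp only
  rw [h3, hD, Nat.div_add_mod', Nat.div_add_mod']

/-- The candidates of an accepted group. -/
theorem mr2_candA {i n : ℕ} (hi : i < p.c) (hn : n < mr2_blk p) :
    L.candR p F H j e d v ((0 + i) * mr2_blk p + n) = some t ↔ ∃ t0, mr2_par p L j e d v n = some t0 ∧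
      t0.k.D = n / p.Kp / 2 ^ p.wb ∧ L.okA p F H j e (n / p.Kp % 2 ^ p.wb, t0) i ∧
      chA t0.x t0.z (t0.k.E + i) = t := by
  rw [Nat.zero_add, mr2_cand hn, Nat.div_eq_of_lt (by omega : i < p.c + 1),
    Nat.mod_eq_of_lt (by omega : i < p.c + 1), Option.bind_eq_some_iff]
  refine exists_congr fun t0 => and_congr_right fun _ => ?_
  rw [if_pos rfl]
  split_ifs with h1 h2
  · simp [h1, h2.2]
  · simp only [false_iff]
    exact fun h => h2 ⟨hi, h.2.1⟩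
  · simp [h1]

/-- The candidates of a term which is passed on. -/
theorem mr2_candP {i n : ℕ} (hi : i < p.c + 1) (hn : n < mr2_blk p) :
    L.candR p F H j e d v ((p.c + 1 + i) * mr2_blk p + n) = some t ↔
      ∃ t0, mr2_par p L j e d v n = some t0 ∧ t0.k.D = n / p.Kp / 2 ^ p.wb ∧
        L.okP p F H j e (n / p.Kp % 2 ^ p.wb, t0) i ∧ p.chP t0 i = t := by
  have e1 : (p.c + 1 + i) / (p.c + 1) = 1 := by
    rw [add_comm, Nat.add_div_right _ (by omega), Nat.div_eq_of_lt hi]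
  have e2 : (p.c + 1 + i) % (p.c + 1) = i := by
    rw [Nat.add_mod_left, Nat.mod_eq_of_lt hi]
  rw [mr2_cand hn, e1, e2, Option.bind_eq_some_iff]
  refine exists_congr fun t0 => and_congr_right fun _ => ?_
  rw [if_neg one_ne_zero]
  split_ifs with h1 h2
  · simp [h1, h2]
  · simp [h2]
  · simp [h1]

theorem mr2_ep_chA (x z l : ℕ) (t0 : Tm) (hx : t0.x = x) (hz : t0.z = z) (d : Bool) :
    t0.ep d = (chA x z l).ep d := by
  cases d
  · exact hx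
  · exact hz

theorem mr2_ep_chP (t0 : Tm) (i : ℕ) (d : Bool) : (p.chP t0 i).ep d = t0.ep d := by
  cases d <;> rfl

/-- The test for the candidates of the class `u`. -/
noncomputable def mr2_hit (p : Par) (F : ℕ → ℕ → ℕ) (H : Shp) (L : Lv) (j : ℕ) (e : Env) (d : Bool)
    (t : Tm) (u n : ℕ) : ℕ :=
  if L.candR p F H j e d (t.ep d) (u * mr2_blk p + n) = some t then 1 else 0

/-- The estimate for the group of the parent of a candidate. -/
noncomputable def mr2_we (p : Par) (L : Lv) (j : ℕ) (e : Env) (n : ℕ) (t0 : Tm) : ℕ :=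
  L.WE p j (mr2_env p e n) t0.x t0.z t0.k.E

theorem mr2_WA_zero {i : ℕ} (hi : i < p.c) (hs : t.k.dbl = false → t.y = 0 ∧ t.k = sgl t.k.E)
    (h : ∀ n < mr2_blk p, mr2_hit p F H L j e d t (0 + i) n = 0) (h1 : t.k.dbl = false)
    (h2 : i ≤ t.k.E) : L.WA p F H j e t.x t.z (t.k.E - i) i = 0 := by
  rw [Lv.WA, dif_neg]
  rintro ⟨c, hc⟩
  obtain ⟨a, ha, rfl⟩ := mem_image.1 hc
  obtain ⟨ha, hx, hz, hE, hok⟩ := mem_filter.1 ha
  obtain ⟨g1, _, g3, g4, g5⟩ := mr2_pos_spec (d := d) ha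
  have ht : chA a.2.x a.2.z (a.2.k.E + i) = t := by
    obtain ⟨hy, hk⟩ := hs h1
    rw [hx, hz, hE, Nat.sub_add_cancel h2]
    exact Tm.ext rfl rfl hy.symm hk.symm
  have hv : a.2.ep d = t.ep d := ht ▸ mr2_ep_chA _ _ _ _ rfl rfl d
  have := h _ g1
  rw [mr2_hit, if_pos ((mr2_candA hi g1).2 ⟨a.2, hv ▸ g5, g3.symm, by rw [g4]; exact hok, ht⟩)] at this
  exact one_ne_zero this

theorem mr2_WA_first {i n : ℕ} (hi : i < p.c) (hn : n < mr2_blk p)
    (h : mr2_hit p F H L j e d t (0 + i) n ≠ 0)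
    (h' : ∀ n' < n, mr2_hit p F H L j e d t (0 + i) n' = 0) :
    ∃ t0, mr2_par p L j e d (t.ep d) n = some t0 ∧ t.k.dbl = false ∧ i ≤ t.k.E ∧
      L.WA p F H j e t.x t.z (t.k.E - i) i = mr2_we p L j e n t0 := by
  have hc : L.candR p F H j e d (t.ep d) ((0 + i) * mr2_blk p + n) = some t := by
    by_contra hc
    exact h (by rw [mr2_hit, if_neg hc])
  obtain ⟨t0, g1, g2, g3, g4⟩ := (mr2_candA hi hn).1 hc
  have ex : t.x = t0.x := g4 ▸ rfl
  have ez : t.z = t0.z := g4 ▸ rfl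
  have eE : t.k.E = t0.k.E + i := g4 ▸ rfl
  have eE' : t.k.E - i = t0.k.E := by omega
  obtain ⟨w1, _, _⟩ := mr2_of_par hn g1 g2
  have hm : n / p.Kp ∈ L.codesA p F H j e t.x t.z (t.k.E - i) i :=
    mem_image.2 ⟨_, mem_filter.2 ⟨w1, ex.symm, ez.symm, eE'.symm, g3⟩, by
      dsimp only
      rw [g2, Nat.div_add_mod']⟩
  have hne : (L.codesA p F H j e t.x t.z (t.k.E - i) i).Nonempty := ⟨_, hm⟩
  have hmin : (L.codesA p F H j e t.x t.z (t.k.E - i) i).min' hne = n / p.Kp := by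
    refine le_antisymm (min'_le _ _ hm) (le_min' _ _ _ fun c hc => ?_)
    obtain ⟨a, ha, rfl⟩ := mem_image.1 hc
    obtain ⟨ha, hx, hz, hE, hok⟩ := mem_filter.1 ha
    obtain ⟨f1, f2, f3, f4, f5⟩ := mr2_pos_spec (d := d) ha
    have ht : chA a.2.x a.2.z (a.2.k.E + i) = t := by
      rw [hx, hz, hE, ex, ez, eE']
      exact g4
    have hv : a.2.ep d = t.ep d := ht ▸ mr2_ep_chA _ _ _ _ rfl rfl d
    rw [← f2]
    refine Nat.div_le_div_right (not_lt.1 fun hlt => ?_)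
    have := h' _ hlt
    rw [mr2_hit, if_pos ((mr2_candA hi f1).2 ⟨a.2, hv ▸ f5, f3.symm, by rw [f4]; exact hok, ht⟩)] at this
    exact one_ne_zero this
  refine ⟨t0, g1, g4 ▸ rfl, by omega, ?_⟩
  rw [Lv.WA, dif_pos hne, hmin, mr2_we, mr2_env, ex, ez, eE']

/-- The weight which a parent passes on. -/
noncomputable def mr2_pv (p : Par) (L : Lv) (j : ℕ) (e : Env) (i n : ℕ) (t0 : Tm) : ℕ :=
  2 ^ p.sp t0 i * p.fmul (p.fmul (L.w j (mr2_env p e n) t0) (p.chiN i (L.w j (mr2_env p e n) t0)))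
    (p.chiN p.c (mr2_we p L j e n t0))

theorem mr2_sumP : ∑ a ∈ L.wit p j e ×ˢ range (p.c + 1) with
      L.okP p F H j e a.1 a.2 ∧ p.chP a.1.2 a.2 = t,
      2 ^ p.sp a.1.2 a.2 * p.fmul (p.fmul (L.w j (p.xc e a.1.2.k.D a.1.1) a.1.2)
        (p.chiN a.2 (L.w j (p.xc e a.1.2.k.D a.1.1) a.1.2)))
        (p.chiN p.c (L.WE p j (p.xc e a.1.2.k.D a.1.1) a.1.2.x a.1.2.z a.1.2.k.E)) =
    ∑ i ∈ range (p.c + 1), ∑ n ∈ range (mr2_blk p),
      if mr2_hit p F H L j e d t (p.c + 1 + i) n = 0 then 0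
      else mr2_pv p L j e i n ((mr2_par p L j e d (t.ep d) n).getD t) := by
  rw [sum_filter, sum_product_right]
  refine sum_congr rfl fun i hi => ?_
  have hi := mem_range.1 hi
  rw [← sum_filter]
  simp only [← ite_not (mr2_hit p F H L j e d t (p.c + 1 + i) _ = 0)]
  rw [← sum_filter]
  have key : ∀ n, n < mr2_blk p → ¬ mr2_hit p F H L j e d t (p.c + 1 + i) n = 0 →
      ∃ t0, mr2_par p L j e d (t.ep d) n = some t0 ∧ t0.k.D = n / p.Kp / 2 ^ p.wb ∧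
        L.okP p F H j e (n / p.Kp % 2 ^ p.wb, t0) i ∧ p.chP t0 i = t := fun n hn h => by
    refine (mr2_candP hi hn).1 ?_
    by_contra hc
    exact h (by rw [mr2_hit, if_neg hc])
  refine sum_bij' (fun a _ => mr2_pos p L j e d a)
    (fun n _ => (n / p.Kp % 2 ^ p.wb, (mr2_par p L j e d (t.ep d) n).getD t)) ?_ ?_ ?_ ?_ ?_
  · intro a ha
    obtain ⟨ha, hok, ht⟩ := mem_filter.1 ha
    obtain ⟨f1, _, f3, f4, f5⟩ := mr2_pos_spec (d := d) ha
    have hv : a.2.ep d = t.ep d := ht ▸ (mr2_ep_chP _ _ d).symm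
    refine mem_filter.2 ⟨mem_range.2 f1, ?_⟩
    rw [mr2_hit, if_pos ((mr2_candP hi f1).2 ⟨a.2, hv ▸ f5, f3.symm, by rw [f4]; exact hok, ht⟩)]
    exact one_ne_zero
  · intro n hn
    obtain ⟨hn, h⟩ := mem_filter.1 hn
    obtain ⟨t0, g1, g2, g3, g4⟩ := key n (mem_range.1 hn) h
    rw [g1, Option.getD_some]
    exact mem_filter.2 ⟨(mr2_of_par (mem_range.1 hn) g1 g2).1, g3, g4⟩
  · intro a ha
    obtain ⟨ha, _, ht⟩ := mem_filter.1 ha
    obtain ⟨_, _, _, f4, f5⟩ := mr2_pos_spec (d := d) ha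
    have hv : a.2.ep d = t.ep d := ht ▸ (mr2_ep_chP _ _ d).symm
    rw [f4, ← hv, f5, Option.getD_some]
  · intro n hn
    obtain ⟨hn, h⟩ := mem_filter.1 hn
    obtain ⟨t0, g1, g2, _, _⟩ := key n (mem_range.1 hn) h
    rw [g1, Option.getD_some]
    exact (mr2_of_par (mem_range.1 hn) g1 g2).2.2
  · intro a ha
    obtain ⟨ha, _, ht⟩ := mem_filter.1 ha
    obtain ⟨_, _, f3, f4, f5⟩ := mr2_pos_spec (d := d) ha
    have hv : a.2.ep d = t.ep d := ht ▸ (mr2_ep_chP _ _ d).symm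
    rw [← hv, f5, Option.getD_some, mr2_pv, mr2_we, mr2_env, f3, f4]

end Vale.Agent.P313.NL
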