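import Vale.Agent.P313.NL.MR1
import Vale.Agent.P313.NL.E6
import Vale.Agent.P313.NL.MR2a

/-! The weights after the operation `R`. -/

namespace Vale.Agent.P313.NL

open Finset Vale.Agent.Lib.Space
open scoped Classical

variable {α : Type} {C : Cx α} {body : PN → Pg α Arg} {a : α} {s lg eb X : ℕ} {L : Lv}
  {A : Type} [Enc A α] {B : Bud A}

section defs

variable {Γ : Type} (C : Cx α)

/-- The power of two as a large number. -/
def mr2_pw (i : α → Γ → ℕ) : Bg α Γ := Big.val fun a _ γ => C.pw a (i a γ)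
/-- The product of fixed point numbers. -/
def mr2_fmul (x y : Bg α Γ) : Bg α Γ := Big.shr C.Pm (fun a _ => (C.p a).P) (Big.mul x y)
/-- See `Par.psiN`. -/
def mr2_psi (i : α → Γ → ℕ) (x : Bg α Γ) : Bg α Γ :=
  Big.min C.Pm (mr2_pw C fun a _ => (C.p a).P)
    (Big.sub C.Pm (mr2_pw C fun a _ => (C.p a).P + 1) (Big.mul (mr2_pw C i) x))
/-- See `Par.chiN`. -/
def mr2_chi (i : α → Γ → ℕ) (x : Bg α Γ) : Bg α Γ :=
  Big.ite (fun a _ γ => decide (i a γ < (C.p a).c))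
    (Big.sub C.Pm (mr2_psi C i x) (mr2_psi C (fun a γ => i a γ + 1) x))
    (mr2_psi C (fun a _ => (C.p a).c) x)

/-- See `mr2_blk`. -/
def mr2_bk (a : α) : ℕ := ((C.p a).m + 1) * C.pw a (C.p a).wb * (C.p a).Kp
/-- The state of the parent. -/
def mr2_st (a : α) (g : GS) (n : ℕ) : GS :=
  (g.1, C.xc a g.2 (n / (C.p a).Kp / C.pw a (C.p a).wb) (n / (C.p a).Kp % C.pw a (C.p a).wb))
/-- The arguments for the parent. -/
def mr2_arg (a : α) (z : (Cd × ℕ) × ℕ) : Cd :=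
  (z.1.1.1 - 1, z.1.1.2.1, z.1.1.2.2.1, z.2 % (C.p a).Kp)
/-- A large number which is computed in the state of the parent. -/
def mr2_in (x : Bg α Cd) : Bg α ((Cd × ℕ) × ℕ) :=
  inSt (fun a g z => mr2_st C a g z.1.2) (fun a g z => mr2_st C a g z.1.2) (Big.map (mr2_arg C) x)
/-- The test for a candidate. -/
def mr2_same (off : α → ℕ) : Pg α ((Cd × ℕ) × ℕ) :=
  .map (fun a z => (z.1.1, (off a + z.1.2) * mr2_bk C a + z.2)) (sameG C (cdR C))
/-- See `Lv.WA`. -/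
def mr2_WA : Bg α (Cd × ℕ) :=
  Big.bind (Nd.first (fun a _ => mr2_bk C a) (mr2_same C fun _ => 0))
    (Big.ite (fun _ _ z => decide (z.2 = 0)) (Big.val fun _ _ _ => 0)
      (Big.map (fun _ z => (z.1, z.2 - 1)) (mr2_in C (weP C))))
/-- The part of the accepted groups. -/
def mr2_A : Bg α Cd :=
  Big.sum (fun a _ => (C.p a).c) (Big.mul (mr2_pw C fun _ z => z.2)
    (mr2_fmul C (mr2_WA C) (mr2_chi C (fun _ z => z.2) (mr2_WA C))))
/-- See `mr2_pv`. -/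
def mr2_P1 : Bg α ((Cd × ℕ) × ℕ) :=
  Big.bind (inSt (fun a g z => mr2_st C a g z.2) (fun a g z => mr2_st C a g z.2) (cKey (mr2_arg C)))
    (Big.mul (mr2_pw C fun a z => max z.1.1.2
        ((C.p a).c - ((Key.dec (z.2 - 1)).h - (Key.dec (z.2 - 1)).D)))
      (Big.map (fun _ z => z.1) (mr2_fmul C
        (mr2_fmul C (mr2_in C (cWt fun _ x => x))
          (mr2_chi C (fun _ z => z.1.2) (mr2_in C (cWt fun _ x => x))))
        (mr2_chi C (fun a _ => (C.p a).c) (mr2_in C (weP C))))))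
/-- The part of the terms which are passed on. -/
def mr2_P : Bg α Cd :=
  Big.sum (fun a _ => (C.p a).c + 1) (Big.sum (fun a _ => mr2_bk C a)
    (Big.bind (mr2_same C fun a => (C.p a).c + 1)
      (Big.ite (fun _ _ z => decide (z.2 = 0)) (Big.val fun _ _ _ => 0)
        (Big.map (fun _ z => z.1) (mr2_P1 C)))))
/-- The weight of the term of a candidate. -/
def mr2_W : Bg α Cd :=
  Big.min C.Pm (Big.val fun a _ _ => (C.p a).Om * C.pw a (C.p a).P) (Big.add (mr2_A C) (mr2_P C))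

end defs

/-- The body of `wt`. -/
def wtR (C : Cx α) : Pg α Arg :=
  .seq (.map (fun _ x => (x.1, x.2.1, x.2.2.1, x.2.2.2.1)) (findG C (cdR C)))
    (.map (fun _ z => ((z.1.1, z.1.2.1, z.1.2.2.1, z.2 - 1), z.1.2.2.2.2.1)) (mr2_W C))
/-- The body of `al`. -/
def alR (_C : Cx α) : Pg α Arg :=
  .map (fun _ x => (x, x.2.2.2.2.1)) (cAl fun _ x => (x.1 - 1, x.2.1, x.2.2.1, 0))

section arith

variable {Γ : Type} {γ : Γ} {g : GS} {x y : Bg α Γ} {v w k k' : ℕ} {i : α → Γ → ℕ}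

theorem mr2_lt (hf : C.Fits a lg) {v : ℕ} (h : v ≤ 2 ^ (2 * (C.p a).P + 9 * lg)) :
    v < 2 ^ C.Pm a := by
  have := hf.Pm_ge
  have := ma_lg hf
  exact h.trans_lt (Nat.pow_lt_pow_right one_lt_two (by omega))

theorem mr2_ev_pw (hf : C.Fits a lg) (hi : i a γ ≤ 2 * (C.p a).P + 9 * lg) (hk : 1 ≤ k) :
    EvB body a (C.ok a) C.Pm (mr2_pw C i) γ g (2 ^ i a γ) k := by
  have h1 := hf.Pm_ge
  have e := Cx.pw_eq hf (e := i a γ) (by omega)
  exact (EvB.val (f := fun a _ γ => C.pw a (i a γ))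
    (by rw [e]; exact mr2_lt hf (Nat.pow_le_pow_right two_pos hi)) hk).congr e

theorem mr2_ev_fmul (hf : C.Fits a lg) (hx : EvB body a (C.ok a) C.Pm x γ g v k')
    (hy : EvB body a (C.ok a) C.Pm y γ g w k') (hv : v ≤ 2 ^ ((C.p a).P + 3 * lg))
    (hw : w ≤ 2 ^ (C.p a).P) (hk : 100 * lg + k' ≤ k) :
    EvB body a (C.ok a) C.Pm (mr2_fmul C x y) γ g ((C.p a).fmul v w) k := by
  have := ma_lg hf
  refine EvB.shr (EvB.mul hx hy (mr2_lt hf ((Nat.mul_le_mul hv hw).trans ?_)) hf.Pm_lt (by omega))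
  rw [← pow_add]
  exact Nat.pow_le_pow_right two_pos (by omega)

theorem mr2_fmul_le (p : Par) {v w : ℕ} (hw : w ≤ 2 ^ p.P) : p.fmul v w ≤ v :=
  Nat.div_le_of_le_mul (by rw [mul_comm]; exact Nat.mul_le_mul_right _ hw)

theorem mr2_chiN_le (p : Par) (i v : ℕ) : p.chiN i v ≤ 2 ^ p.P := by
  rw [Par.chiN]
  split_ifs
  · exact (Nat.sub_le _ _).trans (min_le_left _ _)
  · exact min_le_left _ _

theorem mr2_ev_psi (hf : C.Fits a lg) (hx : EvB body a (C.ok a) C.Pm x γ g v k')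
    (hv : v ≤ 2 ^ ((C.p a).P + 3 * lg)) (hi : i a γ ≤ lg) (hk : 300 * lg + k' ≤ k) :
    EvB body a (C.ok a) C.Pm (mr2_psi C i x) γ g ((C.p a).psiN (i a γ) v) k := by
  have := ma_lg hf
  have h1 : 2 ^ i a γ * v < 2 ^ C.Pm a := by
    refine mr2_lt hf ((Nat.mul_le_mul_left _ hv).trans ?_)
    rw [← pow_add]
    exact Nat.pow_le_pow_right two_pos (by omega)
  have h2 := EvB.mul (k := 100 * lg + k') (mr2_ev_pw (k := 1 + k') hf (by omega) (by omega))
    (hx.mono (by omega)) h1 hf.Pm_lt (by omega)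
  have h3 := EvB.sub (k := 200 * lg + k')
    (mr2_ev_pw (i := fun a _ => (C.p a).P + 1) hf (by omega) (by omega)) h2 hf.Pm_lt
    (by omega)
  refine (EvB.min (mr2_ev_pw (i := fun a _ => (C.p a).P) hf (by omega) (by omega)) h3
    hf.Pm_lt (by omega)).congr ?_
  rw [Par.psiN, pow_succ, mul_comm _ 2]

theorem mr2_ev_chi (hf : C.Fits a lg) (hx : EvB body a (C.ok a) C.Pm x γ g v k')
    (hv : v ≤ 2 ^ ((C.p a).P + 3 * lg)) (hk : 400 * lg + k' ≤ k) :
    EvB body a (C.ok a) C.Pm (mr2_chi C i x) γ g ((C.p a).chiN (i a γ) v) k := by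
  have := ma_lg hf
  have := hf.small.c_le
  rw [Par.chiN]
  split_ifs with h
  · exact EvB.iteT (decide_eq_true h) (EvB.sub (k' := 300 * lg + k')
      (mr2_ev_psi hf hx hv (by omega) le_rfl)
      (mr2_ev_psi (i := fun a γ => i a γ + 1) hf hx hv (by omega) le_rfl) hf.Pm_lt
      (by omega))
  · exact EvB.iteF (decide_eq_false h)
      (mr2_ev_psi (i := fun a _ => (C.p a).c) hf hx hv (by omega) (by omega))

end arith

section spec

variable {j v i0 u n k k' : ℕ} {e : Env} {d : Bool} {t t0 : Tm}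

theorem mr2_bk_eq (hf : C.Fits a lg) : mr2_bk C a = mr2_blk (C.p a) := by
  have := hf.Pm_ge
  have := hf.small.wb_le
  rw [mr2_bk, mr2_blk, Cx.pw_eq hf (by omega)]

theorem mr2_blk_le (hf : C.Fits a lg) : mr2_blk (C.p a) ≤ 2 ^ (3 * lg) := by
  have h := Nat.mul_le_mul (Nat.mul_le_mul hf.small.m_le
    (Nat.pow_le_pow_right two_pos hf.small.wb_le)) hf.small.Kp_le
  rw [← pow_add, ← pow_add] at h
  rw [show 3 * lg = lg + lg + lg by ring]
  exact h

theorem mr2_st_eq (hf : C.Fits a lg) (hn : n < mr2_blk (C.p a)) (e : Env) :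
    mr2_st C a (v, e) n = (v, mr2_env (C.p a) e n) := by
  have := hf.Pm_ge
  have := hf.small.wb_le
  rw [mr2_st, Cx.pw_eq hf (by omega), Cx.xc_eq hf _ (Nat.lt_succ_iff.1 (mr2_D_lt hn)), mr2_env]

theorem mr2_ev_st {Γ : Type} {γ : Γ} {f : Γ → ℕ} {y : Pg α Γ} {w b : ℕ} (hf : C.Fits a lg)
    (hγ : f γ = n) (hn : n < mr2_blk (C.p a)) (hv : v < 2 ^ (C.p a).m) (he : e.Ok (C.p a).m)
    (hy : Ev body a (C.ok a) y γ (v, mr2_env (C.p a) e n) (v, mr2_env (C.p a) e n) w k')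
    (hw : w < 2 ^ b) (hk : 4 * b + k' ≤ k) : Ev body a (C.ok a)
      (inSt (fun a g z => mr2_st C a g (f z)) (fun a g z => mr2_st C a g (f z)) y) γ (v, e) (v, e)
      w k :=
  ev_inSt (g' := (v, mr2_env (C.p a) e n)) ⟨hv, he⟩ (by rw [hγ, mr2_st_eq hf hn]) ⟨hv, he.xc _ _⟩
    (by rw [hγ, mr2_st_eq hf hn, mr2_env, mr2_env, xc_xc]) hy hw hk

theorem mr2_ev_in {x : Bg α Cd} {w : ℕ} (hf : C.Fits a lg) (hn : n < mr2_blk (C.p a))
    (hv : v < 2 ^ (C.p a).m) (he : e.Ok (C.p a).m)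
    (hx : EvB body a (C.ok a) C.Pm x (s, j, d.toNat, n % (C.p a).Kp) (v, mr2_env (C.p a) e n) w k')
    (hk : 4 + k' ≤ k) : EvB body a (C.ok a) C.Pm (mr2_in C x) (((s + 1, j, d.toNat, i0), u), n)
      (v, e) w k :=
  ⟨hx.1, fun b hb => mr2_ev_st (f := fun z : ((Cd × ℕ) × ℕ) × ℕ => z.1.2) (b := 1) hf rfl hn hv he
    (.map (hx.2 b hb)) (KH.bt_lt _ _) hk⟩

/-- The hypotheses for the weight of the term `t` with the candidate `i0`. -/
structure mr2_H (C : Cx α) (body : PN → Pg α Arg) (a : α) (s lg eb X : ℕ) (L : Lv) (j : ℕ) (e : Env)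
    (d : Bool) (i0 : ℕ) (t : Tm) : Prop where
  st : Step C body a s lg eb X L
  hj : j ≤ (C.p a).P
  he : e.Ok (C.p a).m
  hv : t.ep d < 2 ^ (shp (C.p a) s).q
  hi : i0 < (cdR C).nd a
  ht : L.candR (C.p a) (C.F a) (shp (C.p a) s) j e d (t.ep d) i0 = some t
  sing : t.k.dbl = false → t.y = 0 ∧ t.k = sgl t.k.E

theorem mr2_gen (h : Step C body a s lg eb X L) :
    GenH C body a (cdR C) (s + 1) (shp (C.p a) s).q lg (eb + (C.p a).c)
      ((C.p a).Om * 2 ^ (C.p a).P) (L.R (C.p a) (C.F a) (shp (C.p a) s))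
      (L.candR (C.p a) (C.F a) (shp (C.p a) s)) fun j => X + Cc * j + 20 * Cu * lg :=
  ⟨h.fits, h.s_lt, le_of_add_le_left h.q_le, h.e_le, h.wf.R, cdR_spec h⟩

theorem mr2_H.vm (h : mr2_H C body a s lg eb X L j e d i0 t) : t.ep d < 2 ^ (C.p a).m :=
  lt_pow_mono h.hv (le_of_add_le_left h.st.q_le)

theorem mr2_ev_same (h : mr2_H C body a s lg eb X L j e d i0 t) {off : α → ℕ}
    (hu : off a + u < 2 * ((C.p a).c + 1)) (hn : n < mr2_blk (C.p a)) :
    Ev body a (C.ok a) (mr2_same C off) (((s + 1, j, d.toNat, i0), u), n) (t.ep d, e) (t.ep d, e)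
      (mr2_hit (C.p a) (C.F a) (shp (C.p a) s) L j e d t (off a + u) n)
      (X + Cc * j + 21 * Cu * lg) := by
  refine .map ?_
  dsimp only
  rw [mr2_bk_eq h.st.fits]
  refine (sameG_spec (mr2_gen h.st) h.hj h.he h.hv h.hi ?_ h.ht).mono (by simp only [Cu]; omega)
  rw [cdR_nd, mul_assoc, mul_assoc, ← mul_assoc ((C.p a).m + 1), ← mr2_bk, mr2_bk_eq h.st.fits]
  calc (off a + u) * mr2_blk (C.p a) + n < (off a + u + 1) * mr2_blk (C.p a) := by
        rw [add_one_mul]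
        omega
    _ ≤ _ := Nat.mul_le_mul_right _ hu

theorem mr2_hit_lt (p : Par) (F : ℕ → ℕ → ℕ) (H : Shp) : mr2_hit p F H L j e d t u n < 2 ^ 1 := by
  rw [mr2_hit]
  split_ifs <;> omega

theorem mr2_ev_we (h : mr2_H C body a s lg eb X L j e d i0 t) (hn : n < mr2_blk (C.p a))
    (h0 : mr2_par (C.p a) L j e d (t.ep d) n = some t0) :
    EvB body a (C.ok a) C.Pm (mr2_in C (weP C)) (((s + 1, j, d.toNat, i0), u), n) (t.ep d, e)
      (mr2_we (C.p a) L j e n t0) (X + Cc * j + 21 * Cu * lg) ∧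
    mr2_we (C.p a) L j e n t0 ≤ 2 ^ ((C.p a).P + 3 * lg) := by
  have := ma_lg h.st.fits
  obtain ⟨h1, h2⟩ := ev_weP h.st h.hj (h.he.xc _ _) h0
  exact ⟨mr2_ev_in h.st.fits hn h.vm h.he h1 (by simp only [Cu]; omega), h2⟩

theorem mr2_Om_le (hf : C.Fits a lg) : (C.p a).Om ≤ 2 ^ lg := by
  have h1 := hf.small.c_le
  have h2 := ma_lg hf
  obtain ⟨l, rfl⟩ : ∃ l, lg = l + 1 := ⟨lg - 1, by omega⟩
  have := Nat.lt_two_pow_self (n := l)
  rw [Par.Om, pow_succ]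
  omega

theorem mr2_ev_w (h : mr2_H C body a s lg eb X L j e d i0 t) (hn : n < mr2_blk (C.p a))
    (h0 : mr2_par (C.p a) L j e d (t.ep d) n = some t0) :
    EvB body a (C.ok a) C.Pm (mr2_in C (cWt fun _ x => x)) (((s + 1, j, d.toNat, i0), u), n)
      (t.ep d, e) (L.w j (mr2_env (C.p a) e n) t0) (X + Cc * j + 21 * Cu * lg) ∧
    L.w j (mr2_env (C.p a) e n) t0 ≤ 2 ^ ((C.p a).P + lg) := by
  have := ma_lg h.st.fits
  refine ⟨mr2_ev_in (k' := X + Cc * j + lg + 2) h.st.fits hn h.vm h.he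
    (ev_cWt h.st.fits h.st.sw h.st.s_lt.le h.st.wf le_rfl rfl h.hj (h.he.xc _ _) h0 le_rfl)
    (by simp only [Cu]; omega), ?_⟩
  refine (h.st.wf.w_le _ _ _ (Lv.N_subset _ _ (Lv.nb_eq_some.1 h0).1)).trans ?_
  rw [add_comm, pow_add]
  exact Nat.mul_le_mul_right _ (mr2_Om_le h.st.fits)

theorem mr2_ev_WA (h : mr2_H C body a s lg eb X L j e d i0 t) (hu : u < (C.p a).c) :
    ∃ w ≤ 2 ^ ((C.p a).P + 3 * lg), EvB body a (C.ok a) C.Pm (mr2_WA C)
      ((s + 1, j, d.toNat, i0), u) (t.ep d, e) w (X + Cc * j + 21 * Cu * lg + 100 * lg) ∧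
      w = if t.k.dbl = false ∧ u ≤ t.k.E then
        L.WA (C.p a) (C.F a) (shp (C.p a) s) j e t.x t.z (t.k.E - u) u else 0 := by
  have hl := ma_lg h.st.fits
  have hb : mr2_blk (C.p a) < 2 ^ (3 * lg + 1) :=
    (mr2_blk_le h.st.fits).trans_lt (Nat.pow_lt_pow_right one_lt_two (by omega))
  have h1 : Ev body a (C.ok a) (Nd.first (fun a _ => mr2_bk C a) (mr2_same C fun _ => 0))
      ((s + 1, j, d.toNat, i0), u) (t.ep d, e) (t.ep d, e)
      (firstF (mr2_blk (C.p a)) (mr2_hit (C.p a) (C.F a) (shp (C.p a) s) L j e d t (0 + u)))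
      (X + Cc * j + 21 * Cu * lg + 100 * lg) := by
    rw [← mr2_bk_eq h.st.fits]
    refine Ev.first (n := fun a _ => mr2_bk C a) (3 * lg + 1) (fun n hn => mr2_ev_same h (by omega) ?_)
      ?_ (fun n _ => lt_pow_mono (mr2_hit_lt _ _ _) (by omega)) (by omega)
    · rwa [← mr2_bk_eq h.st.fits]
    · rwa [← mr2_bk_eq h.st.fits] at hb
  have h2 := (firstF_le _ (mr2_hit (C.p a) (C.F a) (shp (C.p a) s) L j e d t (0 + u))).trans_lt hb
  rcases hF : firstF (mr2_blk (C.p a)) (mr2_hit (C.p a) (C.F a) (shp (C.p a) s) L j e d t (0 + u))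
    with _ | n
  · rw [hF] at h1 h2
    refine ⟨0, Nat.zero_le _, EvB.bind (k' := 1) _ h1 h2 (EvB.iteT rfl
      (EvB.val (f := fun _ _ _ => 0) (by positivity) le_rfl)) (by omega), ?_⟩
    split_ifs with hc
    · exact (mr2_WA_zero hu h.sing (firstF_eq_zero.1 hF) hc.1 hc.2).symm
    · rfl
  · rw [hF] at h1 h2
    obtain ⟨g1, g2, g3⟩ := firstF_eq_succ.1 hF
    obtain ⟨t0, f1, f2, f3, f4⟩ := mr2_WA_first hu g1 g2 g3
    obtain ⟨w1, w2⟩ := mr2_ev_we (u := u) h g1 f1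
    exact ⟨_, w2, EvB.bind _ h1 h2 (EvB.iteF rfl (EvB.map w1)) (by omega),
      by rw [if_pos ⟨f2, f3⟩, f4]⟩

theorem mr2_sum_le {N b c : ℕ} {f : ℕ → ℕ} (hN : N ≤ 2 ^ b) (hf : ∀ i < N, f i ≤ 2 ^ c) :
    ∑ i ∈ range N, f i ≤ 2 ^ (b + c) := by
  refine (sum_le_card_nsmul _ _ _ fun i hi => hf i (mem_range.1 hi)).trans ?_
  rw [card_range, smul_eq_mul, pow_add]
  exact Nat.mul_le_mul_right _ hN

theorem mr2_ev_A (h : mr2_H C body a s lg eb X L j e d i0 t) :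
    ∃ w ≤ 2 ^ ((C.p a).P + 5 * lg), EvB body a (C.ok a) C.Pm (mr2_A C)
      (s + 1, j, d.toNat, i0) (t.ep d, e) w (X + Cc * j + 21 * Cu * lg + 1000 * lg) ∧
      w = if t.k.dbl then 0 else ∑ i ∈ range (C.p a).c with i ≤ t.k.E,
        2 ^ i * (C.p a).fmul (L.WA (C.p a) (C.F a) (shp (C.p a) s) j e t.x t.z (t.k.E - i) i)
          ((C.p a).chiN i (L.WA (C.p a) (C.F a) (shp (C.p a) s) j e t.x t.z (t.k.E - i) i)) := by
  have hl := ma_lg h.st.fits
  have hc := h.st.fits.small.c_le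
  have hc2 : (C.p a).c < 2 ^ lg := lt_of_le_of_lt (by omega) Nat.lt_two_pow_self
  choose W hW1 hW2 hW3 using fun u (hu : u < (C.p a).c) => mr2_ev_WA h hu
  set f : ℕ → ℕ := fun u => if hu : u < (C.p a).c then
    2 ^ u * (C.p a).fmul (W u hu) ((C.p a).chiN u (W u hu)) else 0 with hf
  have h1 : ∀ u < (C.p a).c, f u ≤ 2 ^ (lg + ((C.p a).P + 3 * lg)) := fun u hu => by
    rw [hf, pow_add]
    simp only [dif_pos hu]
    exact Nat.mul_le_mul (Nat.pow_le_pow_right two_pos (by omega))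
      ((mr2_fmul_le _ (mr2_chiN_le _ _ _)).trans (hW1 u hu))
  have h2 : ∑ u ∈ range (C.p a).c, f u ≤ 2 ^ ((C.p a).P + 5 * lg) :=
    (mr2_sum_le hc2.le h1).trans (Nat.pow_le_pow_right two_pos (by omega))
  refine ⟨_, h2, EvB.sum (n := fun a _ => (C.p a).c) (k' := X + Cc * j + 21 * Cu * lg + 800 * lg) lg
    (fun u hu => ?_) hc2 (mr2_lt h.st.fits (h2.trans (Nat.pow_le_pow_right two_pos (by omega))))
    h.st.fits.Pm_lt (by omega), ?_⟩
  · have h3 := h1 u hu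
    rw [hf] at h3 ⊢
    simp only [dif_pos hu] at h3 ⊢
    exact EvB.mul (k' := X + Cc * j + 21 * Cu * lg + 700 * lg)
      (mr2_ev_pw (i := fun _ (z : Cd × ℕ) => z.2) h.st.fits (by dsimp only; omega) (by omega))
      (mr2_ev_fmul (k' := X + Cc * j + 21 * Cu * lg + 500 * lg) h.st.fits ((hW2 u hu).mono (by omega))
        (mr2_ev_chi (i := fun _ (z : Cd × ℕ) => z.2) h.st.fits (hW2 u hu) (hW1 u hu) (by omega))
        (hW1 u hu) (mr2_chiN_le _ _ _) (by omega))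
      (mr2_lt h.st.fits (h3.trans (Nat.pow_le_pow_right two_pos (by omega)))) h.st.fits.Pm_lt
      (by omega)
  · split_ifs with hd
    · refine sum_eq_zero fun u hu => ?_
      have hu := mem_range.1 hu
      rw [hf]
      simp only [dif_pos hu]
      rw [hW3 u hu, if_neg (by simp [hd]), Par.fmul, zero_mul, Nat.zero_div, mul_zero]
    · rw [sum_filter]
      refine sum_congr rfl fun u hu => ?_
      have hu := mem_range.1 hu
      rw [hf]
      simp only [dif_pos hu]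
      rw [hW3 u hu]
      by_cases hE : u ≤ t.k.E
      · rw [if_pos ⟨by simpa using hd, hE⟩, if_pos hE]
      · rw [if_neg fun hc => hE hc.2, if_neg hE, Par.fmul, zero_mul, Nat.zero_div, mul_zero]

theorem mr2_ev_P1 (h : mr2_H C body a s lg eb X L j e d i0 t) (hu : u < (C.p a).c + 1)
    (hn : n < mr2_blk (C.p a)) (h0 : mr2_par (C.p a) L j e d (t.ep d) n = some t0) :
    EvB body a (C.ok a) C.Pm (mr2_P1 C) (((s + 1, j, d.toNat, i0), u), n) (t.ep d, e)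
      (mr2_pv (C.p a) L j e u n t0) (X + Cc * j + 21 * Cu * lg + 1000 * lg) ∧
    mr2_pv (C.p a) L j e u n t0 ≤ 2 ^ ((C.p a).P + 2 * lg) := by
  have hl := ma_lg h.st.fits
  have hc := h.st.fits.small.c_le
  have hm := h.st.fits.small.m_le
  have hq := h.st.q_le
  have he := h.st.e_le
  obtain ⟨w1, w2⟩ := mr2_ev_w (u := u) h hn h0
  obtain ⟨w3, w4⟩ := mr2_ev_we (u := u) h hn h0
  have w5 := w2.trans (Nat.pow_le_pow_right two_pos (show _ ≤ (C.p a).P + 3 * lg by omega))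
  have hs : (C.p a).sp t0 u ≤ lg := max_le (by omega) (by omega)
  have h1 : mr2_pv (C.p a) L j e u n t0 ≤ 2 ^ ((C.p a).P + 2 * lg) := by
    rw [show (C.p a).P + 2 * lg = lg + ((C.p a).P + lg) by ring, pow_add]
    exact Nat.mul_le_mul (Nat.pow_le_pow_right two_pos hs)
      ((mr2_fmul_le _ (mr2_chiN_le _ _ _)).trans ((mr2_fmul_le _ (mr2_chiN_le _ _ _)).trans w2))
  have h2 : t0.k.code + 1 < 2 ^ (16 * lg) :=
    (h.st.wf.tm _ _ _ (Lv.N_subset _ _ (Lv.nb_eq_some.1 h0).1)).code_lt (by omega) (by omega) hl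
  have h3 := ev_cKey (x := mr2_arg C) (γ := (((s + 1, j, d.toNat, i0), u), n)) (j := j)
    (k := X + Cc * j + lg + 2) h.st.fits h.st.sn h.st.s_lt.le rfl h.hj (h.he.xc (n / (C.p a).Kp / 2 ^ (C.p a).wb) (n / (C.p a).Kp % 2 ^ (C.p a).wb))
    h.hv (ma_r h0) le_rfl
  rw [show L.nb (C.p a) j ((C.p a).xc e (n / (C.p a).Kp / 2 ^ (C.p a).wb)
    (n / (C.p a).Kp % 2 ^ (C.p a).wb)) d (t.ep d) (n % (C.p a).Kp) = some t0 from h0] at h3
  refine ⟨EvB.bind (k' := X + Cc * j + 21 * Cu * lg + 900 * lg) (16 * lg)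
    (mr2_ev_st (f := fun z : (Cd × ℕ) × ℕ => z.2) h.st.fits rfl hn h.vm h.he h3 h2 (by omega)) h2 ?_
    (by omega), h1⟩
  have h4 : max u ((C.p a).c - ((Key.dec (kc (some t0) - 1)).h - (Key.dec (kc (some t0) - 1)).D)) =
      (C.p a).sp t0 u := by rw [kc, Nat.add_sub_cancel, Key.dec_code, Par.sp]
  refine EvB.mul (k' := X + Cc * j + 21 * Cu * lg + 700 * lg)
    ((mr2_ev_pw h.st.fits (by dsimp only; omega) (by omega)).congr (congrArg (2 ^ ·) h4))
    (EvB.map (mr2_ev_fmul (k' := X + Cc * j + 21 * Cu * lg + 600 * lg) h.st.fits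
      (mr2_ev_fmul (k' := X + Cc * j + 21 * Cu * lg + 400 * lg) h.st.fits (w1.mono (by omega))
        (mr2_ev_chi (i := fun _ (z : (Cd × ℕ) × ℕ) => z.1.2) h.st.fits w1 w5 (by omega)) w5
        (mr2_chiN_le _ _ _) (by omega))
      (mr2_ev_chi (i := fun a _ => (C.p a).c) h.st.fits w3 w4 (by omega))
      ((mr2_fmul_le _ (mr2_chiN_le _ _ _)).trans w5) (mr2_chiN_le _ _ _) (by omega)))
    (mr2_lt h.st.fits (h1.trans (Nat.pow_le_pow_right two_pos (by omega)))) h.st.fits.Pm_lt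
    (by omega)

theorem mr2_ev_P (h : mr2_H C body a s lg eb X L j e d i0 t) :
    ∃ w ≤ 2 ^ ((C.p a).P + 6 * lg), EvB body a (C.ok a) C.Pm (mr2_P C)
      (s + 1, j, d.toNat, i0) (t.ep d, e) w (X + Cc * j + 21 * Cu * lg + 2000 * lg) ∧
      w = ∑ i ∈ range ((C.p a).c + 1), ∑ n ∈ range (mr2_blk (C.p a)),
        if mr2_hit (C.p a) (C.F a) (shp (C.p a) s) L j e d t ((C.p a).c + 1 + i) n = 0 then 0
        else mr2_pv (C.p a) L j e i n ((mr2_par (C.p a) L j e d (t.ep d) n).getD t) := by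
  have hl := ma_lg h.st.fits
  have hc := h.st.fits.small.c_le
  have hc2 : (C.p a).c + 1 < 2 ^ lg := lt_of_le_of_lt (by omega) Nat.lt_two_pow_self
  have hb : mr2_blk (C.p a) < 2 ^ (3 * lg + 1) :=
    (mr2_blk_le h.st.fits).trans_lt (Nat.pow_lt_pow_right one_lt_two (by omega))
  set f : ℕ → ℕ → ℕ := fun i n =>
    if mr2_hit (C.p a) (C.F a) (shp (C.p a) s) L j e d t ((C.p a).c + 1 + i) n = 0 then 0
    else mr2_pv (C.p a) L j e i n ((mr2_par (C.p a) L j e d (t.ep d) n).getD t) with hf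
  have h1 : ∀ i < (C.p a).c + 1, ∀ n < mr2_blk (C.p a), EvB body a (C.ok a) C.Pm
      (Big.bind (mr2_same C fun a => (C.p a).c + 1)
        (Big.ite (fun _ _ z => decide (z.2 = 0)) (Big.val fun _ _ _ => 0)
          (Big.map (fun _ z => z.1) (mr2_P1 C)))) (((s + 1, j, d.toNat, i0), i), n) (t.ep d, e)
        (f i n) (X + Cc * j + 21 * Cu * lg + 1100 * lg) ∧ f i n ≤ 2 ^ ((C.p a).P + 2 * lg) := by
    intro i hi n hn
    have g1 := (mr2_ev_same (off := fun a => (C.p a).c + 1) (u := i) h (by omega) hn).mono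
      (k' := X + Cc * j + 21 * Cu * lg + 1100 * lg) (by omega)
    rw [hf]
    dsimp only
    split_ifs with h0
    · exact ⟨EvB.bind (k' := 1) 1 g1 (mr2_hit_lt _ _ _) (EvB.iteT (decide_eq_true h0)
        (EvB.val (f := fun _ _ _ => 0) (by positivity) le_rfl)) (by omega), Nat.zero_le _⟩
    · obtain ⟨t0, f1, _⟩ := (mr2_candP (F := C.F a) (H := shp (C.p a) s) (L := L) (j := j) (e := e)
        (d := d) (v := t.ep d) (t := t) hi hn).1 (by
          by_contra hc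
          exact h0 (by rw [mr2_hit, if_neg hc]))
      obtain ⟨w1, w2⟩ := mr2_ev_P1 h hi hn f1
      rw [f1, Option.getD_some]
      exact ⟨EvB.bind 1 g1 (mr2_hit_lt _ _ _) (EvB.iteF (decide_eq_false h0) (EvB.map w1))
        (by omega), w2⟩
  have h2 : ∀ i < (C.p a).c + 1, ∑ n ∈ range (mr2_blk (C.p a)), f i n ≤
      2 ^ (3 * lg + ((C.p a).P + 2 * lg)) := fun i hi =>
    mr2_sum_le (mr2_blk_le h.st.fits) fun n hn => (h1 i hi n hn).2
  have h3 : ∑ i ∈ range ((C.p a).c + 1), ∑ n ∈ range (mr2_blk (C.p a)), f i n ≤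
      2 ^ ((C.p a).P + 6 * lg) :=
    (mr2_sum_le hc2.le h2).trans (Nat.pow_le_pow_right two_pos (by omega))
  refine ⟨_, h3, EvB.sum (n := fun a _ => (C.p a).c + 1)
    (k' := X + Cc * j + 21 * Cu * lg + 1500 * lg) lg (fun i hi => ?_) hc2
    (mr2_lt h.st.fits (h3.trans (Nat.pow_le_pow_right two_pos (by omega)))) h.st.fits.Pm_lt
    (by omega), rfl⟩
  have h4 := h2 i hi
  rw [← mr2_bk_eq h.st.fits] at h1 h4 hb ⊢
  exact EvB.sum (n := fun a _ => mr2_bk C a) (3 * lg + 1) (fun n hn => (h1 i hi n hn).1) hb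
    (mr2_lt h.st.fits (h4.trans (Nat.pow_le_pow_right two_pos (by omega)))) h.st.fits.Pm_lt
    (by omega)

theorem mr2_ev_W (h : mr2_H C body a s lg eb X L j e d i0 t) :
    EvB body a (C.ok a) C.Pm (mr2_W C) (s + 1, j, d.toNat, i0) (t.ep d, e)
      ((L.R (C.p a) (C.F a) (shp (C.p a) s)).w j e t) (X + Cc * j + 21 * Cu * lg + 3000 * lg) := by
  have hl := ma_lg h.st.fits
  have hP := h.st.fits.Pm_ge
  obtain ⟨w1, a1, a2, a3⟩ := mr2_ev_A h
  obtain ⟨w2, b1, b2, b3⟩ := mr2_ev_P h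
  have h1 : w1 + w2 ≤ 2 ^ (2 * (C.p a).P + 9 * lg) := by
    have e1 := Nat.pow_le_pow_right two_pos (show (C.p a).P + 5 * lg ≤ (C.p a).P + 6 * lg by omega)
    have e2 := Nat.pow_le_pow_right two_pos
      (show (C.p a).P + 6 * lg + 1 ≤ 2 * (C.p a).P + 9 * lg by omega)
    rw [pow_succ] at e2
    omega
  have e := Cx.pw_eq h.st.fits (e := (C.p a).P) (by omega)
  have h2 : (C.p a).Om * C.pw a (C.p a).P < 2 ^ C.Pm a := by
    rw [e]
    refine mr2_lt h.st.fits ((Nat.mul_le_mul_right _ (mr2_Om_le h.st.fits)).trans ?_)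
    rw [← pow_add]
    exact Nat.pow_le_pow_right two_pos (by omega)
  refine (EvB.min (k' := X + Cc * j + 21 * Cu * lg + 2500 * lg)
    (EvB.val (f := fun a _ _ => (C.p a).Om * C.pw a (C.p a).P) h2 (by omega))
    (EvB.add (a2.mono (by omega)) b2 (mr2_lt h.st.fits h1) h.st.fits.Pm_lt (by omega))
    h.st.fits.Pm_lt (by omega)).congr ?_
  rw [e, a3, b3, ← mr2_sumP]
  rfl

end spec

theorem R_specW (h : Step C body a s lg eb X L)
    (h1 : ∀ x : Arg, x.1 = s + 1 → ∀ g g' v k, Ev body a (C.ok a) (wtR C) x g g' v k →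
      Ev body a (C.ok a) (body .wt) x g g' v k)
    (h2 : ∀ x : Arg, x.1 = s + 1 → ∀ g g' v k, Ev body a (C.ok a) (alR C) x g g' v k →
      Ev body a (C.ok a) (body .al) x g g' v k) :
    SpecW C body a (s + 1) (shp (C.p a) s).q (L.R (C.p a) (C.F a) (shp (C.p a) s))
      fun j => X + Cc * lg + Cc * j := by
  have hl := ma_lg h.fits
  refine ⟨fun j hj e he d v r t ht i hi => h1 _ rfl _ _ _ _ ?_,
    fun j hj e he d v hv i hi => h2 _ rfl _ _ _ _ ?_⟩
  · obtain ⟨i0, g1, g2, g3⟩ := findG_some (mr2_gen h) hj he ht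
    obtain ⟨t1, rfl, _⟩ := Lv.nb_eq_some.1 ht
    have t2 := h.wf.R.tm j e t (Lv.N_subset _ _ t1)
    have hv : t.ep d < 2 ^ (shp (C.p a) s).q := by
      cases d
      · exact t2.x_lt
      · exact t2.z_lt
    have g4 : i0 + 1 < 2 ^ (5 * lg + 1) := by
      have := (cdR_spec h).nd_lt
      rw [pow_succ]
      omega
    exact .seq (5 * lg + 1) (.map (g3.mono (by simp only [Cc, Cu]; omega))) g4
      (.map ((mr2_ev_W ⟨h, hj, he, hv, g1, g2, t2.sing⟩).2 i hi)) (by simp only [Cc, Cu]; omega)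
  · exact .map ((ev_cAl (x := fun _ (x : Arg) => (x.1 - 1, x.2.1, x.2.2.1, 0)) h.fits h.sw h.s_lt.le
      h.wf rfl hj he hv (by simp only [Cc]; omega)).2 i hi)

section sp

variable {β Γ : Type} [Enc A β] [iΓ : Enc A Γ] {f : β → α} {x y : Bg α Γ} {i : α → Γ → ℕ}

theorem mr2_sp_pw (hC : C.IsSP B) {n : β → ℕ} (hf : SP B f) (hn : SP B n) :
    SP B fun z => C.pw (f z) (n z) := Full.sp_cpow (hC.cap.comp hf) (SP.const 2) hn

theorem mr2_sp_m (hC : C.IsSP B) (hf : SP B f) : SP B fun z => (C.p (f z)).m :=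
  (SP.const 2).mul (hC.mh.comp hf)

theorem mr2_sp_bk (hC : C.IsSP B) (hf : SP B f) : SP B fun z => mr2_bk C (f z) :=
  (((mr2_sp_m hC hf).add (SP.const 1)).mul (mr2_sp_pw hC hf (hC.wb.comp hf))).mul (hC.Kp.comp hf)

theorem mr2_sp_st (hC : C.IsSP B) {g : β → GS} {n : β → ℕ} (hf : SP B f) (hg : SP B g)
    (hn : SP B n) : SP B fun z => mr2_st C (f z) (g z) (n z) := by
  have h1 := hn.div (hC.Kp.comp hf)
  have h2 := mr2_sp_pw hC hf (hC.wb.comp hf)
  have h3 := KH.sp_xor hg.snd.snd.snd.snd.fst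
    (Full.sp_low ((h1.mod h2).mul (mr2_sp_pw hC hf (h1.div h2))) (mr2_sp_m hC hf))
  exact hg.fst.pair ((hg.snd.fst.fst.pair (hg.snd.fst.snd.fst.pair hg.snd.fst.snd.snd)).pair
    ((hg.snd.snd.fst.fst.pair (hg.snd.snd.fst.snd.fst.pair hg.snd.snd.fst.snd.snd)).pair
      (hg.snd.snd.snd.fst.pair (h3.pair hg.snd.snd.snd.snd.snd))))

theorem mr2_sp_arg (hC : C.IsSP B) : SP B fun z : α × (Cd × ℕ) × ℕ => mr2_arg C z.1 z.2 :=
  SP.pair (by fun_prop) (SP.pair (by fun_prop) (SP.pair (by fun_prop)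
    (SP.mod (by fun_prop) (hC.Kp.comp SP.fst'))))

theorem mr2_isSP_pw (hC : C.IsSP B) (hi : SP B fun z : α × Γ => i z.1 z.2) :
    (mr2_pw C i).IsSP B inferInstance :=
  isSP_bval (mr2_sp_pw hC SP.fst' (hi.comp (g := fun z : α × GS × Γ => (z.1, z.2.2)) (by fun_prop)))

theorem mr2_isSP_fmul (hC : C.IsSP B) (hx : x.IsSP B inferInstance) (hy : y.IsSP B inferInstance) :
    (mr2_fmul C x y).IsSP B inferInstance :=
  isSP_bshr hC.Pm (hC.P.comp SP.fst') (isSP_bmul hx hy)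

theorem mr2_isSP_psi (hC : C.IsSP B) (hi : SP B fun z : α × Γ => i z.1 z.2)
    (hx : x.IsSP B inferInstance) : (mr2_psi C i x).IsSP B inferInstance :=
  isSP_bmin hC.Pm (mr2_isSP_pw hC (hC.P.comp SP.fst')) (isSP_bsub hC.Pm
    (mr2_isSP_pw hC ((hC.P.comp SP.fst').add (SP.const 1))) (isSP_bmul (mr2_isSP_pw hC hi) hx))

theorem mr2_isSP_chi (hC : C.IsSP B) (hi : SP B fun z : α × Γ => i z.1 z.2)
    (hx : x.IsSP B inferInstance) : (mr2_chi C i x).IsSP B inferInstance :=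
  isSP_bite ((hi.comp (g := fun z : α × GS × Γ => (z.1, z.2.2)) (by fun_prop)).decide_lt
    (hC.c.comp SP.fst')) (isSP_bsub hC.Pm (mr2_isSP_psi hC hi hx)
      (mr2_isSP_psi hC (hi.add (SP.const 1)) hx)) (mr2_isSP_psi hC (hC.c.comp SP.fst') hx)

theorem mr2_isSP_in (hC : C.IsSP B) {x : Bg α Cd} (hx : x.IsSP B inferInstance) :
    (mr2_in C x).IsSP B inferInstance :=
  isSP_inSt (mr2_sp_st hC SP.fst' (by fun_prop) (by fun_prop))
    (mr2_sp_st hC SP.fst' (by fun_prop) (by fun_prop)) (isSP_bmap (mr2_sp_arg hC) hx)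

theorem mr2_isSP_same (hC : C.IsSP B) {off : α → ℕ} (ho : SP B off) :
    (mr2_same C off).IsSP B inferInstance :=
  isSP_map (SP.pair (by fun_prop) ((((ho.comp SP.fst').add (by fun_prop)).mul
    (mr2_sp_bk hC SP.fst')).add (by fun_prop))) (isSP_gen hC (isSP_cdR hC)).2.1

theorem mr2_isSP_WA (hC : C.IsSP B) : (mr2_WA C).IsSP B inferInstance :=
  isSP_bbind (isSP_first (mr2_sp_bk hC SP.fst') (mr2_isSP_same hC (SP.const 0)))
    (isSP_bite (by fun_prop) (isSP_bval (SP.const 0))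
      (isSP_bmap (by fun_prop) (mr2_isSP_in hC (isSP_weP hC))))

theorem mr2_isSP_P1 (hC : C.IsSP B) : (mr2_P1 C).IsSP B inferInstance := by
  have h1 : (mr2_in C (cWt fun _ x => x)).IsSP B inferInstance :=
    mr2_isSP_in hC (isSP_cWt SP.snd')
  have h2 : SP B fun z : α × ((Cd × ℕ) × ℕ) × ℕ => z.2.2 - 1 := by fun_prop
  exact isSP_bbind (isSP_inSt (mr2_sp_st hC SP.fst' (by fun_prop) (by fun_prop))
    (mr2_sp_st hC SP.fst' (by fun_prop) (by fun_prop)) (isSP_cKey (mr2_sp_arg hC)))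
    (isSP_bmul (mr2_isSP_pw hC (SP.max (by fun_prop) ((hC.c.comp SP.fst').sub
        ((Full.sp_unpair1 (Full.sp_unpair1 (Full.sp_unpair2 h2))).sub
          (Full.sp_unpair2 (Full.sp_unpair1 h2))))))
      (isSP_bmap (by fun_prop) (mr2_isSP_fmul hC
        (mr2_isSP_fmul hC h1 (mr2_isSP_chi hC (by fun_prop) h1))
        (mr2_isSP_chi hC (hC.c.comp SP.fst') (mr2_isSP_in hC (isSP_weP hC))))))

theorem mr2_isSP_W (hC : C.IsSP B) : (mr2_W C).IsSP B inferInstance :=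
  isSP_bmin hC.Pm (isSP_bval ((((SP.const 2).mul (hC.c.comp SP.fst')).add (SP.const 2)).mul
      (mr2_sp_pw hC SP.fst' (hC.P.comp SP.fst'))))
    (isSP_badd (isSP_bsum (hC.c.comp SP.fst') (isSP_bmul (mr2_isSP_pw hC (by fun_prop))
        (mr2_isSP_fmul hC (mr2_isSP_WA hC) (mr2_isSP_chi hC (by fun_prop) (mr2_isSP_WA hC)))))
      (isSP_bsum ((hC.c.comp SP.fst').add (SP.const 1)) (isSP_bsum (mr2_sp_bk hC SP.fst')
        (isSP_bbind (mr2_isSP_same hC (hC.c.add (SP.const 1))) (isSP_bite (by fun_prop)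
          (isSP_bval (SP.const 0)) (isSP_bmap (by fun_prop) (mr2_isSP_P1 hC)))))))

end sp

theorem isSP_R (hC : C.IsSP B) : (wtR C).IsSP B inferInstance ∧ (alR C).IsSP B inferInstance :=
  ⟨isSP_seq (isSP_map (by fun_prop) (isSP_gen hC (isSP_cdR hC)).1)
    (isSP_map (by fun_prop) (mr2_isSP_W hC)), isSP_map (by fun_prop) (isSP_cAl (by fun_prop))⟩

end Vale.Agent.P313.NL
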