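import Vale.Agent.P313.NL.MD
import Vale.Agent.P313.NL.MM
import Vale.Agent.P313.NL.MR2
import Vale.Agent.P313.NL.MB
import Vale.Agent.P313.NL.E7

/-! The whole program. -/

namespace Vale.Agent.P313.NL

open Finset Vale.Agent.Lib.Space
open scoped Classical

variable {α : Type} {C : Cx α} {body : PN → Pg α Arg} {a : α} {s lg eb X : ℕ} {L : Lv}
  {A : Type} [Enc A α] {B : Bud A}

/-- The hypotheses on an instance which do not concern the hash functions. -/
structure Cx.Inst (C : Cx α) (a : α) (lk lg : ℕ) : Prop where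
  ok : (C.p a).OK lk
  fits : C.Fits a lg
  long : (C.p a).Long lg
  gr : Gr (C.p a) (C.A0 a)

/-- The procedures of one operation. -/
def mtopOp (C : Cx α) (Q : Cand α) (w l : Pg α Arg) : PN → Pg α Arg
  | .key => keyG C Q
  | .mv => mvG C Q
  | .wt => w
  | .mid => midG C Q
  | .al => l

/-- Read a large number. -/
def mtopRd {Γ : Type} (C : Cx α) (x : Bg α Γ) : Pg α Γ :=
  Nd.sum (fun a _ => C.Pm a) (Nd.two (· * ·) x (.val fun a _ z => C.pw a z.2))

/-- The product of fixed point numbers. -/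
def mtopMul {Γ : Type} (C : Cx α) (x y : Bg α Γ) : Bg α Γ :=
  Big.shr C.Pm (fun a _ => (C.p a).P) (Big.mul x y)

/-- The arguments at the last level. -/
def mtopX (C : Cx α) (d : ℕ) (a : α) (r : ℕ) : Cd := (6 * (C.p a).K, (C.p a).j0, d, r)

/-- The contribution of one term; the context is the rank. -/
def mtopT (C : Cx α) : Bg α ℕ :=
  Big.bind (cKey (mtopX C 0)) (Big.ite (fun _ _ z => decide (z.2 = 0)) (Big.val fun _ _ _ => 0)
    (Big.map (fun _ z => z.1) (mtopMul C (mtopMul C (cAl (mtopX C 1)) (cWt (mtopX C 0)))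
      (atFar (fun a z => mtopX C 0 a z.1) (cAl (mtopX C 0))))))

/-- The program for `total`. -/
def mtopS (C : Cx α) : Pg α Arg :=
  Nd.sum (fun a _ => C.pw a (C.p a).m) (Nd.sum (fun a _ => C.pw a (C.p a).m)
    (Nd.sum (fun a _ => C.pw a (C.p a).m) (Nd.sum (fun a _ => C.pw a (C.q a (6 * (C.p a).K)))
      (inSt (fun _ _ z => (z.2, (0, z.1.1.1.2, 0), (1, z.1.1.2, 0), (2, z.1.2, 0)))
        (fun _ _ _ => (0, env0))
        (Nd.sum (fun a _ => (C.p a).Kp) (.map (fun _ z => z.2) (mtopRd C (mtopT C))))))))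

/-- The dispatcher. -/
def mtopB (C : Cx α) (r : PN) : Pg α Arg :=
  .ite (fun a _ x => decide (6 * (C.p a).K < x.1)) (mtopS C)
    (.ite (fun _ _ x => decide (x.1 = 0)) (body0 C r)
      (.ite (fun _ _ x => decide ((x.1 - 1) % 6 < 4)) (mtopOp C (cdD C) (wtD C) (alD C) r)
        (.ite (fun _ _ x => decide ((x.1 - 1) % 6 = 4)) (mtopOp C (cdM C) (wtM C) (alM C) r)
          (mtopOp C (cdR C) (wtR C) (alR C) r))))

theorem mtop_N_mono {q : ℕ} {κ κ' : ℕ → ℕ} (h : SpecN C body a s q L κ) (hκ : ∀ j, κ j ≤ κ' j) :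
    SpecN C body a s q L κ' :=
  ⟨fun j hj e he d v r hv hr => (h.key j hj e he d v r hv hr).mono (hκ j),
    fun j hj e he d v r t ht => (h.mv j hj e he d v r t ht).mono (hκ j),
    fun j hj e he d v r t ht hd i hi => ⟨(h.mid j hj e he d v r t ht hd i hi).1.mono (hκ j),
      (h.mid j hj e he d v r t ht hd i hi).2.mono (hκ j)⟩⟩

theorem mtop_W_mono {q : ℕ} {κ κ' : ℕ → ℕ} (h : SpecW C body a s q L κ) (hκ : ∀ j, κ j ≤ κ' j) :
    SpecW C body a s q L κ' :=
  ⟨fun j hj e he d v r t ht i hi => (h.wt j hj e he d v r t ht i hi).mono (hκ j),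
    fun j hj e he d v hv i hi => (h.al j hj e he d v hv i hi).mono (hκ j)⟩

theorem mtop_q {lk : ℕ} (h : C.Inst a lk lg) (hs : s ≤ 6 * (C.p a).K) :
    (C.p a).n0 + s * (C.p a).W ≤ (C.p a).m ∧ s * (C.p a).c ≤ (C.p a).m :=
  ⟨(Nat.add_le_add_left (Nat.mul_le_mul_right _ hs) _).trans h.long.q_le,
    (Nat.mul_le_mul_right _ hs).trans (le_of_add_le_left h.long.e_le)⟩

theorem mtop_wf {lk : ℕ} (h : C.Inst a lk lg) (s : ℕ) :
    (est (C.p a) (C.F a) (C.A0 a) s).WF (C.p a) (C.F a) (shp (C.p a) s).q (s * (C.p a).c)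
      ((C.p a).Om * 2 ^ (C.p a).P) := by
  refine (est_wf h.ok h.fits.small h.gr s).mono ?_
  split_ifs
  · exact le_rfl
  · exact Nat.le_mul_of_pos_left _ (Nat.succ_pos _)

theorem mtop_lev {lk : ℕ} (h : C.Inst a lk lg) (hs : s ≤ 6 * (C.p a).K) :
    SpecN C (mtopB C) a s (shp (C.p a) s).q (est (C.p a) (C.F a) (C.A0 a) s)
      (fun j => (s + 1) * (Cc * lg) + Cc * j) ∧
    SpecW C (mtopB C) a s (shp (C.p a) s).q (est (C.p a) (C.F a) (C.A0 a) s)
      fun j => (s + 1) * (Cc * lg) + Cc * j := by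
  induction s with
  | zero =>
    obtain ⟨h1, h2⟩ := body0_spec (body := mtopB C) h.fits h.gr (le_of_add_le_left h.long.q_le)
      fun r x hx g g' v k hE => .iteF (by simp [hx]) (.iteT (by simp [hx]) hE)
    exact ⟨mtop_N_mono h1 fun j => by omega, mtop_W_mono h2 fun j => by omega⟩
  | succ s ih =>
    obtain ⟨h1, h2⟩ := ih (by omega)
    obtain ⟨q1, q2⟩ := mtop_q h hs
    have q3 := shp_q_le (p := C.p a) s
    rw [Nat.succ_mul] at q1 q2
    have st : Step C (mtopB C) a s lg (s * (C.p a).c) ((s + 1) * (Cc * lg))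
        (est (C.p a) (C.F a) (C.A0 a) s) :=
      ⟨h.fits, hs, q3.1, by omega, q2, by rw [h.ok.c_eq]; omega, mtop_wf h s, h1, h2⟩
    have wf := mtop_wf h (s + 1)
    have q4 : (shp (C.p a) (s + 1)).q ≤ (C.p a).m := (shp_q_le _).2.trans (mtop_q h hs).1
    have key : ∀ {Q : Cand α} {w l : Pg α Arg} {cand : ℕ → Env → Bool → ℕ → ℕ → Option Tm},
        CandSpec C (mtopB C) a Q (s + 1) (shp (C.p a) (s + 1)).q lg
          (est (C.p a) (C.F a) (C.A0 a) (s + 1)) cand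
          (fun j => (s + 1) * (Cc * lg) + Cc * j + 20 * Cu * lg) →
        (∀ r, ∀ x : Arg, x.1 = s + 1 → ∀ g g' v k, Ev (mtopB C) a (C.ok a) (mtopOp C Q w l r) x g g' v k →
          Ev (mtopB C) a (C.ok a) (mtopB C r) x g g' v k) →
        SpecN C (mtopB C) a (s + 1) (shp (C.p a) (s + 1)).q (est (C.p a) (C.F a) (C.A0 a) (s + 1))
          fun j => (s + 1 + 1) * (Cc * lg) + Cc * j := fun cs hE =>
      specN_of_cand ⟨h.fits, hs, q4, (mtop_q h hs).2, wf, cs⟩
        (fun j => by rw [Nat.succ_mul (s + 1)]; unfold Cc Cu; omega) (hE .key) (hE .mv) (hE .mid)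
    have e0 : ∀ j, (s + 1) * (Cc * lg) + Cc * lg + Cc * j ≤ (s + 1 + 1) * (Cc * lg) + Cc * j :=
      fun j => by rw [Nat.succ_mul (s + 1)]
    have c0 : ∀ x : Arg, x.1 = s + 1 → decide (6 * (C.p a).K < x.1) = false := fun x hx => by
      simpa [hx] using hs
    by_cases c1 : s % 6 < 4
    · have hE : ∀ r, ∀ x : Arg, x.1 = s + 1 → ∀ g g' v k,
          Ev (mtopB C) a (C.ok a) (mtopOp C (cdD C) (wtD C) (alD C) r) x g g' v k →
          Ev (mtopB C) a (C.ok a) (mtopB C r) x g g' v k := fun r x hx g g' v k hE =>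
        .iteF (c0 x hx) (.iteF (by simp [hx]) (.iteT (by simpa [hx] using c1) hE))
      have := key (w := wtD C) (l := alD C) (by rw [est, shp, if_pos c1, if_pos c1]; exact cdD_spec st) hE
      refine ⟨this, ?_⟩
      rw [est, shp, if_pos c1, if_pos c1]
      exact mtop_W_mono (D_specW st (hE .wt) (hE .al)) e0
    by_cases c2 : s % 6 = 4
    · have hE : ∀ r, ∀ x : Arg, x.1 = s + 1 → ∀ g g' v k,
          Ev (mtopB C) a (C.ok a) (mtopOp C (cdM C) (wtM C) (alM C) r) x g g' v k →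
          Ev (mtopB C) a (C.ok a) (mtopB C r) x g g' v k := fun r x hx g g' v k hE =>
        .iteF (c0 x hx) (.iteF (by simp [hx]) (.iteF (by simpa [hx] using c1)
          (.iteT (by simpa [hx] using c2) hE)))
      have := key (w := wtM C) (l := alM C)
        (by rw [est, shp, if_neg c1, if_neg c1, if_pos c2, if_pos c2]; exact cdM_spec st) hE
      refine ⟨this, ?_⟩
      have hw := est_wf (F := C.F a) h.ok h.fits.small h.gr s
      rw [if_neg (by omega)] at hw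
      rw [est, shp, if_neg c1, if_neg c1, if_pos c2, if_pos c2]
      exact mtop_W_mono (M_specW st hw (hE .wt) (hE .al)) e0
    · have hE : ∀ r, ∀ x : Arg, x.1 = s + 1 → ∀ g g' v k,
          Ev (mtopB C) a (C.ok a) (mtopOp C (cdR C) (wtR C) (alR C) r) x g g' v k →
          Ev (mtopB C) a (C.ok a) (mtopB C r) x g g' v k := fun r x hx g g' v k hE =>
        .iteF (c0 x hx) (.iteF (by simp [hx]) (.iteF (by simpa [hx] using c1)
          (.iteF (by simpa [hx] using c2) hE)))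
      have := key (w := wtR C) (l := alR C)
        (by rw [est, shp, if_neg c1, if_neg c1, if_neg c2, if_neg c2]; exact cdR_spec st) hE
      refine ⟨this, ?_⟩
      rw [est, shp, if_neg c1, if_neg c1, if_neg c2, if_neg c2]
      exact mtop_W_mono (R_specW st (hE .wt) (hE .al)) e0

section top

variable {Γ : Type} {γ : Γ} {g : GS} {v w k k' : ℕ}

theorem mtop_mul {x y : Bg α Γ} (hf : C.Fits a lg) (hx : EvB body a (C.ok a) C.Pm x γ g v k')
    (hy : EvB body a (C.ok a) C.Pm y γ g w k') (h : v * w < 2 ^ C.Pm a)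
    (hk : 60 * (lg + 1) + k' ≤ k) :
    EvB body a (C.ok a) C.Pm (mtopMul C x y) γ g ((C.p a).fmul v w) k :=
  (hx.mul hy h hf.Pm_lt hk).shr

theorem mtop_rd {x : Bg α Γ} (hf : C.Fits a lg) (hx : EvB body a (C.ok a) C.Pm x γ g v k') :
    Ev body a (C.ok a) (mtopRd C x) γ g g v (7 * C.Pm a + k') := by
  have e : ∑ i ∈ range (C.Pm a), KH.bt v i * 2 ^ i = v := by
    rw [KH.sum_bt, Nat.mod_eq_of_lt hx.1]
  refine Ev.congr (Ev.sum (k' := 3 * C.Pm a + (C.Pm a + k')) (f := fun i => KH.bt v i * 2 ^ i)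
    (C.Pm a) (fun i hi => ?_) Nat.lt_two_pow_self (e.symm ▸ hx.1) (by omega)) e
  have h1 : 2 ^ i < 2 ^ C.Pm a := Nat.pow_lt_pow_right one_lt_two hi
  have h2 := KH.bt_lt v i
  exact Ev.two (C.Pm a) ((hx.2 i hi).mono (by omega))
    (.val' (Cx.pw_eq hf hi.le) (lt_pow_mono h1 (by omega))) (bt_lt_pow _ _ (by omega)) h1
    ((Nat.mul_le_mul_right _ (Nat.lt_succ_iff.1 h2)).trans_lt (by omega)) le_rfl

theorem mtop_sum {n : α → ℕ} {p : Pg α (Γ × ℕ)} {f : ℕ → ℕ} {N b c u : ℕ} (hn : n a = N)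
    (hN : N ≤ 2 ^ c) (hu : c + b < u)
    (h : ∀ i < N, Ev body a (C.ok a) p (γ, i) g g (f i) k' ∧ f i ≤ 2 ^ b) :
    Ev body a (C.ok a) (Nd.sum (fun a _ => n a) p) γ g g (∑ i ∈ range N, f i) (3 * u + k') ∧
      ∑ i ∈ range N, f i ≤ 2 ^ (c + b) := by
  subst hn
  have h1 : ∑ i ∈ range (n a), f i ≤ 2 ^ (c + b) := by
    refine (sum_le_card_nsmul _ _ _ fun i hi => (h i (mem_range.1 hi)).2).trans ?_
    rw [card_range, smul_eq_mul, pow_add]
    exact Nat.mul_le_mul_right _ hN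
  exact ⟨Ev.sum u (fun i hi => (h i hi).1)
    (hN.trans_lt (Nat.pow_lt_pow_right one_lt_two (by omega)))
    (h1.trans_lt (Nat.pow_lt_pow_right one_lt_two hu)) le_rfl, h1⟩

/-- The cost of a call at the last level. -/
def mtopK (C : Cx α) (a : α) (lg : ℕ) : ℕ :=
  (6 * (C.p a).K + 1) * (Cc * lg) + Cc * (C.p a).j0 + lg + 2

theorem mtop_T {lk : ℕ} (h : C.Inst a lk lg) {e : Env} (he : e.Ok (C.p a).m) {r : ℕ}
    (hv : v < 2 ^ (shp (C.p a) (6 * (C.p a).K)).q) (hr : r < (C.p a).Kp) :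
    EvB (mtopB C) a (C.ok a) C.Pm (mtopT C) r (v, e)
      ((est (C.p a) (C.F a) (C.A0 a) (6 * (C.p a).K)).top (C.p a) e v r)
      (2 * mtopK C a lg + 200 * (lg + 1)) ∧
    (est (C.p a) (C.F a) (C.A0 a) (6 * (C.p a).K)).top (C.p a) e v r ≤ 2 ^ (lg + 1 + (C.p a).P) := by
  obtain ⟨hN, hW⟩ := mtop_lev h le_rfl
  have wf := mtop_wf h (6 * (C.p a).K)
  have hf := h.fits
  have hj := hf.small.j0_le
  have h4 := ma_lg hf
  have hP := hf.Pm_ge
  have h0 := ev_cKey (x := mtopX C 0) (γ := r) (d := false) (k := mtopK C a lg) hf hN le_rfl rfl hj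
    he hv hr le_rfl
  generalize est (C.p a) (C.F a) (C.A0 a) (6 * (C.p a).K) = L at *
  rw [Lv.top]
  rcases ht : L.nb (C.p a) (C.p a).j0 e false v r with _ | t <;> rw [ht] at h0
  · exact ⟨EvB.bind (k' := 1) _ (h0.mono (by omega)) h0.lt (EvB.iteT rfl (EvB.val (by positivity)
      le_rfl)) (by omega), Nat.zero_le _⟩
  have hV := Lv.N_subset _ _ (Lv.nb_eq_some.1 ht).1
  have hw : L.w (C.p a).j0 e t ≤ 2 ^ (lg + 1 + (C.p a).P) := by
    refine (wf.w_le _ e t hV).trans ?_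
    have := Nat.lt_two_pow_self (n := lg)
    have := hf.small.c_le
    rw [pow_add]
    exact Nat.mul_le_mul_right _ (by rw [Par.Om]; omega)
  have hm : ∀ {x y : ℕ}, x ≤ 2 ^ (lg + 1 + (C.p a).P) → y ≤ 2 ^ (C.p a).P → x * y < 2 ^ C.Pm a :=
    fun hx hy => (Nat.mul_le_mul hx hy).trans_lt (by
      rw [← pow_add]; exact Nat.pow_lt_pow_right one_lt_two (by omega))
  have a1 := wf.al_le (C.p a).j0 e true v
  have a2 := wf.al_le (C.p a).j0 e false t.z
  have f1 : (C.p a).fmul (L.al (C.p a).j0 e true v) (L.w (C.p a).j0 e t) ≤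
      2 ^ (lg + 1 + (C.p a).P) := by
    rw [Par.fmul, mul_comm]
    exact (e2_fmul_le _ a1).trans hw
  have e1 := ev_cAl (x := mtopX C 1) (γ := r) (d := true) (k := mtopK C a lg) hf hW le_rfl wf rfl hj
    he hv le_rfl
  have e2 := ev_cWt (x := mtopX C 0) (γ := r) (d := false) (k := mtopK C a lg) hf hW le_rfl wf
    le_rfl rfl hj he ht le_rfl
  have e3 := ev_cAl (x := mtopX C 0) (γ := r) (d := false) (k := mtopK C a lg) hf hW le_rfl wf rfl hj
    he (wf.tm _ e t hV).z_lt le_rfl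
  refine ⟨EvB.bind (k' := mtopK C a lg + 200 * (lg + 1)) _ (h0.mono (by omega)) h0.lt
    (EvB.iteF (by simp [kc]) (EvB.map (mtop_mul (k' := mtopK C a lg + 60 * (lg + 1)) hf
      (mtop_mul hf e1 e2 (by rw [mul_comm]; exact hm hw a1) (by omega)) ⟨e3.1, fun i hi => ?_⟩ (hm f1 a2)
      (by omega)))) (by omega), (e2_fmul_le _ a2).trans f1⟩
  exact ev_atFar (d := false) (u := 1) hf hN le_rfl rfl hj he ht (e3.2 i hi) (KH.bt_lt _ _) le_rfl
    (by omega)

theorem mtop_env0 (m : ℕ) : env0.Ok m := by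
  constructor <;> simp [env0]

theorem mtop_S {lk : ℕ} (h : C.Inst a lk lg) (x : Arg) :
    Ev (mtopB C) a (C.ok a) (mtopS C) x (0, env0) (0, env0) (total (C.p a) (C.F a) (C.A0 a))
      (20 * Cc * (((C.p a).K + 1) * lg + C.Pm a)) := by
  have hf := h.fits
  have h4 := ma_lg hf
  have hP := hf.Pm_ge
  have hj := hf.small.j0_le
  have hq : (shp (C.p a) (6 * (C.p a).K)).q ≤ (C.p a).m := (shp_q_le _).2.trans (mtop_q h le_rfl).1
  have pm : C.pw a (C.p a).m = 2 ^ (C.p a).m := Cx.pw_eq hf (by omega)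
  have pq : C.pw a (C.q a (6 * (C.p a).K)) = 2 ^ (shp (C.p a) (6 * (C.p a).K)).q := by
    rw [Cx.q_eq]; exact Cx.pw_eq hf (by omega)
  refine Ev.mono (And.left (mtop_sum (u := 2 * C.Pm a) (b := _) pm le_rfl ?_ fun a1 h1 =>
    mtop_sum (u := 2 * C.Pm a) (b := _) pm le_rfl ?_ fun a2 h2 =>
    mtop_sum (u := 2 * C.Pm a) (b := _) pm le_rfl ?_ fun a3 h3 =>
    mtop_sum (u := 2 * C.Pm a) (b := lg + (lg + 1 + (C.p a).P))
      (k' := 4 * (2 * C.Pm a) + (3 * (2 * C.Pm a) + (7 * C.Pm a +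
        (2 * mtopK C a lg + 200 * (lg + 1))))) pq (Nat.pow_le_pow_right two_pos hq) ?_
      fun v hv => ?_)) ?_
  iterate 4 omega
  · have he := (mtop_env0 _).sh h1 h2 h3
    have := mtop_sum (body := mtopB C) (γ := ((((x, a1), a2), a3), v)) (n := fun a => (C.p a).Kp)
      (p := .map (fun _ z => z.2) (mtopRd C (mtopT C))) (u := 2 * C.Pm a) rfl hf.small.Kp_le
      (by omega) fun r hr => ⟨.map (mtop_rd hf (mtop_T h he hv hr).1), (mtop_T h he hv hr).2⟩
    exact ⟨ev_inSt (u := 2 * C.Pm a) ⟨Nat.two_pow_pos _, mtop_env0 _⟩ rfl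
      ⟨lt_pow_mono hv hq, he⟩ rfl this.1
      (this.2.trans_lt (Nat.pow_lt_pow_right one_lt_two (by omega))) le_rfl, this.2⟩
  · have e1 : (6 * (C.p a).K + 1) * (Cc * lg) = Cc * (6 * ((C.p a).K * lg) + lg) := by ring
    rw [mtopK, e1, Nat.succ_mul (C.p a).K]
    unfold Cc
    omega

end top

/-- Decoding of a track. -/
def mtopD3 (n : ℕ) : Trk := (n.unpair.1, n.unpair.2.unpair.1, n.unpair.2.unpair.2)

/-- Decoding of the global state. -/
def mtopDec (n : ℕ) : GS :=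
  (n.unpair.1, mtopD3 n.unpair.2.unpair.1, mtopD3 n.unpair.2.unpair.2.unpair.1,
    mtopD3 n.unpair.2.unpair.2.unpair.2)

theorem mtop_pair {x y M : ℕ} (hx : x < M) (hy : y < M) : Nat.pair x y < M ^ 2 :=
  (Nat.pair_lt_max_add_one_sq x y).trans_le (Nat.pow_le_pow_left (by omega) 2)

theorem mtop_tri {x y z M : ℕ} (hx : x < M) (hy : y < M) (hz : z < M) :
    Nat.pair x (Nat.pair y z) < M ^ 4 :=
  (mtop_pair (hx.trans_le (Nat.le_self_pow two_ne_zero M)) (mtop_pair hy hz)).trans_eq (by ring)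

theorem mtop_enc {g : GS} (h : C.ok a g) : Enc.enc A g ≤ (2 ^ (C.p a).m + 3) ^ 32 := by
  obtain ⟨h0, i1, i2, i3, -, -, -, a1, a2, a3, u1, u2, u3⟩ := h
  refine (mtop_pair (M := ((2 ^ (C.p a).m + 3) ^ 4) ^ 4) ?_ (mtop_tri (mtop_tri ?_ ?_ ?_)
    (mtop_tri ?_ ?_ ?_) (mtop_tri ?_ ?_ ?_))).le.trans_eq (by ring)
  · rw [← pow_mul]
    exact (h0.trans_le (Nat.le_add_right _ 3)).trans_le (Nat.le_self_pow (by norm_num) _)
  all_goals simp only [enc_nat]; omega

theorem mtop_isSP (hC : C.IsSP B) (hj : SP B fun a => (C.p a).j0) (r : PN) :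
    (mtopB C r).IsSP B inferInstance := by
  have hop : ∀ {Q : Cand α} {w l : Pg α Arg}, Q.IsSP B → w.IsSP B inferInstance →
      l.IsSP B inferInstance → (mtopOp C Q w l r).IsSP B inferInstance := fun hQ hw hl => by
    obtain ⟨-, -, h1, h2, h3⟩ := isSP_gen hC hQ
    cases r
    exacts [h1, h2, hw, h3, hl]
  have hK := hC.K
  have hX : ∀ d, SP B fun z : α × ℕ => mtopX C d z.1 z.2 := fun d =>
    ((SP.const 6).mul (hK.comp SP.fst')).pair ((hj.comp SP.fst').pair ((SP.const d).pair SP.snd'))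
  have hM : ∀ {x y : Bg α ℕ}, x.IsSP B inferInstance → y.IsSP B inferInstance →
      (mtopMul C x y).IsSP B inferInstance := fun hx hy =>
    isSP_bshr hC.Pm (hC.P.comp SP.fst') (isSP_bmul hx hy)
  have hT : (mtopT C).IsSP B inferInstance :=
    isSP_bbind (isSP_cKey (hX 0)) (isSP_bite (by fun_prop) (isSP_bval (SP.const 0))
      (isSP_bmap (by fun_prop) (hM (hM (isSP_cAl (hX 1)) (isSP_cWt (hX 0)))
        (isSP_atFar ((hX 0).comp (g := fun z : α × ℕ × ℕ => (z.1, z.2.1)) (by fun_prop))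
          (isSP_cAl (hX 0))))))
  have hR : (mtopRd C (mtopT C)).IsSP B inferInstance :=
    isSP_sum (hC.Pm.comp SP.fst') (isSP_two (by fun_prop) hT
      (isSP_val (Full.sp_cpow (hC.cap.comp SP.fst') (SP.const 2) (by fun_prop))))
  have hm : SP B fun a => C.pw a (C.p a).m :=
    Full.sp_cpow hC.cap (SP.const 2) ((SP.const 2).mul hC.mh)
  have hq : SP B fun a => C.pw a (C.q a (6 * (C.p a).K)) :=
    Full.sp_cpow hC.cap (SP.const 2) (hC.n0.add (((SP.const 2).mul hC.W1).mul (by fun_prop)))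
  exact isSP_ite (((SP.const 6).mul (hK.comp SP.fst')).decide_lt (by fun_prop))
    (isSP_sum (hm.comp SP.fst') (isSP_sum (hm.comp SP.fst') (isSP_sum (hm.comp SP.fst')
      (isSP_sum (hq.comp SP.fst') (isSP_inSt (by fun_prop) (SP.const _)
        (isSP_sum (hC.Kp.comp SP.fst') (isSP_map (by fun_prop) hR)))))))
    (isSP_ite (by fun_prop) (isSP_body0 hC r) (isSP_ite (by fun_prop)
      (hop (isSP_D hC).1 (isSP_D hC).2.1 (isSP_D hC).2.2) (isSP_ite (by fun_prop)
        (hop (isSP_M hC).1 (isSP_M hC).2.1 (isSP_M hC).2.2)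
        (hop (isSP_cdR hC) (isSP_R hC).1 (isSP_R hC).2))))

/-- The sum `total` is computed in small space. -/
theorem sp_total (hC : C.IsSP B) (hj : SP B fun a => (C.p a).j0) {lk lg : α → ℕ}
    (h : ∀ (x : List A) (a : α), Enc.ok x a → C.Inst a (lk a) (lg a))
    (hB : PBd B fun a => 2 ^ (((C.p a).K + 1) * lg a + C.Pm a)) :
    SP B fun a => total (C.p a) (C.F a) (C.A0 a) := by
  have hK := hC.K
  refine sp_ev (dec := mtopDec) (fun g => by simp [mtopDec, mtopD3, enc_prod])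
    (by unfold mtopDec mtopD3; fun_prop) (mtop_isSP hC hj) .key (ok := C.ok)
    (g0 := fun _ => (0, env0)) (x0 := fun a => (6 * (C.p a).K + 1, 0, 0, 0, 0, 0))
    (V := fun a => (2 ^ (C.p a).m + 3) ^ 32)
    (K := fun a => 20 * Cc * (((C.p a).K + 1) * lg a + C.Pm a)) (SP.const _) (by fun_prop)
    (((hB.mono_ok fun x a ha => Nat.pow_le_pow_right two_pos ?_).add (PBd.const 3)).pow 32)
    ((hB.pow (20 * Cc)).mono fun a => by rw [← pow_mul, mul_comm]) (fun a g => mtop_enc)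
    fun x a ha => ⟨⟨Nat.two_pow_pos _, mtop_env0 _⟩, ⟨?_, by simp⟩, _,
      .iteT (by simp) (mtop_S (h x a ha) _)⟩
  · have := (h x a ha).fits.Pm_ge
    omega
  · have := (h x a ha).fits.Pm_ge
    have := ma_lg (h x a ha).fits
    refine (h x a ha).fits.small.K_le.trans_lt (Nat.pow_lt_pow_right one_lt_two ?_)
    unfold Cc
    omega

end Vale.Agent.P313.NL
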