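import Vale.Agent.P313.NL.MA

/-!
The program for the weight of a group. The machine stays at one end `v` of the group. The other end
is known through a pointer: a walk of the environment and a rank. Two pointers are compared bit by
bit. The pointers for the distances `0, 1, 2, …` are found one after the other.
-/

namespace Vale.Agent.P313.NL

open Finset Vale.Agent.Lib.Space
open scoped Classical

variable {α : Type} {C : Cx α} {body : PN → Pg α Arg} {a : α} {s lg eb X : ℕ} {L : Lv}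
  {A : Type} [Enc A α] {B : Bud A}

/-- A pointer: level, budget, end, rank; the length of a walk and its word. -/
abbrev MwPtr : Type := Cd × ℕ × ℕ

/-- The environment of a pointer. -/
def mwE (p : Par) (ab : Bool) (t w : ℕ) (e : Env) : Env :=
  if ab then p.wkAB t w e.v0 else p.wkG t w e

/-- The way to the environment of a pointer. -/
def mwEn (C : Cx α) (ab : Bool) (a : α) (t w : ℕ) (e : Env) : Env :=
  if ab then C.wkAB a Mix.walk t w e.v0 else C.wkG a Mix.walk t w e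

/-- The way back. -/
def mwEx (C : Cx α) (ab : Bool) (a : α) (t w : ℕ) (e : Env) : Env :=
  if ab then (C.wkAB a Mix.unwalk t w e).v0 else C.wkG a Mix.unwalk t w e

/-- Run `y` in the environment of the pointer. -/
def mwIn (C : Cx α) (ab : Bool) (y : Pg α (MwPtr × ℕ)) : Pg α (MwPtr × ℕ) :=
  inSt (fun a g z => (g.1, mwEn C ab a z.1.2.1 z.1.2.2 g.2))
    (fun a g z => (g.1, mwEx C ab a z.1.2.1 z.1.2.2 g.2)) y

/-- The key of the term of a pointer. -/
def mwKey (C : Cx α) (ab : Bool) : Pg α (MwPtr × ℕ) := mwIn C ab (cKey fun _ z => z.1.1)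

/-- The bits of the other end. -/
def mwBit (C : Cx α) (ab : Bool) : Pg α (MwPtr × ℕ) :=
  mwIn C ab (atFar (fun _ z => z.1.1) (.val fun _ g z => KH.bt g.1 z.2))

/-- The weight of the term of a pointer. -/
def mwWt (C : Cx α) (ab : Bool) : Bg α MwPtr := mwIn C ab (cWt fun _ z => z.1)

/-- The key of the first pointer if it leads to the same name as the second pointer, else zero. -/
def mwSame (C : Cx α) (ab : Bool) : Pg α (MwPtr × MwPtr) :=
  .seq (.map (fun _ z => (z.1, 0)) (mwKey C ab))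
    (.ite (fun _ _ z => decide (z.2 = 0)) (.val fun _ _ _ => 0)
      (.seq (agreeP (fun _ _ => 0) (fun a _ => (C.p a).m)
          (.map (fun _ z => (z.1.1.1, z.2)) (mwBit C ab))
          (.map (fun _ z => (z.1.1.2, z.2)) (mwBit C false)))
        (.val fun _ _ z => z.1.2 * z.2)))

/-- The pointer with the number `n` at the distance `i`. -/
def mwPt (C : Cx α) (a : α) (x : Cd) (i n : ℕ) : MwPtr :=
  ((x.1, x.2.1 - i, x.2.2.1, n % (C.p a).Kp), Mix.t0 * i, n / (C.p a).Kp)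

/-- The chain of the pointers. -/
def mwHd (C : Cx α) : Pg α (Cd × ℕ) :=
  .fold (fun _ z => z.2 + 1)
    (.ite (fun _ _ z => decide (z.2.1 = 0)) (.val fun _ _ z => z.1.1.2.2.2 + 1)
      (.ite (fun _ _ z => decide (z.2.2 = 0)) (.val fun _ _ _ => 0)
        (Nd.first (fun a z => C.pw a (2 * Mix.t0 * z.2.1) * (C.p a).Kp)
          (.map (fun a z => (mwPt C a z.1.1.1 z.1.2.1 z.2,
            mwPt C a z.1.1.1 (z.1.2.1 - 1) (z.1.2.2 - 1))) (mwSame C false)))))

/-- The weight of the term of the first pointer if it belongs to the group. -/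
def mwOne (C : Cx α) : Bg α ((MwPtr × MwPtr) × ℕ) :=
  Big.bind (.map (fun _ z => z.1) (mwSame C true))
    (Big.ite (fun _ _ z => decide (z.2 = 0)) (Big.val fun _ _ _ => 0)
      (Big.ite (fun _ _ z => decide ((Key.dec (z.2 - 1)).E = z.1.2))
        (Big.map (fun _ z => z.1.1.1) (mwWt C true)) (Big.val fun _ _ _ => 0)))

/-- The weight of the group in the environment of the first pointer. -/
def mwVal (C : Cx α) : Bg α ((MwPtr × MwPtr) × ℕ) :=
  Big.sum (fun a _ => (C.p a).Kp) (Big.map (fun _ z =>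
    ((((z.1.1.1.1.1, z.1.1.1.1.2.1, z.1.1.1.1.2.2.1, z.2), z.1.1.1.2), z.1.1.2), z.1.2)) (mwOne C))

/-- The estimate for the group of the term with the given level, budget, end and rank. -/
def weP (C : Cx α) : Bg α Cd :=
  Big.bind (cKey fun _ z => z) (Big.map (fun _ z => (z.1, (Key.dec (z.2 - 1)).E))
    (telP C (fun _ z => z.1.2.1) (.map (fun _ z => (z.1.1, z.2)) (mwHd C))
      (Big.map (fun a z => (((z.1, 0, 0), mwPt C a z.1 0 z.1.2.2.2), z.2)) (mwVal C))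
      (Big.map (fun a z => ((((z.1.1.1, z.1.1.2.1 - z.2.1 - 1, z.1.1.2.2.1, 0),
        Mix.t0 * z.2.2.2.1, z.2.2.2.2), mwPt C a z.1.1 z.2.1 (z.2.2.1 - 1)), z.1.2)) (mwVal C))))

section ev

variable {ab d : Bool} {j j' v r r' n w n' w' i f E J : ℕ} {e : Env} {t t' : Tm}

theorem mw_ok {p : Par} (he : e.Ok p.m) (ab : Bool) (n w : ℕ) : (mwE p ab n w e).Ok p.m := by
  cases ab
  · exact he.wkG n w
  · exact he.v0.wkAB n w

theorem mw_zero (p : Par) (w : ℕ) (e : Env) : p.wkG 0 w e = e ∧ p.wkAB 0 w e = e := by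
  obtain ⟨⟨_, _, _⟩, ⟨_, _, _⟩, _, _, _⟩ := e
  simp [Par.wkG, Par.wkAB, Env.sh, Mix.walk_zero]

theorem mw_lg (h : Step C body a s lg eb X L) : 4 ≤ lg := by
  have h1 := h.fits.small.c_le
  have h2 := h.fits.small.c_pos
  omega

theorem mw_qm (h : Step C body a s lg eb X L) : (shp (C.p a) s).q ≤ (C.p a).m :=
  le_of_add_le_left h.q_le

theorem mw_tm (h : Step C body a s lg eb X L) (ht : L.nb (C.p a) j e d v r = some t) :
    TmOk (C.p a) (shp (C.p a) s).q eb t :=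
  h.wf.tm j e t (L.N_subset j e (Lv.nb_eq_some.1 ht).1)

theorem mw_ep (h : Step C body a s lg eb X L) (ht : L.nb (C.p a) j e d v r = some t) (d' : Bool) :
    t.ep d' < 2 ^ (shp (C.p a) s).q := by
  cases d'
  · exact (mw_tm h ht).x_lt
  · exact (mw_tm h ht).z_lt

theorem mw_rk {p : Par} (ht : L.nb p j e d v r = some t) : r < p.Kp := by
  obtain ⟨h1, _, h3⟩ := Lv.nb_eq_some.1 ht
  exact h3 ▸ (mem_filter.1 h1).2 d

theorem mw_kc (h : Step C body a s lg eb X L) (j : ℕ) (e : Env) (d : Bool) (v r : ℕ) :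
    kc (L.nb (C.p a) j e d v r) < 2 ^ (16 * lg) := by
  have hm := h.fits.small.m_le
  rcases ht : L.nb (C.p a) j e d v r with _ | t
  · exact Nat.two_pow_pos _
  · exact (mw_tm h ht).code_lt (by have := mw_qm h; omega) (by have := h.e_le; omega) (mw_lg h)

theorem mw_in (h : Step C body a s lg eb X L) {x : Cd} {y : Pg α (MwPtr × ℕ)} {res u k k' : ℕ}
    (hv : v < 2 ^ (shp (C.p a) s).q) (he : e.Ok (C.p a).m)
    (hy : Ev body a (C.ok a) y ((x, n, w), i) (v, mwE (C.p a) ab n w e) (v, mwE (C.p a) ab n w e)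
      res k') (hw : res < 2 ^ u) (hk : 4 * u + k' ≤ k) :
    Ev body a (C.ok a) (mwIn C ab y) ((x, n, w), i) (v, e) (v, e) res k := by
  have hv' := lt_pow_mono hv (mw_qm h)
  refine ev_inSt ⟨hv', he⟩ ?_ ⟨hv', mw_ok he ab n w⟩ ?_ hy hw hk
  · cases ab
    · exact Prod.ext rfl (Cx.wkG_eq h.fits n w e)
    · exact Prod.ext rfl (Cx.wkAB_eq h.fits n w e.v0)
  · cases ab
    · exact Prod.ext rfl (Cx.wkG_back h.fits n w he)
    · exact Prod.ext rfl ((congrArg Env.v0 (Cx.wkAB_back h.fits n w he.v0)).trans (v0_v0 e))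

theorem mw_key (h : Step C body a s lg eb X L) (hj : j ≤ (C.p a).P) (he : e.Ok (C.p a).m)
    (hv : v < 2 ^ (shp (C.p a) s).q) (hr : r < (C.p a).Kp) :
    Ev body a (C.ok a) (mwKey C ab) (((s, j, d.toNat, r), n, w), i) (v, e) (v, e)
      (kc (L.nb (C.p a) j (mwE (C.p a) ab n w e) d v r)) (X + Cc * j + 66 * lg) :=
  mw_in h hv he (ev_cKey h.fits h.sn h.s_lt.le rfl hj (mw_ok he ab n w) hv hr le_rfl)
    (mw_kc h _ _ _ _ _) (by have := mw_lg h; omega)

theorem mw_bit (h : Step C body a s lg eb X L) (hj : j ≤ (C.p a).P) (he : e.Ok (C.p a).m)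
    (ht : L.nb (C.p a) j (mwE (C.p a) ab n w e) d v r = some t) :
    Ev body a (C.ok a) (mwBit C ab) (((s, j, d.toNat, r), n, w), i) (v, e) (v, e)
      (KH.bt (t.ep !d) i) (X + Cc * j + 9 * lg) := by
  have hv : v < 2 ^ (shp (C.p a) s).q := (Lv.nb_eq_some.1 ht).2.1 ▸ mw_ep h ht d
  have hl := mw_lg h
  exact mw_in (u := 1) (k' := X + Cc * j + 5 * lg + 10) h hv he
    (ev_atFar (u := 1) (k' := X + Cc * j + lg + 2) h.fits h.sn h.s_lt.le rfl hj (mw_ok he ab n w) ht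
      (.val (bt_lt_pow _ _ (by omega))) (KH.bt_lt _ _) le_rfl (by omega)) (KH.bt_lt _ _) (by omega)

theorem mw_wt (h : Step C body a s lg eb X L) (hj : j ≤ (C.p a).P) (he : e.Ok (C.p a).m)
    (ht : L.nb (C.p a) j (mwE (C.p a) ab n w e) d v r = some t) :
    EvB body a (C.ok a) C.Pm (mwWt C ab) ((s, j, d.toNat, r), n, w) (v, e)
      (L.w j (mwE (C.p a) ab n w e) t) (X + Cc * j + 3 * lg) := by
  have hv : v < 2 ^ (shp (C.p a) s).q := (Lv.nb_eq_some.1 ht).2.1 ▸ mw_ep h ht d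
  have hl := mw_lg h
  have h1 := ev_cWt (γ := (((s, j, d.toNat, r), n, w) : MwPtr)) (x := fun _ z => z.1) h.fits h.sw
    h.s_lt.le h.wf le_rfl rfl hj (mw_ok he ab n w) ht le_rfl
  exact ⟨h1.1, fun q hq => mw_in (u := 1) h hv he (h1.2 q hq) (KH.bt_lt _ _) (by omega)⟩

theorem mw_bt_ext {u u' m : ℕ} (hu : u < 2 ^ m) (hu' : u' < 2 ^ m) :
    (∀ i < m, 0 ≤ i → KH.bt u i = KH.bt u' i) ↔ u = u' := by
  refine ⟨fun h => ?_, fun h _ _ _ => h ▸ rfl⟩
  rw [← Nat.mod_eq_of_lt hu, ← Nat.mod_eq_of_lt hu', ← KH.sum_bt, ← KH.sum_bt]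
  exact sum_congr rfl fun i hi => by rw [h i (mem_range.1 hi) (Nat.zero_le i)]

/-- The value of `mwSame`. -/
noncomputable def mwSv (o : Option Tm) (d : Bool) (f : ℕ) : ℕ :=
  if ∃ t, o = some t ∧ t.ep (!d) = f then kc o else 0

theorem mw_sv_le (o : Option Tm) (d : Bool) (f : ℕ) : mwSv o d f ≤ kc o := by
  unfold mwSv
  split_ifs
  · exact le_rfl
  · exact Nat.zero_le _

theorem mw_sv_ne {o : Option Tm} : mwSv o d f ≠ 0 ↔ ∃ t, o = some t ∧ t.ep (!d) = f := by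
  unfold mwSv
  split_ifs with h
  · obtain ⟨t, rfl, h⟩ := h
    exact iff_of_true (Nat.succ_ne_zero _) ⟨t, rfl, h⟩
  · exact iff_of_false (fun h' => h' rfl) h

theorem mw_same (h : Step C body a s lg eb X L) (hJ : J ≤ (C.p a).P) (hj : j ≤ J) (hj' : j' ≤ J)
    (he : e.Ok (C.p a).m) (hr : r < (C.p a).Kp)
    (ht : L.nb (C.p a) j' ((C.p a).wkG n' w' e) d v r' = some t') (hf : t'.ep (!d) = f) :
    Ev body a (C.ok a) (mwSame C ab) (((s, j, d.toNat, r), n, w), ((s, j', d.toNat, r'), n', w'))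
      (v, e) (v, e) (mwSv (L.nb (C.p a) j (mwE (C.p a) ab n w e) d v r) d f)
      (X + Cc * J + 100 * lg) := by
  have hv : v < 2 ^ (shp (C.p a) s).q := (Lv.nb_eq_some.1 ht).2.1 ▸ mw_ep h ht d
  have hl := mw_lg h
  have c1 := Nat.mul_le_mul_left Cc hj
  have c2 := Nat.mul_le_mul_left Cc hj'
  have hc := mw_kc h j (mwE (C.p a) ab n w e) d v r
  subst hf
  refine .seq (k' := X + Cc * J + 80 * lg) (16 * lg)
    (.map ((mw_key h (hj.trans hJ) he hv hr).mono (by omega))) hc ?_ (by omega)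
  rcases h1 : L.nb (C.p a) j (mwE (C.p a) ab n w e) d v r with _ | t
  · exact .iteT rfl (.val' (by simp [mwSv]) (by simp [mwSv]))
  · rw [h1] at hc
    refine .iteF (decide_eq_false (Nat.succ_ne_zero _)) (.seq (k' := 16 * lg) 1
      (ev_agreeP (lg := lg) (k' := X + Cc * J + 9 * lg) (fu := KH.bt (t.ep !d))
        (fw := KH.bt (t'.ep !d))
        (fun i _ _ => ⟨KH.bt_lt _ _, .map ((mw_bit h (hj.trans hJ) he h1).mono (by omega))⟩)
        (fun i _ _ => ⟨KH.bt_lt _ _,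
          .map ((mw_bit (ab := false) h (hj'.trans hJ) he ht).mono (by omega))⟩)
        (Nat.le_of_succ_le h.fits.small.m_le) (by omega)) (by split_ifs <;> omega)
      (.val' ?_ ((mw_sv_le _ _ _).trans_lt hc)) (by omega))
    simp only [mw_bt_ext (lt_pow_mono (mw_ep h h1 _) (mw_qm h))
      (lt_pow_mono (mw_ep h ht _) (mw_qm h)), mwSv, Option.some.injEq, exists_eq_left', mul_ite,
      mul_one, mul_zero]

theorem mw_grp {t t' : Tm} : (t'.ep d = t.ep d ∧ t'.ep (!d) = t.ep (!d)) ↔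
    (t'.x = t.x ∧ t'.z = t.z) := by
  cases d
  · exact Iff.rfl
  · exact and_comm

theorem mw_wm (h : Step C body a s lg eb X L) :
    (C.p a).Om * 2 ^ (C.p a).P ≤ 2 ^ ((C.p a).P + lg) := by
  have h1 := h.fits.small.Om_le
  have h2 : (C.p a).M ≤ 2 ^ lg :=
    Nat.pow_le_pow_right two_pos (le_of_add_le_left h.fits.small.mu_le)
  rw [pow_add, mul_comm]
  exact Nat.mul_le_mul_left _ (by omega)

theorem mw_fW (h : Step C body a s lg eb X L) (x z E j : ℕ) (e : Env) :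
    L.fW (C.p a) x z E j e ≤ 2 ^ ((C.p a).P + 2 * lg) := by
  have h1 : ((L.N (C.p a) j e).filter fun t => t.x = x ∧ t.z = z ∧ t.k.E = E).card ≤ 2 ^ lg :=
    (card_le_card (monotone_filter_right _ fun t _ ht => ht.1)).trans
      ((L.card_N_le j e false x).trans h.fits.small.Kp_le)
  refine (sum_le_card_nsmul _ _ (2 ^ ((C.p a).P + lg)) fun t ht =>
    (h.wf.w_le j e t (L.N_subset j e (mem_filter.1 ht).1)).trans (mw_wm h)).trans ?_
  rw [smul_eq_mul, show (C.p a).P + 2 * lg = lg + ((C.p a).P + lg) by ring, pow_add 2 lg]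
  exact Nat.mul_le_mul_right _ h1

/-- The value of `mwOne`. -/
noncomputable def mwOv (L : Lv) (j : ℕ) (e : Env) (d : Bool) (f E : ℕ) (t : Tm) : ℕ :=
  if t.ep (!d) = f ∧ t.k.E = E then L.w j e t else 0

theorem mw_one (h : Step C body a s lg eb X L) (hJ : J ≤ (C.p a).P) (hj : j ≤ J) (hj' : j' ≤ J)
    (he : e.Ok (C.p a).m) (hr : r < (C.p a).Kp)
    (ht : L.nb (C.p a) j' ((C.p a).wkG n' w' e) d v r' = some t') (hf : t'.ep (!d) = f) :
    EvB body a (C.ok a) C.Pm (mwOne C)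
      ((((s, j, d.toNat, r), n, w), ((s, j', d.toNat, r'), n', w')), E) (v, e)
      (((L.nb (C.p a) j ((C.p a).wkAB n w e.v0) d v r).map
        (mwOv L j ((C.p a).wkAB n w e.v0) d f E)).getD 0) (X + Cc * J + 100 * lg) := by
  have hl := mw_lg h
  have c1 := Nat.mul_le_mul_left Cc hj
  have h0 : ∀ {Γ : Type} {γ : Γ} {k : ℕ}, 1 ≤ k →
      EvB body a (C.ok a) C.Pm (Big.val fun _ _ _ => 0) γ (v, e) 0 k := fun hk =>
    EvB.val (Nat.two_pow_pos _) hk
  refine EvB.bind (k' := X + Cc * J + 3 * lg) (16 * lg) (.map (mw_same h hJ hj hj' he hr ht hf))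
    ((mw_sv_le _ _ _).trans_lt (mw_kc h _ _ _ _ _)) ?_ (by omega)
  change EvB _ _ _ _ _ (_, mwSv (L.nb (C.p a) j ((C.p a).wkAB n w e.v0) d v r) d f) _ _ _
  rcases h1 : L.nb (C.p a) j ((C.p a).wkAB n w e.v0) d v r with _ | t
  · exact EvB.iteT (by simp [mwSv]) (h0 (by omega))
  · by_cases h2 : t.ep (!d) = f
    · have e1 : mwSv (some t) d f = t.k.code + 1 := if_pos ⟨t, rfl, h2⟩
      rw [e1]
      refine EvB.iteF (decide_eq_false (Nat.succ_ne_zero _)) ?_
      by_cases h3 : t.k.E = E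
      · exact EvB.iteT (by simp [Key.dec_code, h3]) (EvB.map
          (((mw_wt (ab := true) h (hj.trans hJ) he h1).mono (by omega)).congr (if_pos ⟨h2, h3⟩).symm))
      · exact EvB.iteF (by simp [Key.dec_code, h3])
          ((h0 (by omega)).congr (if_neg fun h4 => h3 h4.2).symm)
    · exact EvB.iteT (by simp [mwSv, h2]) ((h0 (by omega)).congr (if_neg fun h4 => h2 h4.1).symm)

theorem mw_val (h : Step C body a s lg eb X L) (hJ : J ≤ (C.p a).P) (hj : j ≤ J) (hj' : j' ≤ J)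
    (he : e.Ok (C.p a).m) (hv : t.ep d = v)
    (ht : L.nb (C.p a) j' ((C.p a).wkG n' w' e) d v r' = some t') (hf : t'.ep (!d) = t.ep (!d)) :
    EvB body a (C.ok a) C.Pm (mwVal C)
      ((((s, j, d.toNat, r), n, w), ((s, j', d.toNat, r'), n', w')), E) (v, e)
      (L.fW (C.p a) t.x t.z E j ((C.p a).wkAB n w e.v0)) (X + Cc * J + 150 * lg) := by
  have hl := mw_lg h
  have e1 : ∑ r ∈ range (C.p a).Kp, ((L.nb (C.p a) j ((C.p a).wkAB n w e.v0) d v r).map
      (mwOv L j ((C.p a).wkAB n w e.v0) d (t.ep !d) E)).getD 0 =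
      L.fW (C.p a) t.x t.z E j ((C.p a).wkAB n w e.v0) := by
    rw [← Lv.sum_nb, Lv.fW, sum_filter, sum_filter]
    refine sum_congr rfl fun t1 _ => ?_
    rw [mwOv, ← ite_and]
    exact if_congr (by rw [← hv, ← and_assoc, ← and_assoc, mw_grp]) rfl rfl
  have h1 : 2 ^ ((C.p a).P + 2 * lg) < 2 ^ C.Pm a :=
    Nat.pow_lt_pow_right one_lt_two (by have := h.fits.Pm_ge; omega)
  exact (EvB.sum (lg + 1) (fun r hr => EvB.map (mw_one h hJ hj hj' he hr ht hf))
    (h.fits.small.Kp_le.trans_lt (Nat.pow_lt_pow_right one_lt_two (by omega)))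
    (e1 ▸ (mw_fW h _ _ _ _ _).trans_lt h1) h.fits.Pm_lt (by omega)).congr e1

/-- The term of the pointer with the number `n` at the distance `i`. -/
noncomputable def mwNb (L : Lv) (p : Par) (j : ℕ) (e : Env) (d : Bool) (v i n : ℕ) : Option Tm :=
  L.nb p (j - i) (p.wkG (Mix.t0 * i) (n / p.Kp) e) d v (n % p.Kp)

/-- The numbers of the pointers plus one. -/
noncomputable def mwH (L : Lv) (p : Par) (j : ℕ) (e : Env) (d : Bool) (v r f : ℕ) : ℕ → ℕ
  | 0 => r + 1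
  | i + 1 => if mwH L p j e d v r f i = 0 then 0 else
      firstF (2 ^ (2 * Mix.t0 * (i + 1)) * p.Kp) fun n => mwSv (mwNb L p j e d v (i + 1) n) d f

theorem mw_hd_iff {p : Par} (hv : t.ep d = v) (l : ℕ) : L.hd p t.x t.z j e l ↔
    ∃ n < 2 ^ (2 * Mix.t0 * l) * p.Kp, mwSv (mwNb L p j e d v l n) d (t.ep !d) ≠ 0 := by
  have e4 : 4 ^ (Mix.t0 * l) = 2 ^ (2 * Mix.t0 * l) := by rw [mul_assoc, pow_mul 2 2]; rfl
  rw [Lv.hd, e4]
  constructor
  · rintro ⟨w, hw, t1, h1, h2⟩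
    have hr := (mem_filter.1 h1).2 d
    have h0 : 0 < p.Kp := by omega
    refine ⟨p.Kp * w + rank (L.V (j - l) (p.wkG (Mix.t0 * l) w e)) d t1, ?_,
      mw_sv_ne.2 ⟨t1, ?_, (mw_grp.2 h2).2⟩⟩
    · have := Nat.mul_le_mul_left p.Kp (Nat.succ_le_of_lt hw)
      rw [mul_comm _ p.Kp]
      rw [Nat.mul_succ] at this
      omega
    · rw [mwNb, Nat.mul_add_div h0, Nat.div_eq_of_lt hr, Nat.mul_add_mod, Nat.mod_eq_of_lt hr,
        add_zero]
      exact Lv.nb_eq_some.2 ⟨h1, (mw_grp.2 h2).1.trans hv, rfl⟩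
  · rintro ⟨n, hn, h1⟩
    obtain ⟨t1, h2, h3⟩ := mw_sv_ne.1 h1
    obtain ⟨h4, h5, _⟩ := Lv.nb_eq_some.1 h2
    exact ⟨n / p.Kp, Nat.div_lt_of_lt_mul (mul_comm _ p.Kp ▸ hn), t1, h4,
      mw_grp.1 ⟨h5.trans hv.symm, h3⟩⟩

theorem mw_H_iff {p : Par} (hv : t.ep d = v) (l : ℕ) : mwH L p j e d v r (t.ep !d) l ≠ 0 ↔
    ∀ l' ≤ l, 1 ≤ l' → L.hd p t.x t.z j e l' := by
  induction l with
  | zero => exact iff_of_true (Nat.succ_ne_zero _) fun l' h1 h2 => by omega
  | succ l ih =>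
    have e1 : (∀ l' ≤ l + 1, 1 ≤ l' → L.hd p t.x t.z j e l') ↔
        (∀ l' ≤ l, 1 ≤ l' → L.hd p t.x t.z j e l') ∧ L.hd p t.x t.z j e (l + 1) :=
      ⟨fun h => ⟨fun l' h1 => h l' (by omega), h _ le_rfl (by omega)⟩, fun h l' h1 h2 => by
        rcases Nat.lt_succ_iff_lt_or_eq.1 (Nat.lt_succ_of_le h1) with h3 | h3
        · exact h.1 l' (by omega) h2
        · exact h3 ▸ h.2⟩
    rw [e1, ← ih, mwH, mw_hd_iff hv]
    split_ifs with h0
    · exact iff_of_false (fun h => h rfl) fun h => h.1 h0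
    · simp only [ne_eq, firstF_eq_zero, h0, not_false_eq_true, true_and, not_forall, exists_prop]

theorem mw_H_le {p : Par} (hr : r < p.Kp) (l : ℕ) :
    mwH L p j e d v r f l ≤ 2 ^ (2 * Mix.t0 * l) * p.Kp := by
  rcases l with _ | l
  · simpa [mwH] using Nat.succ_le_of_lt hr
  · rw [mwH]
    split_ifs
    · exact Nat.zero_le _
    · exact firstF_le _ _

theorem mw_H_lt (h : Step C body a s lg eb X L) (hr : r < (C.p a).Kp) (l : ℕ) :
    2 ^ (2 * Mix.t0 * l) * (C.p a).Kp < 2 ^ (2 * Mix.t0 * l + 2 * lg) ∧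
    mwH L (C.p a) j e d v r f l < 2 ^ (2 * Mix.t0 * l + 2 * lg) := by
  have h1 : 2 ^ (2 * Mix.t0 * l) * (C.p a).Kp < 2 ^ (2 * Mix.t0 * l + 2 * lg) := by
    rw [pow_add]
    exact Nat.mul_lt_mul_of_pos_left (h.fits.small.Kp_le.trans_lt
      (Nat.pow_lt_pow_right one_lt_two (by have := mw_lg h; omega))) (Nat.two_pow_pos _)
  exact ⟨h1, (mw_H_le hr l).trans_lt h1⟩

theorem mw_H_pt {p : Par} (ht : L.nb p j e d v r = some t) (l : ℕ)
    (h0 : mwH L p j e d v r (t.ep !d) l ≠ 0) :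
    ∃ t', mwNb L p j e d v l (mwH L p j e d v r (t.ep !d) l - 1) = some t' ∧
      t'.ep (!d) = t.ep (!d) := by
  rcases l with _ | l
  · refine ⟨t, ?_, rfl⟩
    rw [mwH, mwNb, Nat.add_sub_cancel, Nat.mod_eq_of_lt (mw_rk ht), Nat.mul_zero, (mw_zero p _ e).1]
    exact ht
  · rw [mwH] at h0 ⊢
    split_ifs at h0 ⊢ with h1
    · exact absurd rfl h0
    · obtain ⟨n, hn⟩ := Nat.exists_eq_succ_of_ne_zero h0
      rw [hn]
      exact mw_sv_ne.1 (firstF_eq_succ.1 hn).2.1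

theorem mw_hdP (h : Step C body a s lg eb X L) (hj : j ≤ (C.p a).P) (he : e.Ok (C.p a).m)
    (ht : L.nb (C.p a) j e d v r = some t) {l : ℕ} (hl : l < j) :
    Ev body a (C.ok a) (mwHd C) ((s, j, d.toNat, r), l) (v, e) (v, e)
      (mwH L (C.p a) j e d v r (t.ep !d) l) (X + Cc * j + Cu * lg) := by
  have hg := mw_lg h
  have hr := mw_rk ht
  have hP := h.fits.small.P_le
  have hH := fun i => mw_H_lt (j := j) (e := e) (d := d) (v := v) (f := t.ep !d) h hr i
  have hPm := h.fits.Pm_ge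
  have hc : Cc = 100000000000 := rfl
  have hu : Cu = 1000000000 := rfl
  have ht0 : Mix.t0 = 320000 := rfl
  refine Ev.foldV (γ := (((s, j, d.toNat, r), l) : Cd × ℕ)) (n := fun _ z => z.2 + 1)
    (fun i => 2 * Mix.t0 * i + 2 * lg)
    (fun i => 6 * Mix.t0 * i + 160 * lg + X + Cc * (j - (i - 1))) (fun _ => (v, e))
    (fun i => Nat.rec 0 (fun i _ => mwH L (C.p a) j e d v r (t.ep !d) i) i) rfl ?_ ?_
    (fun i (hi : i < l + 1) => ⟨?_, ?_, ?_⟩) fun i (hi : i < l + 1) => ?_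
  · exact lt_pow_mono (x := l + 1) (u := lg) (by omega) (by rw [hu]; omega)
  · exact lt_pow_mono (hH l).2 (by rw [hu, hc, ht0]; omega)
  · exact lt_pow_mono (u := lg) (by omega) (by omega)
  · rcases i with _ | i
    · exact Nat.two_pow_pos _
    · exact lt_pow_mono (hH i).2 (by rw [ht0]; omega)
  · rw [hu, hc, ht0]
    omega
  · rcases i with _ | i
    · exact .iteT rfl (.val (lt_pow_mono (hH 0).2 (by omega)))
    · refine .iteF rfl ?_
      change Ev _ _ _ _ (_, i + 1, mwH L (C.p a) j e d v r (t.ep !d) i) _ _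
        (mwH L (C.p a) j e d v r (t.ep !d) (i + 1)) _
      by_cases h0 : mwH L (C.p a) j e d v r (t.ep !d) i = 0
      · exact .iteT (decide_eq_true h0) (.val' (by rw [mwH, if_pos h0])
          (lt_pow_mono (hH _).2 (by rw [ht0]; omega)))
      · obtain ⟨t', h1, h2⟩ := mw_H_pt ht i h0
        have e1 : C.pw a (2 * Mix.t0 * (i + 1)) = 2 ^ (2 * Mix.t0 * (i + 1)) :=
          Cx.pw_eq h.fits (by rw [ht0] at hPm ⊢; omega)
        refine .iteF (decide_eq_false h0) ((Ev.first (k' := X + Cc * (j - i) + 100 * lg)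
          (f := fun n => mwSv (mwNb L (C.p a) j e d v (i + 1) n) d (t.ep !d))
          (2 * Mix.t0 * (i + 1) + 16 * lg) (fun n _ => .map (mw_same (ab := false)
            (j := j - (i + 1)) h (by omega) (by omega) le_rfl he (Nat.mod_lt _ (by omega)) h1 h2))
          (by rw [e1]; exact lt_pow_mono (hH _).1 (by omega))
          (fun n _ => lt_pow_mono ((mw_sv_le _ _ _).trans_lt (mw_kc h _ _ _ _ _)) (by omega))
          (by rw [ht0, Nat.add_sub_cancel]; omega)).congr ?_)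
        rw [mwH, if_neg h0, e1]

end ev

theorem ev_weP (h : Step C body a s lg eb X L) {j v r : ℕ} {e : Env} {d : Bool} {t : Tm}
    (hj : j ≤ (C.p a).P) (he : e.Ok (C.p a).m) (ht : L.nb (C.p a) j e d v r = some t) :
    EvB body a (C.ok a) C.Pm (weP C) (s, j, d.toNat, r) (v, e)
      (L.WE (C.p a) j e t.x t.z t.k.E) (X + Cc * j + 10 * Cu * lg) ∧
    L.WE (C.p a) j e t.x t.z t.k.E ≤ 2 ^ ((C.p a).P + 3 * lg) := by
  have hg := mw_lg h
  have hr := mw_rk ht
  have hv : t.ep d = v := (Lv.nb_eq_some.1 ht).2.1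
  have hc : Cc = 100000000000 := rfl
  have hu : Cu = 1000000000 := rfl
  obtain ⟨t0, a1, a2⟩ := mw_H_pt ht 0 (Nat.succ_ne_zero _)
  have h1 := ev_telP (γ := (((s, j, d.toNat, r), t.k.E) : Cd × ℕ)) (g := (v, e)) (j := j)
    (jj := fun _ z => z.1.2.1) (gd := .map (fun _ z => (z.1.1, z.2)) (mwHd C))
    (f0 := Big.map (fun a z => (((z.1, 0, 0), mwPt C a z.1 0 z.1.2.2.2), z.2)) (mwVal C))
    (f := Big.map (fun a z => ((((z.1.1.1, z.1.1.2.1 - z.2.1 - 1, z.1.1.2.2.1, 0),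
        Mix.t0 * z.2.2.2.1, z.2.2.2.2), mwPt C a z.1.1 z.2.1 (z.2.2.1 - 1)), z.1.2)) (mwVal C))
    (wk := (C.p a).wkAB) (G := fun l => ∀ l' ≤ l, 1 ≤ l' → L.hd (C.p a) t.x t.z j e l')
    (F := L.fW (C.p a) t.x t.z t.k.E) (e := e.v0) (hd := mwH L (C.p a) j e d v r (t.ep !d))
    (kk := fun l => X + Cc * (j - l) + 150 * lg) (kg := X + Cc * j + Cu * lg)
    (k := X + Cc * j + 3 * Cu * lg) h.fits rfl hj (mw_fW h _ _ _)
    (EvB.map ((mw_val (n := 0) (w := 0) h hj le_rfl (Nat.sub_le _ _) he hv a1 a2).congr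
      (by rw [(mw_zero _ _ _).2])))
    (fun l hl => ⟨mw_H_iff hv l, (mw_H_lt h hr l).2, .map (mw_hdP h hj he ht hl)⟩)
    (fun l hl hG l' _ w _ => by
      obtain ⟨t', b1, b2⟩ := mw_H_pt ht l ((mw_H_iff hv l).2 hG)
      exact EvB.map (mw_val h (by omega) (Nat.sub_le _ _) le_rfl he hv b1 b2))
    (fun l hl => by rw [hc, hu]; omega) (by rw [hu]; omega)
  refine ⟨EvB.bind (k' := X + Cc * j + 3 * Cu * lg) (16 * lg) (ev_cKey h.fits h.sn h.s_lt.le rfl hj he
    (hv ▸ mw_ep h ht d) hr (by rw [hu]; omega)) (mw_kc h _ _ _ _ _) (EvB.map ?_)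
    (by rw [hu]; omega), h1.2⟩
  rw [ht, kc, Nat.add_sub_cancel, Key.dec_code]
  exact h1.1

section sp

variable {β : Type} [Enc A β]

theorem mw_sp_E {f : β → ℕ} (hf : SP B f) : SP B fun z => (Key.dec (f z)).E :=
  (SP.of_CF (f := fun n : ℕ => (Key.dec n).E) (CF.var 0).unpair1.unpair1 (fun _ _ _ => trivial)
    fun _ _ h => by rw [h]; rfl).comp hf

theorem mw_sp_pw (hC : C.IsSP B) {f : β → α} {n : β → ℕ} (hf : SP B f) (hn : SP B n) :
    SP B fun z => C.pw (f z) (n z) := Full.sp_cpow (hC.cap.comp hf) (SP.const 2) hn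

theorem mw_sp_sh {e : β → Env} {x y z : β → ℕ} (he : SP B e) (hx : SP B x) (hy : SP B y)
    (hz : SP B z) : SP B fun b => (e b).sh (x b) (y b) (z b) := by
  unfold Env.sh
  fun_prop

theorem mw_sp_v0 {e : β → Env} (he : SP B e) : SP B fun b => (e b).v0 :=
  mw_sp_sh he he.fst.snd.fst he.snd.fst.snd.fst (KH.sp_xor he.snd.snd.snd.fst he.fst.snd.fst)

theorem mw_sp_wk (hC : C.IsSP B) {F : ℕ → ℕ → ℕ → ℕ → ℕ} {f : β → α} {n w : β → ℕ} {e : β → Env}
    (hF : ∀ {M u : β → ℕ}, SP B M → SP B u → SP B fun z => F (M z) (n z) (w z) (u z))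
    (hf : SP B f) (he : SP B e) : (SP B fun z => C.wkAB (f z) F (n z) (w z) (e z)) ∧
      SP B fun z => C.wkG (f z) F (n z) (w z) (e z) := by
  have h1 := hF (mw_sp_pw hC hf (hC.mh.comp hf)) he.fst.snd.fst
  have h2 := KH.sp_xor (KH.sp_xor he.snd.fst.snd.fst he.fst.snd.fst) h1
  exact ⟨mw_sp_sh he h1 h2 he.snd.snd.snd.fst,
    mw_sp_sh he h1 h2 (KH.sp_xor (KH.sp_xor he.snd.snd.snd.fst he.fst.snd.fst) h1)⟩

theorem mw_isSP_in (hC : C.IsSP B) (ab : Bool) {y : Pg α (MwPtr × ℕ)}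
    (hy : y.IsSP B inferInstance) : (mwIn C ab y).IsSP B inferInstance := by
  have hn : SP B fun z : α × GS × MwPtr × ℕ => z.2.2.1.2.1 := by fun_prop
  have hw : SP B fun z : α × GS × MwPtr × ℕ => z.2.2.1.2.2 := by fun_prop
  have he : SP B fun z : α × GS × MwPtr × ℕ => z.2.1.2 := by fun_prop
  refine isSP_inSt (SP.pair (by fun_prop) ?_) (SP.pair (by fun_prop) ?_) hy <;> cases ab
  · exact (mw_sp_wk hC (fun hM hu => Mix.sp_walk hM hn hw hu) SP.fst' he).2
  · exact (mw_sp_wk hC (fun hM hu => Mix.sp_walk hM hn hw hu) SP.fst' (mw_sp_v0 he)).1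
  · exact (mw_sp_wk hC (fun hM hu => Mix.sp_unwalk hM hn hw hu) SP.fst' he).2
  · exact mw_sp_v0 (mw_sp_wk hC (fun hM hu => Mix.sp_unwalk hM hn hw hu) SP.fst' he).1

theorem mw_isSP_bit (hC : C.IsSP B) (ab : Bool) : (mwBit C ab).IsSP B inferInstance :=
  mw_isSP_in hC ab (isSP_atFar (by fun_prop) (isSP_val (by fun_prop)))

theorem mw_isSP_same (hC : C.IsSP B) (ab : Bool) : (mwSame C ab).IsSP B inferInstance :=
  isSP_seq (isSP_map (by fun_prop) (mw_isSP_in hC ab (isSP_cKey (by fun_prop))))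
    (isSP_ite (by fun_prop) (isSP_val (SP.const 0)) (isSP_seq (isSP_agreeP (SP.const 0)
      ((SP.const 2).mul (hC.mh.comp SP.fst')) (isSP_map (by fun_prop) (mw_isSP_bit hC ab))
      (isSP_map (by fun_prop) (mw_isSP_bit hC false))) (isSP_val (by fun_prop))))

theorem mw_sp_pt (hC : C.IsSP B) {f : β → α} {x : β → Cd} {i n : β → ℕ} (hf : SP B f) (hx : SP B x)
    (hi : SP B i) (hn : SP B n) : SP B fun z => mwPt C (f z) (x z) (i z) (n z) := by
  have h1 := hC.Kp.comp hf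
  unfold mwPt
  fun_prop

theorem mw_isSP_hd (hC : C.IsSP B) : (mwHd C).IsSP B inferInstance :=
  isSP_fold (by fun_prop) (isSP_ite (by fun_prop) (isSP_val (by fun_prop)) (isSP_ite (by fun_prop)
    (isSP_val (SP.const 0)) (isSP_first
      ((mw_sp_pw hC SP.fst' (by fun_prop)).mul (hC.Kp.comp SP.fst'))
      (isSP_map ((mw_sp_pt hC SP.fst' (by fun_prop) (by fun_prop) (by fun_prop)).pair
        (mw_sp_pt hC SP.fst' (by fun_prop) (by fun_prop) (by fun_prop))) (mw_isSP_same hC false)))))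

theorem mw_isSP_val (hC : C.IsSP B) : (mwVal C).IsSP B inferInstance :=
  isSP_bsum (hC.Kp.comp SP.fst') (isSP_bmap (by fun_prop) (isSP_bbind
    (isSP_map (by fun_prop) (mw_isSP_same hC true)) (isSP_bite (by fun_prop)
      (isSP_bval (SP.const 0)) (isSP_bite ((mw_sp_E (by fun_prop)).decide_eq (by fun_prop))
        (isSP_bmap (by fun_prop) (mw_isSP_in hC true (isSP_cWt (by fun_prop))))
        (isSP_bval (SP.const 0))))))

end sp

theorem isSP_weP (hC : C.IsSP B) : (weP C).IsSP B inferInstance :=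
  isSP_bbind (isSP_cKey (by fun_prop)) (isSP_bmap (SP.pair (by fun_prop) (mw_sp_E (by fun_prop)))
    (isSP_telP hC (by fun_prop) (isSP_map (by fun_prop) (mw_isSP_hd hC))
      (isSP_bmap (SP.pair (SP.pair (by fun_prop)
        (mw_sp_pt hC SP.fst' (by fun_prop) (by fun_prop) (by fun_prop))) (by fun_prop))
        (mw_isSP_val hC))
      (isSP_bmap (SP.pair (SP.pair (by fun_prop)
        (mw_sp_pt hC SP.fst' (by fun_prop) (by fun_prop) (by fun_prop))) (by fun_prop))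
        (mw_isSP_val hC))))

end Vale.Agent.P313.NL
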