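import Vale.Agent.P313.NL.Good
import Vale.Agent.P313.NL.MTop

/-! The parameters as functions of the number of vertices. -/

namespace Vale.Agent.P313.NL

open Finset Vale.Agent.Lib.Space

/-- bits of the first names -/
def pn (N : ℕ) : ℕ := Nat.size N
/-- stages -/
def pK (N : ℕ) : ℕ := 16 * (pn N + 6)
/-- bits of the number of stages -/
def plk (N : ℕ) : ℕ := Nat.size (pK N)
/-- see `Par.OK` -/
def pr1 (N : ℕ) : ℕ := 64 * (6 * plk N + 140)
/-- see `Par.OK` -/
def pc (N : ℕ) : ℕ := 1024 * pr1 N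
/-- see `Par.OK` -/
def pW1 (N : ℕ) : ℕ := plk N + 30 + (4 * pr1 N + 2 * plk N + 12) + 2
/-- half of the length of the registers -/
def pmh (N : ℕ) : ℕ := pn N + 6 * pK N * (2 * pW1 N + pc N)
/-- bits of the length of the registers -/
def plm (N : ℕ) : ℕ := Nat.size (2 * pmh N)
/-- bits of the constant of the hash functions -/
def plc (N : ℕ) : ℕ := 52 * (plm N + 5) + 49
/-- the bound for all small sizes -/
def plg (N : ℕ) : ℕ := 3 * pc N + 5 * plm N + plc N + 100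
/-- the first budget -/
def pj (N : ℕ) : ℕ := 4 * pmh N + 6 * pK N * (62 * plg N) + 10 * plg N + 40
/-- bits of large numbers -/
def pPm (N : ℕ) : ℕ := 3 * pj N + 2 * Mix.t0 * (pj N + 2) + 6 * pmh N + 10 * plg N

/-- The parameters. -/
def par (N : ℕ) : Par where
  N := N
  n0 := pn N
  K := pK N
  mu := plk N + 30
  r1 := pr1 N
  c := pc N
  W1 := pW1 N
  mh := pmh N
  Kp := 2 ^ (2 * pc N + 5 * plm N + 2 + plc N)
  wb := 2 * pc N + 5 * plm N + 4 + plc N
  tw := 3 * pc N + 5 * plm N + 6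
  P := pj N
  j0 := pj N

theorem pd_size_le (x : ℕ) : 256 * Nat.size x ≤ x + 2048 := by
  have h : x / 256 < 2 ^ (x / 256) := Nat.lt_two_pow_self
  have h1 : Nat.size x ≤ x / 256 + 8 := Nat.size_le.2 (by rw [pow_add]; omega)
  omega

theorem pd_K_le (N : ℕ) : 6 * pK N ≤ pmh N :=
  (Nat.le_mul_of_pos_right _ (by unfold pW1; omega)).trans (Nat.le_add_left _ _)

theorem pd_Kc_le (N : ℕ) : 6 * pK N * pc N ≤ pmh N :=
  (Nat.mul_le_mul_left _ (Nat.le_add_left _ _)).trans (Nat.le_add_left _ _)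

theorem pd_c_le (N : ℕ) : 576 * pc N ≤ pmh N :=
  (Nat.mul_le_mul_right _ (by unfold pK; omega)).trans (pd_Kc_le N)

theorem pd_m_lt (N : ℕ) : 2 * pmh N < 2 ^ plm N := Nat.lt_size_self _

theorem pd_Pm_le (N : ℕ) : pPm N ≤ 2 ^ 20 * pj N := by
  have h1 := pd_c_le N
  unfold pPm Mix.t0 pj
  unfold pc pr1 at h1
  omega

theorem pPm_lt (N : ℕ) : pPm N < 2 ^ plg N := by
  have h1 := pd_m_lt N
  have h2 := pd_K_le N
  have h3 := pd_c_le N
  have h4 : plm N < 2 ^ plm N := Nat.lt_two_pow_self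
  have h5 : plg N ≤ 512 * 2 ^ plm N := by unfold plg plc; omega
  have h6 : pK N * plg N ≤ 2 ^ plm N * (512 * 2 ^ plm N) := Nat.mul_le_mul (by omega) h5
  have h7 : 2 ^ plm N ≤ 2 ^ plm N * 2 ^ plm N := Nat.le_mul_self _
  have h8 : pj N < 2 ^ 18 * (2 ^ plm N * 2 ^ plm N) := by
    unfold pj
    nlinarith
  calc pPm N ≤ 2 ^ 20 * pj N := pd_Pm_le N
    _ < 2 ^ 20 * (2 ^ 18 * (2 ^ plm N * 2 ^ plm N)) := Nat.mul_lt_mul_of_pos_left h8 (by norm_num)
    _ = 2 ^ (2 * plm N + 38) := by ring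
    _ ≤ 2 ^ plg N := Nat.pow_le_pow_right (by norm_num) (by unfold plg; omega)

theorem par_ok (N : ℕ) : (par N).OK (plk N) := ⟨rfl, Nat.lt_size_self _, rfl, rfl, rfl, rfl⟩

theorem par_small (N : ℕ) : (par N).Small (plg N) := by
  have h1 : 2 * pmh N < 2 ^ plg N :=
    (pd_m_lt N).trans_le (Nat.pow_le_pow_right (by norm_num) (by unfold plg; omega))
  have h2 := pd_K_le N
  have h3 : pj N < 2 ^ plg N := lt_of_le_of_lt (by unfold pPm; omega) (pPm_lt N)
  have h4 : plk N < 2 ^ plk N := Nat.lt_two_pow_self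
  refine ⟨Nat.pow_le_pow_right (by norm_num) (by unfold plg; omega),
    Nat.le_self_pow (by omega) 2, ?_, ?_, ?_, ?_, ?_, ?_, ?_, ?_, ?_, h1, ?_, h3, ?_, le_rfl⟩
  all_goals simp only [par, Par.W, Par.Om, Par.M, pow_add]
  · unfold plg pW1 pc pr1; omega
  · unfold pW1; omega
  · unfold plg; omega
  · unfold pc pr1; omega
  · unfold plg; omega
  · unfold plg; omega
  · omega
  · unfold plg pc pr1; omega
  · unfold pc pr1; omega
  · omega
  · unfold pj; omega

theorem par_long (N : ℕ) : (par N).Long (plg N) := by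
  refine ⟨?_, ?_, ?_⟩
  all_goals simp only [par, Par.W, Par.m]
  · have h : 6 * pK N * (2 * pW1 N) ≤ 6 * pK N * (2 * pW1 N + pc N) :=
      Nat.mul_le_mul_left _ (Nat.le_add_right _ _)
    unfold pmh
    omega
  · have h1 := pd_Kc_le N
    have h2 := pd_c_le N
    have h3 : 256 * plm N ≤ 2 * pmh N + 2048 := pd_size_le _
    have h4 : 1024 ≤ pc N := by unfold pc pr1; omega
    unfold plc
    linarith
  · unfold pj
    omega

theorem pd_kap2_le (N : ℕ) : kap2 (par N).m (par N).m (par N).ce ≤ 2 ^ plc N := by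
  have h1 := pd_m_lt N
  have h2 : (par N).ce + (par N).m + 2 * (par N).m + 7 ≤ 2 ^ (plm N + 5) := by
    simp only [par, Par.ce, Par.m, pow_add]
    omega
  calc _ ≤ 2 ^ 49 * (2 ^ (plm N + 5)) ^ 52 :=
        (kap2_le _ _ _).trans (Nat.mul_le_mul_left _ (Nat.pow_le_pow_left h2 52))
    _ = _ := by rw [plc, ← pow_mul, ← pow_add, add_comm, mul_comm]

theorem par_tab (N : ℕ) : (par N).Tab (plm N) := by
  refine ⟨pd_m_lt N, (pd_K_le N).trans (Nat.le_mul_of_pos_left _ two_pos),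
    (Nat.mul_le_mul_left _ (pd_kap2_le N)).trans (pow_add _ _ _).ge, le_rfl,
    (Nat.mul_le_mul_left _ ((kap_le_kap2 _ _ _).trans (pd_kap2_le N))).trans ?_⟩
  rw [← pow_add]
  exact Nat.pow_le_pow_right (by norm_num) (by simp only [par]; omega)

/-- The budget. -/
def bud (N : ℕ) : ℕ := 2 ^ ((pK N + 1) * plg N + pPm N + 3 * (par N).cl1)

theorem pd_exp_le (N : ℕ) :
    (pK N + 1) * plg N + pPm N + 3 * (par N).cl1 ≤ 2 ^ 75 * (pK N * plk N ^ 2) := by
  have k1 : 96 ≤ pK N := by unfold pK; omega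
  have k2 : 7 ≤ plk N := Nat.lt_size.2 (by omega)
  have k3 : pK N < 2 ^ plk N := Nat.lt_size_self _
  have k4 : plk N < 2 ^ plk N := Nat.lt_two_pow_self
  have k5 : pK N ≤ pK N * plk N := Nat.le_mul_of_pos_right _ (by omega)
  have k6 : plk N ≤ pK N * plk N := Nat.le_mul_of_pos_left _ (by omega)
  have k7 : pK N * plk N ≤ pK N * plk N ^ 2 := Nat.mul_le_mul_left _ (Nat.le_self_pow (by omega) _)
  have h1 : 2 * pW1 N + pc N ≤ 2 ^ 21 * plk N := by unfold pW1 pc pr1; omega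
  have h2 : pmh N ≤ 2 ^ 24 * (pK N * plk N) := by
    have h : pn N ≤ pK N := by unfold pK; omega
    have h' : 6 * pK N * (2 * pW1 N + pc N) ≤ 6 * 2 ^ 21 * (pK N * plk N) :=
      (Nat.mul_le_mul_left _ h1).trans_eq (by ring)
    unfold pmh
    omega
  have h3 : plm N ≤ 6 * plk N := by
    have h : pK N * plk N < 2 ^ plk N * 2 ^ plk N := Nat.mul_lt_mul'' k3 k4
    have h' : plm N ≤ plk N + plk N + 25 := Nat.size_le.2 (by rw [pow_add, pow_add]; omega)
    omega
  have h4 : plg N ≤ 2 ^ 23 * plk N := by unfold plg plc pc pr1; omega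
  have h5 : pK N * plg N ≤ 2 ^ 23 * (pK N * plk N) :=
    (Nat.mul_le_mul_left _ h4).trans_eq (by ring)
  have h6 : pj N ≤ 2 ^ 32 * (pK N * plk N) := by
    have h : 6 * pK N * (62 * plg N) = 372 * (pK N * plg N) := by ring
    unfold pj
    omega
  have h7 := pd_Pm_le N
  have h8 : (par N).cl1 ≤ 2 ^ 39 * (35 * 2 ^ 25 * (pK N * plk N)) * (6 * plk N) :=
    (clen_le _ _ _).trans (Nat.mul_le_mul (Nat.mul_le_mul_left _ (by
      simp only [par, Par.ce, Par.m]
      omega)) h3)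
  have h9 : 2 ^ 39 * (35 * 2 ^ 25 * (pK N * plk N)) * (6 * plk N) =
      210 * 2 ^ 64 * (pK N * plk N ^ 2) := by ring
  rw [add_mul, one_mul]
  omega

theorem pd_size_log {x : ℕ} (hx : 1 ≤ x) : (Nat.size x : ℝ) ≤ 2 * Real.log x + 1 := by
  have h1 : Nat.size x ≤ Nat.log 2 x + 1 := Nat.size_le.2 (Nat.lt_pow_succ_log_self one_lt_two x)
  have h2 : (2 : ℝ) ^ Nat.log 2 x ≤ x := by exact_mod_cast Nat.pow_log_le_self 2 (by omega)
  have h3 := Real.log_le_log (by positivity) h2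
  rw [Real.log_pow] at h3
  have h4 : (Nat.size x : ℝ) ≤ Nat.log 2 x + 1 := by exact_mod_cast h1
  nlinarith [Real.log_two_gt_d9, (Nat.cast_nonneg (Nat.log 2 x) : (0 : ℝ) ≤ _)]

theorem bud_bound (c : ℕ) : ∃ (C : ℝ) (n0 : ℕ), ∀ n N : ℕ, n0 ≤ n → N ≤ (n + 2) ^ c →
    ((Nat.log 2 (bud N + n + 2) : ℕ) : ℝ) ≤ C * (Real.log n * Real.log (Real.log n) ^ 2) := by
  set D : ℝ := 80 * (c + 7) with hD
  have hD1 : 1 ≤ D := by have : (0 : ℝ) ≤ c := Nat.cast_nonneg c; linarith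
  have hD2 := Real.log_nonneg hD1
  refine ⟨2 ^ 75 * (D * (2 * Real.log D + 3) ^ 2) + 5, ⌈Real.exp (Real.exp 1)⌉₊,
    fun n N hn hN => ?_⟩
  have e1 : (2 : ℝ) ≤ Real.exp 1 := by linarith [Real.add_one_le_exp 1]
  have h1 : Real.exp (Real.exp 1) ≤ n := Nat.ceil_le.1 hn
  have h2 : Real.exp 1 ≤ Real.log n := (Real.le_log_iff_exp_le ((Real.exp_pos _).trans_le h1)).2 h1
  have h3 : 1 ≤ Real.log (Real.log n) :=
    (Real.le_log_iff_exp_le ((Real.exp_pos _).trans_le h2)).2 h2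
  have h4 : (2 : ℝ) ≤ n := by linarith [Real.add_one_le_exp (Real.exp 1)]
  have h5 : (Nat.size (n + 2) : ℝ) ≤ 5 * Real.log n := by
    have a1 := pd_size_log (x := n + 2) (by omega)
    have a2 : Real.log ((n + 2 : ℕ) : ℝ) ≤ Real.log ((n : ℝ) ^ 2) :=
      Real.log_le_log (by positivity) (by push_cast; nlinarith)
    rw [Real.log_pow] at a2
    push_cast at a1 a2
    linarith
  have h6 : pK N ≤ 16 * (c + 7) * Nat.size (n + 2) := by
    have a1 : N ≤ 2 ^ (c * Nat.size (n + 2)) := hN.trans (by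
      rw [mul_comm, pow_mul]
      exact Nat.pow_le_pow_left (Nat.lt_size_self _).le c)
    have a2 : pn N ≤ c * Nat.size (n + 2) + 1 :=
      Nat.size_le.2 (a1.trans_lt (Nat.pow_lt_pow_right one_lt_two (Nat.lt_succ_self _)))
    have a3 : 0 < Nat.size (n + 2) := Nat.size_pos.2 (by omega)
    unfold pK
    nlinarith
  have h7 : (pK N : ℝ) ≤ D * Real.log n :=
    calc (pK N : ℝ) ≤ 16 * (c + 7) * Nat.size (n + 2) := by exact_mod_cast h6
      _ ≤ 16 * (c + 7) * (5 * Real.log n) := by gcongr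
      _ = _ := by rw [hD]; ring
  have h8 : (plk N : ℝ) ≤ (2 * Real.log D + 3) * Real.log (Real.log n) := by
    have a0 : 1 ≤ pK N := by unfold pK; omega
    have a1 : (plk N : ℝ) ≤ _ := pd_size_log a0
    have a2 := Real.log_le_log (by exact_mod_cast a0) h7
    rw [Real.log_mul (by linarith) (by linarith)] at a2
    nlinarith
  have h9 : Nat.log 2 (bud N + n + 2) ≤ 2 ^ 75 * (pK N * plk N ^ 2) + Nat.size (n + 2) := by
    refine le_trans (Nat.le_of_lt_succ (Nat.log_lt_of_lt_pow (by omega) ?_))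
      (Nat.add_le_add_right (pd_exp_le N) _)
    have a1 := Nat.lt_size_self (n + 2)
    have a2 : bud N ≤ bud N * 2 ^ Nat.size (n + 2) := Nat.le_mul_of_pos_right _ (by positivity)
    have a3 : 2 ^ Nat.size (n + 2) ≤ bud N * 2 ^ Nat.size (n + 2) :=
      Nat.le_mul_of_pos_left _ (Nat.two_pow_pos _)
    rw [pow_succ, pow_add, ← bud]
    omega
  have h10 : Real.log n ≤ Real.log n * Real.log (Real.log n) ^ 2 :=
    le_mul_of_one_le_right (by linarith) (one_le_pow₀ h3)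
  calc _ ≤ (2 : ℝ) ^ 75 * (pK N * (plk N : ℝ) ^ 2) + Nat.size (n + 2) := by exact_mod_cast h9
    _ ≤ 2 ^ 75 * (D * Real.log n * ((2 * Real.log D + 3) * Real.log (Real.log n)) ^ 2) +
        5 * (Real.log n * Real.log (Real.log n) ^ 2) := by
      refine add_le_add ?_ (by linarith)
      have : 0 ≤ D * Real.log n := by have : 0 ≤ Real.log n := by linarith
                                      positivity
      gcongr
    _ = _ := by ring

end Vale.Agent.P313.NL
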