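import Vale.Agent.Lib.MathlibUsed
import Mathlib.Data.Nat.Choose.Factorization
import Mathlib.Data.Nat.Choose.Central

/-! A small modulus which separates the elements of a small set of numbers. -/

namespace Vale.Agent.P313.NL

open Finset

theorem two_pow_le_centralBinom (n : ℕ) : 2 ^ n ≤ Nat.centralBinom n := by
  induction n with
  | zero => simp
  | succ n ih =>
    refine Nat.le_of_mul_le_mul_left ?_ (Nat.succ_pos n)
    rw [Nat.succ_mul_centralBinom_succ, pow_succ]
    nlinarith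

/-- A positive number below `2 ^ n` is not divisible by all of `1, …, 2 n`. -/
theorem exists_not_dvd {D n : ℕ} (h0 : 0 < D) (hD : D < 2 ^ n) :
    ∃ p, 0 < p ∧ p ≤ 2 * n ∧ ¬p ∣ D := by
  by_contra h
  push Not at h
  have hn : 0 < n := Nat.pos_of_ne_zero fun hn => by subst hn; omega
  have h1 : Nat.centralBinom n ∣ D := by
    refine (Nat.dvd_iff_prime_pow_dvd_dvd _ _).2 fun p k hp hk => h _ (pow_pos hp.pos k) ?_
    refine le_trans (Nat.pow_le_pow_right hp.pos ?_)
      (Nat.pow_factorization_choose_le (p := p) (k := n) (by omega : 0 < 2 * n))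
    exact (hp.pow_dvd_iff_le_factorization (Nat.centralBinom_ne_zero n)).1 hk
  exact absurd ((two_pow_le_centralBinom n).trans (Nat.le_of_dvd h0 h1)) (by omega)

/-- A family of at most `R` numbers below `2 ^ m` is separated by a modulus `≤ 2 (m R ^ 2 + 1)`. -/
theorem exists_sep {ι : Type} (I : Finset ι) (y : ι → ℕ) {m R : ℕ} (hR : #I ≤ R)
    (hy : ∀ i ∈ I, y i < 2 ^ m) :
    ∃ p, 0 < p ∧ p ≤ 2 * (m * R ^ 2 + 1) ∧
      ∀ i ∈ I, ∀ j ∈ I, y i % p = y j % p → y i = y j := by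
  classical
  let d : ι × ι → ℕ := fun q => if y q.1 < y q.2 then y q.2 - y q.1 else 1
  have h0 : 0 < ∏ q ∈ I ×ˢ I, d q := prod_pos fun q _ => by
    simp only [d]
    split_ifs <;> omega
  have h1 : ∏ q ∈ I ×ˢ I, d q ≤ (2 ^ m) ^ #(I ×ˢ I) := prod_le_pow_card _ _ _ fun q hq => by
    have := hy _ (mem_product.1 hq).2
    simp only [d]
    split_ifs <;> omega
  have h2 : (2 ^ m) ^ #(I ×ˢ I) < 2 ^ (m * R ^ 2 + 1) := by
    rw [← pow_mul, card_product, sq]
    exact Nat.pow_lt_pow_right (by norm_num)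
      (Nat.lt_succ_of_le (Nat.mul_le_mul_left m (Nat.mul_le_mul hR hR)))
  obtain ⟨p, hp0, hp1, hp2⟩ := exists_not_dvd h0 (h1.trans_lt h2)
  have key : ∀ i ∈ I, ∀ j ∈ I, y i % p = y j % p → ¬y i < y j := fun i hi j hj h hlt =>
    hp2 (((Nat.modEq_iff_dvd' hlt.le).1 h).trans ((show y j - y i = d (i, j) from
      (if_pos hlt).symm) ▸ dvd_prod_of_mem d (mem_product.2 ⟨hi, hj⟩)))
  exact ⟨p, hp0, hp1, fun i hi j hj h =>
    le_antisymm (not_lt.1 (key j hj i hi h.symm)) (not_lt.1 (key i hi j hj h))⟩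

end Vale.Agent.P313.NL
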